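import Vale.Agent.P232.ScalarDisc

/-!
P232, module D: shared definitions for the scalar (one dimensional) certificates.
`discP a = 2 √(π a)` and `scalar_disc` are in `ScalarDisc.lean`.
-/

open MeasureTheory Real Set

namespace Vale.P232

noncomputable section

/-- Height of the phase region in the thick arm case. -/
def h0 : ℝ := 1 / 20

/-- `T₀` of the thin arm case: the area of the disc of perimeter `11/5`. -/
def T0Y : ℝ := 121 / (100 * π)

/-- `∫₀^{1/2} √(1-x²/R²)`. -/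
def CR (R : ℝ) : ℝ := ∫ x in (0 : ℝ)..1 / 2, √(1 - (x / R) ^ 2)

/-- Bound for a single wrap section of area `a` with edge thickness `b`, parameter `R`. -/
def FR (R a b : ℝ) : ℝ := 4 * CR R + (a - 2 * b) / R

/-- Slice bound, thin arms. -/
def LY (a : ℝ) : ℝ := min (discP a) (11 / 5)

/-- Slice bound near the centre, cyclic thin arms. -/
def LCyc (a : ℝ) : ℝ := min (LY a) (max (discP (1 - a)) (9 / 5))

/-- Bound for a cross section of area `a` whose arm has thickness at least `b`. For `b = 1/2`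
there is no cross section with `a < 1`. -/
def LCross (a b : ℝ) : ℝ :=
  if π * (1 / 2 - b) ^ 2 < 1 - a then
    if 0 < 1 / 2 - b then π * (1 / 2 - b) + (1 - a) / (1 / 2 - b) else 99 / 10
  else discP (1 - a)

/-- Single wrap bound used in the thick arm case. -/
def FZ (a b : ℝ) : ℝ :=
  max 2 (max (FR (1 / 2) a b) (max (FR (2 / 3) a b) (max (FR (17 / 20) a b)
    (max (FR (6 / 5) a b) (FR 2 a b)))))

/-- Slice bound, thick arms. -/
def LZ (a b : ℝ) : ℝ := min (discP a) (min (FZ a b) (LCross a b))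

/-- Vertical density belonging to the horizontal density `c`. -/
def cS (c : ℝ → ℝ) (a : ℝ) : ℝ := √(1 - c a ^ 2)

/-- A one phase certificate for slices of area in `[E,T]` with slice bound `L`. -/
def Cert (L : ℝ → ℝ) (v E T : ℝ) : Prop :=
  ∃ lam mu : ℝ, ∃ c : ℝ → ℝ, Measurable c ∧ (∀ a, 0 ≤ c a ∧ c a ≤ 1) ∧
    (∀ a ∈ Icc E T, lam * a + mu ≤ c a * L a) ∧
    candJ v ≤ lam * v + mu + 2 * ∫ a in E..T, cS c a

/-- A two phase certificate: on the slices with `|z| < h0`, whose areas lie in `[al,T]`, the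
bound `Lc` pays `m` more. -/
def Cert2 (L Lc : ℝ → ℝ) (v E al T : ℝ) : Prop :=
  ∃ lam mu m : ℝ, ∃ c : ℝ → ℝ, Measurable c ∧ (∀ a, 0 ≤ c a ∧ c a ≤ 1) ∧
    (∀ a ∈ Icc E T, lam * a + mu ≤ c a * L a) ∧
    (∀ a ∈ Icc al T, lam * a + mu + m ≤ c a * Lc a) ∧
    candJ v ≤ lam * v + mu + 2 * h0 * m + 2 * ∫ a in E..T, cS c a

/-- As `Cert2`, with an arbitrary lower bound `B` in place of `candJ v`. -/
def Cert2G (B : ℝ) (L Lc : ℝ → ℝ) (v E al T : ℝ) : Prop :=
  ∃ lam mu m : ℝ, ∃ c : ℝ → ℝ, Measurable c ∧ (∀ a, 0 ≤ c a ∧ c a ≤ 1) ∧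
    (∀ a ∈ Icc E T, lam * a + mu ≤ c a * L a) ∧
    (∀ a ∈ Icc al T, lam * a + mu + m ≤ c a * Lc a) ∧
    B ≤ lam * v + mu + 2 * h0 * m + 2 * ∫ a in E..T, cS c a

lemma Cert2G.cert2 {B : ℝ} {L Lc : ℝ → ℝ} {v E al T : ℝ} (h : Cert2G B L Lc v E al T)
    (hB : candJ v ≤ B) : Cert2 L Lc v E al T := by
  obtain ⟨lam, mu, m, c, h1, h2, h3, h4, h5⟩ := h
  exact ⟨lam, mu, m, c, h1, h2, h3, h4, hB.trans h5⟩

/-- Least area of the slices with `|z| < h0`. -/
def alo (v E T : ℝ) : ℝ := max E ((v - 2 * h0 * T) / (1 - 2 * h0))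

/-- D1 in certificate form. -/
theorem cert_disc {E T v : ℝ} (hE : 0 ≤ E) (hEv : E ≤ v) (hvT : v ≤ T) :
    Cert discP v E T := by
  obtain ⟨lam, mu, hfe, hJ⟩ := scalar_disc hE hEv hvT
  refine ⟨lam, mu, fun a => max 0 (min 1 (max (lam * a + mu) 0 / discP a)), ?_, ?_, ?_, ?_⟩
  · unfold discP; fun_prop
  · exact fun a => ⟨le_max_left _ _, max_le zero_le_one (min_le_left _ _)⟩
  · intro a ha
    obtain ⟨h1, h2⟩ := hfe a ha
    simp only
    rw [max_eq_left h1]
    rcases eq_or_lt_of_le (h1.trans h2) with h | h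
    · rw [← h, mul_zero]; linarith
    rw [min_eq_right (div_le_one h |>.2 h2), max_eq_right (div_nonneg h1 h.le),
      div_mul_cancel₀ _ h.ne']
  · refine (min_le_left _ _).trans (hJ.trans (le_of_eq ?_))
    congr 2
    refine intervalIntegral.integral_congr fun a ha => ?_
    rw [uIcc_of_le (hEv.trans hvT)] at ha
    obtain ⟨h1, h2⟩ := hfe a ha
    have hd : 0 ≤ discP a := h1.trans h2
    have hq : max (lam * a + mu) 0 / discP a ≤ 1 := by
      rw [max_eq_left h1]; exact div_le_one_of_le₀ h2 hd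
    simp only [gS, cS]
    rw [min_eq_right hq, max_eq_right (div_nonneg (le_max_right _ _) hd)]

end

end Vale.P232
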