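import Vale.Agent.P232.Defs
import Vale.Agent.P232.ScalarDefs

/-!
P232: the planar perimeter bounds used by the three cases, and the shape of their certificates.
-/

open MeasureTheory Real Set

namespace Vale.P232

noncomputable section

/-- Cap for slices with thin arms. -/
def kap : ℝ := 11 / 5

/-- The area at which a disc reaches the cap. -/
abbrev T0 : ℝ := T0Y

/-- `∫_0^{1/2} √(1-(x/R)²)`. -/
abbrev arcC (R : ℝ) : ℝ := CR R

/-- Lower bound for a wrapping slice of area `a` whose arm has thickness at most `b`. -/
def arcF (R a b : ℝ) : ℝ := max 2 (4 * arcC R + (a - 2 * b) / R)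

/-- Lower bound for a cross slice of area `a` with arm thickness at least `b`.  (For `b = 1/2`
only the full slice `a = 1` occurs.) -/
abbrev crossL (a b : ℝ) : ℝ := LCross a b

/-- Bound for thin-arm slices. -/
abbrev capL (a : ℝ) : ℝ := LY a

/-- Bound for the middle slices in the cyclic case. -/
abbrev cycL (a : ℝ) : ℝ := LCyc a

/-- Bound for the outer slices in the thick case. -/
abbrev thickL (a b : ℝ) : ℝ := LZ a b

/-- Certificate for volume `v`, slice range `[E,T]`, outer bound `L`, inner (`|z| < h0`) bound
`Lin` valid for slice areas at least `al`. -/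
def HasCert (L Lin : ℝ → ℝ) (v E T al : ℝ) : Prop := Cert2 L Lin v E (max E al) T

/-- Least area of an inner slice in the thick case. -/
def alZ (v T : ℝ) : ℝ := (v - 2 * h0 * T) / (1 - 2 * h0)

end

end Vale.P232
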