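import Vale.Agent.P232.Graph

/-!
P232: permuting the coordinates.
-/

open MeasureTheory Set Filter

namespace Vale.P232

noncomputable section

/-- Permutation of the coordinates as a continuous linear equivalence. -/
def permL (σ : Equiv.Perm (Fin 3)) : V3 ≃L[ℝ] V3 :=
  ContinuousLinearEquiv.piCongrLeft ℝ (fun _ : Fin 3 => ℝ) σ

lemma permL_apply (σ : Equiv.Perm (Fin 3)) (x : V3) (j : Fin 3) : permL σ x j = x (σ.symm j) := by
  have h := Equiv.piCongrLeft_apply_apply (fun _ : Fin 3 => ℝ) σ x (σ.symm j)
  rw [Equiv.apply_symm_apply] at h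
  exact h

lemma permL_e (σ : Equiv.Perm (Fin 3)) (i : Fin 3) : permL σ (e i) = e (σ i) := by
  funext j
  simp only [permL_apply, e, Pi.single_apply, Equiv.symm_apply_eq]

/-- `f` in permuted coordinates. -/
def permFun (σ : Equiv.Perm (Fin 3)) (f : V3 → ℝ) : V3 → ℝ := fun x => f (permL σ x)

lemma measurePreserving_permL (σ : Equiv.Perm (Fin 3)) :
    MeasurePreserving (permL σ) volume volume := by
  have h := volume_measurePreserving_piCongrLeft (fun _ : Fin 3 => ℝ) σ
  have he : (⇑(permL σ) : V3 → V3) = ⇑(MeasurableEquiv.piCongrLeft (fun _ : Fin 3 => ℝ) σ) := by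
    funext x j
    rw [permL_apply, MeasurableEquiv.coe_piCongrLeft]
    have h' := Equiv.piCongrLeft_apply_apply (fun _ : Fin 3 => ℝ) σ x (σ.symm j)
    rw [Equiv.apply_symm_apply] at h'
    exact h'.symm
  rw [he]
  exact h

lemma fderiv_permFun {f : V3 → ℝ} (σ : Equiv.Perm (Fin 3)) (x : V3) (i : Fin 3) :
    fderiv ℝ (permFun σ f) x (e i) = fderiv ℝ f (permL σ x) (e (σ i)) := by
  have h := (permL σ).comp_right_fderiv (f := f) (x := x)
  rw [show permFun σ f = f ∘ ⇑(permL σ) from rfl, h]
  simp [permL_e]

lemma gradLen_permFun {f : V3 → ℝ} (σ : Equiv.Perm (Fin 3)) (x : V3) :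
    gradLen (permFun σ f) x = gradLen f (permL σ x) := by
  unfold gradLen
  simp only [fderiv_permFun]
  rw [Equiv.sum_comp σ (fun i => fderiv ℝ f (permL σ x) (e i) ^ 2)]

lemma permL_update (σ : Equiv.Perm (Fin 3)) (x : V3) (i : Fin 3) (s : ℝ) :
    permL σ (Function.update x i s) = Function.update (permL σ x) (σ i) s := by
  funext j
  rcases eq_or_ne j (σ i) with rfl | hj
  · simp [permL_apply]
  · have : σ.symm j ≠ i := fun h => hj (by rw [← h, Equiv.apply_symm_apply])
    simp [permL_apply, hj, this]

theorem CoreFun.perm {f : V3 → ℝ} (hf : CoreFun f) (σ : Equiv.Perm (Fin 3)) :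
    CoreFun (permFun σ f) where
  smooth := hf.smooth.comp (permL σ).contDiff
  periodic := fun x k => by
    show f (permL σ (x + fun i => (k i : ℝ))) = f (permL σ x)
    have h : permL σ (x + fun i => (k i : ℝ)) = permL σ x + fun j => (k (σ.symm j) : ℝ) := by
      funext j
      simp [permL_apply]
    rw [h]
    exact hf.periodic _ fun j => k (σ.symm j)
  nonneg := fun x => hf.nonneg _
  le_one := fun x => hf.le_one _
  even := fun i x => by
    show f (permL σ _) = f _
    have hx : x i = permL σ x (σ i) := by simp [permL_apply]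
    rw [permL_update, hx]
    exact hf.even _ _
  deriv_neg := fun i x h1 h2 => by
    rw [fderiv_permFun]
    have hx : permL σ x (σ i) = x i := by simp [permL_apply]
    exact hf.deriv_neg _ _ (by rwa [hx]) (by rwa [hx])

lemma permL_preimage_cube (σ : Equiv.Perm (Fin 3)) : permL σ ⁻¹' cube = cube := by
  ext x
  simp only [cube, mem_preimage, mem_univ_pi, permL_apply]
  exact σ.symm.forall_congr (fun _ => Iff.rfl)

/-- Level areas do not depend on the axis, for almost every level. -/
theorem Qz_perm_ae {f : V3 → ℝ} (hf : CoreFun f) (σ : Equiv.Perm (Fin 3)) :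
    Qz (permFun σ f) =ᵐ[volume] Qz f := by
  refine ae_eq_of_forall_setLIntegral_eq_of_sigmaFinite (hf.perm σ).measurable_Qz hf.measurable_Qz
    fun T hT _ => ?_
  rw [← (hf.perm σ).coarea hT, ← hf.coarea hT]
  simp only [gradLen_permFun]
  have hm : MeasurableEmbedding (permL σ) := (permL σ).toHomeomorph.measurableEmbedding
  have h := (measurePreserving_permL σ).setLIntegral_comp_preimage_emb hm
    (fun p => T.indicator (fun _ => ENNReal.ofReal (gradLen f p)) (f p)) cube
  rw [permL_preimage_cube] at h
  exact h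

end

end Vale.P232
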