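import Vale.Agent.P232.Cert
import Vale.Agent.P232.Perm
import Vale.Agent.P232.CaseDefs

/-!
P232: the case split for one level set.
-/

open MeasureTheory Set Filter Topology Real
open scoped ENNReal

namespace Vale.P232

noncomputable section

/-- Extent in direction `d` of a level set over the end of axis `e`. -/
def arm (f : V3 → ℝ) (t : ℝ) (e d : Fin 3) : ℝ :=
  root (fun s => f (Function.update (Function.update 0 e (1/2)) d s)) t

lemma arm_nonneg (f : V3 → ℝ) (t : ℝ) (e d : Fin 3) : 0 ≤ arm f t e d := root_nonneg _ _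

lemma arm_perm (f : V3 → ℝ) (σ : Equiv.Perm (Fin 3)) (t : ℝ) (e d : Fin 3) :
    arm (permFun σ f) t e d = arm f t (σ e) (σ d) := by
  have h0 : permL σ (0 : V3) = 0 := map_zero _
  unfold arm permFun
  simp only [permL_update, h0]

lemma tvol_level_perm {f : V3 → ℝ} (hf : CoreFun f) (σ : Equiv.Perm (Fin 3)) (t : ℝ) :
    tvol {p | t < permFun σ f p} = tvol {p | t < f p} := by
  unfold tvol
  congr 1
  have hm : MeasurableSet ({p : V3 | t < f p} ∩ cube) :=
    (measurableSet_lt measurable_const hf.continuous.measurable).inter measurableSet_cube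
  rw [← (measurePreserving_permL σ).measure_preimage hm.nullMeasurableSet, preimage_inter,
    permL_preimage_cube]
  rfl

lemma stadium_ge_disc {r x : ℝ} (hr : 0 < r) (hx : 0 ≤ x) : discP x ≤ π * r + x / r := by
  unfold discP
  rw [Real.sqrt_mul pi_pos.le]
  rw [show π * r + x / r = (π * r ^ 2 + x) / r by field_simp, le_div_iff₀ hr]
  nlinarith [sq_nonneg (√π * r - √x), Real.sq_sqrt pi_pos.le, Real.sq_sqrt hx]

lemma discP_one_sub_le_crossL {a b : ℝ} (ha0 : 0 ≤ a) (ha : a ≤ 1) :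
    discP (1 - a) ≤ crossL a b := by
  unfold crossL LCross
  split_ifs with h hb
  · exact stadium_ge_disc hb (by linarith)
  · unfold discP
    have : √(π * (1 - a)) ≤ 2 := by
      rw [Real.sqrt_le_left (by norm_num)]
      nlinarith [Real.pi_lt_d4, Real.pi_pos]
    linarith
  · exact le_refl _

lemma discP_mono {a b : ℝ} (h : a ≤ b) : discP a ≤ discP b := by
  unfold discP
  exact mul_le_mul_of_nonneg_left (Real.sqrt_le_sqrt (mul_le_mul_of_nonneg_left h pi_pos.le))
    (by norm_num)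

lemma discP_inv_pi : discP (1 / π) = 2 := by
  unfold discP
  rw [mul_one_div, div_self pi_pos.ne', Real.sqrt_one, mul_one]

lemma discP_T0 : discP T0 = kap := by
  unfold discP T0 T0Y kap
  rw [show π * (121 / (100 * π)) = (11/10 : ℝ) ^ 2 by field_simp; norm_num,
    Real.sqrt_sq (by norm_num)]
  norm_num

lemma T0_lt : T0 < 1 / 2 := by
  unfold T0 T0Y
  rw [div_lt_div_iff₀ (by positivity) (by norm_num)]
  linarith [Real.pi_gt_three]

lemma inv_pi_le_half : 1 / π ≤ 1 / 2 := one_div_le_one_div_of_le (by norm_num) (by linarith [Real.pi_gt_three])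

lemma half_mul_arcC_lower : (22/10 : ℝ) ≤ 4 * arcC (4/5) + (T0 - 2 * h0) / (4/5) := by
  have hC : (4650 : ℝ) / 10000 ≤ arcC (4/5) := by
    unfold arcC CR
    have hpoly : ∀ x ∈ Icc (0:ℝ) (1/2),
        1 - (25/32) * x ^ 2 - (625/2048) * x ^ 4 - (15625/65536) * x ^ 6 - (4/10) * x ^ 8
          ≤ √(1 - (x / (4/5)) ^ 2) := by
      intro x hx
      refine Real.le_sqrt_of_sq_le ?_
      set u := x ^ 2 with hu
      have hu0 : 0 ≤ u := sq_nonneg x
      have hu1 : u ≤ 1/4 := by rw [hu]; nlinarith [hx.1, hx.2]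
      have e4 : x ^ 4 = u ^ 2 := by rw [hu]; ring
      have e6 : x ^ 6 = u ^ 3 := by rw [hu]; ring
      have e8 : x ^ 8 = u ^ 4 := by rw [hu]; ring
      rw [e4, e6, e8, show (x / (4/5)) ^ 2 = 25/16 * u by rw [hu]; ring]
      have k5 : u ^ 5 ≤ u ^ 4 / 4 := by nlinarith [mul_le_mul_of_nonneg_left hu1 (pow_nonneg hu0 4)]
      have k6 : u ^ 6 ≤ u ^ 4 / 16 := by nlinarith [mul_le_mul_of_nonneg_left hu1 (pow_nonneg hu0 5)]
      have k7 : u ^ 7 ≤ u ^ 4 / 64 := by nlinarith [mul_le_mul_of_nonneg_left hu1 (pow_nonneg hu0 6)]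
      have k8 : u ^ 8 ≤ u ^ 4 / 256 := by nlinarith [mul_le_mul_of_nonneg_left hu1 (pow_nonneg hu0 7)]
      nlinarith [pow_nonneg hu0 4]
    have hd : ∀ x : ℝ, HasDerivAt (fun x : ℝ => x - 25/96 * x ^ 3 - 625/10240 * x ^ 5
          - 15625/458752 * x ^ 7 - 4/90 * x ^ 9)
        (1 - (25/32) * x ^ 2 - (625/2048) * x ^ 4 - (15625/65536) * x ^ 6 - (4/10) * x ^ 8) x := by
      intro x
      refine HasDerivAt.congr_deriv (((((hasDerivAt_id x).sub ((hasDerivAt_pow 3 x).const_mul (25/96))).sub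
        ((hasDerivAt_pow 5 x).const_mul (625/10240))).sub
        ((hasDerivAt_pow 7 x).const_mul (15625/458752))).sub
        ((hasDerivAt_pow 9 x).const_mul (4/90))) ?_
      norm_num
      ring
    have h := intervalIntegral.integral_mono_on (a := (0:ℝ)) (b := 1/2) (μ := volume) (by norm_num)
      (Continuous.intervalIntegrable (by fun_prop) _ _)
      (Continuous.intervalIntegrable (by fun_prop) _ _) hpoly
    refine le_trans ?_ h
    rw [intervalIntegral.integral_eq_sub_of_hasDerivAt (fun x _ => hd x)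
      (Continuous.intervalIntegrable (by fun_prop) _ _)]
    norm_num
  have hpi := Real.pi_lt_d4
  have hT : (3851 : ℝ) / 10000 ≤ T0 := by
    unfold T0 T0Y
    rw [div_le_div_iff₀ (by norm_num) (by positivity)]
    linarith
  unfold h0
  linarith

/-- A thin wrapping slice is at least as long as the cap or the disc. -/
lemma capL_le_arcF {a b : ℝ} (ha : 0 ≤ a) (hb : b ≤ h0) : capL a ≤ arcF (4/5) a b := by
  refine le_trans ?_ (le_max_right _ _)
  have hk := half_mul_arcC_lower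
  rcases le_or_gt T0 a with h | h
  · refine (min_le_right _ _).trans ?_
    have : (T0 - 2 * h0) / (4/5) ≤ (a - 2 * b) / (4/5) :=
      div_le_div_of_nonneg_right (by linarith) (by norm_num)
    linarith
  · refine (min_le_left _ _).trans ?_
    have hT := discP_T0
    unfold discP at hT ⊢
    rw [Real.sqrt_mul pi_pos.le] at hT ⊢
    have hsp : 0 < √π := Real.sqrt_pos.2 pi_pos
    have hsT : √π * √T0 = 11/10 := by unfold kap at hT; linarith
    have h1 : √a ≤ √T0 := Real.sqrt_le_sqrt h.le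
    have hT0 : 0 ≤ T0 := ha.trans h.le
    have key : (T0 - a) / (4/5) ≤ 2 * (√π * √T0) - 2 * (√π * √a) := by
      rw [div_le_iff₀ (by norm_num : (0:ℝ) < 4/5)]
      have hpi := Real.pi_gt_three
      have e : T0 - a = (√T0 - √a) * (√T0 + √a) := by
        ring_nf
        rw [Real.sq_sqrt hT0, Real.sq_sqrt ha]
      have h2 : √T0 + √a ≤ 8/5 * √π := by
        have : √T0 ≤ 8/10 * √π := by
          refine le_of_mul_le_mul_left ?_ hsp
          rw [hsT, ← mul_assoc, mul_comm (√π) (8/10), mul_assoc, Real.mul_self_sqrt pi_pos.le]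
          linarith
        linarith
      rw [e]
      have := mul_le_mul_of_nonneg_left h2 (sub_nonneg.2 h1)
      nlinarith
    have h2 : (a - 2 * b) / (4/5) ≥ (T0 - 2 * h0) / (4/5) - (T0 - a) / (4/5) := by
      rw [ge_iff_le, ← sub_div]
      exact div_le_div_of_nonneg_right (by linarith) (by norm_num)
    linarith

lemma capL_le_diag {a bX bY : ℝ} (hX : bX ≤ h0) (hY : bY ≤ h0) :
    capL a ≤ 2 * √2 * ((1/2 - bY) + (1/2 - bX)) := by
  refine (min_le_right _ _).trans ?_
  unfold h0 at *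
  have h2 : (14/10 : ℝ) ≤ √2 := Real.le_sqrt_of_sq_le (by norm_num)
  nlinarith

lemma arcF_anti {R a b b' : ℝ} (hR : 0 < R) (h : b ≤ b') : arcF R a b' ≤ arcF R a b := by
  refine max_le_max le_rfl (add_le_add le_rfl ?_)
  exact div_le_div_of_nonneg_right (by linarith) hR.le

/-- Planar bounds at all heights. -/
structure PlanarBounds : Prop where
  none : ∀ {f : V3 → ℝ} (hf : CoreFun f) (t : ℝ),
    Flux hf t {z | yr f t (1/2) z = 0 ∧ xr f t (1/2) z = 0} (fun z => discP (sliceA f t z))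
  singleX : ∀ {f : V3 → ℝ} (hf : CoreFun f) (t R : ℝ), 1/2 ≤ R →
    Flux hf t {z | 0 < yr f t (1/2) z ∧ xr f t (1/2) z = 0}
      (fun z => arcF R (sliceA f t z) (yr f t (1/2) z))
  singleY : ∀ {f : V3 → ℝ} (hf : CoreFun f) (t R : ℝ), 1/2 ≤ R →
    Flux hf t {z | yr f t (1/2) z = 0 ∧ 0 < xr f t (1/2) z}
      (fun z => arcF R (sliceA f t z) (xr f t (1/2) z))
  cross : ∀ {f : V3 → ℝ} (hf : CoreFun f) (t b : ℝ),
    Flux hf t {z | 0 < yr f t (1/2) z ∧ 0 < xr f t (1/2) z ∧ b ≤ xr f t (1/2) z}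
      (fun z => crossL (sliceA f t z) b)
  diag : ∀ {f : V3 → ℝ} (hf : CoreFun f) (t : ℝ),
    Flux hf t {z | 0 < yr f t (1/2) z ∧ 0 < xr f t (1/2) z}
      (fun z => 2 * √2 * ((1/2 - xr f t (1/2) z) + (1/2 - yr f t (1/2) z)))
  drop : ∀ {f : V3 → ℝ} (hf : CoreFun f) (t : ℝ),
    Flux hf t {z | 0 < yr f t (1/2) z ∧ 0 < xr f t (1/2) z}
      (fun z => 4 * (1/2 - yr f t (1/2) z))

lemma FZ_anti {a b b' : ℝ} (h : b ≤ b') : FZ a b' ≤ FZ a b := by
  have key : ∀ R : ℝ, 0 < R → FR R a b' ≤ FR R a b := fun R hR => by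
    unfold FR
    exact add_le_add le_rfl (div_le_div_of_nonneg_right (by linarith) hR.le)
  unfold FZ
  exact max_le_max le_rfl (max_le_max (key _ (by norm_num)) (max_le_max (key _ (by norm_num))
    (max_le_max (key _ (by norm_num)) (max_le_max (key _ (by norm_num)) (key _ (by norm_num))))))

/-- The best of the five arcs. -/
lemma flux_FZ (hp : PlanarBounds) {f : V3 → ℝ} (hf : CoreFun f) (t : ℝ) :
    Flux hf t {z | yr f t (1/2) z = 0 ∧ 0 < xr f t (1/2) z}
      (fun z => FZ (sliceA f t z) (xr f t (1/2) z)) := by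
  have hb : Measurable (fun z => xr f t (1/2) z) :=
    (hf.continuous_xr.comp (f := fun z : ℝ => (t, (1/2:ℝ), z)) (by fun_prop)).measurable
  have hA : Measurable (sliceA f t) := (hf.continuous_sliceA t).measurable
  have hm : ∀ R, Measurable (fun z => arcF R (sliceA f t z) (xr f t (1/2) z)) := fun R =>
    measurable_const.max (measurable_const.add ((hA.sub (measurable_const.mul hb)).div_const R))
  have h4 := (hp.singleY hf t (6/5) (by norm_num)).sup (hm _) (hm _)
    (hp.singleY hf t 2 (by norm_num))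
  have h3 := (hp.singleY hf t (17/20) (by norm_num)).sup (hm _) ((hm _).max (hm _)) h4
  have h2 := (hp.singleY hf t (2/3) (by norm_num)).sup (hm _) ((hm _).max ((hm _).max (hm _))) h3
  have h1 := (hp.singleY hf t (1/2) le_rfl).sup (hm _)
    ((hm _).max ((hm _).max ((hm _).max (hm _)))) h2
  refine h1.mono Subset.rfl fun z _ => ?_
  show FZ (sliceA f t z) (xr f t (1/2) z) ≤ _
  unfold FZ
  refine max_le ((le_max_left _ _).trans (le_max_left _ _)) ?_
  exact max_le_max (le_max_right _ _) (max_le_max (le_max_right _ _) (max_le_max (le_max_right _ _)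
    (max_le_max (le_max_right _ _) (le_max_right _ _))))

/-- The scalar inequalities. -/
structure ScalarBounds : Prop where
  disc : ∀ {E T v : ℝ}, 0 ≤ E → E ≤ v → v ≤ T →
    ∃ (lam mu : ℝ) (c : ℝ → ℝ), Measurable c ∧ (∀ a, c a ∈ Icc (0:ℝ) 1) ∧
      (∀ a ∈ Icc E T, lam * a + mu ≤ c a * discP a) ∧
      candJ v ≤ lam * v + mu + 2 * ∫ a in E..T, √(1 - c a ^ 2)
  thin : ∀ {E T v : ℝ}, 0 < v → v < 1 / π → 0 ≤ E → E ≤ v → v ≤ T → T ≤ 1 → T0 ≤ T →
    HasCert capL capL v E T E
  cyc : ∀ {E T v : ℝ}, 0 < v → v < 1 / π → 0 ≤ E → E ≤ v → v ≤ T → T ≤ 1 → T0 ≤ T →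
    HasCert capL cycL v E T E
  thick : ∀ {E T v b : ℝ}, 0 < v → v < 1 / π → 0 ≤ E → E ≤ v → v ≤ T → T ≤ 1 → 1 / π ≤ T →
    0 ≤ b → b ≤ 1 / 2 →
      HasCert (fun a => thickL a b) (fun a => crossL a b) v E T (alZ v T)

section level

variable {f : V3 → ℝ}

namespace CoreFun

lemma pt_end_x (s : ℝ) : Function.update (Function.update (0:V3) 0 (1/2)) 2 s = pt (1/2) 0 s := by
  funext i; fin_cases i <;> simp [pt, Function.update]

lemma pt_end_y (s : ℝ) : Function.update (Function.update (0:V3) 1 (1/2)) 2 s = pt 0 (1/2) s := by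
  funext i; fin_cases i <;> simp [pt, Function.update]

lemma pt_end_xy (s : ℝ) : Function.update (Function.update (0:V3) 0 (1/2)) 1 s = pt (1/2) s 0 := by
  funext i; fin_cases i <;> simp [pt, Function.update]

lemma pt_end_yx (s : ℝ) : Function.update (Function.update (0:V3) 1 (1/2)) 0 s = pt s (1/2) 0 := by
  funext i; fin_cases i <;> simp [pt, Function.update]

lemma arm02 (t : ℝ) : arm f t 0 2 = zr f t (1/2) 0 := by simp only [arm, zr, pt_end_x]
lemma arm12 (t : ℝ) : arm f t 1 2 = zr f t 0 (1/2) := by simp only [arm, zr, pt_end_y]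
lemma arm01 (t : ℝ) : arm f t 0 1 = yr f t (1/2) 0 := by simp only [arm, yr, pt_end_xy]
lemma arm10 (t : ℝ) : arm f t 1 0 = xr f t (1/2) 0 := by simp only [arm, xr, pt_end_yx]

lemma wrapX_iff (hf : CoreFun f) (t : ℝ) {z : ℝ} (hz : z ∈ Ico (0:ℝ) (1/2)) :
    0 < yr f t (1/2) z ↔ z < arm f t 0 2 := by
  rw [arm02, hf.lt_yr_iff ⟨le_refl _, by norm_num⟩, hf.lt_zr_iff hz]

lemma wrapY_iff (hf : CoreFun f) (t : ℝ) {z : ℝ} (hz : z ∈ Ico (0:ℝ) (1/2)) :
    0 < xr f t (1/2) z ↔ z < arm f t 1 2 := by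
  rw [arm12, hf.lt_xr_iff ⟨le_refl _, by norm_num⟩, hf.lt_zr_iff hz]

lemma bX_le (hf : CoreFun f) (t : ℝ) {z : ℝ} (hz : z ∈ Icc (0:ℝ) (1/2)) :
    yr f t (1/2) z ≤ arm f t 0 1 := by
  rw [arm01]; exact hf.yr_antitone_z t (1/2) ⟨le_refl _, by norm_num⟩ hz hz.1

lemma bY_le (hf : CoreFun f) (t : ℝ) {z : ℝ} (hz : z ∈ Icc (0:ℝ) (1/2)) :
    xr f t (1/2) z ≤ arm f t 1 0 := by
  rw [arm10]; exact hf.xr_antitone_z t (1/2) ⟨le_refl _, by norm_num⟩ hz hz.1

lemma sliceA_half_le (hf : CoreFun f) (t : ℝ) : sliceA f t (1/2) ≤ tvol {p | t < f p} := by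
  rw [hf.tvol_level t]
  have h := intervalIntegral.integral_mono_on (a := (0:ℝ)) (b := 1/2) (μ := volume) (by norm_num)
    (intervalIntegrable_const (c := sliceA f t (1/2)))
    ((hf.continuous_sliceA t).intervalIntegrable _ _)
    fun z hz => hf.antitone_sliceA t hz ⟨by norm_num, le_refl _⟩ hz.2
  rw [intervalIntegral.integral_const, smul_eq_mul] at h
  linarith

lemma le_sliceA_zero (hf : CoreFun f) (t : ℝ) : tvol {p | t < f p} ≤ sliceA f t 0 := by
  rw [hf.tvol_level t]
  have h := intervalIntegral.integral_mono_on (a := (0:ℝ)) (b := 1/2) (μ := volume) (by norm_num)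
    ((hf.continuous_sliceA t).intervalIntegrable _ _)
    (intervalIntegrable_const (c := sliceA f t 0))
    fun z hz => hf.antitone_sliceA t ⟨le_refl _, by norm_num⟩ hz hz.1
  rw [intervalIntegral.integral_const, smul_eq_mul] at h
  linarith

lemma alZ_le_sliceA (hf : CoreFun f) (t : ℝ) {z : ℝ} (hz : z ∈ Icc (0:ℝ) h0) :
    alZ (tvol {p | t < f p}) (sliceA f t 0) ≤ sliceA f t z := by
  have hh : h0 ∈ Icc (0:ℝ) (1/2) := by unfold h0; constructor <;> norm_num
  have hA := hf.antitone_sliceA t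
  have hi := fun a b => (hf.continuous_sliceA t).intervalIntegrable (μ := volume) a b
  have hv := hf.tvol_level t
  rw [← intervalIntegral.integral_add_adjacent_intervals (hi 0 h0) (hi h0 (1/2))] at hv
  have h1 := intervalIntegral.integral_mono_on (a := (0:ℝ)) (b := h0) (μ := volume) hh.1 (hi 0 h0)
    (intervalIntegrable_const (c := sliceA f t 0))
    fun s hs => hA ⟨le_refl _, by norm_num⟩ ⟨hs.1, hs.2.trans hh.2⟩ hs.1
  have h2 := intervalIntegral.integral_mono_on (a := h0) (b := 1/2) (μ := volume) hh.2 (hi h0 (1/2))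
    (intervalIntegrable_const (c := sliceA f t z))
    fun s hs => (hA hh ⟨hh.1.trans hs.1, hs.2⟩ hs.1).trans (hA ⟨hz.1, hz.2.trans hh.2⟩ hh hz.2)
  rw [intervalIntegral.integral_const, smul_eq_mul] at h1 h2
  unfold alZ
  rw [div_le_iff₀ (by unfold h0; norm_num)]
  unfold h0 at *
  nlinarith

lemma sliceA_mem (hf : CoreFun f) (t : ℝ) {z : ℝ} (hz : z ∈ Icc (0:ℝ) (1/2)) :
    sliceA f t z ∈ Icc (sliceA f t (1/2)) (sliceA f t 0) :=
  ⟨hf.antitone_sliceA t hz ⟨by norm_num, le_refl _⟩ hz.2,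
    hf.antitone_sliceA t ⟨le_refl _, by norm_num⟩ hz hz.1⟩

/-- Measurability of the wrap sets. -/
lemma measurableSet_wrap (hf : CoreFun f) (t : ℝ) :
    MeasurableSet {z | yr f t (1/2) z = 0} ∧ MeasurableSet {z | xr f t (1/2) z = 0} :=
  ⟨(hf.continuous_yr.comp (f := fun z : ℝ => (t, (1/2:ℝ), z)) (by fun_prop)).measurable
      (measurableSet_singleton 0),
    (hf.continuous_xr.comp (f := fun z : ℝ => (t, (1/2:ℝ), z)) (by fun_prop)).measurable
      (measurableSet_singleton 0)⟩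

/-- Combine the four kinds of slices. -/
lemma flux_cases (hf : CoreFun f) (t : ℝ) {ℓ : ℝ → ℝ}
    (h00 : Flux hf t {z | yr f t (1/2) z = 0 ∧ xr f t (1/2) z = 0} ℓ)
    (hX : Flux hf t {z | 0 < yr f t (1/2) z ∧ xr f t (1/2) z = 0} ℓ)
    (hY : Flux hf t {z | yr f t (1/2) z = 0 ∧ 0 < xr f t (1/2) z} ℓ)
    (hXY : Flux hf t {z | 0 < yr f t (1/2) z ∧ 0 < xr f t (1/2) z} ℓ) :
    Flux hf t (Ioo (0:ℝ) (1/2)) ℓ := by
  obtain ⟨m1, m2⟩ := hf.measurableSet_wrap t
  have hA : MeasurableSet {z | yr f t (1/2) z = 0 ∧ xr f t (1/2) z = 0} := m1.inter m2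
  have mY : MeasurableSet {z | 0 < xr f t (1/2) z} :=
    measurableSet_lt measurable_const (hf.continuous_xr.comp (f := fun z : ℝ => (t, (1/2:ℝ), z))
      (by fun_prop)).measurable
  have mX : MeasurableSet {z | 0 < yr f t (1/2) z} :=
    measurableSet_lt measurable_const (hf.continuous_yr.comp (f := fun z : ℝ => (t, (1/2:ℝ), z))
      (by fun_prop)).measurable
  refine (((h00.union hA hX).union (hA.union (mX.inter m2)) hY).union
    ((hA.union (mX.inter m2)).union (m1.inter mY)) hXY).mono (fun z _ => ?_) fun _ _ => le_rfl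
  rcases (show 0 ≤ yr f t (1/2) z from root_nonneg _ _).eq_or_lt with hx | hx <;>
    rcases (show 0 ≤ xr f t (1/2) z from root_nonneg _ _).eq_or_lt with hy | hy
  · exact Or.inl (Or.inl (Or.inl ⟨hx.symm, hy.symm⟩))
  · exact Or.inl (Or.inr ⟨hx.symm, hy⟩)
  · exact Or.inl (Or.inl (Or.inr ⟨hx, hy.symm⟩))
  · exact Or.inr ⟨hx, hy⟩

/-- The bound from an exact disc certificate. -/
theorem disc_case (hf : CoreFun f) (t : ℝ) (hs : ScalarBounds)
    (hfl : Flux hf t (Ioo (0:ℝ) (1/2)) (fun z => discP (sliceA f t z))) :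
    ENNReal.ofReal (candJ (tvol {p | t < f p})) ≤ Qz f t := by
  obtain ⟨lam, mu, c, hcm, hc, hcond, hval⟩ :=
    hs.disc (sliceA_nonneg t (1/2)) (hf.sliceA_half_le t) (hf.le_sliceA_zero t)
  have hm : Measurable (fun z => discP (sliceA f t z)) := by
    unfold discP
    exact ((Real.continuous_sqrt.comp (continuous_const.mul (hf.continuous_sliceA t))).const_mul
      2).measurable
  have hb := hf.cert_bound t (lam := lam) (mu := mu) (m := 0) (h := 0) ⟨le_refl _, by norm_num⟩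
    hcm hc hm hfl ((ae_restrict_mem measurableSet_Ioo).mono fun z hz => by
      simp only [add_zero, ite_self]
      exact hcond _ (hf.sliceA_mem t ⟨hz.1.le, hz.2.le⟩))
  refine le_trans (ENNReal.ofReal_le_ofReal ?_) hb
  linarith

lemma measurable_capL : Measurable (fun a => capL a) := by
  unfold capL LY discP
  fun_prop

lemma measurable_cycL : Measurable (fun a => cycL a) := by
  unfold cycL LCyc LY discP
  fun_prop

lemma measurable_crossL (b : ℝ) : Measurable (fun a => crossL a b) := by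
  have h1 : Measurable (fun a : ℝ => π * (1/2 - b) + (1 - a) / (1/2 - b)) := by fun_prop
  have h2 : Measurable (fun a : ℝ => discP (1 - a)) := by unfold discP; fun_prop
  have g1 : Measurable (fun _ : ℝ => π * (1/2 - b) ^ 2) := measurable_const
  have g2 : Measurable (fun a : ℝ => 1 - a) := by fun_prop
  unfold crossL LCross
  exact Measurable.ite (measurableSet_lt g1 g2)
    (Measurable.ite (MeasurableSet.const _) h1 measurable_const) h2

lemma measurable_thickL (b : ℝ) : Measurable (fun a => thickL a b) := by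
  have h1 : Measurable (fun a => discP a) := by unfold discP; fun_prop
  have h2 : Measurable (fun a : ℝ => FZ a b) := by unfold FZ FR; fun_prop
  exact h1.min (h2.min (measurable_crossL b))

/-- The bound from a two-phase certificate. -/
theorem cert_case (hf : CoreFun f) (t : ℝ) {L Lin : ℝ → ℝ} {al : ℝ}
    (hLm : Measurable L) (hLinm : Measurable Lin)
    (hal : ∀ z ∈ Ioo (0:ℝ) h0, al ≤ sliceA f t z)
    (hfl : Flux hf t (Ioo (0:ℝ) (1/2))
      (fun z => if z < h0 then Lin (sliceA f t z) else L (sliceA f t z)))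
    (hcert : HasCert L Lin (tvol {p | t < f p}) (sliceA f t (1/2)) (sliceA f t 0) al) :
    ENNReal.ofReal (candJ (tvol {p | t < f p})) ≤ Qz f t := by
  obtain ⟨lam, mu, m, c, hcm, hc', hcond, hcond', hval⟩ := hcert
  have hc : ∀ a, c a ∈ Icc (0:ℝ) 1 := hc'
  have hA := (hf.continuous_sliceA t).measurable
  have hb := hf.cert_bound t (lam := lam) (mu := mu) (m := m) (h := h0)
    (by unfold h0; constructor <;> norm_num) hcm hc
    (Measurable.ite measurableSet_Iio (hLinm.comp hA) (hLm.comp hA)) hfl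
    ((ae_restrict_mem measurableSet_Ioo).mono fun z hz => by
      have hmem := hf.sliceA_mem t ⟨hz.1.le, hz.2.le⟩
      by_cases hzh : z < h0
      · simp only [if_pos hzh]
        exact hcond' _ ⟨max_le hmem.1 (hal z ⟨hz.1, hzh⟩), hmem.2⟩
      · simp only [if_neg hzh]
        exact hcond _ hmem)
  exact le_trans (ENNReal.ofReal_le_ofReal hval) hb

/-- All slices small: discs suffice. -/
theorem small_case (hf : CoreFun f) (t : ℝ) (hp : PlanarBounds) (hs : ScalarBounds)
    (hT : sliceA f t 0 ≤ 1 / π) :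
    ENNReal.ofReal (candJ (tvol {p | t < f p})) ≤ Qz f t := by
  refine hf.disc_case t hs (hf.flux_cases t (hp.none hf t) ?_ ?_ ?_)
  · refine (hp.singleX hf t (1/2) le_rfl).mono Subset.rfl fun z hz => ?_
    exact ((discP_mono ((hf.sliceA_mem t ⟨hz.2.1.le, hz.2.2.le⟩).2.trans hT)).trans_eq
      discP_inv_pi).trans (le_max_left _ _)
  · refine (hp.singleY hf t (1/2) le_rfl).mono Subset.rfl fun z hz => ?_
    exact ((discP_mono ((hf.sliceA_mem t ⟨hz.2.1.le, hz.2.2.le⟩).2.trans hT)).trans_eq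
      discP_inv_pi).trans (le_max_left _ _)
  · refine (hp.cross hf t 0).mono (fun z hz => ⟨hz.1, hz.2, hz.2.le⟩) fun z hz => ?_
    have hA := (hf.sliceA_mem t ⟨hz.2.1.le, hz.2.2.le⟩).2.trans hT
    have := inv_pi_le_half
    exact (discP_mono (by linarith)).trans (discP_one_sub_le_crossL (sliceA_nonneg t z) (hf.sliceA_le_one t z))

/-- Both arms thin. -/
theorem thin_case (hf : CoreFun f) (t : ℝ) (hp : PlanarBounds) (hs : ScalarBounds)
    (hv0 : 0 < tvol {p | t < f p}) (hv : tvol {p | t < f p} < 1 / π)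
    (hx : arm f t 0 1 ≤ h0) (hy : arm f t 1 0 ≤ h0) :
    ENNReal.ofReal (candJ (tvol {p | t < f p})) ≤ Qz f t := by
  have hfl : Flux hf t (Ioo (0:ℝ) (1/2)) (fun z => capL (sliceA f t z)) := by
    refine hf.flux_cases t ((hp.none hf t).mono Subset.rfl fun z _ => min_le_left _ _)
      ((hp.singleX hf t (4/5) (by norm_num)).mono Subset.rfl fun z hz => ?_)
      ((hp.singleY hf t (4/5) (by norm_num)).mono Subset.rfl fun z hz => ?_)
      ((hp.diag hf t).mono Subset.rfl fun z hz => ?_)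
    · exact capL_le_arcF (sliceA_nonneg t z) ((hf.bX_le t ⟨hz.2.1.le, hz.2.2.le⟩).trans hx)
    · exact capL_le_arcF (sliceA_nonneg t z) ((hf.bY_le t ⟨hz.2.1.le, hz.2.2.le⟩).trans hy)
    · exact capL_le_diag ((hf.bX_le t ⟨hz.2.1.le, hz.2.2.le⟩).trans hx)
        ((hf.bY_le t ⟨hz.2.1.le, hz.2.2.le⟩).trans hy)
  rcases le_or_gt T0 (sliceA f t 0) with hT | hT
  · refine hf.cert_case t (L := capL) (Lin := capL) (al := sliceA f t (1/2)) measurable_capL
      measurable_capL (fun z hz => (hf.sliceA_mem t ⟨hz.1.le, hz.2.le.trans (by unfold h0; norm_num)⟩).1)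
      (by simpa only [ite_self] using hfl)
      (hs.thin hv0 hv (sliceA_nonneg t _) (hf.sliceA_half_le t) (hf.le_sliceA_zero t)
        (hf.sliceA_le_one t 0) hT)
  · refine hf.disc_case t hs (hfl.mono Subset.rfl fun z hz => ?_)
    have hA := (hf.sliceA_mem t ⟨hz.2.1.le, hz.2.2.le⟩).2.trans hT.le
    exact le_min le_rfl ((discP_mono hA).trans_eq discP_T0)

/-- The cyclic case. -/
theorem cyc_case (hf : CoreFun f) (t : ℝ) (hp : PlanarBounds) (hs : ScalarBounds)
    (hv0 : 0 < tvol {p | t < f p}) (hv : tvol {p | t < f p} < 1 / π)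
    (h12 : arm f t 1 2 ≤ h0) (h02 : h0 ≤ arm f t 0 2) (h01 : arm f t 0 1 ≤ h0) :
    ENNReal.ofReal (candJ (tvol {p | t < f p})) ≤ Qz f t := by
  set A := sliceA f t with hA
  set ℓ := fun z => if z < h0 then cycL (A z) else capL (A z) with hℓ
  have hcap : ∀ z, ℓ z ≤ capL (A z) := by
    intro z
    simp only [hℓ]
    split_ifs
    · exact min_le_left _ _
    · exact le_rfl
  have hfl : Flux hf t (Ioo (0:ℝ) (1/2)) ℓ := by
    refine hf.flux_cases t ((hp.none hf t).mono Subset.rfl fun z _ =>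
        (hcap z).trans (min_le_left _ _))
      ((hp.singleX hf t (4/5) (by norm_num)).mono Subset.rfl fun z hz => ?_)
      ((Flux.zero (ℓ := fun _ => 0) fun _ _ => le_rfl).mono Subset.rfl fun z hz => ?_) ?_
    · exact (hcap z).trans (capL_le_arcF (sliceA_nonneg t z)
        ((hf.bX_le t ⟨hz.2.1.le, hz.2.2.le⟩).trans h01))
    · exfalso
      have hz' : z ∈ Ico (0:ℝ) (1/2) := ⟨hz.2.1.le, hz.2.2⟩
      have h1 := (hf.wrapY_iff t hz').1 hz.1.2
      have h2 := (hf.wrapX_iff t hz').2 (by linarith)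
      exact absurd hz.1.1 h2.ne'
    · refine ((hp.cross hf t 0).mono (T := {z | 0 < yr f t (1/2) z ∧ 0 < xr f t (1/2) z})
        (fun z hz => ⟨hz.1, hz.2, hz.2.le⟩) fun _ _ => le_rfl).sup
        ((measurable_crossL 0).comp (hf.continuous_sliceA t).measurable)
        (show Measurable (fun z => 4 * (1/2 - yr f t (1/2) z)) from
          measurable_const.mul (measurable_const.sub (hf.continuous_yr.comp
            (f := fun z : ℝ => (t, (1/2:ℝ), z)) (by fun_prop)).measurable))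
        (hp.drop hf t) |>.mono Subset.rfl fun z hz => ?_
      have hzh : z < h0 := ((hf.wrapY_iff t ⟨hz.2.1.le, hz.2.2⟩).1 hz.1.2).trans_le h12
      simp only [hℓ, if_pos hzh]
      refine (min_le_right _ _).trans (max_le_max ?_ ?_)
      · exact discP_one_sub_le_crossL (sliceA_nonneg t z) (hf.sliceA_le_one t z)
      · have := (hf.bX_le t ⟨hz.2.1.le, hz.2.2.le⟩).trans h01
        unfold h0 at this
        linarith
  rcases le_or_gt T0 (A 0) with hT | hT
  · exact hf.cert_case t (L := capL) (Lin := cycL) (al := A (1/2)) measurable_capL measurable_cycL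
      (fun z hz => (hf.sliceA_mem t ⟨hz.1.le, hz.2.le.trans (by unfold h0; norm_num)⟩).1) hfl
      (hs.cyc hv0 hv (sliceA_nonneg t _) (hf.sliceA_half_le t) (hf.le_sliceA_zero t)
        (hf.sliceA_le_one t 0) hT)
  · refine hf.disc_case t hs (hfl.mono Subset.rfl fun z hz => ?_)
    have hz' := (hf.sliceA_mem t ⟨hz.2.1.le, hz.2.2.le⟩).2.trans hT.le
    have h1 : discP (A z) ≤ kap := (discP_mono hz').trans_eq discP_T0
    have h2 := T0_lt
    simp only [hℓ]
    split_ifs
    · exact le_min (le_min le_rfl h1) ((discP_mono (by linarith)).trans (le_max_left _ _))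
    · exact le_min le_rfl h1

/-- A thick cross range. -/
theorem thick_case (hf : CoreFun f) (t : ℝ) (hp : PlanarBounds) (hs : ScalarBounds)
    (hv0 : 0 < tvol {p | t < f p}) (hv : tvol {p | t < f p} < 1 / π)
    (h02 : h0 ≤ arm f t 0 2) (hle : arm f t 0 2 ≤ arm f t 1 2) :
    ENNReal.ofReal (candJ (tvol {p | t < f p})) ≤ Qz f t := by
  rcases le_or_gt (sliceA f t 0) (1 / π) with hT | hT
  · exact hf.small_case t hp hs hT
  set zc := arm f t 0 2 with hzc
  have hzcI : zc ∈ Icc (0:ℝ) (1/2) := root_mem _ _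
  set b := xr f t (1/2) zc with hb
  have hcert := hs.thick hv0 hv (sliceA_nonneg t _) (hf.sliceA_half_le t)
    (hf.le_sliceA_zero t) (hf.sliceA_le_one t 0) hT.le (show 0 ≤ b from root_nonneg _ _)
    (show b ≤ 1/2 from root_le_half _ _)
  refine hf.cert_case t (L := fun a => thickL a b) (Lin := fun a => crossL a b)
    (measurable_thickL b) (measurable_crossL b)
    (fun z hz => hf.alZ_le_sliceA t ⟨hz.1.le, hz.2.le⟩) ?_ hcert
  have hout : ∀ z ∈ Ioo (0:ℝ) (1/2), yr f t (1/2) z = 0 →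
      ¬ z < h0 ∧ xr f t (1/2) z ≤ b := by
    intro z hz h
    have hge : zc ≤ z := not_lt.1 fun hlt =>
      absurd ((hf.wrapX_iff t ⟨hz.1.le, hz.2⟩).2 hlt) (by rw [h]; exact lt_irrefl _)
    exact ⟨fun hzh => by linarith, hf.xr_antitone_z t (1/2) hzcI ⟨hz.1.le, hz.2.le⟩ hge⟩
  refine hf.flux_cases t ((hp.none hf t).mono Subset.rfl fun z hz => ?_)
    ((Flux.zero (ℓ := fun _ => 0) fun _ _ => le_rfl).mono Subset.rfl fun z hz => ?_)
    ((flux_FZ hp hf t).mono Subset.rfl fun z hz => ?_) ?_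
  · simp only [if_neg (hout z hz.2 hz.1.1).1]
    exact min_le_left _ _
  · exfalso
    have hz' : z ∈ Ico (0:ℝ) (1/2) := ⟨hz.2.1.le, hz.2.2⟩
    have h1 := (hf.wrapX_iff t hz').1 hz.1.1
    exact absurd hz.1.2 ((hf.wrapY_iff t hz').2 (h1.trans_le hle)).ne'
  · simp only [if_neg (hout z hz.2 hz.1.1).1]
    exact ((min_le_right _ _).trans (min_le_left _ _)).trans (FZ_anti (hout z hz.2 hz.1.1).2)
  · intro ε hε
    obtain ⟨a, b', g1, g2, g3, g4, g5, g6⟩ := hp.cross hf t b ε hε
    refine ⟨a, b', g1, g2, g3, g4, g5, fun z hz => ?_⟩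
    have hbz : b ≤ xr f t (1/2) z := hf.xr_antitone_z t (1/2) ⟨hz.2.1.le, hz.2.2.le⟩ hzcI
      ((hf.wrapX_iff t ⟨hz.2.1.le, hz.2.2⟩).1 hz.1.1).le
    refine (ENNReal.ofReal_le_ofReal (sub_le_sub_right ?_ ε)).trans
      (g6 z ⟨⟨hz.1.1, hz.1.2, hbz⟩, hz.2⟩)
    dsimp only
    split_ifs
    · exact le_rfl
    · exact (min_le_right _ _).trans (min_le_right _ _)

end CoreFun

/-- The level set bound for almost every level, from the planar and scalar inequalities. -/
theorem core_bound (hf : CoreFun f) (hp : PlanarBounds) (hs : ScalarBounds) :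
    ∀ᵐ t, tvol {p | t < f p} < 1 / π →
      ENNReal.ofReal (candJ (tvol {p | t < f p})) ≤ Qz f t := by
  have hq : ∀ᵐ t, ∀ σ : Equiv.Perm (Fin 3), Qz (permFun σ f) t = Qz f t :=
    ae_all_iff.2 fun σ => Qz_perm_ae hf σ
  filter_upwards [hq] with t hσ hv
  set v := tvol {p | t < f p} with hvdef
  rcases eq_or_lt_of_le (show 0 ≤ v from ENNReal.toReal_nonneg) with hv0 | hv0
  · rw [← hv0, show candJ 0 = 0 by simp [candJ, ballP, tubeP]]
    simp
  -- apply a case in permuted coordinates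
  have go : ∀ σ : Equiv.Perm (Fin 3),
      (arm f t (σ 0) (σ 1) ≤ h0 ∧ arm f t (σ 1) (σ 0) ≤ h0) ∨
      (arm f t (σ 1) (σ 2) ≤ h0 ∧ h0 ≤ arm f t (σ 0) (σ 2) ∧ arm f t (σ 0) (σ 1) ≤ h0) ∨
      (h0 ≤ arm f t (σ 0) (σ 2) ∧ arm f t (σ 0) (σ 2) ≤ arm f t (σ 1) (σ 2)) →
      ENNReal.ofReal (candJ v) ≤ Qz f t := by
    intro σ h
    rw [← hσ σ, hvdef, ← tvol_level_perm hf σ t]
    have hv' : tvol {p | t < permFun σ f p} < 1 / π := by rwa [tvol_level_perm hf σ t]
    have hv0' : 0 < tvol {p | t < permFun σ f p} := by rwa [tvol_level_perm hf σ t]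
    rcases h with ⟨a1, a2⟩ | ⟨a1, a2, a3⟩ | ⟨a1, a2⟩
    · exact (hf.perm σ).thin_case t hp hs hv0' hv' (by rwa [arm_perm]) (by rwa [arm_perm])
    · exact (hf.perm σ).cyc_case t hp hs hv0' hv' (by rwa [arm_perm]) (by rwa [arm_perm])
        (by rwa [arm_perm])
    · exact (hf.perm σ).thick_case t hp hs hv0' hv' (by rwa [arm_perm]) (by rwa [arm_perm, arm_perm])
  have thick : ∀ a b d : Fin 3, a ≠ b → b ≠ d → a ≠ d → h0 ≤ arm f t a d → h0 ≤ arm f t b d →
      ENNReal.ofReal (candJ v) ≤ Qz f t := by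
    intro a b d hab hbd had h1 h2
    have mk : ∀ a b : Fin 3, a ≠ b → b ≠ d → a ≠ d →
        ∃ σ : Equiv.Perm (Fin 3), σ 0 = a ∧ σ 1 = b ∧ σ 2 = d := by
      clear h1 h2 had hbd hab
      revert d
      decide
    rcases le_total (arm f t a d) (arm f t b d) with h | h
    · obtain ⟨σ, e0, e1, e2⟩ := mk a b hab hbd had
      exact go σ (Or.inr (Or.inr (by rw [e0, e1, e2]; exact ⟨h1, h⟩)))
    · obtain ⟨σ, e0, e1, e2⟩ := mk b a (Ne.symm hab) had hbd
      exact go σ (Or.inr (Or.inr (by rw [e0, e1, e2]; exact ⟨h2, h⟩)))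
  by_cases hz : h0 ≤ arm f t 0 2 ∧ h0 ≤ arm f t 1 2
  · exact thick 0 1 2 (by decide) (by decide) (by decide) hz.1 hz.2
  by_cases hxd : h0 ≤ arm f t 1 0 ∧ h0 ≤ arm f t 2 0
  · exact thick 1 2 0 (by decide) (by decide) (by decide) hxd.1 hxd.2
  by_cases hyd : h0 ≤ arm f t 0 1 ∧ h0 ≤ arm f t 2 1
  · exact thick 0 2 1 (by decide) (by decide) (by decide) hyd.1 hyd.2
  rw [not_and_or, not_le, not_le] at hz hxd hyd
  rcases le_or_gt (arm f t 0 1) h0 with h01 | h01 <;> rcases le_or_gt (arm f t 1 0) h0 with h10 | h10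
  · exact go (Equiv.refl _) (Or.inl ⟨h01, h10⟩)
  · -- `p01` small, `p10` big
    have h20 : arm f t 2 0 < h0 := hxd.resolve_left (not_lt.2 h10.le)
    rcases le_or_gt (arm f t 0 2) h0 with h02 | h02
    · exact go (Equiv.swap 1 2) (Or.inl ⟨by simpa [Equiv.swap_apply_def] using h02, by simpa [Equiv.swap_apply_def] using h20.le⟩)
    · have h12 : arm f t 1 2 < h0 := hz.resolve_left (not_lt.2 h02.le)
      exact go (Equiv.refl _) (Or.inr (Or.inl ⟨h12.le, h02.le, h01⟩))
  · have h21 : arm f t 2 1 < h0 := hyd.resolve_left (not_lt.2 h01.le)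
    rcases le_or_gt (arm f t 1 2) h0 with h12 | h12
    · exact go (Equiv.swap 0 2) (Or.inl ⟨by simpa [Equiv.swap_apply_def] using h21.le, by simpa [Equiv.swap_apply_def] using h12⟩)
    · have h02 : arm f t 0 2 < h0 := hz.resolve_right (not_lt.2 h12.le)
      exact go (Equiv.swap 0 1) (Or.inr (Or.inl ⟨by simpa [Equiv.swap_apply_def] using h02.le, by simpa [Equiv.swap_apply_def] using h12.le,
        by simpa [Equiv.swap_apply_def] using h10⟩))
  · have h20 : arm f t 2 0 < h0 := hxd.resolve_left (not_lt.2 h10.le)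
    have h21 : arm f t 2 1 < h0 := hyd.resolve_left (not_lt.2 h01.le)
    rcases lt_or_ge (arm f t 0 2) h0 with h02 | h02
    · exact go (Equiv.swap 1 2) (Or.inl ⟨by simpa [Equiv.swap_apply_def] using h02.le, by simpa [Equiv.swap_apply_def] using h20.le⟩)
    · have h12 : arm f t 1 2 < h0 := hz.resolve_left (not_lt.2 h02)
      exact go (Equiv.swap 0 2) (Or.inl ⟨by simpa [Equiv.swap_apply_def] using h21.le, by simpa [Equiv.swap_apply_def] using h12.le⟩)

end level

end

end Vale.P232
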