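import Vale.Agent.P232.SliceArea

/-!
P232: from planar bounds and a scalar certificate to a bound on the level area.
-/

open MeasureTheory Set Filter Topology
open scoped ENNReal

namespace Vale.P232

noncomputable section

/-- Planar perimeter lower bound `ℓ` on the heights in `S`, realised by measurable fields up to
every positive error. -/
def Flux {f : V3 → ℝ} (hf : CoreFun f) (t : ℝ) (S : Set ℝ) (ℓ : ℝ → ℝ) : Prop :=
  ∀ ε > (0:ℝ), ∃ a b : ℝ → ℝ → ℝ → ℝ,
    Measurable (fun q : ℝ × ℝ × ℝ => a q.1 q.2.1 q.2.2) ∧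
    Measurable (fun q : ℝ × ℝ × ℝ => b q.1 q.2.1 q.2.2) ∧
    (∀ x y z, 0 ≤ a x y z) ∧ (∀ x y z, 0 ≤ b x y z) ∧
    (∀ x y z, a x y z ^ 2 + b x y z ^ 2 ≤ 1) ∧
    ∀ z ∈ S ∩ Ioo (0:ℝ) (1/2), ENNReal.ofReal (ℓ z - ε) ≤
      4 * (hf.quad t z).flux (fun x y => a x y z) (fun x y => b x y z)

namespace Flux

variable {f : V3 → ℝ} {hf : CoreFun f} {t : ℝ} {S T : Set ℝ} {ℓ ℓ' : ℝ → ℝ}

lemma mono (h : Flux hf t S ℓ) (hST : T ⊆ S) (hl : ∀ z ∈ T ∩ Ioo (0:ℝ) (1/2), ℓ' z ≤ ℓ z) :
    Flux hf t T ℓ' := by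
  intro ε hε
  obtain ⟨a, b, h1, h2, h3, h4, h5, h6⟩ := h ε hε
  refine ⟨a, b, h1, h2, h3, h4, h5, fun z hz => ?_⟩
  refine (ENNReal.ofReal_le_ofReal ?_).trans (h6 z ⟨hST hz.1, hz.2⟩)
  linarith [hl z hz]

lemma zero (h : ∀ z ∈ S ∩ Ioo (0:ℝ) (1/2), ℓ z ≤ 0) : Flux hf t S ℓ := by
  intro ε hε
  refine ⟨fun _ _ _ => 0, fun _ _ _ => 0, measurable_const, measurable_const,
    fun _ _ _ => le_refl _, fun _ _ _ => le_refl _, fun _ _ _ => by norm_num, fun z hz => ?_⟩
  rw [ENNReal.ofReal_eq_zero.2 (by linarith [h z hz])]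
  exact zero_le

/-- A piecewise choice. -/
lemma union (hS : MeasurableSet S) (h : Flux hf t S ℓ) (h' : Flux hf t T ℓ) :
    Flux hf t (S ∪ T) ℓ := by
  classical
  intro ε hε
  obtain ⟨a, b, h1, h2, h3, h4, h5, h6⟩ := h ε hε
  obtain ⟨a', b', g1, g2, g3, g4, g5, g6⟩ := h' ε hε
  have hm : MeasurableSet {q : ℝ × ℝ × ℝ | q.2.2 ∈ S} := measurable_snd.snd hS
  refine ⟨fun x y z => if z ∈ S then a x y z else a' x y z,
    fun x y z => if z ∈ S then b x y z else b' x y z, Measurable.ite hm h1 g1,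
    Measurable.ite hm h2 g2, fun x y z => ?_, fun x y z => ?_, fun x y z => ?_, fun z hz => ?_⟩
  · by_cases hz : z ∈ S <;> simp [hz, h3, g3]
  · by_cases hz : z ∈ S <;> simp [hz, h4, g4]
  · by_cases hz : z ∈ S <;> simp [hz, h5, g5]
  · by_cases hzS : z ∈ S
    · simp only [if_pos hzS]
      exact h6 z ⟨hzS, hz.2⟩
    · simp only [if_neg hzS]
      exact g6 z ⟨hz.1.resolve_left hzS, hz.2⟩

/-- The better of two bounds. -/
lemma sup (hl : Measurable ℓ) (hl' : Measurable ℓ') (h : Flux hf t S ℓ) (h' : Flux hf t S ℓ') :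
    Flux hf t S (fun z => max (ℓ z) (ℓ' z)) := by
  classical
  intro ε hε
  obtain ⟨a, b, h1, h2, h3, h4, h5, h6⟩ := h ε hε
  obtain ⟨a', b', g1, g2, g3, g4, g5, g6⟩ := h' ε hε
  have hm : MeasurableSet {q : ℝ × ℝ × ℝ | ℓ' q.2.2 ≤ ℓ q.2.2} :=
    measurableSet_le (hl'.comp measurable_snd.snd) (hl.comp measurable_snd.snd)
  refine ⟨fun x y z => if ℓ' z ≤ ℓ z then a x y z else a' x y z,
    fun x y z => if ℓ' z ≤ ℓ z then b x y z else b' x y z, Measurable.ite hm h1 g1,
    Measurable.ite hm h2 g2, fun x y z => ?_, fun x y z => ?_, fun x y z => ?_, fun z hz => ?_⟩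
  · by_cases hz : ℓ' z ≤ ℓ z <;> simp [hz, h3, g3]
  · by_cases hz : ℓ' z ≤ ℓ z <;> simp [hz, h4, g4]
  · by_cases hz : ℓ' z ≤ ℓ z <;> simp [hz, h5, g5]
  · by_cases hc : ℓ' z ≤ ℓ z
    · simp only [if_pos hc, max_eq_left hc]
      exact h6 z hz
    · simp only [if_neg hc, max_eq_right (le_of_not_ge hc)]
      exact g6 z hz

end Flux

namespace CoreFun

variable {f : V3 → ℝ}

/-- The volume of a superlevel set in terms of slice areas. -/
lemma tvol_level (hf : CoreFun f) (t : ℝ) :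
    tvol {p | t < f p} = 2 * ∫ z in (0:ℝ)..(1/2), sliceA f t z := by
  have hm : MeasurableSet {p : V3 | t < f p} := measurableSet_lt measurable_const hf.continuous.measurable
  set G : V3 → ℝ≥0∞ := {p | t < f p}.indicator 1 with hG
  have hvol : volume ({p | t < f p} ∩ cube) = ∫⁻ p in cube, G p := by
    rw [hG, lintegral_indicator_one hm, Measure.restrict_apply hm]
  have hper : IsPeriodicFun G := fun p k => by
    simp only [hG, indicator_apply, Set.mem_ofPred_eq, hf.periodic p k, Pi.one_apply]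
  have hev : ∀ (i : Fin 3) p, G (Function.update p i (-p i)) = G p := fun i p => by
    simp only [hG, indicator_apply, Set.mem_ofPred_eq, hf.even i p, Pi.one_apply]
  have hx : ∀ x, ∫⁻ y in Ioo (0:ℝ) (1/2), ∫⁻ z in Ioo (0:ℝ) (1/2), G (pt x y z)
      = ∫⁻ z in Ioo (0:ℝ) (1/2), ENNReal.ofReal (yr f t x z) := by
    intro x
    have hGm : Measurable G := measurable_one.indicator hm
    rw [lintegral_lintegral_swap (f := fun y z => G (pt x y z))
      (hGm.comp (measurable_pt.comp (measurable_const.prodMk measurable_id))).aemeasurable]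
    refine lintegral_congr fun z => ?_
    have he : ∀ y ∈ Ioo (0:ℝ) (1/2), G (pt x y z) = (Iio (yr f t x z)).indicator 1 y := by
      intro y hy
      simp only [hG, indicator_apply, Set.mem_ofPred_eq, mem_Iio, Pi.one_apply,
        hf.lt_yr_iff ⟨hy.1.le, hy.2⟩]
    rw [setLIntegral_congr_fun measurableSet_Ioo he, lintegral_indicator_one measurableSet_Iio,
      Measure.restrict_apply measurableSet_Iio]
    have hle := root_le_half (fun s => f (pt x s z)) t
    have : Iio (yr f t x z) ∩ Ioo (0:ℝ) (1/2) = Ioo 0 (yr f t x z) := by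
      ext y
      simp only [mem_inter_iff, mem_Iio, mem_Ioo]
      constructor
      · rintro ⟨h1, h2, -⟩; exact ⟨h2, h1⟩
      · rintro ⟨h1, h2⟩; exact ⟨h2, h1, h2.trans_le hle⟩
    rw [this, Real.volume_Ioo, sub_zero]
  have hy2 : Continuous (fun q : ℝ × ℝ => yr f t q.1 q.2) :=
    hf.continuous_yr.comp (f := fun q : ℝ × ℝ => (t, q.1, q.2)) (by fun_prop)
  have hz : ∀ z, ∫⁻ x in Ioo (0:ℝ) (1/2), ENNReal.ofReal (yr f t x z)
      = ENNReal.ofReal (sliceA f t z / 4) := by
    intro z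
    rw [← ofReal_integral_eq_lintegral_ofReal
      ((hf.continuous_yr_fix t z).integrableOn_Icc.mono_set Ioo_subset_Icc_self)
      (ae_of_all _ fun x => root_nonneg _ _)]
    congr 1
    unfold sliceA
    rw [intervalIntegral.integral_of_le (by norm_num), setIntegral_congr_set Ioo_ae_eq_Ioc]
    ring
  have hgm : Measurable G := measurable_one.indicator hm
  unfold tvol
  rw [hvol, lintegral_cube_octant hgm hper hev]
  simp_rw [hx]
  rw [lintegral_lintegral_swap (f := fun x z => ENNReal.ofReal (yr f t x z))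
    hy2.measurable.ennreal_ofReal.aemeasurable]
  simp_rw [hz]
  rw [← ofReal_integral_eq_lintegral_ofReal
    (((hf.continuous_sliceA t).div_const 4).integrableOn_Icc.mono_set Ioo_subset_Icc_self)
    (ae_of_all _ fun z => div_nonneg (sliceA_nonneg t z) (by norm_num)),
    ← ENNReal.ofReal_ofNat 8, ← ENNReal.ofReal_mul (by norm_num),
    ENNReal.toReal_ofReal (mul_nonneg (by norm_num) (integral_nonneg fun z =>
      div_nonneg (sliceA_nonneg t z) (by norm_num))),
    intervalIntegral.integral_of_le (by norm_num), setIntegral_congr_set Ioo_ae_eq_Ioc.symm,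
    integral_div]
  ring

/-- A scalar certificate on top of planar bounds bounds the level area. -/
theorem cert_bound (hf : CoreFun f) (t : ℝ) {c ℓ : ℝ → ℝ} {lam mu m h : ℝ}
    (hh : h ∈ Icc (0:ℝ) (1/2)) (hcm : Measurable c) (hc : ∀ s, c s ∈ Icc (0:ℝ) 1)
    (hlm : Measurable ℓ)
    (hfl : Flux hf t (Ioo (0:ℝ) (1/2)) ℓ)
    (h1 : ∀ᵐ z ∂(volume.restrict (Ioo (0:ℝ) (1/2))),
      (if z < h then lam * sliceA f t z + mu + m else lam * sliceA f t z + mu)
        ≤ c (sliceA f t z) * ℓ z) :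
    ENNReal.ofReal (lam * tvol {p | t < f p} + mu + 2 * h * m
      + 2 * ∫ s in (sliceA f t (1/2))..(sliceA f t 0), Real.sqrt (1 - c s ^ 2)) ≤ Qz f t := by
  refine ENNReal.le_of_forall_pos_le_add fun ε hε _ => ?_
  have hε' : (0:ℝ) < ε := hε
  obtain ⟨a, b, ham, hbm, ha, hb, hab, hfl'⟩ := hfl ε hε'
  have hbnd := hf.slice_bound t (ℓ := fun z => max (ℓ z - ε) 0) hcm hc ham hbm ha hb hab
    ((ae_restrict_mem measurableSet_Ioo).mono fun z hz => by
      rw [show ENNReal.ofReal (max (ℓ z - ε) 0) = ENNReal.ofReal (ℓ z - ε) by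
        rcases le_total (ℓ z - ε) 0 with h | h
        · rw [max_eq_right h, ENNReal.ofReal_zero, ENNReal.ofReal_eq_zero.2 h]
        · rw [max_eq_left h]]
      exact hfl' z ⟨hz, hz⟩)
  refine le_trans ?_ (add_le_add hbnd le_rfl)
  set A := sliceA f t with hA
  have h10 : A (1/2) ≤ A 0 :=
    hf.antitone_sliceA t ⟨le_refl _, by norm_num⟩ ⟨by norm_num, le_refl _⟩ (by norm_num)
  set g := fun z => (if z < h then lam * A z + mu + m else lam * A z + mu) - (ε:ℝ) with hg
  have hgint : IntegrableOn g (Ioo (0:ℝ) (1/2)) := by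
    have hA' : IntegrableOn (fun z => lam * A z + mu) (Ioo (0:ℝ) (1/2)) :=
      (((hf.continuous_sliceA t).const_mul lam).add continuous_const).integrableOn_Icc.mono_set
        Ioo_subset_Icc_self
    have h2 : IntegrableOn ((Iio h).indicator fun _ => m) (Ioo (0:ℝ) (1/2)) :=
      (integrableOn_const (C := m) (by simp [Real.volume_Ioo])).indicator measurableSet_Iio
    have : g = fun z => (lam * A z + mu + (Iio h).indicator (fun _ => m) z) - (ε:ℝ) := by
      funext z
      simp only [hg, indicator_apply, mem_Iio]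
      split_ifs <;> ring
    rw [this]
    exact (hA'.add h2).sub (integrableOn_const (C := (ε:ℝ)) (by simp [Real.volume_Ioo]))
  have hcur : ENNReal.ofReal (∫ z in Ioo (0:ℝ) (1/2), g z) ≤
      ∫⁻ z in Ioo (0:ℝ) (1/2), ENNReal.ofReal (c (A z) * max (ℓ z - ε) 0) := by
    refine le_trans (ENNReal.ofReal_le_ofReal (integral_mono hgint (hgint.real_toNNReal)
      fun z => le_max_left _ _)) ?_
    rw [ofReal_integral_eq_lintegral_ofReal hgint.real_toNNReal (ae_of_all _ fun z => NNReal.coe_nonneg _)]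
    refine lintegral_mono_ae (h1.mono fun z hz => ENNReal.ofReal_le_ofReal ?_)
    rw [Real.coe_toNNReal']
    refine max_le ?_ (mul_nonneg (hc _).1 (le_max_right _ _))
    refine le_trans ?_ (mul_le_mul_of_nonneg_left (le_max_left _ _) (hc _).1)
    have : c (A z) * (ε:ℝ) ≤ ε := mul_le_of_le_one_left hε'.le (hc _).2
    simp only [hg]
    rw [mul_sub]
    linarith
  have hsint : IntegrableOn (fun s => Real.sqrt (1 - c s ^ 2)) (Ioc (A (1/2)) (A 0)) := by
    refine Integrable.mono' (integrableOn_const (C := (1:ℝ)) (by simp [Real.volume_Ioc]))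
      (((hcm.pow_const 2).const_sub 1).sqrt).aestronglyMeasurable
      (ae_of_all _ fun s => ?_)
    rw [Real.norm_eq_abs, abs_of_nonneg (Real.sqrt_nonneg _), Real.sqrt_le_one]
    nlinarith [sq_nonneg (c s)]
  have hcalc : ∫ z in Ioo (0:ℝ) (1/2), g z =
      lam * (tvol {p | t < f p} / 2) + mu / 2 + m * h - (ε:ℝ) / 2 := by
    have e1 : ∫ z in Ioo (0:ℝ) (1/2), A z = tvol {p | t < f p} / 2 := by
      rw [hf.tvol_level t, intervalIntegral.integral_of_le (by norm_num),
        setIntegral_congr_set Ioo_ae_eq_Ioc]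
      ring
    have e2 : ∫ z in Ioo (0:ℝ) (1/2), (Iio h).indicator (fun _ => m) z = m * h := by
      rw [setIntegral_indicator measurableSet_Iio, setIntegral_const, smul_eq_mul,
        show Ioo (0:ℝ) (1/2) ∩ Iio h = Ioo 0 h by
          ext z
          simp only [mem_inter_iff, mem_Iio, mem_Ioo]
          exact ⟨fun hz => ⟨hz.1.1, hz.2⟩, fun hz => ⟨⟨hz.1, hz.2.trans_le hh.2⟩, hz.2⟩⟩,
        Real.volume_real_Ioo_of_le hh.1, sub_zero, mul_comm]
    have : g = fun z => (lam * A z + (mu - ε)) + (Iio h).indicator (fun _ => m) z := by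
      funext z
      simp only [hg, indicator_apply, mem_Iio]
      split_ifs <;> ring
    rw [this]
    have hA' : IntegrableOn (fun z => lam * A z) (Ioo (0:ℝ) (1/2)) :=
      ((hf.continuous_sliceA t).const_mul lam).integrableOn_Icc.mono_set Ioo_subset_Icc_self
    have hc' : IntegrableOn (fun _ : ℝ => mu - (ε:ℝ)) (Ioo (0:ℝ) (1/2)) :=
      integrableOn_const (by simp [Real.volume_Ioo])
    have hAc : IntegrableOn (fun z => lam * A z + (mu - (ε:ℝ))) (Ioo (0:ℝ) (1/2)) := hA'.add hc'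
    rw [integral_add hAc
      ((integrableOn_const (C := m) (by simp [Real.volume_Ioo])).indicator measurableSet_Iio),
      integral_add hA' hc', integral_const_mul, e1, e2, setIntegral_const,
      Real.volume_real_Ioo_of_le (by norm_num)]
    simp only [smul_eq_mul]
    ring
  have hsflat : ENNReal.ofReal (∫ s in (A (1/2))..(A 0), Real.sqrt (1 - c s ^ 2)) =
      ∫⁻ s in Ioc (A (1/2)) (A 0), ENNReal.ofReal (Real.sqrt (1 - c s ^ 2)) := by
    rw [intervalIntegral.integral_of_le h10]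
    exact ofReal_integral_eq_lintegral_ofReal hsint (ae_of_all _ fun s => Real.sqrt_nonneg _)
  rw [← hsflat]
  refine le_trans ?_ (add_le_add (add_le_add (mul_le_mul_right hcur 2) le_rfl) le_rfl)
  rw [show (ε : ℝ≥0∞) = ENNReal.ofReal (ε:ℝ) from (ENNReal.ofReal_coe_nnreal).symm,
    ← ENNReal.ofReal_ofNat 2, ← ENNReal.ofReal_mul (by norm_num),
    ← ENNReal.ofReal_mul (by norm_num)]
  refine le_trans (ENNReal.ofReal_le_ofReal ?_) (le_trans ENNReal.ofReal_add_le
    (add_le_add ENNReal.ofReal_add_le le_rfl))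
  rw [hcalc]
  linarith

end CoreFun

end

end Vale.P232
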