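import Vale.Agent.P232.Defs

/-!
P232: iterated integrals on the cube and reduction to the octant.
-/

open MeasureTheory Set

namespace Vale.P232

noncomputable section

/-- The point with coordinates `x, y, z`. -/
def pt (x y z : ℝ) : V3 := ![x, y, z]

lemma continuous_pt : Continuous (fun q : ℝ × ℝ × ℝ => pt q.1 q.2.1 q.2.2) := by
  refine continuous_pi fun i => ?_
  fin_cases i <;> simp [pt] <;> fun_prop

lemma measurable_pt : Measurable (fun q : ℝ × ℝ × ℝ => pt q.1 q.2.1 q.2.2) :=
  continuous_pt.measurable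

lemma pt_eta (x : V3) : pt (x 0) (x 1) (x 2) = x := by
  funext i; fin_cases i <;> simp [pt]

lemma measurePreserving_pt :
    MeasurePreserving (fun q : ℝ × ℝ × ℝ => pt q.1 q.2.1 q.2.2) volume volume := by
  have h1 := (volume_preserving_piFinSuccAbove (fun _ : Fin 3 => ℝ) 0).symm
  have h2 : MeasurePreserving (MeasurableEquiv.finTwoArrow (α := ℝ)).symm volume volume :=
    (volume_preserving_finTwoArrow ℝ).symm
  have h3 : MeasurePreserving (Prod.map (id : ℝ → ℝ) (MeasurableEquiv.finTwoArrow (α := ℝ)).symm)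
      (volume : Measure (ℝ × ℝ × ℝ)) volume := (MeasurePreserving.id volume).prod h2
  have h := h1.comp h3
  have he : (fun q : ℝ × ℝ × ℝ => pt q.1 q.2.1 q.2.2) =
      (⇑(MeasurableEquiv.piFinSuccAbove (fun _ : Fin 3 => ℝ) 0).symm ∘
        Prod.map id ⇑(MeasurableEquiv.finTwoArrow (α := ℝ)).symm) := by
    funext q
    obtain ⟨a, b, c⟩ := q
    funext i
    fin_cases i <;> rfl
  rw [he]
  exact h

lemma measurableSet_cube : MeasurableSet cube :=
  MeasurableSet.univ_pi fun _ => measurableSet_Ico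

lemma pt_mem_cube {x y z : ℝ} :
    pt x y z ∈ cube ↔ x ∈ Ico (0:ℝ) 1 ∧ y ∈ Ico (0:ℝ) 1 ∧ z ∈ Ico (0:ℝ) 1 := by
  constructor
  · intro h
    exact ⟨h 0 trivial, h 1 trivial, h 2 trivial⟩
  · rintro ⟨h0, h1, h2⟩ i -
    fin_cases i <;> simpa [pt]

/-- Integrals over the cube as iterated integrals. -/
lemma lintegral_cube {G : V3 → ENNReal} (hG : Measurable G) :
    ∫⁻ x in cube, G x = ∫⁻ x in Ico (0:ℝ) 1, ∫⁻ y in Ico (0:ℝ) 1, ∫⁻ z in Ico (0:ℝ) 1,
      G (pt x y z) := by
  rw [← measurePreserving_pt.setLIntegral_comp_preimage measurableSet_cube hG]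
  have hpre : (fun q : ℝ × ℝ × ℝ => pt q.1 q.2.1 q.2.2) ⁻¹' cube
      = Ico (0:ℝ) 1 ×ˢ (Ico (0:ℝ) 1 ×ˢ Ico (0:ℝ) 1) := by
    ext ⟨x, y, z⟩
    simp [pt_mem_cube]
  rw [hpre]
  have hm : Measurable (fun q : ℝ × ℝ × ℝ => G (pt q.1 q.2.1 q.2.2)) := hG.comp measurable_pt
  rw [Measure.volume_eq_prod, ← Measure.prod_restrict, lintegral_prod _ hm.aemeasurable]
  refine lintegral_congr fun x => ?_
  rw [Measure.volume_eq_prod, ← Measure.prod_restrict, lintegral_prod]
  exact (hm.comp (measurable_const.prodMk measurable_id)).aemeasurable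

/-- An even periodic function on one period is twice the half period. -/
lemma lintegral_Ico_of_even {G : ℝ → ENNReal} (hper : ∀ s, G (s + 1) = G s)
    (hev : ∀ s, G (-s) = G s) :
    ∫⁻ s in Ico (0:ℝ) 1, G s = 2 * ∫⁻ s in Ioo (0:ℝ) (1/2), G s := by
  have hsplit : Ico (0:ℝ) 1 = Ico (0:ℝ) (1/2) ∪ Ico (1/2:ℝ) 1 :=
    (Ico_union_Ico_eq_Ico (by norm_num) (by norm_num)).symm
  rw [hsplit, lintegral_union measurableSet_Ico (Ico_disjoint_Ico_same), two_mul]
  congr 1
  · exact setLIntegral_congr Ioo_ae_eq_Ico.symm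
  · have hmp : MeasurePreserving (fun s : ℝ => 1 - s) volume volume :=
      Measure.measurePreserving_sub_left volume 1
    have hemb : MeasurableEmbedding (fun s : ℝ => 1 - s) :=
      (Homeomorph.subLeft (1:ℝ)).measurableEmbedding
    rw [setLIntegral_congr Ioo_ae_eq_Ico.symm, ← hmp.setLIntegral_comp_preimage_emb hemb]
    have hpre : (fun s : ℝ => 1 - s) ⁻¹' Ioo (1/2:ℝ) 1 = Ioo (0:ℝ) (1/2) := by
      ext s
      simp only [mem_preimage, mem_Ioo]
      constructor <;> rintro ⟨h1, h2⟩ <;> constructor <;> linarith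
    rw [hpre]
    refine lintegral_congr fun s => ?_
    rw [show (1:ℝ) - s = -s + 1 by ring, hper, hev]

lemma update_pt_0 (x y z s : ℝ) : Function.update (pt x y z) 0 s = pt s y z := by
  funext i; fin_cases i <;> simp [pt, Function.update]

lemma update_pt_1 (x y z s : ℝ) : Function.update (pt x y z) 1 s = pt x s z := by
  funext i; fin_cases i <;> simp [pt, Function.update]

lemma update_pt_2 (x y z s : ℝ) : Function.update (pt x y z) 2 s = pt x y s := by
  funext i; fin_cases i <;> simp [pt, Function.update]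

/-- Integrals of even periodic functions over the cube reduce to the octant. -/
lemma lintegral_cube_octant {G : V3 → ENNReal} (hG : Measurable G)
    (hper : IsPeriodicFun G) (hev : ∀ (i : Fin 3) x, G (Function.update x i (-x i)) = G x) :
    ∫⁻ x in cube, G x = 8 * ∫⁻ x in Ioo (0:ℝ) (1/2), ∫⁻ y in Ioo (0:ℝ) (1/2),
      ∫⁻ z in Ioo (0:ℝ) (1/2), G (pt x y z) := by
  have p0 : ∀ x y z, G (pt (x + 1) y z) = G (pt x y z) := fun x y z => by
    have h := hper (pt x y z) ![1, 0, 0]
    convert h using 2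
    funext i; fin_cases i <;> simp [pt]
  have p1 : ∀ x y z, G (pt x (y + 1) z) = G (pt x y z) := fun x y z => by
    have h := hper (pt x y z) ![0, 1, 0]
    convert h using 2
    funext i; fin_cases i <;> simp [pt]
  have p2 : ∀ x y z, G (pt x y (z + 1)) = G (pt x y z) := fun x y z => by
    have h := hper (pt x y z) ![0, 0, 1]
    convert h using 2
    funext i; fin_cases i <;> simp [pt]
  have e0 : ∀ x y z, G (pt (-x) y z) = G (pt x y z) := fun x y z => by
    have h := hev 0 (pt x y z)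
    rw [update_pt_0] at h
    simpa [pt] using h
  have e1 : ∀ x y z, G (pt x (-y) z) = G (pt x y z) := fun x y z => by
    have h := hev 1 (pt x y z)
    rw [update_pt_1] at h
    simpa [pt] using h
  have e2 : ∀ x y z, G (pt x y (-z)) = G (pt x y z) := fun x y z => by
    have h := hev 2 (pt x y z)
    rw [update_pt_2] at h
    simpa [pt] using h
  rw [lintegral_cube hG]
  rw [lintegral_Ico_of_even (fun s => by simp_rw [p0]) (fun s => by simp_rw [e0])]
  conv_lhs =>
    enter [2, 2, x]
    rw [lintegral_Ico_of_even (fun s => by simp_rw [p1]) (fun s => by simp_rw [e1])]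
    enter [2, 2, y]
    rw [lintegral_Ico_of_even (fun s => p2 x y s) (fun s => e2 x y s)]
  simp_rw [lintegral_const_mul' 2 _ (by norm_num : (2 : ENNReal) ≠ ⊤), ← mul_assoc]
  norm_num

end

end Vale.P232
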