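import Mathlib

/-!
Riesz rearrangement inequality on a finite cycle, by two-point symmetrisation.
-/

namespace Vale.P232.CycleRiesz

open Finset

variable {n : ℕ} [NeZero n]

/-- Distance to zero on the cycle. -/
def cdist (x : ZMod n) : ℕ := min x.val (n - x.val)

/-- The position of a point in the symmetric enumeration `0, 1, -1, 2, -2, …`. -/
def rank (x : ZMod n) : ℕ :=
  if 2 * x.val ≤ n then 2 * x.val - 1 else 2 * (n - x.val)

lemma rank_injective : Function.Injective (rank (n := n)) := by
  intro x y h
  apply ZMod.val_injective n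
  have := ZMod.val_lt x
  have := ZMod.val_lt y
  unfold rank at h
  split_ifs at h <;> omega

lemma cdist_neg (x : ZMod n) : cdist (-x) = cdist x := by
  unfold cdist
  rw [ZMod.neg_val]
  have := ZMod.val_lt x
  split_ifs with h
  · simp [h]
  · omega

lemma val_sub_eq (x y : ZMod n) :
    (x - y).val = if y.val ≤ x.val then x.val - y.val else x.val + n - y.val := by
  have hx := ZMod.val_lt x
  have hy := ZMod.val_lt y
  split_ifs with h
  · exact ZMod.val_sub h
  · have hk : x.val + n - y.val < n := by omega
    have e : x - y = ((x.val + n - y.val : ℕ) : ZMod n) := by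
      rw [Nat.cast_sub (by omega), Nat.cast_add]
      simp
    rw [e, ZMod.val_natCast_of_lt hk]

/-- The points at least as central as their mirror images form a half circle. -/
lemma central_iff (c x : ZMod n) :
    rank x ≤ rank (c - x) ↔
      (c.val = 0 ∧ 2 * x.val ≤ n) ∨ (1 ≤ c.val ∧ (2 * x.val ≤ c.val ∨ c.val + n ≤ 2 * x.val)) := by
  have := ZMod.val_lt x
  have := ZMod.val_lt c
  unfold rank
  rw [val_sub_eq c x]
  split_ifs <;> omega

/-- Distance on the cycle in terms of representatives. -/
lemma cdist_sub (x y : ZMod n) :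
    cdist (x - y) = min (max x.val y.val - min x.val y.val)
      (n - (max x.val y.val - min x.val y.val)) := by
  have := ZMod.val_lt x
  have := ZMod.val_lt y
  unfold cdist
  rw [val_sub_eq x y]
  split_ifs <;> omega

/-- Two points that are each at least as central as their mirror images are at least as close to
each other as to the mirror image of one of them. -/
lemma cdist_le_of_central (c x y : ZMod n) (hx : rank x ≤ rank (c - x))
    (hy : rank y ≤ rank (c - y)) : cdist (x - y) ≤ cdist (x - (c - y)) := by
  have := ZMod.val_lt x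
  have := ZMod.val_lt y
  have := ZMod.val_lt c
  rw [central_iff] at hx hy
  rw [cdist_sub x y, cdist_sub x (c - y)]
  have hy' : (c - y).val + y.val = c.val ∨ (c - y).val + y.val = c.val + n := by
    rw [val_sub_eq c y]
    split_ifs <;> omega
  have := ZMod.val_lt (c - y)
  generalize (c - y).val = z at *
  omega

/-- The bilinear energy of a kernel depending on the cyclic distance. -/
def energy (K : ℕ → ℝ) (f g : ZMod n → ℝ) : ℝ :=
  ∑ x, ∑ y, K (cdist (x - y)) * f x * g y

/-- Two-point symmetrisation about the reflection `x ↦ c - x`. -/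
noncomputable def polar (c : ZMod n) (f : ZMod n → ℝ) (x : ZMod n) : ℝ :=
  if rank x ≤ rank (c - x) then max (f x) (f (c - x)) else min (f x) (f (c - x))

lemma polar_mirror (c : ZMod n) (f : ZMod n → ℝ) (x : ZMod n) :
    (polar c f x = f x ∧ polar c f (c - x) = f (c - x)) ∨
    (polar c f x = f (c - x) ∧ polar c f (c - x) = f x) := by
  unfold polar
  rw [sub_sub_cancel]
  rcases lt_trichotomy (rank x) (rank (c - x)) with h | h | h
  · simp only [h.le, not_le.mpr h, if_true, if_false]
    rcases le_total (f x) (f (c - x)) with hf | hf <;> simp [hf]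
  · have e := rank_injective h
    rw [← e]
    simp
  · simp only [h.le, not_le.mpr h, if_true, if_false]
    rcases le_total (f x) (f (c - x)) with hf | hf <;> simp [hf]

/-- Symmetrisation rearranges values. -/
lemma polar_eq_comp (c : ZMod n) (f : ZMod n → ℝ) :
    ∃ π : Equiv.Perm (ZMod n), polar c f = f ∘ π := by
  classical
  let σ : ZMod n → ZMod n := fun x => if polar c f x = f x then x else c - x
  have hσ : ∀ x, σ (σ x) = x := by
    intro x
    simp only [σ]
    by_cases h : polar c f x = f x
    · simp [h]
    · rcases polar_mirror c f x with h' | h'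
      · exact absurd h'.1 h
      · have hne : polar c f (c - x) ≠ f (c - x) := by
          rw [h'.2]
          intro e
          exact h (h'.1.trans e.symm)
        simp [h, hne]
  refine ⟨⟨σ, σ, hσ, hσ⟩, funext fun x => ?_⟩
  show polar c f x = f (σ x)
  simp only [σ]
  by_cases h : polar c f x = f x
  · simp [h]
  · rcases polar_mirror c f x with h' | h'
    · exact absurd h'.1 h
    · rw [if_neg h, h'.1]

lemma two_point (a₁ a₂ b₁ b₂ : ℝ) :
    a₁ * b₁ + a₂ * b₂ ≤ max a₁ a₂ * max b₁ b₂ + min a₁ a₂ * min b₁ b₂ := by
  rcases le_total a₁ a₂ with ha | ha <;> rcases le_total b₁ b₂ with hb | hb <;>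
    simp only [max_eq_left, max_eq_right, min_eq_left, min_eq_right, ha, hb] <;> nlinarith

/-- Symmetrisation does not decrease the energy of a decreasing kernel. -/
lemma energy_le_polar (K : ℕ → ℝ) (hK : Antitone K) (c : ZMod n) (f g : ZMod n → ℝ) :
    energy K f g ≤ energy K (polar c f) (polar c g) := by
  let e : ZMod n → ZMod n → ℝ := fun x y =>
    K (cdist (x - y)) * (polar c f x * polar c g y - f x * g y)
  suffices h : 0 ≤ ∑ x, ∑ y, e x y by
    have : ∑ x, ∑ y, e x y = energy K (polar c f) (polar c g) - energy K f g := by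
      simp only [e, energy, ← sum_sub_distrib]
      exact sum_congr rfl fun x _ => sum_congr rfl fun y _ => by ring
    linarith
  have hinvX : ∀ F : ZMod n → ℝ, ∑ x, F (c - x) = ∑ x, F x :=
    fun F => Equiv.sum_comp (Equiv.subLeft c) F
  have h1 : ∑ x, ∑ y, e (c - x) y = ∑ x, ∑ y, e x y := hinvX (fun x => ∑ y, e x y)
  have h2 : ∑ x, ∑ y, e x (c - y) = ∑ x, ∑ y, e x y :=
    sum_congr rfl fun x _ => hinvX (fun y => e x y)
  have h3 : ∑ x, ∑ y, e (c - x) (c - y) = ∑ x, ∑ y, e x y := by
    rw [hinvX (fun x => ∑ y, e x (c - y))]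
    exact h2
  have h4 : 0 ≤ ∑ x, ∑ y, (e x y + e (c - x) y + e x (c - y) + e (c - x) (c - y)) := by
    refine sum_nonneg fun x _ => sum_nonneg fun y _ => ?_
    have d1 : cdist (c - x - (c - y)) = cdist (x - y) := by
      rw [show c - x - (c - y) = -(x - y) by ring, cdist_neg]
    have d2 : cdist (c - x - y) = cdist (x - (c - y)) := by
      rw [show c - x - y = -(x - (c - y)) by ring, cdist_neg]
    have hP : ∀ (h : ZMod n → ℝ) (z : ZMod n),
        polar c h z + polar c h (c - z) = h z + h (c - z) ∧
        (rank z ≤ rank (c - z) →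
          polar c h z = max (h z) (h (c - z)) ∧ polar c h (c - z) = min (h z) (h (c - z))) ∧
        (rank (c - z) ≤ rank z →
          polar c h (c - z) = max (h z) (h (c - z)) ∧ polar c h z = min (h z) (h (c - z))) := by
      intro h z
      refine ⟨?_, fun hz => ?_, fun hz => ?_⟩
      · rcases polar_mirror c h z with h' | h' <;> rw [h'.1, h'.2]
        exact add_comm _ _
      · unfold polar
        rw [sub_sub_cancel]
        rcases lt_or_eq_of_le hz with hlt | heq
        · simp [hz, not_le.mpr hlt, min_comm]
        · rw [← rank_injective heq]; simp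
      · unfold polar
        rw [sub_sub_cancel]
        rcases lt_or_eq_of_le hz with hlt | heq
        · simp [hz, not_le.mpr hlt, max_comm]
        · rw [rank_injective heq]; simp
    obtain ⟨sF, uF, lF⟩ := hP f x
    obtain ⟨sG, uG, lG⟩ := hP g y
    set a := K (cdist (x - y))
    set b := K (cdist (x - (c - y)))
    have heq : e x y + e (c - x) y + e x (c - y) + e (c - x) (c - y)
        = (a - b) * ((polar c f x * polar c g y + polar c f (c - x) * polar c g (c - y))
          - (f x * g y + f (c - x) * g (c - y))) := by
      simp only [e, d1, d2]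
      rw [show polar c f (c - x) = f x + f (c - x) - polar c f x by linarith,
        show polar c g (c - y) = g y + g (c - y) - polar c g y by linarith]
      simp only [a, b]
      ring
    rw [heq]
    rcases le_total (rank x) (rank (c - x)) with hx | hx <;>
      rcases le_total (rank y) (rank (c - y)) with hy | hy
    · have hab : b ≤ a := hK (cdist_le_of_central c x y hx hy)
      rw [(uF hx).1, (uF hx).2, (uG hy).1, (uG hy).2]
      exact mul_nonneg (by linarith) (sub_nonneg.mpr (two_point _ _ _ _))
    · have hab : a ≤ b := hK (by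
        have := cdist_le_of_central c x (c - y) hx (by rwa [sub_sub_cancel])
        rwa [sub_sub_cancel] at this)
      rw [(uF hx).1, (uF hx).2, (lG hy).1, (lG hy).2]
      refine mul_nonneg_of_nonpos_of_nonpos (by linarith) ?_
      have := two_point (f x) (f (c - x)) (g (c - y)) (g y)
      rw [max_comm (g (c - y)), min_comm (g (c - y))] at this
      have tot : (max (f x) (f (c - x)) + min (f x) (f (c - x)))
          * (max (g y) (g (c - y)) + min (g y) (g (c - y)))
          = (f x + f (c - x)) * (g y + g (c - y)) := by rw [max_add_min, max_add_min]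
      linarith
    · have hab : a ≤ b := hK (by
        have := cdist_le_of_central c (c - x) y (by rwa [sub_sub_cancel]) hy
        rw [d1, d2] at this
        exact this)
      rw [(lF hx).1, (lF hx).2, (uG hy).1, (uG hy).2]
      refine mul_nonneg_of_nonpos_of_nonpos (by linarith) ?_
      have := two_point (f (c - x)) (f x) (g y) (g (c - y))
      rw [max_comm (f (c - x)), min_comm (f (c - x))] at this
      have tot : (max (f x) (f (c - x)) + min (f x) (f (c - x)))
          * (max (g y) (g (c - y)) + min (g y) (g (c - y)))
          = (f x + f (c - x)) * (g y + g (c - y)) := by rw [max_add_min, max_add_min]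
      linarith
    · have hab : b ≤ a := hK (by
        have := cdist_le_of_central c (c - x) (c - y) (by rwa [sub_sub_cancel])
          (by rwa [sub_sub_cancel])
        rw [sub_sub_cancel, d1, d2] at this
        exact this)
      rw [(lF hx).1, (lF hx).2, (lG hy).1, (lG hy).2]
      refine mul_nonneg (by linarith) (sub_nonneg.mpr ?_)
      have := two_point (f x) (f (c - x)) (g y) (g (c - y))
      linarith
  simp only [sum_add_distrib] at h4
  linarith

/-- Values decrease along the symmetric enumeration. -/
def SymmDecreasing (f : ZMod n → ℝ) : Prop := ∀ x y, rank x ≤ rank y → f y ≤ f x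

/-- A symmetric decreasing rearrangement is unique. -/
lemma symmDecreasing_unique (f : ZMod n → ℝ) (π : Equiv.Perm (ZMod n))
    (hf : SymmDecreasing f) (hg : SymmDecreasing (f ∘ π)) : f ∘ π = f := by
  classical
  have hset : ∀ a : ℝ, (univ.filter fun x => a ≤ f (π x)) = univ.filter fun x => a ≤ f x := by
    intro a
    set S := univ.filter fun x => a ≤ f (π x)
    set T := univ.filter fun x => a ≤ f x
    have hcard : S.card = T.card := card_equiv π (fun x => by simp [S, T])
    by_cases hST : S ⊆ T
    · exact eq_of_subset_of_card_le hST hcard.ge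
    · obtain ⟨x, hxS, hxT⟩ := not_subset.mp hST
      simp only [S, T, mem_filter, mem_univ, true_and] at hxS hxT
      have hTS : T ⊆ S := by
        intro t ht
        simp only [T, mem_filter, mem_univ, true_and] at ht
        simp only [S, mem_filter, mem_univ, true_and]
        by_cases hr : rank t ≤ rank x
        · exact hxS.trans (hg t x hr)
        · exact absurd (ht.trans (hf x t (not_le.mp hr).le)) hxT
      exact (eq_of_subset_of_card_le hTS hcard.le).symm
  funext x
  refine le_antisymm ?_ ?_
  · have : x ∈ univ.filter (fun z => f (π x) ≤ f (π z)) := by simp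
    rw [hset] at this
    simpa using this
  · have : x ∈ univ.filter (fun z => f x ≤ f z) := by simp
    rw [← hset] at this
    simpa using this

/-- Moment with respect to the enumeration. -/
def moment (f : ZMod n → ℝ) : ℝ := ∑ x, (rank x : ℝ) * f x

lemma moment_polar (c : ZMod n) (f : ZMod n → ℝ) :
    moment (polar c f) ≤ moment f ∧
      (∀ x, rank x < rank (c - x) → f x < f (c - x) → moment (polar c f) < moment f) := by
  let e : ZMod n → ℝ := fun x => (rank x : ℝ) * (polar c f x - f x)
  have hsum : moment (polar c f) - moment f = ∑ x, e x := by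
    simp only [moment, e, ← sum_sub_distrib, mul_sub]
  have hdouble : ∑ x, (e x + e (c - x)) = 2 * ∑ x, e x := by
    have he : ∑ x, e (c - x) = ∑ x, e x := Equiv.sum_comp (Equiv.subLeft c) e
    rw [sum_add_distrib, he, two_mul]
  have hnonpos : ∀ x, e x + e (c - x) ≤ 0 ∧
      (rank x < rank (c - x) → f x < f (c - x) → e x + e (c - x) < 0) := by
    intro x
    have heq : e x + e (c - x) = ((rank x : ℝ) - rank (c - x)) * (polar c f x - f x) := by
      simp only [e]
      rcases polar_mirror c f x with h | h <;> rw [h.1, h.2] <;> ring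
    rw [heq]
    refine ⟨?_, fun hr hlt => ?_⟩
    · unfold polar
      split_ifs with h
      · refine mul_nonpos_of_nonpos_of_nonneg (sub_nonpos.mpr (by exact_mod_cast h)) ?_
        exact sub_nonneg.mpr (le_max_left _ _)
      · refine mul_nonpos_of_nonneg_of_nonpos (sub_nonneg.mpr ?_) ?_
        · exact_mod_cast (not_le.mp h).le
        · exact sub_nonpos.mpr (min_le_left _ _)
    · unfold polar
      rw [if_pos hr.le, max_eq_right hlt.le]
      exact mul_neg_of_neg_of_pos (sub_neg.mpr (by exact_mod_cast hr)) (sub_pos.mpr hlt)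
  refine ⟨?_, fun x hr hlt => ?_⟩
  · have := sum_nonpos (s := (univ : Finset (ZMod n))) fun x _ => (hnonpos x).1
    linarith
  · have := sum_lt_sum (s := (univ : Finset (ZMod n))) (g := fun _ => (0 : ℝ))
      (fun x _ => (hnonpos x).1) ⟨x, mem_univ x, (hnonpos x).2 hr hlt⟩
    simp only [sum_const_zero] at this
    linarith

/-- Riesz's inequality on the cycle: symmetric decreasing rearrangements maximise the energy. -/
theorem riesz (K : ℕ → ℝ) (hK : Antitone K) (f g : ZMod n → ℝ) (π τ : Equiv.Perm (ZMod n))
    (hf : SymmDecreasing (f ∘ π)) (hg : SymmDecreasing (g ∘ τ)) :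
    energy K f g ≤ energy K (f ∘ π) (g ∘ τ) := by
  classical
  let s := (univ : Finset (Equiv.Perm (ZMod n) × Equiv.Perm (ZMod n))).filter fun p =>
    energy K f g ≤ energy K (f ∘ p.1) (g ∘ p.2)
  have hs : s.Nonempty := ⟨(Equiv.refl _, Equiv.refl _), by simp [s]⟩
  obtain ⟨⟨p, q⟩, hpq, hmin⟩ := s.exists_min_image
    (fun p => moment (f ∘ p.1) + moment (g ∘ p.2)) hs
  simp only [s, mem_filter, mem_univ, true_and] at hpq
  have key : ∀ c x, rank x < rank (c - x) →
      ¬ (f (p x) < f (p (c - x)) ∨ g (q x) < g (q (c - x))) := by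
    intro c x hr hbad
    obtain ⟨a, ha⟩ := polar_eq_comp c (f ∘ p)
    obtain ⟨b, hb⟩ := polar_eq_comp c (g ∘ q)
    have hmem : (a.trans p, b.trans q) ∈ s := by
      simp only [s, mem_filter, mem_univ, true_and]
      refine hpq.trans ((energy_le_polar K hK c _ _).trans (le_of_eq ?_))
      rw [ha, hb]
      rfl
    have h := hmin _ hmem
    have ha' : f ∘ (a.trans p) = polar c (f ∘ p) := by rw [ha]; rfl
    have hb' : g ∘ (b.trans q) = polar c (g ∘ q) := by rw [hb]; rfl
    simp only [ha', hb'] at h
    rcases hbad with hlt | hlt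
    · linarith [(moment_polar c (f ∘ p)).2 x hr hlt, (moment_polar c (g ∘ q)).1]
    · linarith [(moment_polar c (f ∘ p)).1, (moment_polar c (g ∘ q)).2 x hr hlt]
  have hdec : SymmDecreasing (f ∘ p) ∧ SymmDecreasing (g ∘ q) := by
    constructor <;> intro x y hxy <;> rcases lt_or_eq_of_le hxy with hlt | heq
    · by_contra h
      exact key (x + y) x (by simpa using hlt) (Or.inl (by simpa using h))
    · rw [rank_injective heq]
    · by_contra h
      exact key (x + y) x (by simpa using hlt) (Or.inr (by simpa using h))
    · rw [rank_injective heq]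
  have uniq : ∀ (h : ZMod n → ℝ) (α β : Equiv.Perm (ZMod n)),
      SymmDecreasing (h ∘ α) → SymmDecreasing (h ∘ β) → h ∘ β = h ∘ α := by
    intro h α β hα hβ
    have e : (h ∘ α) ∘ (β.trans α.symm) = h ∘ β := by funext x; simp
    rw [← e]
    exact symmDecreasing_unique _ _ hα (by rw [e]; exact hβ)
  rwa [uniq f π p hf hdec.1, uniq g τ q hg hdec.2] at hpq

/-- The centred arc with `k` points (`0, 1, -1, 2, -2, …`). -/
def arc (n k : ℕ) [NeZero n] : Finset (ZMod n) := univ.filter fun x => rank x < k

lemma card_arc {k : ℕ} (hk : k ≤ n) : (arc n k).card = k := by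
  have hlt : ∀ x : ZMod n, rank x < n := fun x => by
    have := ZMod.val_lt x
    unfold rank
    split_ifs <;> omega
  have himg : (univ : Finset (ZMod n)).image rank = range n := by
    refine eq_of_subset_of_card_le (fun r hr => ?_) ?_
    · obtain ⟨x, -, rfl⟩ := mem_image.mp hr
      exact mem_range.mpr (hlt x)
    · rw [card_range, card_image_of_injective _ rank_injective, card_univ, ZMod.card]
  rw [← card_image_of_injective (arc n k) rank_injective]
  have : (arc n k).image rank = range k := by
    ext r
    simp only [arc, mem_image, mem_filter, mem_univ, true_and, mem_range]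
    refine ⟨fun ⟨x, hx, e⟩ => e ▸ hx, fun hr => ?_⟩
    obtain ⟨x, -, hx⟩ := mem_image.mp (himg ▸ mem_range.mpr (hr.trans_le hk) :
      r ∈ (univ : Finset (ZMod n)).image rank)
    exact ⟨x, hx ▸ hr, hx⟩
  rw [this, card_range]

/-- Riesz's inequality for sets: centred arcs maximise a decreasing interaction. -/
theorem riesz_sets (K : ℕ → ℝ) (hK : Antitone K) (A B : Finset (ZMod n)) :
    ∑ a ∈ A, ∑ b ∈ B, K (cdist (a - b))
      ≤ ∑ a ∈ arc n A.card, ∑ b ∈ arc n B.card, K (cdist (a - b)) := by
  classical
  let ind : Finset (ZMod n) → ZMod n → ℝ := fun S x => if x ∈ S then 1 else 0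
  have hE : ∀ S T : Finset (ZMod n),
      energy K (ind S) (ind T) = ∑ a ∈ S, ∑ b ∈ T, K (cdist (a - b)) := by
    intro S T
    simp only [energy, ind, mul_ite, mul_one, mul_zero]
    rw [sum_comm]
    simp [sum_ite_mem, sum_comm (s := T)]
  have hrange : ∀ S : Finset (ZMod n), S.card ≤ n := fun S =>
    (card_le_univ S).trans (ZMod.card n).le
  have hperm : ∀ S : Finset (ZMod n), ∃ π : Equiv.Perm (ZMod n),
      ind S ∘ π = ind (arc n S.card) := by
    intro S
    let e : {x // x ∈ arc n S.card} ≃ {x // x ∈ S} :=
      Fintype.equivOfCardEq (by simp [card_arc (hrange S)])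
    refine ⟨e.extendSubtype, funext fun x => ?_⟩
    by_cases hx : x ∈ arc n S.card
    · have := e.extendSubtype_mem x hx
      simp [ind, hx, this]
    · have := e.extendSubtype_not_mem x hx
      simp [ind, hx, this]
  have hdec : ∀ k, SymmDecreasing (ind (arc n k)) := by
    intro k x y hxy
    simp only [ind, arc, mem_filter, mem_univ, true_and]
    split_ifs with h1 h2 <;> norm_num
    omega
  obtain ⟨π, hπ⟩ := hperm A
  obtain ⟨τ, hτ⟩ := hperm B
  have h := riesz K hK (ind A) (ind B) π τ (hπ ▸ hdec _) (hτ ▸ hdec _)
  rwa [hπ, hτ, hE, hE] at h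

end Vale.P232.CycleRiesz
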