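import Mathlib

/-!
P232: definitions shared by all modules.
-/

open MeasureTheory Real

namespace Vale.P232

noncomputable section

/-- Coordinates on `ℝ³`; the Euclidean norm is written out where it is needed. -/
abbrev V3 := Fin 3 → ℝ

/-- The unit basis vector. -/
def e (i : Fin 3) : V3 := Pi.single i 1

/-- A set of `ℝ³` invariant under `ℤ³`, i.e. a subset of the torus `ℝ³/ℤ³`. -/
def IsPeriodic (E : Set V3) : Prop :=
  ∀ (x : V3) (k : Fin 3 → ℤ), x + (fun i => (k i : ℝ)) ∈ E ↔ x ∈ E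

/-- Periodicity of a function. -/
def IsPeriodicFun {α : Type*} (F : V3 → α) : Prop :=
  ∀ (x : V3) (k : Fin 3 → ℤ), F (x + fun i => (k i : ℝ)) = F x

/-- Fundamental domain. -/
def cube : Set V3 := Set.univ.pi fun _ => Set.Ico (0 : ℝ) 1

/-- Volume in the torus. -/
def tvol (E : Set V3) : ℝ := (volume (E ∩ cube)).toReal

/-- Euclidean length of a vector of `ℝ³`. -/
def len (u : V3) : ℝ := Real.sqrt (∑ i, u i ^ 2)

/-- Divergence. -/
def div3 (X : V3 → V3) (x : V3) : ℝ := ∑ i, fderiv ℝ X x (e i) i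

/-- Test fields: periodic, `C¹`, of Euclidean length at most one. -/
def IsTestField (X : V3 → V3) : Prop :=
  ContDiff ℝ 1 X ∧ IsPeriodicFun X ∧ ∀ x, ∑ i, X x i ^ 2 ≤ 1

/-- De Giorgi perimeter of `E` in the torus. -/
def perimeter (E : Set V3) : ENNReal :=
  ⨆ (X : V3 → V3) (_ : IsTestField X), ENNReal.ofReal (∫ x in E ∩ cube, div3 X x)

/-- The isoperimetric profile of the cubic torus. -/
def profile (V : ℝ) : ENNReal :=
  ⨅ (E : Set V3) (_ : MeasurableSet E) (_ : IsPeriodic E) (_ : tvol E = V), perimeter E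

/-- Perimeter of a geodesic ball of volume `v`. -/
def ballP (v : ℝ) : ℝ := (36 * π) ^ (1 / 3 : ℝ) * v ^ (2 / 3 : ℝ)

/-- Perimeter of a solid tube of volume `v` about a shortest closed geodesic. -/
def tubeP (v : ℝ) : ℝ := 2 * Real.sqrt (π * v)

/-- The conjectured profile on `(0, 1/2]`. -/
def candJ (v : ℝ) : ℝ := min (min (ballP v) (tubeP v)) 2

/-- The conjectured profile on `(0,1)`. -/
def J (V : ℝ) : ℝ := candJ (min V (1 - V))

/-- The Euclidean ball of radius `r` about the origin. -/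
def eball (r : ℝ) : Set V3 := {h | ∑ i, h i ^ 2 ≤ r ^ 2}

/-- Normalising constant `∫_{B_r} |h₀|`. -/
def kappa (r : ℝ) : ℝ := ∫ h in eball r, |h 0|

/-- `∫_torus |1_E(x+h) - 1_E(x)| dx`. -/
def shiftDiff (E : Set V3) (h : V3) : ℝ :=
  tvol (symmDiff E {x | x + h ∈ E})

/-- Nonlocal perimeter at scale `r`. -/
def Phi (r : ℝ) (E : Set V3) : ℝ := (∫ h in eball r, shiftDiff E h) / kappa r

/-- Symmetric and monotone in each `|xᵢ| ≤ 1/2`. -/
def SymMono (E : Set V3) : Prop :=
  IsPeriodic E ∧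
    ∀ x y : V3, (∀ i, |x i| ≤ 1 / 2) → (∀ i, |y i| ≤ |x i|) → x ∈ E → y ∈ E

/-- The functions to which the calibration core applies: smooth, periodic, `[0,1]`-valued,
even in each coordinate and strictly decreasing in each coordinate on `(0,1/2)`. -/
structure CoreFun (f : V3 → ℝ) : Prop where
  smooth : ContDiff ℝ 1 f
  periodic : IsPeriodicFun f
  nonneg : ∀ x, 0 ≤ f x
  le_one : ∀ x, f x ≤ 1
  even : ∀ (i : Fin 3) (x : V3), f (Function.update x i (-x i)) = f x
  deriv_neg : ∀ (i : Fin 3) (x : V3), 0 < x i → x i < 1 / 2 → fderiv ℝ f x (e i) < 0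

/-- Euclidean gradient length. -/
def gradLen (f : V3 → ℝ) (x : V3) : ℝ := Real.sqrt (∑ i, fderiv ℝ f x (e i) ^ 2)

end

end Vale.P232
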