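import Vale.Agent.P232.CycleRiesz

/-!
Riesz rearrangement on the circle: centred arcs maximise close pairs.
-/

open MeasureTheory Set

namespace Vale.P232.Rearr

noncomputable section

/-- Distance to the nearest integer. -/
def dd (x : ℝ) : ℝ := |x - round x|

/-- Fundamental interval. -/
def I01 : Set ℝ := Ico 0 1

/-- The centred arc of length `m`, as a periodic set. -/
def carc (m : ℝ) : Set ℝ := {x | dd x < m / 2}

/-- Pairs of points of `A` and `B` at circle distance at most `ρ`. -/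
def pairSet (A B : Set ℝ) (ρ : ℝ) : Set (ℝ × ℝ) :=
  {p | (p.1 ∈ A ∧ p.1 ∈ I01) ∧ (p.2 ∈ B ∧ p.2 ∈ I01) ∧ dd (p.1 - p.2) ≤ ρ}

/-- Measure of the close pairs. -/
def corr (A B : Set ℝ) (ρ : ℝ) : ENNReal := volume (pairSet A B ρ)

lemma dd_le_abs (x : ℝ) (z : ℤ) : dd x ≤ |x - z| := round_le x z

lemma dd_nonneg (x : ℝ) : 0 ≤ dd x := abs_nonneg _

lemma dd_le_add (x y : ℝ) : dd x ≤ dd y + |x - y| := by
  refine (dd_le_abs x (round y)).trans ?_
  unfold dd
  rw [show x - (round y : ℝ) = (y - round y) + (x - y) by ring]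
  exact abs_add_le _ _

lemma dd_le_half (x : ℝ) : dd x ≤ 1 / 2 := abs_sub_round x

lemma dd_add_int (x : ℝ) (z : ℤ) : dd (x + z) = dd x := by
  unfold dd
  rw [round_add_intCast]
  push_cast
  congr 1
  ring

lemma dd_eq_min (x : ℝ) (h0 : 0 ≤ x) (h1 : x < 1) : dd x = min x (1 - x) := by
  unfold dd
  rw [abs_sub_round_eq_min, Int.fract_eq_self.mpr ⟨h0, h1⟩]

lemma measurable_dd : Measurable dd := by
  have h : dd = fun x => min (Int.fract x) (1 - Int.fract x) := funext fun x => abs_sub_round_eq_min x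
  rw [h]
  fun_prop

lemma measurableSet_carc (m : ℝ) : MeasurableSet (carc m) :=
  measurableSet_lt measurable_dd measurable_const

/-- The length of a centred arc. -/
lemma volume_carc {m : ℝ} (h0 : 0 ≤ m) (h1 : m ≤ 1) :
    volume (carc m ∩ I01) = ENNReal.ofReal m := by
  have h : carc m ∩ I01 = Ico 0 (m / 2) ∪ Ioo (1 - m / 2) 1 := by
    ext x
    simp only [carc, I01, mem_inter_iff, mem_ofPred_eq, mem_Ico, mem_union, mem_Ioo]
    constructor
    · rintro ⟨hd, hx0, hx1⟩
      rw [dd_eq_min x hx0 hx1] at hd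
      rcases min_lt_iff.mp hd with h | h
      · exact Or.inl ⟨hx0, h⟩
      · exact Or.inr ⟨by linarith, hx1⟩
    · rintro (⟨hx0, hx⟩ | ⟨hx, hx1⟩)
      · refine ⟨?_, hx0, by linarith⟩
        rw [dd_eq_min x hx0 (by linarith)]
        exact min_lt_iff.mpr (Or.inl hx)
      · refine ⟨?_, by linarith, hx1⟩
        rw [dd_eq_min x (by linarith) hx1]
        exact min_lt_iff.mpr (Or.inr (by linarith))
  rw [h, measure_union ?_ measurableSet_Ioo, Real.volume_Ico, Real.volume_Ioo,
    ← ENNReal.ofReal_add (by linarith) (by linarith)]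
  · congr 1
    ring
  · rw [Set.disjoint_left]
    intro x hx hx'
    simp only [mem_Ico, mem_Ioo] at hx hx'
    linarith

/-- Enlarging an arc adds little. -/
lemma volume_carc_diff {m m' : ℝ} (h : m ≤ m') :
    volume ((carc m' ∩ I01) \ carc m) ≤ ENNReal.ofReal (m' - m) := by
  have hsub : (carc m' ∩ I01) \ carc m ⊆ Icc (m / 2) (m' / 2) ∪ Icc (1 - m' / 2) (1 - m / 2) := by
    intro x hx
    simp only [carc, I01, Set.mem_sdiff, mem_inter_iff, mem_ofPred_eq, mem_Ico, not_lt] at hx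
    obtain ⟨⟨hd, hx0, hx1⟩, hd'⟩ := hx
    rw [dd_eq_min x hx0 hx1] at hd hd'
    simp only [mem_union, mem_Icc]
    rcases min_lt_iff.mp hd with h' | h'
    · exact Or.inl ⟨hd'.trans (min_le_left _ _), h'.le⟩
    · exact Or.inr ⟨by linarith, by linarith [hd'.trans (min_le_right x (1 - x))]⟩
  refine (measure_mono hsub).trans ((measure_union_le _ _).trans ?_)
  rw [Real.volume_Icc, Real.volume_Icc, ← ENNReal.ofReal_add (by linarith) (by linarith)]
  exact le_of_eq (congrArg _ (by ring))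

lemma corr_mono {A A' B B' : Set ℝ} {ρ ρ' : ℝ} (hA : A ∩ I01 ⊆ A') (hB : B ∩ I01 ⊆ B')
    (hρ : ρ ≤ ρ') : corr A B ρ ≤ corr A' B' ρ' :=
  measure_mono fun _ ⟨⟨ha, ha'⟩, ⟨hb, hb'⟩, hd⟩ =>
    ⟨⟨hA ⟨ha, ha'⟩, ha'⟩, ⟨hB ⟨hb, hb'⟩, hb'⟩, hd.trans hρ⟩

/-- Changing the sets costs at most the measure of what is lost. -/
lemma corr_le_add (A A' B B' : Set ℝ) (ρ : ℝ) :
    corr A B ρ ≤ corr A' B' ρ + (volume ((A ∩ I01) \ A') + volume ((B ∩ I01) \ B')) := by
  have hsub : pairSet A B ρ ⊆
      pairSet A' B' ρ ∪ (((A ∩ I01) \ A') ×ˢ I01 ∪ I01 ×ˢ ((B ∩ I01) \ B')) := by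
    rintro p ⟨⟨ha, ha'⟩, ⟨hb, hb'⟩, hd⟩
    by_cases h1 : p.1 ∈ A'
    · by_cases h2 : p.2 ∈ B'
      · exact Or.inl ⟨⟨h1, ha'⟩, ⟨h2, hb'⟩, hd⟩
      · exact Or.inr (Or.inr ⟨ha', ⟨hb, hb'⟩, h2⟩)
    · exact Or.inr (Or.inl ⟨⟨⟨ha, ha'⟩, h1⟩, hb'⟩)
  refine (measure_mono hsub).trans ((measure_union_le _ _).trans (add_le_add le_rfl ?_))
  refine (measure_union_le _ _).trans (le_of_eq ?_)
  rw [Measure.volume_eq_prod, Measure.prod_prod, Measure.prod_prod]
  simp [I01, Real.volume_Ico]

/-- Enlarging the radius costs little. -/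
lemma corr_radius_le (A B : Set ℝ) (ρ δ : ℝ) (hδ : 0 ≤ δ) :
    corr A B (ρ + δ) ≤ corr A B ρ + ENNReal.ofReal (4 * δ) := by
  set S : Set (ℝ × ℝ) :=
    {p | p.1 ∈ I01 ∧ p.2 ∈ I01 ∧ ρ < dd (p.1 - p.2) ∧ dd (p.1 - p.2) ≤ ρ + δ}
  have hsub : pairSet A B (ρ + δ) ⊆ pairSet A B ρ ∪ S := by
    rintro p ⟨ha, hb, hd⟩
    by_cases h : dd (p.1 - p.2) ≤ ρ
    · exact Or.inl ⟨ha, hb, h⟩
    · exact Or.inr ⟨ha.2, hb.2, not_le.mp h, hd⟩
  refine (measure_mono hsub).trans ((measure_union_le _ _).trans (add_le_add le_rfl ?_))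
  have hS : MeasurableSet S := by
    have hm : Measurable fun p : ℝ × ℝ => dd (p.1 - p.2) :=
      measurable_dd.comp (measurable_fst.sub measurable_snd)
    refine MeasurableSet.inter (measurable_fst measurableSet_Ico)
      (MeasurableSet.inter (measurable_snd measurableSet_Ico) ?_)
    exact (measurableSet_lt measurable_const hm).inter (measurableSet_le hm measurable_const)
  rw [Measure.volume_eq_prod, Measure.prod_apply hS]
  calc ∫⁻ a, volume (Prod.mk a ⁻¹' S)
      ≤ ∫⁻ a, I01.indicator (fun _ => ENNReal.ofReal (4 * δ)) a := lintegral_mono fun a => ?_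
    _ = ENNReal.ofReal (4 * δ) := by
        rw [lintegral_indicator (show MeasurableSet I01 from measurableSet_Ico), setLIntegral_const]
        simp [I01, Real.volume_Ico]
  by_cases ha : a ∈ I01
  · rw [indicator_of_mem ha]
    have hs : Prod.mk a ⁻¹' S ⊆ (Icc (a - (ρ + δ)) (a - ρ) ∪ Icc (a + ρ) (a + (ρ + δ))) ∪
        (Icc (a - (1 - ρ)) (a - (1 - (ρ + δ))) ∪
          Icc (a + (1 - (ρ + δ))) (a + (1 - ρ))) := by
      intro b hb
      obtain ⟨-, hb', hlo, hhi⟩ := hb
      simp only [I01, mem_Ico] at ha hb'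
      simp only [mem_union, mem_Icc]
      by_cases hab : b ≤ a
      · rw [dd_eq_min (a - b) (by linarith) (by linarith)] at hlo hhi
        have h1 := hlo.le.trans (min_le_left _ _)
        have h2 := hlo.le.trans (min_le_right (a - b) (1 - (a - b)))
        rcases min_le_iff.mp hhi with h | h
        · exact Or.inl (Or.inl ⟨by linarith, by linarith⟩)
        · exact Or.inr (Or.inl ⟨by linarith, by linarith⟩)
      · have e : dd (a - b) = dd (a - b + 1) := by
          simpa using (dd_add_int (a - b) 1).symm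
        rw [e, dd_eq_min (a - b + 1) (by linarith) (by linarith)] at hlo hhi
        have h1 := hlo.le.trans (min_le_left _ _)
        have h2 := hlo.le.trans (min_le_right (a - b + 1) (1 - (a - b + 1)))
        rcases min_le_iff.mp hhi with h | h
        · exact Or.inr (Or.inr ⟨by linarith, by linarith⟩)
        · exact Or.inl (Or.inr ⟨by linarith, by linarith⟩)
    refine (measure_mono hs).trans ((measure_union_le _ _).trans ?_)
    refine (add_le_add (measure_union_le _ _) (measure_union_le _ _)).trans ?_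
    simp only [Real.volume_Icc]
    rw [show a - ρ - (a - (ρ + δ)) = δ by ring, show a + (ρ + δ) - (a + ρ) = δ by ring,
      show a - (1 - (ρ + δ)) - (a - (1 - ρ)) = δ by ring,
      show a + (1 - ρ) - (a + (1 - (ρ + δ))) = δ by ring,
      ← ENNReal.ofReal_add hδ hδ, ← ENNReal.ofReal_add (by linarith) (by linarith)]
    exact le_of_eq (congrArg _ (by ring))
  · rw [indicator_of_notMem ha]
    refine le_of_eq (measure_mono_null (fun b hb => ?_) measure_empty)
    exact absurd hb.1 ha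

section Grid

variable {n : ℕ} [NeZero n]

/-- A grid cell. -/
def cell (i : ZMod n) : Set ℝ := Ico ((i.val : ℝ) / n) (((i.val : ℝ) + 1) / n)

/-- A union of grid cells. -/
def cells (S : Finset (ZMod n)) : Set ℝ := ⋃ i ∈ S, cell i

lemma n_pos : (0 : ℝ) < n := by exact_mod_cast Nat.pos_of_ne_zero (NeZero.ne n)

lemma cell_subset (i : ZMod n) : cell i ⊆ I01 := by
  intro x hx
  have h1 : (i.val : ℝ) + 1 ≤ n := by exact_mod_cast ZMod.val_lt i
  simp only [cell, I01, mem_Ico] at hx ⊢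
  refine ⟨le_trans (by positivity) hx.1, hx.2.trans_le ?_⟩
  rw [div_le_one n_pos]
  exact h1

lemma disjoint_cell {i j : ZMod n} (h : i ≠ j) : Disjoint (cell i) (cell j) := by
  rw [Set.disjoint_left]
  intro x hi hj
  simp only [cell, mem_Ico] at hi hj
  apply h
  apply ZMod.val_injective n
  have h1 : (i.val : ℝ) < j.val + 1 := (div_lt_div_iff_of_pos_right n_pos).mp (hi.1.trans_lt hj.2)
  have h2 : (j.val : ℝ) < i.val + 1 := (div_lt_div_iff_of_pos_right n_pos).mp (hj.1.trans_lt hi.2)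
  have h1' : i.val < j.val + 1 := by exact_mod_cast h1
  have h2' : j.val < i.val + 1 := by exact_mod_cast h2
  omega

omit [NeZero n] in
lemma volume_cell (i : ZMod n) : volume (cell i) = ENNReal.ofReal (1 / n) := by
  rw [cell, Real.volume_Ico]
  congr 1
  ring

lemma volume_cells (S : Finset (ZMod n)) :
    volume (cells S) = ENNReal.ofReal (S.card / n) := by
  rw [cells, measure_biUnion_finset (fun i _ j _ h => disjoint_cell h)
    (fun i _ => measurableSet_Ico)]
  simp only [volume_cell, Finset.sum_const, nsmul_eq_mul]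
  rw [← ENNReal.ofReal_natCast, ← ENNReal.ofReal_mul (Nat.cast_nonneg _)]
  congr 1
  ring

lemma dd_val (i : ZMod n) : dd ((i.val : ℝ) / n) = (CycleRiesz.cdist i : ℝ) / n := by
  have h1 : (i.val : ℝ) < n := by exact_mod_cast ZMod.val_lt i
  rw [dd_eq_min _ (by positivity) ((div_lt_one n_pos).mpr h1), CycleRiesz.cdist,
    Nat.cast_min, Nat.cast_sub (ZMod.val_lt i).le, ← min_div_div_right n_pos.le]
  congr 1
  rw [sub_div, div_self n_pos.ne']

lemma dd_val_sub (i j : ZMod n) :
    dd ((i.val : ℝ) / n - (j.val : ℝ) / n) = (CycleRiesz.cdist (i - j) : ℝ) / n := by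
  rw [← dd_val, CycleRiesz.val_sub_eq i j]
  split_ifs with h
  · rw [Nat.cast_sub h, sub_div]
  · rw [Nat.cast_sub (by have := ZMod.val_lt j; omega), Nat.cast_add,
      show ((i.val : ℝ) + n - j.val) / n = ((i.val : ℝ) / n - j.val / n) + ((1 : ℤ) : ℝ) by
        rw [sub_div, add_div, div_self n_pos.ne']; push_cast; ring,
      dd_add_int]

lemma cdist_cell {i j : ZMod n} {a b : ℝ} (ha : a ∈ cell i) (hb : b ∈ cell j) :
    |dd (a - b) - (CycleRiesz.cdist (i - j) : ℝ) / n| ≤ 1 / n := by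
  rw [← dd_val_sub]
  simp only [cell, mem_Ico, add_div] at ha hb
  have h : |(a - b) - ((i.val : ℝ) / n - (j.val : ℝ) / n)| ≤ 1 / n :=
    abs_le.mpr ⟨by linarith, by linarith⟩
  have h1 := dd_le_add (a - b) ((i.val : ℝ) / n - (j.val : ℝ) / n)
  have h2 := dd_le_add ((i.val : ℝ) / n - (j.val : ℝ) / n) (a - b)
  rw [abs_sub_comm] at h2
  exact abs_le.mpr ⟨by linarith, by linarith⟩

/-- Cell pairs at grid distance at most `ρ n + 1`. -/
def nearPairs (S T : Finset (ZMod n)) (ρ : ℝ) : Finset (ZMod n × ZMod n) :=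
  (S ×ˢ T).filter fun q => (CycleRiesz.cdist (q.1 - q.2) : ℝ) ≤ ρ * n + 1

lemma corr_cells_le (S T : Finset (ZMod n)) (ρ : ℝ) :
    corr (cells S) (cells T) ρ ≤ (nearPairs S T ρ).card * ENNReal.ofReal (1 / n * (1 / n)) := by
  have hsub : pairSet (cells S) (cells T) ρ ⊆ ⋃ q ∈ nearPairs S T ρ, cell q.1 ×ˢ cell q.2 := by
    rintro p ⟨⟨ha, -⟩, ⟨hb, -⟩, hd⟩
    simp only [cells, mem_iUnion] at ha hb
    obtain ⟨i, hi, hai⟩ := ha
    obtain ⟨j, hj, hbj⟩ := hb
    refine mem_iUnion₂.mpr ⟨(i, j), ?_, hai, hbj⟩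
    simp only [nearPairs, Finset.mem_filter, Finset.mem_product]
    refine ⟨⟨hi, hj⟩, ?_⟩
    have := (abs_le.mp (cdist_cell hai hbj)).1
    have h' : (CycleRiesz.cdist (i - j) : ℝ) / n ≤ (ρ * n + 1) / n := by
      rw [add_div, mul_div_cancel_right₀ _ n_pos.ne']
      linarith
    exact (div_le_div_iff_of_pos_right n_pos).mp h'
  refine (measure_mono hsub).trans ((measure_biUnion_finset_le _ _).trans (le_of_eq ?_))
  simp [Measure.volume_eq_prod, Measure.prod_prod, volume_cell]

lemma le_corr_cells (S T : Finset (ZMod n)) (ρ : ℝ) :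
    (nearPairs S T ρ).card * ENNReal.ofReal (1 / n * (1 / n))
      ≤ corr (cells S) (cells T) (ρ + 2 / n) := by
  have hsub : (⋃ q ∈ nearPairs S T ρ, cell q.1 ×ˢ cell q.2)
      ⊆ pairSet (cells S) (cells T) (ρ + 2 / n) := by
    intro p hp
    obtain ⟨q, hq, hp1, hp2⟩ := mem_iUnion₂.mp hp
    simp only [nearPairs, Finset.mem_filter, Finset.mem_product] at hq
    refine ⟨⟨mem_iUnion₂.mpr ⟨q.1, hq.1.1, hp1⟩, cell_subset _ hp1⟩,
      ⟨mem_iUnion₂.mpr ⟨q.2, hq.1.2, hp2⟩, cell_subset _ hp2⟩, ?_⟩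
    have := (abs_le.mp (cdist_cell hp1 hp2)).2
    have h' := (div_le_div_iff_of_pos_right (n_pos (n := n))).mpr hq.2
    rw [add_div, mul_div_cancel_right₀ _ n_pos.ne'] at h'
    have e : (2 : ℝ) / n = 1 / n + 1 / n := by ring
    linarith
  refine le_trans (le_of_eq ?_) (measure_mono hsub)
  rw [measure_biUnion_finset ?_ (fun q _ => (show MeasurableSet (cell q.1) from measurableSet_Ico).prod
    (show MeasurableSet (cell q.2) from measurableSet_Ico))]
  · simp [Measure.volume_eq_prod, Measure.prod_prod, volume_cell]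
  · intro q _ q' _ hne
    rw [Function.onFun, Set.disjoint_left]
    rintro p ⟨h1, h2⟩ ⟨h1', h2'⟩
    apply hne
    refine Prod.ext ?_ ?_
    · by_contra h
      exact Set.disjoint_left.mp (disjoint_cell h) h1 h1'
    · by_contra h
      exact Set.disjoint_left.mp (disjoint_cell h) h2 h2'

lemma cells_arc_subset (k : ℕ) :
    cells (CycleRiesz.arc n k) ⊆ carc (((k : ℝ) + 3) / n) := by
  intro x hx
  obtain ⟨i, hi, hxi⟩ := mem_iUnion₂.mp hx
  simp only [CycleRiesz.arc, Finset.mem_filter, Finset.mem_univ, true_and] at hi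
  have hc : 2 * CycleRiesz.cdist i ≤ k := by
    have := ZMod.val_lt i
    unfold CycleRiesz.rank at hi
    unfold CycleRiesz.cdist
    split_ifs at hi <;> omega
  have hc' : 2 * ((CycleRiesz.cdist i : ℝ) / n) ≤ (k : ℝ) / n := by
    rw [← mul_div_assoc]
    exact (div_le_div_iff_of_pos_right n_pos).mpr (by exact_mod_cast hc)
  have h1 := dd_le_add x ((i.val : ℝ) / n)
  rw [dd_val] at h1
  simp only [cell, mem_Ico, add_div] at hxi
  have h2 : |x - (i.val : ℝ) / n| ≤ 1 / n := abs_le.mpr ⟨by linarith [show (0:ℝ) ≤ 1 / n by positivity], by linarith⟩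
  simp only [carc, mem_ofPred_eq, add_div]
  have : (0 : ℝ) < 1 / n := one_div_pos.mpr n_pos
  have e : (3 : ℝ) / n = 1 / n + 1 / n + 1 / n := by ring
  linarith

/-- The grid form of Riesz's inequality. -/
lemma corr_cells_arcs (S T : Finset (ZMod n)) (ρ : ℝ) :
    corr (cells S) (cells T) ρ ≤
      corr (cells (CycleRiesz.arc n S.card)) (cells (CycleRiesz.arc n T.card)) (ρ + 2 / n) := by
  refine (corr_cells_le S T ρ).trans (le_trans ?_ (le_corr_cells _ _ ρ))
  refine mul_le_mul' (Nat.cast_le.mpr ?_) le_rfl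
  have hK : Antitone fun d : ℕ => if (d : ℝ) ≤ ρ * n + 1 then (1 : ℝ) else 0 := by
    intro a b hab
    have : (a : ℝ) ≤ b := by exact_mod_cast hab
    show (if (b : ℝ) ≤ ρ * n + 1 then (1 : ℝ) else 0) ≤ if (a : ℝ) ≤ ρ * n + 1 then 1 else 0
    split_ifs <;> norm_num
    linarith
  have h := CycleRiesz.riesz_sets _ hK S T
  have hcount : ∀ S T : Finset (ZMod n),
      ∑ a ∈ S, ∑ b ∈ T, (if (CycleRiesz.cdist (a - b) : ℝ) ≤ ρ * n + 1 then (1 : ℝ) else 0)
        = (nearPairs S T ρ).card := by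
    intro S T
    rw [← Finset.sum_product']
    simp [nearPairs, Finset.sum_boole]
  simp only [hcount] at h
  exact_mod_cast h

end Grid

/-- A measurable subset of `[0,1)` is, up to `ε`, inside a union of grid cells of about its size. -/
lemma exists_cells (A : Set ℝ) (ε : ℝ) (hε : 0 < ε) :
    ∃ m : ℕ, ∀ (n : ℕ) [NeZero n], m ≤ n → ∃ S : Finset (ZMod n),
      volume ((A ∩ I01) \ cells S) ≤ ENNReal.ofReal ε ∧
      (S.card : ℝ) / n ≤ (volume (A ∩ I01)).toReal + ε := by
  have hfinI : volume I01 ≠ ⊤ := by simp [I01, Real.volume_Ico]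
  have hfin : volume (A ∩ I01) ≠ ⊤ := measure_ne_top_of_subset inter_subset_right hfinI
  have hεn : ENNReal.ofReal ε ≠ 0 := by simpa using hε
  obtain ⟨U, hAU, hUo, hUm⟩ := Set.exists_isOpen_lt_of_lt (μ := volume) (A ∩ I01)
    (volume (A ∩ I01) + ENNReal.ofReal ε) (ENNReal.lt_add_right hfin hεn)
  let G : ℕ → Set ℝ := fun m => {x | x ∈ U ∩ I01 ∧ Metric.ball x (1 / (m + 1)) ⊆ U}
  have hG : Monotone G := by
    intro a b hab x hx
    refine ⟨hx.1, (Metric.ball_subset_ball ?_).trans hx.2⟩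
    exact one_div_le_one_div_of_le (by positivity) (by exact_mod_cast Nat.add_le_add_right hab 1)
  have hGU : ⋃ m, G m = U ∩ I01 := by
    refine subset_antisymm (iUnion_subset fun m x hx => hx.1) fun x hx => ?_
    obtain ⟨δ, hδ, hball⟩ := Metric.isOpen_iff.mp hUo x hx.1
    obtain ⟨m, hm⟩ := exists_nat_one_div_lt hδ
    exact mem_iUnion.mpr ⟨m, hx, (Metric.ball_subset_ball hm.le).trans hball⟩
  have hUfin : volume (U ∩ I01) ≠ ⊤ := measure_ne_top_of_subset inter_subset_right hfinI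
  have ht := tendsto_measure_iUnion_atTop (μ := volume) hG
  rw [hGU] at ht
  obtain ⟨m, hm⟩ : ∃ m, volume (U ∩ I01) ≤ volume (G m) + ENNReal.ofReal ε := by
    by_cases h0 : volume (U ∩ I01) ≤ ENNReal.ofReal ε
    · exact ⟨0, h0.trans le_add_self⟩
    · have hlt : volume (U ∩ I01) - ENNReal.ofReal ε < volume (U ∩ I01) :=
        ENNReal.sub_lt_self hUfin (fun h => h0 (by rw [h]; exact zero_le)) hεn
      obtain ⟨m, hm⟩ := (ht.eventually (lt_mem_nhds hlt)).exists
      refine ⟨m, ?_⟩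
      have := hm.le
      exact tsub_le_iff_right.mp this
  refine ⟨m + 1, fun n _ hn => ?_⟩
  classical
  refine ⟨Finset.univ.filter fun i => cell i ⊆ U, ?_, ?_⟩
  · set C := cells (Finset.univ.filter fun i : ZMod n => cell i ⊆ U) with hC
    have hCU : C ⊆ U ∩ I01 := by
      intro x hx
      obtain ⟨i, hi, hxi⟩ := mem_iUnion₂.mp hx
      exact ⟨(Finset.mem_filter.mp hi).2 hxi, cell_subset i hxi⟩
    have hGC : G m ⊆ C := by
      rintro x ⟨⟨-, hx01⟩, hball⟩
      simp only [I01, mem_Ico] at hx01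
      have hn0 : (0 : ℝ) < n := n_pos
      set j : ℕ := ⌊x * n⌋₊
      have hj : j < n := by
        rw [Nat.floor_lt (by nlinarith)]
        nlinarith
      have hxj : x ∈ cell (j : ZMod n) := by
        rw [cell, ZMod.val_natCast_of_lt hj, mem_Ico, div_le_iff₀ hn0, lt_div_iff₀ hn0]
        exact ⟨Nat.floor_le (by nlinarith), Nat.lt_floor_add_one _⟩
      refine mem_iUnion₂.mpr ⟨j, Finset.mem_filter.mpr ⟨Finset.mem_univ _, fun y hy => ?_⟩, hxj⟩
      refine hball ?_
      simp only [cell, mem_Ico, add_div] at hxj hy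
      rw [Metric.mem_ball, Real.dist_eq]
      have hle : (1 : ℝ) / n ≤ 1 / (m + 1) :=
        one_div_le_one_div_of_le (by positivity) (by exact_mod_cast hn)
      rw [abs_lt]
      constructor <;> linarith
    have hCm : MeasurableSet C := Finset.measurableSet_biUnion _ fun i _ => measurableSet_Ico
    have h1 : (A ∩ I01) \ C ⊆ (U ∩ I01) \ C := fun x hx => ⟨⟨hAU hx.1, hx.1.2⟩, hx.2⟩
    refine (measure_mono h1).trans ?_
    rw [measure_sdiff hCU hCm.nullMeasurableSet (measure_ne_top_of_subset hCU hUfin),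
      tsub_le_iff_left]
    exact hm.trans (add_le_add (measure_mono hGC) le_rfl)
  · have hle : volume (cells (Finset.univ.filter fun i : ZMod n => cell i ⊆ U))
        ≤ volume (A ∩ I01) + ENNReal.ofReal ε := by
      refine le_trans (measure_mono ?_) hUm.le
      intro x hx
      obtain ⟨i, hi, hxi⟩ := mem_iUnion₂.mp hx
      exact (Finset.mem_filter.mp hi).2 hxi
    rw [volume_cells] at hle
    have := ENNReal.toReal_mono (ENNReal.add_ne_top.mpr ⟨hfin, ENNReal.ofReal_ne_top⟩) hle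
    rwa [ENNReal.toReal_ofReal (by positivity), ENNReal.toReal_add hfin ENNReal.ofReal_ne_top,
      ENNReal.toReal_ofReal hε.le] at this

/-- Riesz's inequality on the circle: centred arcs maximise the measure of close pairs. -/
theorem corr_le_arcs (A B : Set ℝ) (ρ : ℝ) :
    corr A B ρ ≤
      corr (carc (volume (A ∩ I01)).toReal) (carc (volume (B ∩ I01)).toReal) ρ := by
  set a := (volume (A ∩ I01)).toReal
  set b := (volume (B ∩ I01)).toReal
  refine ENNReal.le_of_forall_pos_le_add fun δ hδ _ => ?_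
  obtain ⟨ε, hε, hεδ⟩ : ∃ ε : ℝ, 0 < ε ∧ 20 * ε ≤ δ :=
    ⟨(δ : ℝ) / 20, div_pos (NNReal.coe_pos.mpr hδ) (by norm_num),
      le_of_eq (mul_div_cancel₀ _ (by norm_num))⟩
  obtain ⟨mA, hA⟩ := exists_cells A ε hε
  obtain ⟨mB, hB⟩ := exists_cells B ε hε
  obtain ⟨m, hm⟩ := exists_nat_ge (3 / ε)
  set n := mA + mB + m + 1 with hn
  have : NeZero n := ⟨by omega⟩
  obtain ⟨S, hS1, hS2⟩ := hA n (by omega)
  obtain ⟨T, hT1, hT2⟩ := hB n (by omega)
  have h3 : (3 : ℝ) / n ≤ ε := by
    rw [div_le_iff₀ n_pos]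
    rw [div_le_iff₀ hε] at hm
    have : (m : ℝ) ≤ n := by exact_mod_cast (by omega : m ≤ n)
    nlinarith
  have h2 : (2 : ℝ) / n ≤ ε :=
    le_trans (div_le_div_of_nonneg_right (by norm_num) (Nat.cast_nonneg n)) h3
  calc corr A B ρ
      ≤ corr (cells S) (cells T) ρ
          + (volume ((A ∩ I01) \ cells S) + volume ((B ∩ I01) \ cells T)) := corr_le_add _ _ _ _ _
    _ ≤ corr (carc (a + 2 * ε)) (carc (b + 2 * ε)) (ρ + ε)
          + (ENNReal.ofReal ε + ENNReal.ofReal ε) := by
        refine add_le_add ((corr_cells_arcs S T ρ).trans (corr_mono ?_ ?_ (by linarith)))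
          (add_le_add hS1 hT1)
        · intro x hx
          have := cells_arc_subset (n := n) S.card hx.1
          simp only [carc, mem_ofPred_eq, add_div] at this ⊢
          linarith
        · intro x hx
          have := cells_arc_subset (n := n) T.card hx.1
          simp only [carc, mem_ofPred_eq, add_div] at this ⊢
          linarith
    _ ≤ (corr (carc a) (carc b) ρ + ENNReal.ofReal (4 * ε)
          + (ENNReal.ofReal (2 * ε) + ENNReal.ofReal (2 * ε)))
          + (ENNReal.ofReal ε + ENNReal.ofReal ε) := by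
        refine add_le_add ((corr_le_add _ (carc a) _ (carc b) _).trans
          (add_le_add (corr_radius_le _ _ ρ ε hε.le) (add_le_add ?_ ?_))) le_rfl
        · exact (volume_carc_diff (by linarith)).trans (le_of_eq (congrArg _ (by ring)))
        · exact (volume_carc_diff (by linarith)).trans (le_of_eq (congrArg _ (by ring)))
    _ ≤ corr (carc a) (carc b) ρ + δ := by
        simp only [add_assoc]
        refine add_le_add le_rfl ?_
        rw [← ENNReal.ofReal_add (by linarith) (by linarith),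
          ← ENNReal.ofReal_add (by linarith) (by linarith),
          ← ENNReal.ofReal_add (by linarith) (by linarith),
          ← ENNReal.ofReal_add (by linarith) (by linarith)]
        rw [← ENNReal.ofReal_coe_nnreal]
        exact ENNReal.ofReal_le_ofReal (by linarith)

end

end Vale.P232.Rearr
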