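import Vale.Agent.P232.Defs
import Vale.Agent.P232.Rearr

/-!
P232: the shapes of the minimisers.
-/

open MeasureTheory Set
open scoped ENNReal

namespace Vale.P232

noncomputable section

/-- Points of the torus at distance less than `R` from the subtorus through `c` spanned by the
coordinate directions outside `W`: a ball (`W = univ`), a coordinate tube (two directions in `W`)
or a coordinate slab (one direction in `W`). -/
def shapeAt (W : Finset (Fin 3)) (c : V3) (R : ℝ) : Set V3 :=
  {x | ∑ i ∈ W, Rearr.dd (x i - c i) ^ 2 < R ^ 2}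

/-- A geodesic ball, up to a null set. -/
def IsBallSet (E : Set V3) : Prop :=
  ∃ (c : V3) (R : ℝ), 0 < R ∧ R ≤ 1 / 2 ∧ E =ᵐ[volume] shapeAt Finset.univ c R

/-- A solid tube about a shortest closed geodesic, up to a null set. -/
def IsTubeSet (E : Set V3) : Prop :=
  ∃ (i : Fin 3) (c : V3) (R : ℝ), 0 < R ∧ R ≤ 1 / 2 ∧ E =ᵐ[volume] shapeAt {i}ᶜ c R

/-- A slab between parallel coordinate tori, up to a null set. -/
def IsSlabSet (E : Set V3) : Prop :=
  ∃ (i : Fin 3) (c : V3) (R : ℝ), 0 < R ∧ R < 1 / 2 ∧ E =ᵐ[volume] shapeAt {i} c R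

theorem measurableSet_shapeAt (W : Finset (Fin 3)) (c : V3) (R : ℝ) :
    MeasurableSet (shapeAt W c R) :=
  measurableSet_lt (Finset.measurable_sum W fun i _ =>
    (Rearr.measurable_dd.comp (show Measurable fun x : V3 => x i - c i by fun_prop)).pow_const 2)
    measurable_const

theorem isPeriodic_shapeAt (W : Finset (Fin 3)) (c : V3) (R : ℝ) :
    IsPeriodic (shapeAt W c R) := by
  intro x k
  have h : ∀ i, Rearr.dd ((x + fun j => (k j : ℝ)) i - c i) = Rearr.dd (x i - c i) := fun i => by
    rw [Pi.add_apply, show x i + (k i : ℝ) - c i = x i - c i + (k i : ℝ) by ring,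
      Rearr.dd_add_int]
  simp only [shapeAt, mem_ofPred_eq, h]

end

end Vale.P232
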