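import Vale.Agent.P232.Defs
import Vale.Agent.P232.Rearr

/-!
Steiner symmetrisation on the three torus decreases the nonlocal perimeter.
-/

open MeasureTheory Set

namespace Vale.P232.Steiner

open Rearr

noncomputable section

/-- Coordinates transverse to an axis. -/
abbrev V2 := Fin 2 → ℝ

/-- Fundamental square. -/
def cube2 : Set V2 := univ.pi fun _ => Ico (0 : ℝ) 1

/-- Invariance under integer translations of the line. -/
def Per1 (A : Set ℝ) : Prop := ∀ (a : ℝ) (z : ℤ), a + z ∈ A ↔ a ∈ A

lemma measurableSet_cube : MeasurableSet cube :=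
  MeasurableSet.univ_pi fun _ => measurableSet_Ico

lemma measurableSet_I01 : MeasurableSet I01 := measurableSet_Ico

lemma measurableSet_cube2 : MeasurableSet cube2 :=
  MeasurableSet.univ_pi fun _ => measurableSet_Ico

lemma per1_window {A : Set ℝ} (hA : Per1 A) (hm : MeasurableSet A) (c : ℝ) :
    volume (A ∩ Ico 0 1) = volume (A ∩ Ioc c (c + 1)) := by
  have h1 := isAddFundamentalDomain_Ioc (one_pos : (0 : ℝ) < 1) 0 (volume : Measure ℝ)
  have h2 := isAddFundamentalDomain_Ioc (one_pos : (0 : ℝ) < 1) c (volume : Measure ℝ)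
  have hinv : ∀ g : AddSubgroup.zmultiples (1 : ℝ), (fun x => g +ᵥ x) ⁻¹' A = A := by
    intro g
    obtain ⟨z, hz⟩ := AddSubgroup.mem_zmultiples_iff.mp g.2
    ext x
    simp only [mem_preimage, AddSubgroup.vadd_def, vadd_eq_add, ← hz, zsmul_one]
    rw [add_comm]
    exact hA x z
  have h := h1.measure_set_eq h2 hm hinv
  rw [zero_add] at h
  rw [← h]
  exact measure_congr (Filter.EventuallyEq.inter (Filter.EventuallyEq.refl _ A) Ico_ae_eq_Ioc)

lemma dd_neg (x : ℝ) : dd (-x) = dd x := by
  refine le_antisymm ?_ ?_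
  · refine (dd_le_abs _ (-round x)).trans (le_of_eq ?_)
    unfold dd
    push_cast
    rw [← abs_neg, neg_sub, sub_neg_eq_add, neg_add_eq_sub]
  · refine (dd_le_abs _ (-round (-x))).trans (le_of_eq ?_)
    unfold dd
    push_cast
    rw [← abs_neg]
    congr 1
    ring

lemma dd_eq_abs {x : ℝ} (h : |x| ≤ 1 / 2) : dd x = |x| := by
  refine le_antisymm (by simpa using dd_le_abs x 0) ?_
  unfold dd
  by_cases hz : round x = 0
  · simp [hz]
  · have h1 : (1 : ℝ) ≤ |(round x : ℝ)| := by exact_mod_cast Int.one_le_abs hz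
    have h2 := abs_sub_abs_le_abs_sub ((round x : ℤ) : ℝ) x
    rw [abs_sub_comm] at h2
    linarith

lemma per1_carc (m : ℝ) : Per1 (carc m) := fun a z => by simp [carc, dd_add_int]

lemma per1_translate {B : Set ℝ} (hB : Per1 B) (t : ℝ) : Per1 {a | a + t ∈ B} := fun a z => by
  simp only [mem_ofPred_eq]
  rw [show a + (z : ℝ) + t = a + t + z by ring]
  exact hB _ z

lemma volume_translate {B : Set ℝ} (hB : Per1 B) (hm : MeasurableSet B) (t : ℝ) :
    volume ({a | a + t ∈ B} ∩ I01) = volume (B ∩ I01) := by
  unfold I01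
  rw [per1_window (per1_translate hB t) (hm.preimage (measurable_add_const t)) (-t),
    per1_window hB hm 0]
  have h : {a | a + t ∈ B} ∩ Ioc (-t) (-t + 1) = (fun a => a + t) ⁻¹' (B ∩ Ioc 0 (0 + 1)) := by
    ext a
    simp only [mem_inter_iff, mem_ofPred_eq, mem_Ioc, mem_preimage]
    exact ⟨fun ⟨h1, h2, h3⟩ => ⟨h1, by linarith, by linarith⟩,
      fun ⟨h1, h2, h3⟩ => ⟨h1, by linarith, by linarith⟩⟩
  rw [h, measure_preimage_add_right]

/-- The translations of one axis meeting a pair of sets. -/
lemma lintegral_inter_translate {A B : Set ℝ} (hA : MeasurableSet A) (hBm : MeasurableSet B)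
    (hB : Per1 B) {ρ : ℝ} (hρ : ρ < 1 / 2) :
    ∫⁻ t in Icc (-ρ) ρ, volume (A ∩ {a | a + t ∈ B} ∩ I01) = corr A B ρ := by
  set M : Set (ℝ × ℝ) := {p | (p.1 ∈ A ∧ p.1 ∈ I01) ∧ p.2 ∈ Icc (-ρ) ρ ∧ p.1 + p.2 ∈ B}
  have hM : MeasurableSet M :=
    ((measurable_fst hA).inter (measurable_fst measurableSet_I01)).inter
      ((measurable_snd measurableSet_Icc).inter ((measurable_fst.add measurable_snd) hBm))
  have hP : MeasurableSet (pairSet A B ρ) :=
    ((measurable_fst hA).inter (measurable_fst measurableSet_I01)).inter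
      (((measurable_snd hBm).inter (measurable_snd measurableSet_I01)).inter
        (measurableSet_le (measurable_dd.comp (measurable_fst.sub measurable_snd))
          measurable_const))
  have h1 : ∫⁻ t in Icc (-ρ) ρ, volume (A ∩ {a | a + t ∈ B} ∩ I01)
      = (volume.prod volume) M := by
    rw [Measure.prod_apply_symm hM, ← lintegral_indicator measurableSet_Icc]
    refine lintegral_congr fun t => ?_
    by_cases ht : t ∈ Icc (-ρ) ρ
    · rw [indicator_of_mem ht]
      refine congrArg volume ?_
      ext a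
      exact ⟨fun ⟨⟨h1, h2⟩, h3⟩ => ⟨⟨h1, h3⟩, ht, h2⟩, fun ⟨⟨h1, h3⟩, _, h2⟩ => ⟨⟨h1, h2⟩, h3⟩⟩
    · rw [indicator_of_notMem ht]
      symm
      refine measure_mono_null (fun a ha => ?_) measure_empty
      exact absurd ha.2.1 ht
  rw [h1, corr, Measure.volume_eq_prod, Measure.prod_apply hM, Measure.prod_apply hP]
  refine lintegral_congr fun a => ?_
  by_cases ha : a ∈ A ∧ a ∈ I01
  swap
  · refine Eq.trans (measure_mono_null (fun t ht => absurd ht.1 ha) measure_empty) ?_
    exact (measure_mono_null (fun t ht => absurd ht.1 ha) measure_empty).symm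
  set S : Set ℝ := {b | b ∈ B ∧ dd (a - b) ≤ ρ}
  have hS : Per1 S := fun b z => by
    simp only [S, mem_ofPred_eq, hB b z]
    rw [show a - (b + z) = a - b + ((-z : ℤ) : ℝ) by push_cast; ring, dd_add_int]
  have hSm : MeasurableSet S :=
    hBm.inter (measurableSet_le (measurable_dd.comp (measurable_const.sub measurable_id))
      measurable_const)
  have h2 : Prod.mk a ⁻¹' pairSet A B ρ = S ∩ Ico 0 1 := by
    ext b
    exact ⟨fun h => ⟨⟨h.2.1.1, h.2.2⟩, h.2.1.2⟩, fun h => ⟨ha, ⟨h.1.1, h.2⟩, h.1.2⟩⟩
  rw [h2, per1_window hS hSm (a - 1 / 2)]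
  rw [show Prod.mk a ⁻¹' M = (fun t => a + t) ⁻¹' (S ∩ Ioc (a - 1 / 2) (a - 1 / 2 + 1)) by
    ext t
    simp only [M, S, mem_preimage, mem_ofPred_eq, mem_inter_iff, mem_Ioc, mem_Icc]
    constructor
    · rintro ⟨-, ⟨h3, h4⟩, h5⟩
      have hh : |a - (a + t)| ≤ ρ := abs_le.mpr ⟨by linarith, by linarith⟩
      exact ⟨⟨h5, by rw [dd_eq_abs (by linarith)]; exact hh⟩, by linarith, by linarith⟩
    · rintro ⟨⟨h5, h6⟩, h7, h8⟩
      rw [dd_eq_abs (abs_le.mpr ⟨by linarith, by linarith⟩), abs_le] at h6
      exact ⟨ha, ⟨by linarith, by linarith⟩, h5⟩]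
  exact measure_preimage_add volume a _

lemma symmDiff_add_inter (A B : Set ℝ) (hA : MeasurableSet A) (hB : MeasurableSet B) :
    volume (symmDiff A B ∩ I01) + 2 * volume (A ∩ B ∩ I01)
      = volume (A ∩ I01) + volume (B ∩ I01) := by
  have e : symmDiff A B ∩ I01 = ((A ∩ I01) \ B) ∪ ((B ∩ I01) \ A) := by
    ext x
    simp only [Set.mem_symmDiff, mem_inter_iff, mem_union, Set.mem_sdiff]
    tauto
  rw [e, measure_union ?_ ((hB.inter measurableSet_I01).diff hA)]
  · have h1 := measure_inter_add_sdiff (μ := volume) (A ∩ I01) hB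
    have h2 := measure_inter_add_sdiff (μ := volume) (B ∩ I01) hA
    rw [← h1, ← h2, show A ∩ I01 ∩ B = A ∩ B ∩ I01 by ext; simp only [mem_inter_iff]; tauto,
      show B ∩ I01 ∩ A = A ∩ B ∩ I01 by ext; simp only [mem_inter_iff]; tauto]
    ring
  · rw [Set.disjoint_left]
    exact fun x hx hx' => hx'.2 hx.1.1

lemma measurable_fibre {α β : Type*} [MeasurableSpace α] [MeasurableSpace β] (μ : Measure β)
    [SFinite μ] {S : Set (α × β)} (hS : MeasurableSet S) :
    Measurable fun x => μ (Prod.mk x ⁻¹' S) := measurable_measure_prodMk_left hS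

/-- The one dimensional comparison: centred arcs have the smallest difference to translates. -/
lemma arcs_symmDiff_le {A B : Set ℝ} (hAm : MeasurableSet A) (hBm : MeasurableSet B)
    (hB : Per1 B) {ρ : ℝ} (hρ : ρ < 1 / 2) :
    ∫⁻ t in Icc (-ρ) ρ, volume (symmDiff (carc (volume (A ∩ I01)).toReal)
        {a | a + t ∈ carc (volume (B ∩ I01)).toReal} ∩ I01) ≤
      ∫⁻ t in Icc (-ρ) ρ, volume (symmDiff A {a | a + t ∈ B} ∩ I01) := by
  have hle : ∀ C : Set ℝ, volume (C ∩ I01) ≤ 1 := fun C =>
    (measure_mono inter_subset_right).trans (le_of_eq (by simp [I01, Real.volume_Ico]))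
  have hfin : ∀ C : Set ℝ, volume (C ∩ I01) ≠ ⊤ :=
    fun C => ((hle C).trans_lt ENNReal.one_lt_top).ne
  have hid : ∀ (C D : Set ℝ), MeasurableSet C → MeasurableSet D → Per1 D →
      (∫⁻ t in Icc (-ρ) ρ, volume (symmDiff C {a | a + t ∈ D} ∩ I01)) + 2 * corr C D ρ
        = (volume (C ∩ I01) + volume (D ∩ I01)) * volume (Icc (-ρ) ρ) := by
    intro C D hC hD hDp
    have hmeas : Measurable fun t : ℝ => volume (symmDiff C {a | a + t ∈ D} ∩ I01) := by
      have hS : MeasurableSet
          {p : ℝ × ℝ | p.2 ∈ symmDiff C {a | a + p.1 ∈ D} ∧ p.2 ∈ I01} := by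
        have h1 : MeasurableSet {p : ℝ × ℝ | p.2 ∈ C} := measurable_snd hC
        have h2 : MeasurableSet {p : ℝ × ℝ | p.2 + p.1 ∈ D} :=
          (measurable_snd.add measurable_fst) hD
        exact ((h1.diff h2).union (h2.diff h1)).inter (measurable_snd measurableSet_I01)
      exact measurable_fibre volume hS
    rw [← lintegral_inter_translate hC hD hDp hρ, ← lintegral_const_mul' 2 _ (by simp),
      ← lintegral_add_left hmeas, ← setLIntegral_const]
    refine setLIntegral_congr_fun measurableSet_Icc fun t _ => ?_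
    rw [← volume_translate hDp hD t]
    exact symmDiff_add_inter _ _ hC (hD.preimage (measurable_add_const t))
  set a := (volume (A ∩ I01)).toReal
  set b := (volume (B ∩ I01)).toReal
  have ha : volume (carc a ∩ I01) = volume (A ∩ I01) := by
    rw [volume_carc ENNReal.toReal_nonneg (ENNReal.toReal_le_of_le_ofReal one_pos.le
      (by simpa using hle A)), ENNReal.ofReal_toReal (hfin A)]
  have hb : volume (carc b ∩ I01) = volume (B ∩ I01) := by
    rw [volume_carc ENNReal.toReal_nonneg (ENNReal.toReal_le_of_le_ofReal one_pos.le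
      (by simpa using hle B)), ENNReal.ofReal_toReal (hfin B)]
  have h1 := hid (carc a) (carc b) (measurableSet_carc a) (measurableSet_carc b) (per1_carc b)
  rw [ha, hb, ← hid A B hAm hBm hB] at h1
  have hsub : pairSet A B ρ ⊆ I01 ×ˢ I01 := fun p hp => ⟨hp.1.2, hp.2.1.2⟩
  have hfinc : 2 * corr A B ρ ≠ ⊤ := by
    refine ENNReal.mul_ne_top (by simp) (measure_ne_top_of_subset hsub ?_)
    simp [Measure.volume_eq_prod, Measure.prod_prod, I01, Real.volume_Ico]
  refine (ENNReal.add_le_add_iff_right hfinc).mp ?_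
  rw [← h1]
  exact add_le_add le_rfl (mul_le_mul' le_rfl (corr_le_arcs A B ρ))

section Axis

variable (i : Fin 3)

/-- Fibre of `E` in direction `i` over transverse coordinates. -/
def fib (E : Set V3) (y : V2) : Set ℝ := {a | i.insertNth a y ∈ E}

/-- Length of the fibre through a point. -/
def flen (E : Set V3) (x : V3) : ℝ :=
  (volume ({a | Function.update x i a ∈ E} ∩ I01)).toReal

/-- Steiner symmetrisation in direction `i`. -/
def St (E : Set V3) : Set V3 := {x | x i ∈ carc (flen i E x)}

lemma measurable_insertNth : Measurable fun p : V2 × ℝ => (i.insertNth p.2 p.1 : V3) := by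
  refine measurable_pi_iff.mpr fun k => ?_
  rcases Fin.eq_self_or_eq_succAbove i k with rfl | ⟨j, rfl⟩
  · simp only [Fin.insertNth_apply_same]
    exact measurable_snd
  · simp only [Fin.insertNth_apply_succAbove]
    exact (measurable_pi_apply j).comp measurable_fst

lemma insertNth_add' (a t : ℝ) (y k : V2) :
    (i.insertNth a y : V3) + i.insertNth t k = i.insertNth (a + t) (y + k) := by
  ext c
  rcases Fin.eq_self_or_eq_succAbove i c with rfl | ⟨j, rfl⟩ <;> simp

lemma insertNth_mem_cube (a : ℝ) (y : V2) :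
    (i.insertNth a y : V3) ∈ cube ↔ a ∈ I01 ∧ y ∈ cube2 := by
  simp only [cube, cube2, I01, mem_univ_pi]
  constructor
  · intro h
    exact ⟨by simpa using h i, fun j => by simpa using h (i.succAbove j)⟩
  · rintro ⟨h1, h2⟩ c
    rcases Fin.eq_self_or_eq_succAbove i c with rfl | ⟨j, rfl⟩
    · simpa using h1
    · simpa using h2 j

/-- Fubini in direction `i`. -/
lemma lintegral_axis (F : V3 → ENNReal) (hF : Measurable F) :
    ∫⁻ x, F x = ∫⁻ y : V2, ∫⁻ a : ℝ, F (i.insertNth a y) := by
  have hmp := (volume_preserving_piFinSuccAbove (fun _ : Fin 3 => ℝ) i).symm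
  rw [← hmp.lintegral_comp hF, Measure.volume_eq_prod]
  exact (lintegral_prod_symm' (fun p => F ((MeasurableEquiv.piFinSuccAbove
    (fun _ : Fin 3 => ℝ) i).symm p)) (hF.comp hmp.measurable)).trans rfl

lemma volume_axis (S : Set V3) (hS : MeasurableSet S) :
    volume S = ∫⁻ y : V2, volume (fib i S y) := by
  rw [← lintegral_indicator_one hS,
    lintegral_axis i _ (measurable_one.indicator hS)]
  refine lintegral_congr fun y => ?_
  have hf : MeasurableSet (fib i S y) :=
    hS.preimage ((measurable_insertNth i).comp (measurable_prodMk_left (x := y)))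
  rw [← lintegral_indicator_one hf]
  rfl

lemma volume_inter_cube (S : Set V3) (hS : MeasurableSet S) :
    volume (S ∩ cube) = ∫⁻ y in cube2, volume (fib i S y ∩ I01) := by
  rw [volume_axis i _ (hS.inter measurableSet_cube), ← lintegral_indicator measurableSet_cube2]
  refine lintegral_congr fun y => ?_
  by_cases hy : y ∈ cube2
  · rw [indicator_of_mem hy]
    refine congrArg volume ?_
    ext a
    simp [fib, insertNth_mem_cube, hy]
  · rw [indicator_of_notMem hy]
    refine measure_mono_null (fun a ha => ?_) measure_empty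
    exact absurd ((insertNth_mem_cube i a y).mp ha.2).2 hy

variable {E : Set V3}

lemma measurableSet_fib (hm : MeasurableSet E) (y : V2) : MeasurableSet (fib i E y) :=
  hm.preimage ((measurable_insertNth i).comp (measurable_prodMk_left (x := y)))

lemma per1_fib (hp : IsPeriodic E) (y : V2) : Per1 (fib i E y) := by
  intro a z
  have h : (i.insertNth (a + (z : ℝ)) y : V3)
      = i.insertNth a y + fun k => ((Pi.single i z : Fin 3 → ℤ) k : ℝ) := by
    ext c
    rcases Fin.eq_self_or_eq_succAbove i c with rfl | ⟨j, rfl⟩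
    · simp
    · simp [Fin.succAbove_ne i j]
  simp only [fib, mem_ofPred_eq, h]
  exact hp _ _

lemma flen_insertNth (a : ℝ) (y : V2) :
    flen i E (i.insertNth a y) = (volume (fib i E y ∩ I01)).toReal := by
  simp only [flen, fib, Fin.update_insertNth]

lemma fib_St (y : V2) :
    fib i (St i E) y = carc (volume (fib i E y ∩ I01)).toReal := by
  ext a
  simp [fib, St, flen_insertNth]

lemma measurable_flen (hm : MeasurableSet E) : Measurable (flen i E) := by
  have hu : Measurable fun p : V3 × ℝ => Function.update p.1 i p.2 := by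
    refine measurable_pi_iff.mpr fun k => ?_
    by_cases hk : k = i
    · subst hk
      simp only [Function.update_self]
      exact measurable_snd
    · simp only [Function.update_of_ne hk]
      exact (measurable_pi_apply k).comp measurable_fst
  exact (measurable_fibre volume ((hu hm).inter (measurable_snd measurableSet_I01))).ennreal_toReal

lemma measurableSet_St (hm : MeasurableSet E) : MeasurableSet (St i E) :=
  measurableSet_lt (measurable_dd.comp (measurable_pi_apply i))
    ((measurable_flen i hm).div_const 2)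

lemma periodic_St (hp : IsPeriodic E) : IsPeriodic (St i E) := by
  intro x k
  have hf : flen i E (x + fun c => (k c : ℝ)) = flen i E x := by
    unfold flen
    have : {a | Function.update (x + fun c => (k c : ℝ)) i a ∈ E}
        = {a | Function.update x i a ∈ E} := by
      ext a
      have h : Function.update (x + fun c => (k c : ℝ)) i a
          = Function.update x i a + fun c => ((Function.update k i 0) c : ℝ) := by
        ext c
        by_cases hc : c = i
        · subst hc; simp
        · simp [hc]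
      simp only [mem_ofPred_eq, h]
      exact hp _ _
    rw [this]
  simp only [St, carc, mem_ofPred_eq, hf, Pi.add_apply, dd_add_int]

lemma tvol_St (hm : MeasurableSet E) : tvol (St i E) = tvol E := by
  unfold tvol
  rw [volume_inter_cube i _ (measurableSet_St i hm), volume_inter_cube i _ hm]
  refine congrArg _ (setLIntegral_congr_fun measurableSet_cube2 fun y _ => ?_)
  have hle : volume (fib i E y ∩ I01) ≤ 1 :=
    (measure_mono inter_subset_right).trans (le_of_eq (by simp [I01, Real.volume_Ico]))
  rw [fib_St, volume_carc ENNReal.toReal_nonneg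
    (ENNReal.toReal_le_of_le_ofReal one_pos.le (by simpa using hle)),
    ENNReal.ofReal_toReal (hle.trans_lt ENNReal.one_lt_top).ne]

/-- Measure of the difference to the translate by `h`. -/
def diffVol (E : Set V3) (h : V3) : ENNReal := volume (symmDiff E {x | x + h ∈ E} ∩ cube)

lemma measurable_diffVol (hm : MeasurableSet E) : Measurable (diffVol E) := by
  have h1 : MeasurableSet {p : V3 × V3 | p.2 ∈ E} := measurable_snd hm
  have h2 : MeasurableSet {p : V3 × V3 | p.2 + p.1 ∈ E} := (measurable_snd.add measurable_fst) hm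
  exact measurable_fibre volume
    (((h1.diff h2).union (h2.diff h1)).inter (measurable_snd measurableSet_cube))

lemma diffVol_le_one (E : Set V3) (h : V3) : diffVol E h ≤ 1 :=
  (measure_mono inter_subset_right).trans (le_of_eq (by simp [cube, Real.volume_Ico,
    volume_pi_pi]))

lemma measurableSet_eball (r : ℝ) : MeasurableSet (eball r) :=
  measurableSet_le (by fun_prop) measurable_const

lemma measurableSet_symmDiff' {α : Type*} [MeasurableSpace α] {s t : Set α}
    (hs : MeasurableSet s) (ht : MeasurableSet t) : MeasurableSet (symmDiff s t) :=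
  (hs.diff ht).union (ht.diff hs)

/-- The averaged difference, fibre by fibre. -/
lemma lintegral_diffVol (hm : MeasurableSet E) (r : ℝ) :
    ∫⁻ h in eball r, diffVol E h = ∫⁻ k : V2, ∫⁻ y in cube2,
      ∫⁻ t in {t : ℝ | i.insertNth t k ∈ eball r},
        volume (symmDiff (fib i E y) {a | a + t ∈ fib i E (y + k)} ∩ I01) := by
  rw [← lintegral_indicator (measurableSet_eball r),
    lintegral_axis i _ ((measurable_diffVol hm).indicator (measurableSet_eball r))]
  refine lintegral_congr fun k => ?_
  have hsl : MeasurableSet {t : ℝ | (i.insertNth t k : V3) ∈ eball r} :=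
    (measurableSet_eball r).preimage ((measurable_insertNth i).comp (measurable_prodMk_left (x := k)))
  set T := {t : ℝ | (i.insertNth t k : V3) ∈ eball r}
  have e1 : (fun t => (eball r).indicator (diffVol E) (i.insertNth t k))
      = T.indicator fun t => diffVol E (i.insertNth t k) := rfl
  rw [e1, lintegral_indicator hsl]
  have hJ : Measurable (Function.uncurry fun (t : ℝ) (y : V2) =>
      volume (symmDiff (fib i E y) {a | a + t ∈ fib i E (y + k)} ∩ I01)) := by
    have h1 : MeasurableSet {p : (ℝ × V2) × ℝ | (i.insertNth p.2 p.1.2 : V3) ∈ E} :=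
      ((measurable_insertNth i).comp
        ((measurable_snd.comp measurable_fst).prodMk measurable_snd)) hm
    have h2 : MeasurableSet
        {p : (ℝ × V2) × ℝ | (i.insertNth (p.2 + p.1.1) (p.1.2 + k) : V3) ∈ E} :=
      ((measurable_insertNth i).comp (((measurable_snd.comp measurable_fst).add_const k).prodMk
        (measurable_snd.add (measurable_fst.comp measurable_fst)))) hm
    exact measurable_fibre volume
      (((h1.diff h2).union (h2.diff h1)).inter (measurable_snd measurableSet_I01))
  rw [← lintegral_lintegral_swap hJ.aemeasurable]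
  refine lintegral_congr fun t => ?_
  have hs : MeasurableSet (symmDiff E {x : V3 | x + i.insertNth t k ∈ E}) :=
    measurableSet_symmDiff' hm (hm.preimage (measurable_add_const (i.insertNth t k : V3)))
  rw [diffVol, volume_inter_cube i _ hs]
  refine lintegral_congr fun y => congrArg volume ?_
  ext a
  simp only [fib, Set.mem_symmDiff, mem_ofPred_eq, mem_inter_iff, insertNth_add']

lemma slice_eball (r : ℝ) (k : V2) :
    {t : ℝ | (i.insertNth t k : V3) ∈ eball r} =
      if ∑ j, k j ^ 2 ≤ r ^ 2 then
        Icc (-Real.sqrt (r ^ 2 - ∑ j, k j ^ 2)) (Real.sqrt (r ^ 2 - ∑ j, k j ^ 2))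
      else ∅ := by
  have hsum : ∀ t : ℝ, ∑ c, (i.insertNth t k : V3) c ^ 2 = t ^ 2 + ∑ j, k j ^ 2 := by
    intro t
    rw [Fin.sum_univ_succAbove _ i]
    simp
  ext t
  simp only [eball, mem_ofPred_eq, hsum]
  split_ifs with h
  · rw [mem_Icc, ← abs_le]
    constructor
    · intro ht
      rw [← Real.sqrt_sq_eq_abs]
      exact Real.sqrt_le_sqrt (by linarith)
    · intro ht
      have := pow_le_pow_left₀ (abs_nonneg t) ht 2
      rw [sq_abs, Real.sq_sqrt (by linarith)] at this
      linarith
  · simp only [mem_empty_iff_false, iff_false]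
    intro ht
    apply h
    linarith [sq_nonneg t]

lemma Phi_St_le (hm : MeasurableSet E) (hp : IsPeriodic E) {r : ℝ} (hr0 : 0 < r)
    (hr : r < 1 / 2) : Phi r (St i E) ≤ Phi r E := by
  have hball : volume (eball r) ≠ ⊤ := by
    have hsub : eball r ⊆ Icc (fun _ => -r) fun _ => r := fun h hh => ?_
    swap
    · have hc : ∀ c, |h c| ≤ r := fun c => by
        rw [← abs_of_pos hr0, ← sq_le_sq]
        exact le_trans (Finset.single_le_sum (f := fun j => h j ^ 2)
          (fun j _ => sq_nonneg _) (Finset.mem_univ c)) hh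
      exact ⟨fun c => (abs_le.mp (hc c)).1, fun c => (abs_le.mp (hc c)).2⟩
    · exact measure_ne_top_of_subset hsub isCompact_Icc.measure_ne_top
  have hint : ∀ F : Set V3, MeasurableSet F →
      ∫ h in eball r, shiftDiff F h = (∫⁻ h in eball r, diffVol F h).toReal := fun F hF =>
    integral_toReal (measurable_diffVol hF).aemeasurable
      (Filter.Eventually.of_forall fun h => (diffVol_le_one F h).trans_lt ENNReal.one_lt_top)
  have hfin : ∫⁻ h in eball r, diffVol E h ≠ ⊤ := by
    refine ne_top_of_le_ne_top hball (le_trans (setLIntegral_mono measurable_const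
      fun h _ => diffVol_le_one E h) (le_of_eq (setLIntegral_one _)))
  unfold Phi
  rw [hint _ (measurableSet_St i hm), hint _ hm]
  refine div_le_div_of_nonneg_right (ENNReal.toReal_mono hfin ?_)
    (integral_nonneg fun h => abs_nonneg _)
  rw [lintegral_diffVol i (measurableSet_St i hm) r, lintegral_diffVol i hm r]
  refine lintegral_mono fun k => lintegral_mono fun y => ?_
  rw [slice_eball]
  split_ifs with h
  · rw [fib_St, fib_St]
    refine arcs_symmDiff_le (measurableSet_fib i hm y) (measurableSet_fib i hm _)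
      (per1_fib i hp _) ?_
    refine lt_of_le_of_lt ?_ hr
    rw [← Real.sqrt_sq hr0.le]
    refine Real.sqrt_le_sqrt ?_
    rw [Real.sqrt_sq hr0.le]
    linarith [Finset.sum_nonneg fun j (_ : j ∈ Finset.univ) => sq_nonneg (k j)]
  · simp

/-- Symmetric and monotone in one coordinate. -/
def MonoAx (j : Fin 3) (E : Set V3) : Prop :=
  ∀ x y : V3, (∀ k, k ≠ j → y k = x k) → dd (y j) ≤ dd (x j) → x ∈ E → y ∈ E

lemma monoAx_St_self : MonoAx i (St i E) := by
  intro x y hxy hd hx
  have h : flen i E y = flen i E x := by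
    unfold flen
    have : ∀ a : ℝ, Function.update y i a = Function.update x i a := by
      intro a
      ext c
      by_cases hc : c = i
      · subst hc; simp
      · simp [hc, hxy c hc]
    simp only [this]
  simp only [St, carc, mem_ofPred_eq, h] at hx ⊢
  exact hd.trans_lt hx

lemma monoAx_St_of_ne {j : Fin 3} (hji : j ≠ i) (hE : MonoAx j E) : MonoAx j (St i E) := by
  intro x y hxy hd hx
  have hle : flen i E x ≤ flen i E y := by
    refine ENNReal.toReal_mono (measure_ne_top_of_subset inter_subset_right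
      (by simp [I01, Real.volume_Ico])) (measure_mono ?_)
    refine inter_subset_inter_left _ fun a ha => hE _ _ ?_ ?_ ha
    · intro c hc
      by_cases hci : c = i
      · subst hci; simp
      · simp [hci, hxy c hc]
    · simp [hji, hd]
  simp only [St, carc, mem_ofPred_eq, hxy i (Ne.symm hji)] at hx ⊢
  linarith

end Axis

/-- A measurable periodic set can be symmetrised without increasing the nonlocal perimeter. -/
theorem exists_symMono (E : Set V3) (hm : MeasurableSet E) (hp : IsPeriodic E) :
    ∃ E' : Set V3, MeasurableSet E' ∧ SymMono E' ∧ tvol E' = tvol E ∧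
      ∀ r, 0 < r → r < 1 / 4 → Phi r E' ≤ Phi r E := by
  set E₀ := St 0 E
  set E₁ := St 1 E₀
  set E₂ := St 2 E₁
  have m₀ := measurableSet_St 0 hm
  have m₁ := measurableSet_St 1 m₀
  have p₀ := periodic_St 0 hp
  have p₁ := periodic_St 1 p₀
  have a0 : MonoAx 0 E₂ := monoAx_St_of_ne 2 (by decide) (monoAx_St_of_ne 1 (by decide)
    (monoAx_St_self 0))
  have a1 : MonoAx 1 E₂ := monoAx_St_of_ne 2 (by decide) (monoAx_St_self 1)
  have a2 : MonoAx 2 E₂ := monoAx_St_self 2
  refine ⟨E₂, measurableSet_St 2 m₁, ⟨periodic_St 2 p₁, fun x y hx hy hmem => ?_⟩,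
    (tvol_St 2 m₁).trans ((tvol_St 1 m₀).trans (tvol_St 0 hm)), fun r hr0 hr => ?_⟩
  · have hdd : ∀ c, dd (y c) ≤ dd (x c) := fun c => by
      rw [dd_eq_abs (hx c), dd_eq_abs ((hy c).trans (hx c))]
      exact hy c
    set x₁ := Function.update x 0 (y 0)
    set x₂ := Function.update x₁ 1 (y 1)
    have h₁ : x₁ ∈ E₂ := a0 x x₁ (fun k hk => by simp [x₁, hk]) (by simpa [x₁] using hdd 0) hmem
    have h₂ : x₂ ∈ E₂ := a1 x₁ x₂ (fun k hk => by simp [x₂, hk])
      (by simpa [x₁, x₂] using hdd 1) h₁
    refine a2 x₂ y (fun k hk => ?_) (by simpa [x₁, x₂] using hdd 2) h₂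
    fin_cases k <;> simp_all [x₁, x₂]
  · have hr' : r < 1 / 2 := by linarith
    exact (Phi_St_le 2 m₁ p₁ hr0 hr').trans
      ((Phi_St_le 1 m₀ p₀ hr0 hr').trans (Phi_St_le 0 hm hp hr0 hr'))

end

end Vale.P232.Steiner
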