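import Vale.Agent.P232.Cases
import Vale.Agent.P232.Shapes
import Vale.Agent.P232.Steiner

/-!
P232: interfaces of the modules that classify the minimisers.
-/

open MeasureTheory Real Set Filter Topology
open scoped ENNReal

namespace Vale.P232

noncomputable section

/-! ### Levels at which the scalar certificates leave no room -/

/-- A level at which every slice perpendicular to the last axis is bounded below by a disc. -/
structure DiscLevel {f : V3 → ℝ} (hf : CoreFun f) (t : ℝ) : Prop where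
  le_T0 : sliceA f t 0 ≤ T0
  flux : Flux hf t (Ioo (0:ℝ) (1/2)) (fun z => discP (sliceA f t z))
  thinX : ∀ z ∈ Ioo (0:ℝ) (1/2), 0 < yr f t (1/2) z → xr f t (1/2) z = 0 →
    1 / π < sliceA f t z → yr f t (1/2) z ≤ h0
  thinY : ∀ z ∈ Ioo (0:ℝ) (1/2), 0 < xr f t (1/2) z → yr f t (1/2) z = 0 →
    1 / π < sliceA f t z → xr f t (1/2) z ≤ h0

/-- Slice bound near the slab corner. -/
def cornerL (a : ℝ) : ℝ := min (discP a) (min 2 (discP (1 - a)))

/-- A level near the slab corner. -/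
structure CornerLevel {f : V3 → ℝ} (hf : CoreFun f) (t : ℝ) : Prop where
  vol_ge : 7 / 25 ≤ tvol {p | t < f p}
  flux : Flux hf t (Ioo (0:ℝ) (1/2)) (fun z => cornerL (sliceA f t z))
  bound :
    ENNReal.ofReal (2 + (√(1 - sliceA f t 0) + √(sliceA f t (1/2))) / 1000) ≤ Qz f t

/-- What almost every level of volume at most `1/π` satisfies. -/
def LevelCase {f : V3 → ℝ} (hf : CoreFun f) (t : ℝ) : Prop :=
  tvol {p | t < f p} ∈ Ioc (0:ℝ) (1 / π) →
    (∃ σ : Equiv.Perm (Fin 3), Qz (permFun σ f) t = Qz f t ∧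
      (DiscLevel (hf.perm σ) t ∨ CornerLevel (hf.perm σ) t)) ∨
    ENNReal.ofReal (candJ (tvol {p | t < f p}) + 1 / 100000) ≤ Qz f t

/-! ### Approximating levels of a minimiser -/

/-- Levels of core functions that approximate `E` without excess area. -/
structure LevelSeq (E : Set V3) where
  f : ℕ → V3 → ℝ
  t : ℕ → ℝ
  core : ∀ n, CoreFun (f n)
  mem : ∀ n, t n ∈ Ioo (0:ℝ) 1
  vol : ∀ n, tvol {p | t n < f n p} ∈ Ioc (0:ℝ) (1 / π)
  close : Tendsto (fun n => tvol (symmDiff {p | t n < f n p} E)) atTop (𝓝 0)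
  excess : ∀ ε > (0:ℝ), ∀ᶠ n in atTop, Qz (f n) (t n) ≤ ENNReal.ofReal (candJ (tvol E) + ε)

/-- Height of `E` over the point `(x,z)` of the quarter square, along the second axis. -/
def hgt (E : Set V3) (x z : ℝ) : ℝ :=
  (volume {y | y ∈ Ioo (0:ℝ) (1/2) ∧ pt x y z ∈ E}).toReal

/-- Area of the slice of `E` at height `z`. -/
def secA (E : Set V3) (z : ℝ) : ℝ := 4 * ∫ x in (0:ℝ)..(1/2), hgt E x z

/-- Radius of the ball of volume `v`. -/
def Rball (v : ℝ) : ℝ := (3 * v / (4 * π)) ^ (1 / 3 : ℝ)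

/-- Area of its equatorial disc. -/
def Tball (v : ℝ) : ℝ := π * Rball v ^ 2

/-- Value of the disc certificate for slices of area in `[E,T]`. -/
def discG (E T v : ℝ) : ℝ :=
  (2 * √π * (v + √E * √T) + 4 * Kint (√E) (√T)) / (√E + √T)

/-- The slices of the levels converge to the slices of `E`. -/
def SliceConv {E : Set V3} (S : LevelSeq E) : Prop :=
  ∀ᵐ z ∂(volume.restrict (Ioo (0:ℝ) (1/2))),
    Tendsto (fun n => sliceA (S.f n) (S.t n) z) atTop (𝓝 (secA E z)) ∧
    ∀ᵐ x ∂(volume.restrict (Ioo (0:ℝ) (1/2))),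
      Tendsto (fun n => yr (S.f n) (S.t n) x z) atTop (𝓝 (hgt E x z))

/-- The section areas are those of a centred tube along the last axis. -/
def TubeProfile (E : Set V3) : Prop :=
  candJ (tvol E) = tubeP (tvol E) ∧
    ∀ᵐ z ∂(volume.restrict (Ioo (0:ℝ) (1/2))), secA E z = tvol E

/-- The section areas are those of a centred ball. -/
def BallProfile (E : Set V3) : Prop :=
  candJ (tvol E) = ballP (tvol E) ∧
    ∀ᵐ z ∂(volume.restrict (Ioo (0:ℝ) (1/2))),
      secA E z = max 0 (π * (Rball (tvol E) ^ 2 - z ^ 2))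

/-- A centred ball, tube or slab, up to a null set. -/
def IsCentredShape (E : Set V3) : Prop :=
  ∃ (W : Finset (Fin 3)) (R : ℝ), (W = Finset.univ ∨ ∃ i, W = {i}ᶜ ∨ W = {i}) ∧
    0 < R ∧ R ≤ 1 / 2 ∧ E =ᵐ[volume] shapeAt W 0 R

end

end Vale.P232
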