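import Vale.Agent.P232.Planar
import Vale.Agent.P232.Cert
import Vale.Agent.P232.Cases

/-!
P232: the planar bounds, realised by jointly measurable fields over the heights.
-/

open MeasureTheory Set Filter Topology Real
open scoped ENNReal

namespace Vale.P232

noncomputable section

/-- `Flux` for an abstract family of slices. -/
def FluxQ (Qf : ℝ → Quad) (S : Set ℝ) (ℓ : ℝ → ℝ) : Prop :=
  ∀ ε > (0:ℝ), ∃ a b : ℝ → ℝ → ℝ → ℝ,
    Measurable (fun q : ℝ × ℝ × ℝ => a q.1 q.2.1 q.2.2) ∧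
    Measurable (fun q : ℝ × ℝ × ℝ => b q.1 q.2.1 q.2.2) ∧
    (∀ x y z, 0 ≤ a x y z) ∧ (∀ x y z, 0 ≤ b x y z) ∧
    (∀ x y z, a x y z ^ 2 + b x y z ^ 2 ≤ 1) ∧
    ∀ z ∈ S ∩ Ioo (0:ℝ) (1/2), ENNReal.ofReal (ℓ z - ε) ≤
      4 * (Qf z).flux (fun x y => a x y z) (fun x y => b x y z)

lemma flux_iff {f : V3 → ℝ} (hf : CoreFun f) (t : ℝ) (S : Set ℝ) (ℓ : ℝ → ℝ) :
    Flux hf t S ℓ ↔ FluxQ (hf.quad t) S ℓ := Iff.rfl

lemma four_mul_ofReal_le {u v : ℝ} {F : ℝ≥0∞} (h : ENNReal.ofReal v ≤ F) (huv : u ≤ 4 * v) :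
    ENNReal.ofReal u ≤ 4 * F := by
  refine (ENNReal.ofReal_le_ofReal huv).trans ?_
  rw [ENNReal.ofReal_mul (by norm_num), ENNReal.ofReal_ofNat]
  exact mul_le_mul_right h 4

lemma discP_four (q : ℝ) : discP (4 * q) = 4 * √(π * q) := by
  unfold discP
  rw [show π * (4 * q) = 4 * (π * q) by ring, Real.sqrt_mul (by norm_num : (0:ℝ) ≤ 4),
    show √(4:ℝ) = 2 by rw [show (4:ℝ) = 2 ^ 2 by norm_num]; exact Real.sqrt_sq (by norm_num)]
  ring

namespace FluxQ

variable {Qf : ℝ → Quad} {S T : Set ℝ} {ℓ ℓ' : ℝ → ℝ}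

lemma mono (h : FluxQ Qf S ℓ) (hST : T ⊆ S) (hl : ∀ z ∈ T ∩ Ioo (0:ℝ) (1/2), ℓ' z ≤ ℓ z) :
    FluxQ Qf T ℓ' := by
  intro ε hε
  obtain ⟨a, b, h1, h2, h3, h4, h5, h6⟩ := h ε hε
  refine ⟨a, b, h1, h2, h3, h4, h5, fun z hz => ?_⟩
  refine (ENNReal.ofReal_le_ofReal ?_).trans (h6 z ⟨hST hz.1, hz.2⟩)
  linarith [hl z hz]

lemma union (hS : MeasurableSet S) (h : FluxQ Qf S ℓ) (h' : FluxQ Qf T ℓ) :
    FluxQ Qf (S ∪ T) ℓ := by
  classical
  intro ε hε
  obtain ⟨a, b, h1, h2, h3, h4, h5, h6⟩ := h ε hε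
  obtain ⟨a', b', g1, g2, g3, g4, g5, g6⟩ := h' ε hε
  have hm : MeasurableSet {q : ℝ × ℝ × ℝ | q.2.2 ∈ S} := measurable_snd.snd hS
  refine ⟨fun x y z => if z ∈ S then a x y z else a' x y z,
    fun x y z => if z ∈ S then b x y z else b' x y z, Measurable.ite hm h1 g1,
    Measurable.ite hm h2 g2, fun x y z => ?_, fun x y z => ?_, fun x y z => ?_, fun z hz => ?_⟩
  · by_cases hz : z ∈ S <;> simp [hz, h3, g3]
  · by_cases hz : z ∈ S <;> simp [hz, h4, g4]
  · by_cases hz : z ∈ S <;> simp [hz, h5, g5]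
  · by_cases hzS : z ∈ S
    · simp only [if_pos hzS]
      exact h6 z ⟨hzS, hz.2⟩
    · simp only [if_neg hzS]
      exact g6 z ⟨hz.1.resolve_left hzS, hz.2⟩

/-- Exchange the axes. -/
lemma of_swap (h : FluxQ (fun z => (Qf z).swap) S ℓ) : FluxQ Qf S ℓ := by
  intro ε hε
  obtain ⟨a, b, h1, h2, h3, h4, h5, h6⟩ := h ε hε
  have hs : Measurable (fun q : ℝ × ℝ × ℝ => ((q.2.1, q.1, q.2.2) : ℝ × ℝ × ℝ)) :=
    measurable_snd.fst.prodMk (measurable_fst.prodMk measurable_snd.snd)
  refine ⟨fun x y z => b y x z, fun x y z => a y x z, h2.comp hs, h1.comp hs,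
    fun x y z => h4 y x z, fun x y z => h3 y x z, fun x y z => ?_, fun z hz => ?_⟩
  · linarith [h5 y x z]
  · have h := h6 z hz
    rw [Quad.flux_swap] at h
    exact h

variable (hφ : Continuous fun q : ℝ × ℝ => (Qf q.1).phi q.2)
include hφ

lemma continuous_area : Continuous fun z => (Qf z).area :=
  intervalIntegral.continuous_parametric_intervalIntegral_of_continuous'
    (μ := volume) (f := fun z x => (Qf z).phi x) hφ 0 (1/2)

lemma measurable_disc {δ : ℝ} (hδ : 0 < δ) :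
    Measurable fun q : ℝ × ℝ => discU δ (Qf q.2).area (Qf q.2).phi q.1 := by
  have hu : Continuous (Function.uncurry fun (q : ℝ × ℝ) (s : ℝ) => (Qf q.2).phi s) :=
    hφ.comp ((continuous_snd.comp continuous_fst).prodMk continuous_snd)
  have hI : Continuous fun q : ℝ × ℝ => ∫ s in (0:ℝ)..q.1, (Qf q.2).phi s :=
    intervalIntegral.continuous_parametric_intervalIntegral_of_continuous hu continuous_fst
  have hk : Measurable fun q : ℝ × ℝ => π / (4 * (Qf q.2).area) :=
    measurable_const.div (measurable_const.mul ((continuous_area hφ).measurable.comp measurable_snd))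
  exact Measurable.min measurable_const (Measurable.max measurable_const
    ((continuous_invFun_sq1 hδ).measurable.comp (hk.mul hI.measurable)))

/-- Slices without wrapping. -/
theorem disc :
    FluxQ Qf {z | (Qf z).phi (1/2) = 0 ∧ (Qf z).psi (1/2) = 0}
      (fun z => discP (4 * (Qf z).area)) := by
  intro ε hε
  obtain ⟨δ, hδ, hδε⟩ : ∃ δ : ℝ, 0 < δ ∧ 4 * δ ≤ ε := ⟨ε / 4, by linarith, by linarith⟩
  have hm := measurable_disc hφ hδ
  have ha : Measurable fun q : ℝ × ℝ × ℝ => discU δ (Qf q.2.2).area (Qf q.2.2).phi q.1 :=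
    hm.comp (measurable_fst.prodMk measurable_snd.snd)
  refine ⟨fun x _ z => discU δ (Qf z).area (Qf z).phi x,
    fun x _ z => coF (discU δ (Qf z).area (Qf z).phi) x, ha,
    ((ha.pow_const 2).const_sub 1).sqrt, fun x _ z => (discU_mem _ _ _ _).1,
    fun x _ z => coF_nonneg _ _, fun x _ z => (sq_add_coF_sq (discU_mem _ _ _ _)).le,
    fun z hz => ?_⟩
  show ENNReal.ofReal (discP (4 * (Qf z).area) - ε) ≤ _
  rw [discP_four]
  rcases (Qf z).area_nonneg.lt_or_eq with hq | hq
  · exact four_mul_ofReal_le ((Qf z).flux_disc hz.1.1 hz.1.2 hq hδ) (by linarith)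
  · rw [← hq, mul_zero, Real.sqrt_zero, mul_zero, ENNReal.ofReal_eq_zero.2 (by linarith)]
    exact zero_le

omit hφ in
/-- Slices wrapping along the first axis only: length at least two. -/
theorem single :
    FluxQ Qf {z | 0 < (Qf z).phi (1/2) ∧ (Qf z).psi (1/2) = 0} (fun _ => 2) := by
  intro ε hε
  refine ⟨fun _ _ _ => 0, fun _ _ _ => 1, measurable_const, measurable_const,
    fun _ _ _ => le_rfl, fun _ _ _ => zero_le_one, fun _ _ _ => by norm_num, fun z hz => ?_⟩
  exact four_mul_ofReal_le ((Qf z).flux_single hz.1.1 hz.1.2) (by linarith)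

omit hφ in
/-- Slices wrapping along the first axis only: arcs. -/
theorem arc {R : ℝ} (hR : 1/2 ≤ R) :
    FluxQ Qf {z | 0 < (Qf z).phi (1/2) ∧ (Qf z).psi (1/2) = 0}
      (fun z => 4 * arcC R + (4 * (Qf z).area - 2 * (Qf z).phi (1/2)) / R) := by
  intro ε hε
  have hu : Measurable fun q : ℝ × ℝ × ℝ => linU R q.1 :=
    (continuous_linU R).measurable.comp measurable_fst
  refine ⟨fun x _ _ => linU R x, fun x _ _ => coF (linU R) x, hu,
    ((hu.pow_const 2).const_sub 1).sqrt, fun x _ _ => (linU_mem R x).1,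
    fun x _ _ => coF_nonneg _ _, fun x _ _ => (sq_add_coF_sq (linU_mem R x)).le, fun z hz => ?_⟩
  refine four_mul_ofReal_le ((Qf z).flux_arc hz.1.2 hz.1.1 le_rfl hR) ?_
  show _ ≤ 4 * (arcC R + _)
  have : (4 * (Qf z).area - 2 * (Qf z).phi (1/2)) / R
      = 4 * (((Qf z).area - (Qf z).phi (1/2) / 2) / R) := by ring
  linarith

/-- Crosses: disc bound for the complement. -/
theorem cross_disc :
    FluxQ Qf {z | 0 < (Qf z).phi (1/2) ∧ 0 < (Qf z).psi (1/2)}
      (fun z => discP (1 - 4 * (Qf z).area)) := by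
  intro ε hε
  obtain ⟨δ, hδ, hδε⟩ : ∃ δ : ℝ, 0 < δ ∧ 4 * δ ≤ ε := ⟨ε / 4, by linarith, by linarith⟩
  have hφc : Continuous fun q : ℝ × ℝ => (Qf q.1).compl.phi q.2 :=
    continuous_const.sub (hφ.comp (continuous_fst.prodMk (continuous_const.sub continuous_snd)))
  have hm := measurable_disc (Qf := fun z => (Qf z).compl) hφc hδ
  have ha : Measurable fun q : ℝ × ℝ × ℝ =>
      discU δ (Qf q.2.2).compl.area (Qf q.2.2).compl.phi (1/2 - q.1) :=
    hm.comp ((measurable_const.sub measurable_fst).prodMk measurable_snd.snd)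
  refine ⟨fun x _ z => discU δ (Qf z).compl.area (Qf z).compl.phi (1/2 - x),
    fun x _ z => coF (discU δ (Qf z).compl.area (Qf z).compl.phi) (1/2 - x), ha,
    ((ha.pow_const 2).const_sub 1).sqrt, fun x _ z => (discU_mem _ _ _ _).1,
    fun x _ z => coF_nonneg _ _, fun x _ z => (sq_add_coF_sq (discU_mem _ _ _ _)).le,
    fun z hz => ?_⟩
  show ENNReal.ofReal (discP (1 - 4 * (Qf z).area) - ε) ≤ _
  rw [show (1:ℝ) - 4 * (Qf z).area = 4 * (1/4 - (Qf z).area) by ring, discP_four]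
  rcases lt_or_ge (Qf z).area (1/4) with hq | hq
  · exact four_mul_ofReal_le ((Qf z).flux_cross_disc hz.1.1 hz.1.2 hq hδ) (by linarith)
  · rw [Real.sqrt_eq_zero_of_nonpos (by nlinarith [pi_pos]), mul_zero,
      ENNReal.ofReal_eq_zero.2 (by linarith)]
    exact zero_le

omit hφ in
/-- Crosses: stadium bound for the complement. -/
theorem cross_stadium (hψ : Continuous fun z => (Qf z).psi (1/2)) (b : ℝ) :
    FluxQ Qf {z | 0 < (Qf z).phi (1/2) ∧ 0 < (Qf z).psi (1/2) ∧ b ≤ (Qf z).psi (1/2) ∧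
        π * (1/2 - b) ^ 2 < 1 - 4 * (Qf z).area ∧ b < 1/2}
      (fun z => π * (1/2 - b) + (1 - 4 * (Qf z).area) / (1/2 - b)) := by
  intro ε hε
  have ha : Measurable fun q : ℝ × ℝ × ℝ =>
      linU (1/2 - (Qf q.2.2).psi (1/2)) (1/2 - q.1) :=
    measurable_const.min (measurable_const.max ((measurable_const.sub measurable_fst).div
      (measurable_const.sub (hψ.measurable.comp measurable_snd.snd))))
  refine ⟨fun x _ z => linU (1/2 - (Qf z).psi (1/2)) (1/2 - x),
    fun x _ z => coF (linU (1/2 - (Qf z).psi (1/2))) (1/2 - x), ha,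
    ((ha.pow_const 2).const_sub 1).sqrt, fun x _ z => (linU_mem _ _).1,
    fun x _ z => coF_nonneg _ _, fun x _ z => (sq_add_coF_sq (linU_mem _ _)).le,
    fun z hz => ?_⟩
  obtain ⟨⟨h1, h2, hb, hcond, hb'⟩, -⟩ := hz
  set Q := Qf z with hQ
  have hr : 0 < 1/2 - b := by linarith
  have he : Q.psi (1/2) < 1/2 := by
    refine lt_of_le_of_ne (Q.psi_mem _).2 fun h => ?_
    have hall : Q.area = ∫ _ in (0:ℝ)..(1/2), (1/2:ℝ) :=
      intervalIntegral.integral_congr_Ioo_of_le (by norm_num) fun x hx =>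
        Q.phi_eq_half hx (hx.2.le.trans_eq h.symm)
    rw [intervalIntegral.integral_const, smul_eq_mul] at hall
    nlinarith [pi_pos, sq_nonneg (1/2 - b)]
  refine four_mul_ofReal_le (Q.flux_cross_stadium h1 h2 he) ?_
  obtain ⟨r, hrd⟩ : ∃ r : ℝ, r = 1/2 - b := ⟨_, rfl⟩
  obtain ⟨e, hed⟩ : ∃ e : ℝ, e = 1/2 - Q.psi (1/2) := ⟨_, rfl⟩
  rw [← hrd, ← hed]
  rw [← hrd] at hcond
  have hr0 : 0 < r := hrd ▸ hr
  have he0 : 0 < e := by rw [hed]; linarith
  have her : e ≤ r := by rw [hed, hrd]; linarith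
  have hdiff : 4 * (π * e / 4 + (1/4 - Q.area) / e) - (π * r + (1 - 4 * Q.area) / r)
      = (r - e) * ((1 - 4 * Q.area) - π * (e * r)) / (e * r) := by
    field_simp
    ring
  have : 0 ≤ (r - e) * ((1 - 4 * Q.area) - π * (e * r)) / (e * r) := by
    refine div_nonneg (mul_nonneg (by linarith) ?_) (by positivity)
    nlinarith [mul_nonneg (mul_nonneg pi_pos.le hr0.le) (sub_nonneg.2 her)]
  linarith

/-- Crosses with arm thickness at least `b`. -/
theorem cross (hψ : Continuous fun z => (Qf z).psi (1/2)) (b : ℝ) :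
    FluxQ Qf {z | 0 < (Qf z).phi (1/2) ∧ 0 < (Qf z).psi (1/2) ∧ b ≤ (Qf z).psi (1/2)}
      (fun z => crossL (4 * (Qf z).area) b) := by
  have hA := continuous_area hφ
  have hC : MeasurableSet {z | π * (1/2 - b) ^ 2 < 1 - 4 * (Qf z).area ∧ b < 1/2} :=
    (measurableSet_lt measurable_const (measurable_const.sub (measurable_const.mul hA.measurable))).inter
      (MeasurableSet.const _)
  have hP : MeasurableSet
      {z | 0 < (Qf z).phi (1/2) ∧ 0 < (Qf z).psi (1/2) ∧ b ≤ (Qf z).psi (1/2)} :=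
    (measurableSet_lt measurable_const
      (hφ.comp (continuous_id.prodMk continuous_const)).measurable).inter
      ((measurableSet_lt measurable_const hψ.measurable).inter
        (measurableSet_le measurable_const hψ.measurable))
  have h1 : FluxQ Qf
      ({z | 0 < (Qf z).phi (1/2) ∧ 0 < (Qf z).psi (1/2) ∧ b ≤ (Qf z).psi (1/2)} ∩
        {z | π * (1/2 - b) ^ 2 < 1 - 4 * (Qf z).area ∧ b < 1/2})
      (fun z => crossL (4 * (Qf z).area) b) :=
    (cross_stadium hψ b).mono
      (fun z hz => ⟨hz.1.1, hz.1.2.1, hz.1.2.2, hz.2.1, hz.2.2⟩)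
      (fun z hz => by
        show crossL _ b ≤ _
        unfold crossL LCross
        rw [if_pos hz.1.2.1, if_pos (sub_pos.2 hz.1.2.2)])
  have h2 : FluxQ Qf
      ({z | 0 < (Qf z).phi (1/2) ∧ 0 < (Qf z).psi (1/2) ∧ b ≤ (Qf z).psi (1/2)} \
        {z | π * (1/2 - b) ^ 2 < 1 - 4 * (Qf z).area ∧ b < 1/2})
      (fun z => crossL (4 * (Qf z).area) b) :=
    (cross_disc hφ).mono (fun z hz => ⟨hz.1.1, hz.1.2.1⟩)
      (fun z hz => by
        show crossL _ b ≤ _
        unfold crossL LCross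
        by_cases hc : π * (1/2 - b) ^ 2 < 1 - 4 * (Qf z).area
        · exfalso
          obtain ⟨⟨⟨-, -, hb⟩, hne⟩, -⟩ := hz
          have hb2 : 1/2 ≤ b := not_lt.1 fun h => hne ⟨hc, h⟩
          have hall : (Qf z).area = ∫ _ in (0:ℝ)..(1/2), (1/2:ℝ) :=
            intervalIntegral.integral_congr_Ioo_of_le (by norm_num) fun x hx =>
              (Qf z).phi_eq_half hx (hx.2.le.trans (hb2.trans hb))
          rw [intervalIntegral.integral_const, smul_eq_mul] at hall
          nlinarith [pi_pos, sq_nonneg (1/2 - b)]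
        · rw [if_neg hc])
  exact (h1.union (hP.inter hC) h2).mono (inter_union_sdiff _ _).symm.subset fun _ _ => le_rfl

omit hφ in
/-- Crosses: projection on one axis. -/
theorem cross_side :
    FluxQ Qf {z | 0 < (Qf z).psi (1/2)} (fun z => 4 * (1/2 - (Qf z).phi (1/2))) := by
  intro ε hε
  refine ⟨fun _ _ _ => 1, fun _ _ _ => 0, measurable_const, measurable_const,
    fun _ _ _ => zero_le_one, fun _ _ _ => le_rfl, fun _ _ _ => by norm_num, fun z hz => ?_⟩
  exact four_mul_ofReal_le ((Qf z).flux_cross_side hz.1) (by linarith)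

omit hφ in
/-- Crosses: projection on the diagonal. -/
theorem cross_diag :
    FluxQ Qf {z | 0 < (Qf z).phi (1/2) ∧ 0 < (Qf z).psi (1/2)}
      (fun z => 2 * √2 * ((1/2 - (Qf z).psi (1/2)) + (1/2 - (Qf z).phi (1/2)))) := by
  intro ε hε
  have hs : √2 ^ 2 = 2 := Real.sq_sqrt (by norm_num)
  refine ⟨fun _ _ _ => √2 / 2, fun _ _ _ => √2 / 2, measurable_const, measurable_const,
    fun _ _ _ => by positivity, fun _ _ _ => by positivity, fun _ _ _ => ?_, fun z hz => ?_⟩
  · rw [div_pow, hs]; norm_num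
  exact four_mul_ofReal_le ((Qf z).flux_cross_diag hz.1.1 hz.1.2 (by positivity : (0:ℝ) ≤ √2 / 2))
    (by linarith)

end FluxQ

namespace Flux

variable {f : V3 → ℝ} (hf : CoreFun f) (t : ℝ)

lemma continuous_quad_phi : Continuous fun q : ℝ × ℝ => (hf.quad t q.1).phi q.2 :=
  hf.continuous_yr.comp (f := fun q : ℝ × ℝ => (t, q.2, q.1)) (by fun_prop)

lemma continuous_quad_psi : Continuous fun q : ℝ × ℝ => (hf.quad t q.1).psi q.2 :=
  hf.continuous_xr.comp (f := fun q : ℝ × ℝ => (t, q.2, q.1)) (by fun_prop)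

include hf in
lemma continuous_bX : Continuous fun z => yr f t (1/2) z :=
  (continuous_quad_phi hf t).comp (continuous_id.prodMk continuous_const)

include hf in
lemma continuous_bY : Continuous fun z => xr f t (1/2) z :=
  (continuous_quad_psi hf t).comp (continuous_id.prodMk continuous_const)

lemma area_swap_quad (z : ℝ) : 4 * (hf.quad t z).swap.area = sliceA f t z := by
  rw [Quad.area_swap, ← hf.sliceA_eq t z]

/-- L1: no wrapping. -/
theorem disc : Flux hf t {z | yr f t (1/2) z = 0 ∧ xr f t (1/2) z = 0}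
    (fun z => discP (sliceA f t z)) :=
  FluxQ.disc (Qf := hf.quad t) (continuous_quad_phi hf t)

/-- L2: wrapping along the first axis only. -/
theorem arcX {R : ℝ} (hR : 1/2 ≤ R) :
    Flux hf t {z | 0 < yr f t (1/2) z ∧ xr f t (1/2) z = 0}
      (fun z => arcF R (sliceA f t z) (yr f t (1/2) z)) := by
  have hA := (hf.continuous_sliceA t).measurable
  exact sup measurable_const
    (measurable_const.add ((hA.sub (measurable_const.mul (continuous_bX hf t).measurable)).div
      measurable_const))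
    (FluxQ.single (Qf := hf.quad t)) (FluxQ.arc (Qf := hf.quad t) hR)

/-- L2': wrapping along the second axis only. -/
theorem arcY {R : ℝ} (hR : 1/2 ≤ R) :
    Flux hf t {z | yr f t (1/2) z = 0 ∧ 0 < xr f t (1/2) z}
      (fun z => arcF R (sliceA f t z) (xr f t (1/2) z)) := by
  have hA := (hf.continuous_sliceA t).measurable
  refine sup measurable_const
    (measurable_const.add ((hA.sub (measurable_const.mul (continuous_bY hf t).measurable)).div
      measurable_const)) ?_ ?_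
  · exact ((FluxQ.single (Qf := fun z => (hf.quad t z).swap)).of_swap).mono
      (fun z hz => ⟨hz.2, hz.1⟩) (fun _ _ => le_rfl)
  · refine ((FluxQ.arc (Qf := fun z => (hf.quad t z).swap) hR).of_swap).mono
      (fun z hz => ⟨hz.2, hz.1⟩) (fun z _ => le_of_eq ?_)
    rw [area_swap_quad]
    rfl

/-- L3: crosses, by the arm along the second axis. -/
theorem crossY (b : ℝ) :
    Flux hf t {z | 0 < yr f t (1/2) z ∧ 0 < xr f t (1/2) z ∧ b ≤ xr f t (1/2) z}
      (fun z => crossL (sliceA f t z) b) :=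
  FluxQ.cross (Qf := hf.quad t) (continuous_quad_phi hf t) (continuous_bY hf t) b

/-- L3: crosses, by the arm along the first axis. -/
theorem crossX (b : ℝ) :
    Flux hf t {z | 0 < yr f t (1/2) z ∧ 0 < xr f t (1/2) z ∧ b ≤ yr f t (1/2) z}
      (fun z => crossL (sliceA f t z) b) :=
  ((FluxQ.cross (Qf := fun z => (hf.quad t z).swap) (continuous_quad_psi hf t)
    (continuous_bX hf t) b).of_swap).mono (fun z hz => ⟨hz.2.1, hz.1, hz.2.2⟩)
    (fun z _ => le_of_eq (by rw [area_swap_quad]))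

/-- L4: crosses, diagonal projection. -/
theorem crossDiag :
    Flux hf t {z | 0 < yr f t (1/2) z ∧ 0 < xr f t (1/2) z}
      (fun z => 2 * √2 * ((1/2 - xr f t (1/2) z) + (1/2 - yr f t (1/2) z))) :=
  FluxQ.cross_diag (Qf := hf.quad t)

/-- L5: crosses, projection on the second axis. -/
theorem crossSideX :
    Flux hf t {z | 0 < yr f t (1/2) z ∧ 0 < xr f t (1/2) z}
      (fun z => 4 * (1/2 - yr f t (1/2) z)) :=
  (FluxQ.cross_side (Qf := hf.quad t)).mono (fun _ hz => hz.2) (fun _ _ => le_rfl)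

/-- L5: crosses, projection on the first axis. -/
theorem crossSideY :
    Flux hf t {z | 0 < yr f t (1/2) z ∧ 0 < xr f t (1/2) z}
      (fun z => 4 * (1/2 - xr f t (1/2) z)) :=
  ((FluxQ.cross_side (Qf := fun z => (hf.quad t z).swap)).of_swap).mono (fun _ hz => hz.1)
    (fun _ _ => le_rfl)

end Flux

/-- The planar bounds at all heights. -/
theorem planarBounds : PlanarBounds where
  none hf t := Flux.disc hf t
  singleX hf t _ hR := Flux.arcX hf t hR
  singleY hf t _ hR := Flux.arcY hf t hR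
  cross hf t b := Flux.crossY hf t b
  diag hf t := Flux.crossDiag hf t
  drop hf t := Flux.crossSideX hf t

end

end Vale.P232
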