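import Vale.Agent.P232.Cases

/-!
P232: the disc certificate in the form the case split uses.
-/

open MeasureTheory Real Set

namespace Vale.P232

noncomputable section

/-- Truncated quotient used as the slope weight. -/
def discC (lam mu a : ℝ) : ℝ := min 1 (max (lam * a + mu) 0 / discP a)

theorem scalar_disc_cert {E T v : ℝ} (hE : 0 ≤ E) (hEv : E ≤ v) (hvT : v ≤ T) :
    ∃ (lam mu : ℝ) (c : ℝ → ℝ), Measurable c ∧ (∀ a, c a ∈ Icc (0:ℝ) 1) ∧
      (∀ a ∈ Icc E T, lam * a + mu ≤ c a * discP a) ∧
      candJ v ≤ lam * v + mu + 2 * ∫ a in E..T, √(1 - c a ^ 2) := by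
  obtain ⟨lam, mu, hcond, hval⟩ := scalar_disc hE hEv hvT
  refine ⟨lam, mu, discC lam mu, ?_, fun a => ?_, fun a ha => ?_, ?_⟩
  · have hd : Measurable discP := by unfold discP; fun_prop
    exact measurable_const.min (((measurable_const.mul measurable_id).add_const mu |>.max
      measurable_const).div hd)
  · exact ⟨le_min zero_le_one (div_nonneg (le_max_right _ _)
      (by unfold discP; positivity)), min_le_left _ _⟩
  · obtain ⟨h1, h2⟩ := hcond a ha
    unfold discC
    rcases eq_or_lt_of_le (show 0 ≤ discP a by unfold discP; positivity) with h | h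
    · rw [← h]; simp only [mul_zero]; linarith
    · rw [max_eq_left h1, min_eq_right ((div_le_one h).2 h2), div_mul_cancel₀ _ h.ne']
  · have hle : E ≤ T := hEv.trans hvT
    refine (min_le_left _ _).trans (hval.trans (le_of_eq ?_))
    congr 2
    refine intervalIntegral.integral_congr fun a ha => ?_
    rw [uIcc_of_le hle] at ha
    obtain ⟨h1, h2⟩ := hcond a ha
    simp only [gS, discC]
    rw [min_eq_right]
    rcases eq_or_lt_of_le (show 0 ≤ discP a by unfold discP; positivity) with h | h
    · rw [← h]; simp
    · rw [max_eq_left h1]; exact (div_le_one h).2 h2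

end

end Vale.P232
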