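import Vale.Agent.P232.ScalarSound

/-!
P232, module D: the thick certificate near the slab, settled analytically.
-/

open MeasureTheory Real Set

namespace Vale.P232

noncomputable section

/-- Loss of one end of the range. -/
lemma corner_loss {y T : ℝ} (hy0 : 0 ≤ y) (hy : y ≤ 708 / 10000) (hT : y ^ 2 ≤ T) (hT1 : T ≤ 1) :
    IntervalIntegrable (fun a => y ^ 2 * a⁻¹) volume (y ^ 2) T ∧
      ∫ a in (y ^ 2)..T, y ^ 2 * a⁻¹ ≤ 394 / 1000 * y := by
  rcases eq_or_lt_of_le hy0 with h | hpos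
  · subst h; simp
  have hy2 : 0 < y ^ 2 := pow_pos hpos 2
  have hT0 : 0 < T := hy2.trans_le hT
  refine ⟨?_, ?_⟩
  · refine ContinuousOn.intervalIntegrable ?_
    refine continuousOn_const.mul (continuousOn_id.inv₀ fun a ha => ?_)
    rw [uIcc_of_le hT] at ha
    exact (hy2.trans_le ha.1).ne'
  rw [intervalIntegral.integral_const_mul, integral_inv_of_pos hy2 hT0]
  have hs : 0 < √y := sqrt_pos.2 hpos
  have hs1 : √y ≤ 2664 / 10000 := by rw [Real.sqrt_le_left (by norm_num)]; linarith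
  have hz : 0 < 1 / √y := by positivity
  have h1 : log (T / y ^ 2) ≤ 4 * log (1 / √y) := by
    refine (log_le_log (div_pos hT0 hy2) ((div_le_div_iff_of_pos_right hy2).2 hT1)).trans
      (le_of_eq ?_)
    rw [show (1 : ℝ) / y ^ 2 = (1 / √y) ^ 4 by
      rw [div_pow, one_pow, show √y ^ 4 = (√y ^ 2) ^ 2 by ring, sq_sqrt hy0], log_pow]
    norm_num
  have h2 : log (1 / √y) ≤ 368 / 1000 * (1 / √y) := by
    have h := Real.log_le_sub_one_of_pos (div_pos hz (exp_pos 1))
    rw [log_div hz.ne' (exp_pos 1).ne', log_exp] at h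
    have he : 1 / exp 1 ≤ 368 / 1000 := by
      rw [div_le_iff₀ (exp_pos 1)]
      have := exp_one_gt_d9; norm_num at this ⊢; linarith
    have := mul_le_mul_of_nonneg_left he hz.le
    rw [show 1 / √y / exp 1 = 1 / √y * (1 / exp 1) by ring] at h
    linarith
  refine (mul_le_mul_of_nonneg_left (h1.trans (mul_le_mul_of_nonneg_left h2 (by norm_num)))
    hy2.le).trans ?_
  have e : y ^ 2 * (4 * (368 / 1000 * (1 / √y))) = 1472 / 1000 * √y * y := by
    obtain ⟨r, hr, rfl⟩ : ∃ r, 0 < r ∧ y = r ^ 2 := ⟨√y, hs, (sq_sqrt hy0).symm⟩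
    rw [Real.sqrt_sq hr.le]
    field_simp
    ring
  rw [e]
  exact mul_le_mul_of_nonneg_right (by linarith) hy0

lemma discP_le_discP {a b : ℝ} (h : a ≤ b) : discP a ≤ discP b := by
  unfold discP
  gcongr

/-- The affine weight stays below the disc bound. -/
lemma corner_key {a p q x y : ℝ} (hp0 : 0 ≤ p) (hq0 : 0 ≤ q) (hp2 : p ^ 2 = a)
    (hq2 : q ^ 2 = 1 - a) (hxa : x ≤ q) (hya : y ≤ p) (hx : x ≤ 708 / 10000)
    (hy : y ≤ 708 / 10000) (hx0 : 0 ≤ x) (hy0 : 0 ≤ y) :
    x * a + y * (1 - a) ≤ 11 / 10 * (p * q) := by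
  have hq1 : q ≤ 1 := by nlinarith
  have hp1 : p ≤ 1 := by nlinarith
  rw [← hp2, show 1 - p ^ 2 = q ^ 2 by rw [hp2, hq2]]
  rcases le_total p q with hpq | hpq
  · nlinarith [mul_le_mul_of_nonneg_right hya (mul_nonneg hq0 hq0),
      mul_le_mul_of_nonneg_left hq1 (mul_nonneg hp0 hq0),
      mul_le_mul_of_nonneg_left hpq (mul_nonneg hx0 hp0),
      mul_le_mul_of_nonneg_right hx (mul_nonneg hp0 hq0)]
  · nlinarith [mul_le_mul_of_nonneg_right hxa (mul_nonneg hp0 hp0),
      mul_le_mul_of_nonneg_left hp1 (mul_nonneg hp0 hq0),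
      mul_le_mul_of_nonneg_left hpq (mul_nonneg hy0 hq0),
      mul_le_mul_of_nonneg_right hy (mul_nonneg hp0 hq0)]

/-- The final arithmetic. -/
lemma corner_final {E T v x y I : ℝ} (hx : x ≤ 708 / 10000) (hy : y ≤ 708 / 10000) (hx0 : 0 ≤ x)
    (hy0 : 0 ≤ y) (hx2 : x ^ 2 = 1 - T) (hy2 : y ^ 2 = E) (hv : 7 / 25 ≤ v) (hv1 : v ≤ 1 / 3)
    (hI : T - E - 465 / 1000 * (x + y) / 3 ≤ I) :
    2 + (x + y) / 20 ≤ 2 * (x - y) * v + 2 * y + 2 * I := by
  have g1 : 7 / 25 * x ≤ x * v := by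
    rw [mul_comm (7 / 25) x]; exact mul_le_mul_of_nonneg_left hv hx0
  have g2 : 7 / 25 * y ≤ y * (1 - v) := by
    rw [mul_comm (7 / 25) y]; exact mul_le_mul_of_nonneg_left (by linarith) hy0
  have g3 : x ^ 2 ≤ 708 / 10000 * x := by
    rw [pow_two]; exact mul_le_mul_of_nonneg_right hx hx0
  have g4 : y ^ 2 ≤ 708 / 10000 * y := by
    rw [pow_two]; exact mul_le_mul_of_nonneg_right hy hy0
  linarith

/-- The thick certificate near the slab: the bound `2 + (√(1-T) + √E)/20`. -/
theorem scalar_corner : Chk.CornerValid := by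
  intro v E T b hv hv1 hE0 hE hT hT1 hb0 hb
  set x := √(1 - T) with hxdef
  set y := √E with hydef
  have hx2 : x ^ 2 = 1 - T := sq_sqrt (by linarith)
  have hy2 : y ^ 2 = E := sq_sqrt hE0
  have hx0 : 0 ≤ x := sqrt_nonneg _
  have hy0 : 0 ≤ y := sqrt_nonneg _
  have hx : x ≤ 708 / 10000 := by rw [hxdef, Real.sqrt_le_left (by norm_num)]; linarith
  have hy : y ≤ 708 / 10000 := by rw [hydef, Real.sqrt_le_left (by norm_num)]; linarith
  have hET : E ≤ T := by linarith
  set D : ℝ → ℝ := fun a => discP (a * (1 - a)) with hD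
  set f : ℝ → ℝ := fun a => 2 * (x * a + y * (1 - a)) with hf
  set c : ℝ → ℝ := fun a => max 0 (min 1 (f a / D a)) with hcdef
  have hcm : Measurable c := by
    simp only [hcdef, hf, hD, discP]; fun_prop
  have hfD : ∀ a ∈ Icc E T, 0 ≤ f a ∧ f a ≤ D a := by
    intro a ha
    have ha0 : 0 ≤ a := hE0.trans ha.1
    have ha1 : a ≤ 1 := ha.2.trans hT1
    refine ⟨by simp only [hf]; nlinarith [mul_nonneg hx0 ha0, mul_nonneg hy0 (sub_nonneg.2 ha1)], ?_⟩
    have hxa : x ≤ √(1 - a) := Real.sqrt_le_sqrt (by linarith [ha.2])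
    have hya : y ≤ √a := Real.sqrt_le_sqrt ha.1
    set p := √a with hp
    set q := √(1 - a) with hq
    have hp2 : p ^ 2 = a := sq_sqrt ha0
    have hq2 : q ^ 2 = 1 - a := sq_sqrt (by linarith)
    have hp0 : 0 ≤ p := sqrt_nonneg _
    have hq0 : 0 ≤ q := sqrt_nonneg _
    have key : x * a + y * (1 - a) ≤ 11 / 10 * (p * q) :=
      corner_key hp0 hq0 hp2 hq2 hxa hya hx hy hx0 hy0
    simp only [hf, hD, discP]
    rw [sqrt_mul pi_pos.le, sqrt_mul ha0, ← hp, ← hq]
    have h11 : (11 : ℝ) / 10 ≤ √π := Real.le_sqrt_of_sq_le (by nlinarith [pi_gt_three])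
    nlinarith [mul_le_mul_of_nonneg_right h11 (mul_nonneg hp0 hq0)]
  have hceq : ∀ a ∈ Icc E T, c a * D a = f a ∧ c a = f a / D a := by
    intro a ha
    obtain ⟨h1, h2⟩ := hfD a ha
    have hc : c a = f a / D a := by
      simp only [hcdef]
      rw [min_eq_right (div_le_one_of_le₀ h2 (h1.trans h2)),
        max_eq_right (div_nonneg h1 (h1.trans h2))]
    refine ⟨?_, hc⟩
    rcases eq_or_lt_of_le (h1.trans h2) with h | h
    · rw [← h, mul_zero]; linarith
    · rw [hc, div_mul_cancel₀ _ h.ne']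
  have hDL : ∀ a ∈ Icc E T, D a ≤ LZ a b ∧ D a ≤ LCross a b := by
    intro a ha
    have ha0 : 0 ≤ a := hE0.trans ha.1
    have ha1 : a ≤ 1 := ha.2.trans hT1
    have hc : D a ≤ LCross a b :=
      le_trans (discP_le_discP (by nlinarith)) (Chk.lcross_ge_disc ha0 hb)
    refine ⟨le_min (discP_le_discP (by nlinarith)) (le_min ?_ hc), hc⟩
    refine le_trans ?_ (le_max_left _ _)
    simp only [hD, discP]
    have : √(π * (a * (1 - a))) ≤ 1 := by
      rw [Real.sqrt_le_one]
      nlinarith [sq_nonneg (2 * a - 1), pi_lt_four, pi_pos, mul_nonneg ha0 (sub_nonneg.2 ha1)]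
    linarith
  refine ⟨2 * (x - y), 2 * y, 0, c, hcm,
    fun a => ⟨le_max_left _ _, max_le zero_le_one (min_le_left _ _)⟩, ?_, ?_, ?_⟩
  · intro a ha
    refine le_trans ?_ (mul_le_mul_of_nonneg_left (hDL a ha).1 (le_max_left _ _))
    rw [(hceq a ha).1]
    simp only [hf]; linarith
  · intro a ha
    have ha' : a ∈ Icc E T := ⟨(le_max_left _ _).trans ha.1, ha.2⟩
    refine le_trans ?_ (mul_le_mul_of_nonneg_left (hDL a ha').2 (le_max_left _ _))
    rw [(hceq a ha').1]
    simp only [hf]; linarith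
  · obtain ⟨iy, hiy⟩ := corner_loss hy0 hy (T := T) (by rw [hy2]; exact hET) hT1
    obtain ⟨ix, hix⟩ := corner_loss hx0 hx (T := 1 - E) (by rw [hx2]; linarith) (by linarith)
    rw [hy2] at iy hiy
    rw [hx2] at ix hix
    have ix' : IntervalIntegrable (fun a => (1 - T) * (1 - a)⁻¹) volume E T := by
      simpa using (ix.comp_sub_left 1).symm
    have hix' : ∫ a in E..T, (1 - T) * (1 - a)⁻¹ ≤ 394 / 1000 * x := by
      rw [intervalIntegral.integral_comp_sub_left (fun u => (1 - T) * u⁻¹) 1]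
      exact hix
    set g : ℝ → ℝ := fun a => ((1 - T) * (1 - a)⁻¹ + E * a⁻¹ + 2 * x * y) / π with hg
    have ig : IntervalIntegrable g volume E T :=
      ((ix'.add iy).add intervalIntegrable_const).div_const π
    have hlow : ∀ a ∈ Ioo E T, 1 - g a ≤ cS c a := by
      intro a ha
      have ha' := Ioo_subset_Icc_self ha
      have ha0 : 0 < a := hE0.trans_lt ha.1
      have ha1 : 0 < 1 - a := by linarith [ha.2]
      obtain ⟨h1, h2⟩ := hfD a ha'
      have hc1 : c a ≤ 1 := max_le zero_le_one (min_le_left _ _)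
      have hc0 : 0 ≤ c a := le_max_left _ _
      refine le_trans ?_ (show 1 - c a ^ 2 ≤ cS c a from Real.le_sqrt_of_sq_le (by
        nlinarith [mul_le_mul hc1 hc1 hc0 zero_le_one]))
      have : c a ^ 2 ≤ g a := by
        rw [(hceq a ha').2, div_pow]
        simp only [hf, hD, hg, discP]
        rw [mul_pow 2 (√(π * (a * (1 - a)))), sq_sqrt (by positivity), ← hx2, ← hy2]
        have e : (2 * (x * a + y * (1 - a))) ^ 2 / (2 ^ 2 * (π * (a * (1 - a))))
            = (x ^ 2 * (1 - a)⁻¹ + y ^ 2 * a⁻¹ + 2 * x * y) / π - (x ^ 2 + y ^ 2) / π := by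
          field_simp
          ring
        rw [e]
        exact sub_le_self _ (by positivity)
      linarith
    have hint : ∫ a in E..T, (1 - g a) ≤ ∫ a in E..T, cS c a :=
      intervalIntegral.integral_mono_on_of_le_Ioo hET (intervalIntegrable_const.sub ig)
        (Chk.intervalIntegrable_cS hcm _ _) hlow
    rw [intervalIntegral.integral_sub intervalIntegrable_const ig] at hint
    simp only [hg, intervalIntegral.integral_div] at hint
    rw [intervalIntegral.integral_add (ix'.add iy) intervalIntegrable_const,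
      intervalIntegral.integral_add ix' iy, intervalIntegral.integral_const,
      intervalIntegral.integral_const, smul_eq_mul, smul_eq_mul, mul_one] at hint
    have hxy : 2 * x * y * (T - E) ≤ 708 / 10000 * (x + y) := by
      have h1 := mul_le_mul_of_nonneg_left hy hx0
      have h2 := mul_le_mul_of_nonneg_left hx hy0
      have h3 : 2 * x * y * (T - E) ≤ 2 * x * y * 1 :=
        mul_le_mul_of_nonneg_left (by linarith) (by positivity)
      linarith
    have hloss : ((∫ a in E..T, (1 - T) * (1 - a)⁻¹) + (∫ a in E..T, E * a⁻¹)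
        + (T - E) * (2 * x * y)) / π ≤ (465 / 1000 * (x + y)) / 3 := by
      refine le_trans ?_ (div_le_div_of_nonneg_left (by positivity) (by norm_num) pi_gt_three.le)
      exact (div_le_div_iff_of_pos_right pi_pos).2 (by linarith)
    have hv2 : v ≤ 1 / 3 := hv1.trans (one_div_le_one_div_of_le (by norm_num) pi_gt_three.le)
    refine le_trans (corner_final hx hy hx0 hy0 hx2 hy2 hv hv2
      (I := ∫ a in E..T, cS c a) (by linarith)) (le_of_eq (by ring))

end

end Vale.P232
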