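import Vale.Agent.P232.ScalarSound
import Vale.Agent.P232.ScalarCorner
import Vale.Agent.P232.Scalar.ThinTreeAll
import Vale.Agent.P232.Scalar.CycTreeAll
import Vale.Agent.P232.Scalar.ThickTreeAll

/-!
P232, module D: the certificates for thin, cyclic and thick slices.
-/

open MeasureTheory Real Set

namespace Vale.P232.Chk

noncomputable section

lemma u_zero_le {x : ℝ} (h : 0 ≤ x) : u 0 ≤ x := by simpa [u] using h

lemma u_one : u 1000000 = 1 := by norm_num [u]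

lemma inv_pi_le : 1 / π ≤ u 318310 := by
  rw [div_le_iff₀ pi_pos]
  have := pi_gt_d6; norm_num [u] at *; linarith

lemma le_inv_pi : u 318309 ≤ 1 / π := by
  rw [le_div_iff₀ pi_pos]
  have := pi_lt_d6; norm_num [u] at *; linarith

lemma le_T0Y : u 385154 ≤ T0Y := by
  unfold T0Y
  rw [le_div_iff₀ (by positivity)]
  have := pi_lt_d6; norm_num [u] at *; linarith

lemma cr_valid : CRValid := by
  obtain ⟨h1, h2, h3, h4, h5⟩ := CR_table
  intro o
  rcases o with _ | _ | _ | _ | _ | n <;> simp only [CTab, RTab, frTab, u] <;> norm_num at * <;>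
    assumption

lemma thin_good (hK : CornerValid) {E T v b : ℝ} (hv : 0 ≤ v) (hv1 : v ≤ 1 / π) (hE : 0 ≤ E)
    (hEv : E ≤ v) (hvT : v ≤ T) (hT : T ≤ 1) (hT0 : u 385154 ≤ T) (hb0 : u 0 ≤ b)
    (hb1 : b ≤ u 500000) (hb : b ≤ 1 / 2) : Good 0 v E T b := by
  have hv2 := hv1.trans inv_pi_le
  rcases le_total v (u 40000) with h0 | h0
  · exact tree_spec cr_valid hK (by norm_num) _ root0_0_ok hv1 hT
      ⟨u_zero_le hv, h0, u_zero_le hE, hEv.trans h0, hT0, hT.trans u_one.ge, hb0, hb1, hb, hEv, hvT⟩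
  rcases le_total v (u 100000) with h1 | h1
  · exact tree_spec cr_valid hK (by norm_num) _ root0_1_ok hv1 hT
      ⟨h0, h1, u_zero_le hE, hEv.trans h1, hT0, hT.trans u_one.ge, hb0, hb1, hb, hEv, hvT⟩
  rcases le_total v (u 130000) with h2 | h2
  · exact tree_spec cr_valid hK (by norm_num) _ root0_2_ok hv1 hT
      ⟨h1, h2, u_zero_le hE, hEv.trans h2, hT0, hT.trans u_one.ge, hb0, hb1, hb, hEv, hvT⟩
  rcases le_total v (u 155140) with h3 | h3
  · exact tree_spec cr_valid hK (by norm_num) _ root0_3_ok hv1 hT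
      ⟨h2, h3, u_zero_le hE, hEv.trans h3, hT0, hT.trans u_one.ge, hb0, hb1, hb, hEv, hvT⟩
  rcases le_total v (u 190000) with h4 | h4
  · exact tree_spec cr_valid hK (by norm_num) _ root0_4_ok hv1 hT
      ⟨h3, h4, u_zero_le hE, hEv.trans h4, hT0, hT.trans u_one.ge, hb0, hb1, hb, hEv, hvT⟩
  rcases le_total v (u 240000) with h5 | h5
  · exact tree_spec cr_valid hK (by norm_num) _ root0_5_ok hv1 hT
      ⟨h4, h5, u_zero_le hE, hEv.trans h5, hT0, hT.trans u_one.ge, hb0, hb1, hb, hEv, hvT⟩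
  rcases le_total v (u 260000) with h6 | h6
  · exact tree_spec cr_valid hK (by norm_num) _ root0_6_ok hv1 hT
      ⟨h5, h6, u_zero_le hE, hEv.trans h6, hT0, hT.trans u_one.ge, hb0, hb1, hb, hEv, hvT⟩
  rcases le_total v (u 280000) with h7 | h7
  · exact tree_spec cr_valid hK (by norm_num) _ root0_7_ok hv1 hT
      ⟨h6, h7, u_zero_le hE, hEv.trans h7, hT0, hT.trans u_one.ge, hb0, hb1, hb, hEv, hvT⟩
  rcases le_total v (u 290000) with h8 | h8
  · exact tree_spec cr_valid hK (by norm_num) _ root0_8_ok hv1 hT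
      ⟨h7, h8, u_zero_le hE, hEv.trans h8, hT0, hT.trans u_one.ge, hb0, hb1, hb, hEv, hvT⟩
  rcases le_total v (u 300000) with h9 | h9
  · exact tree_spec cr_valid hK (by norm_num) _ root0_9_ok hv1 hT
      ⟨h8, h9, u_zero_le hE, hEv.trans h9, hT0, hT.trans u_one.ge, hb0, hb1, hb, hEv, hvT⟩
  rcases le_total v (u 310000) with h10 | h10
  · exact tree_spec cr_valid hK (by norm_num) _ root0_10_ok hv1 hT
      ⟨h9, h10, u_zero_le hE, hEv.trans h10, hT0, hT.trans u_one.ge, hb0, hb1, hb, hEv, hvT⟩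
  exact tree_spec cr_valid hK (by norm_num) _ root0_11_ok hv1 hT
    ⟨h10, hv2, u_zero_le hE, hEv.trans hv2, hT0, hT.trans u_one.ge, hb0, hb1, hb, hEv, hvT⟩

lemma cyc_good (hK : CornerValid) {E T v b : ℝ} (hv : 0 ≤ v) (hv1 : v ≤ 1 / π) (hE : 0 ≤ E)
    (hEv : E ≤ v) (hvT : v ≤ T) (hT : T ≤ 1) (hT0 : u 385154 ≤ T) (hb0 : u 0 ≤ b)
    (hb1 : b ≤ u 500000) (hb : b ≤ 1 / 2) : Good 1 v E T b := by
  have hv2 := hv1.trans inv_pi_le
  rcases le_total v (u 40000) with h0 | h0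
  · exact tree_spec cr_valid hK (by norm_num) _ root1_0_ok hv1 hT
      ⟨u_zero_le hv, h0, u_zero_le hE, hEv.trans h0, hT0, hT.trans u_one.ge, hb0, hb1, hb, hEv, hvT⟩
  rcases le_total v (u 100000) with h1 | h1
  · exact tree_spec cr_valid hK (by norm_num) _ root1_1_ok hv1 hT
      ⟨h0, h1, u_zero_le hE, hEv.trans h1, hT0, hT.trans u_one.ge, hb0, hb1, hb, hEv, hvT⟩
  rcases le_total v (u 130000) with h2 | h2
  · exact tree_spec cr_valid hK (by norm_num) _ root1_2_ok hv1 hT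
      ⟨h1, h2, u_zero_le hE, hEv.trans h2, hT0, hT.trans u_one.ge, hb0, hb1, hb, hEv, hvT⟩
  rcases le_total v (u 155140) with h3 | h3
  · exact tree_spec cr_valid hK (by norm_num) _ root1_3_ok hv1 hT
      ⟨h2, h3, u_zero_le hE, hEv.trans h3, hT0, hT.trans u_one.ge, hb0, hb1, hb, hEv, hvT⟩
  rcases le_total v (u 190000) with h4 | h4
  · exact tree_spec cr_valid hK (by norm_num) _ root1_4_ok hv1 hT
      ⟨h3, h4, u_zero_le hE, hEv.trans h4, hT0, hT.trans u_one.ge, hb0, hb1, hb, hEv, hvT⟩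
  rcases le_total v (u 240000) with h5 | h5
  · exact tree_spec cr_valid hK (by norm_num) _ root1_5_ok hv1 hT
      ⟨h4, h5, u_zero_le hE, hEv.trans h5, hT0, hT.trans u_one.ge, hb0, hb1, hb, hEv, hvT⟩
  rcases le_total v (u 260000) with h6 | h6
  · exact tree_spec cr_valid hK (by norm_num) _ root1_6_ok hv1 hT
      ⟨h5, h6, u_zero_le hE, hEv.trans h6, hT0, hT.trans u_one.ge, hb0, hb1, hb, hEv, hvT⟩
  rcases le_total v (u 280000) with h7 | h7
  · exact tree_spec cr_valid hK (by norm_num) _ root1_7_ok hv1 hT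
      ⟨h6, h7, u_zero_le hE, hEv.trans h7, hT0, hT.trans u_one.ge, hb0, hb1, hb, hEv, hvT⟩
  rcases le_total v (u 290000) with h8 | h8
  · exact tree_spec cr_valid hK (by norm_num) _ root1_8_ok hv1 hT
      ⟨h7, h8, u_zero_le hE, hEv.trans h8, hT0, hT.trans u_one.ge, hb0, hb1, hb, hEv, hvT⟩
  rcases le_total v (u 300000) with h9 | h9
  · exact tree_spec cr_valid hK (by norm_num) _ root1_9_ok hv1 hT
      ⟨h8, h9, u_zero_le hE, hEv.trans h9, hT0, hT.trans u_one.ge, hb0, hb1, hb, hEv, hvT⟩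
  rcases le_total v (u 310000) with h10 | h10
  · exact tree_spec cr_valid hK (by norm_num) _ root1_10_ok hv1 hT
      ⟨h9, h10, u_zero_le hE, hEv.trans h10, hT0, hT.trans u_one.ge, hb0, hb1, hb, hEv, hvT⟩
  exact tree_spec cr_valid hK (by norm_num) _ root1_11_ok hv1 hT
    ⟨h10, hv2, u_zero_le hE, hEv.trans hv2, hT0, hT.trans u_one.ge, hb0, hb1, hb, hEv, hvT⟩

lemma thick_good (hK : CornerValid) {E T v b : ℝ} (hv : 0 ≤ v) (hv1 : v ≤ 1 / π) (hE : 0 ≤ E)
    (hEv : E ≤ v) (hvT : v ≤ T) (hT : T ≤ 1) (hT0 : u 318309 ≤ T) (hb0 : u 0 ≤ b)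
    (hb1 : b ≤ u 500000) (hb : b ≤ 1 / 2) : Good 2 v E T b := by
  have hv2 := hv1.trans inv_pi_le
  rcases le_total v (u 40000) with h0 | h0
  · exact tree_spec cr_valid hK (by norm_num) _ root2_0_ok hv1 hT
      ⟨u_zero_le hv, h0, u_zero_le hE, hEv.trans h0, hT0, hT.trans u_one.ge, hb0, hb1, hb, hEv, hvT⟩
  rcases le_total v (u 100000) with h1 | h1
  · exact tree_spec cr_valid hK (by norm_num) _ root2_1_ok hv1 hT
      ⟨h0, h1, u_zero_le hE, hEv.trans h1, hT0, hT.trans u_one.ge, hb0, hb1, hb, hEv, hvT⟩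
  rcases le_total v (u 130000) with h2 | h2
  · exact tree_spec cr_valid hK (by norm_num) _ root2_2_ok hv1 hT
      ⟨h1, h2, u_zero_le hE, hEv.trans h2, hT0, hT.trans u_one.ge, hb0, hb1, hb, hEv, hvT⟩
  rcases le_total v (u 155140) with h3 | h3
  · exact tree_spec cr_valid hK (by norm_num) _ root2_3_ok hv1 hT
      ⟨h2, h3, u_zero_le hE, hEv.trans h3, hT0, hT.trans u_one.ge, hb0, hb1, hb, hEv, hvT⟩
  rcases le_total v (u 190000) with h4 | h4
  · exact tree_spec cr_valid hK (by norm_num) _ root2_4_ok hv1 hT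
      ⟨h3, h4, u_zero_le hE, hEv.trans h4, hT0, hT.trans u_one.ge, hb0, hb1, hb, hEv, hvT⟩
  rcases le_total v (u 240000) with h5 | h5
  · exact tree_spec cr_valid hK (by norm_num) _ root2_5_ok hv1 hT
      ⟨h4, h5, u_zero_le hE, hEv.trans h5, hT0, hT.trans u_one.ge, hb0, hb1, hb, hEv, hvT⟩
  rcases le_total v (u 260000) with h6 | h6
  · exact tree_spec cr_valid hK (by norm_num) _ root2_6_ok hv1 hT
      ⟨h5, h6, u_zero_le hE, hEv.trans h6, hT0, hT.trans u_one.ge, hb0, hb1, hb, hEv, hvT⟩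
  rcases le_total v (u 280000) with h7 | h7
  · exact tree_spec cr_valid hK (by norm_num) _ root2_7_ok hv1 hT
      ⟨h6, h7, u_zero_le hE, hEv.trans h7, hT0, hT.trans u_one.ge, hb0, hb1, hb, hEv, hvT⟩
  rcases le_total v (u 290000) with h8 | h8
  · exact tree_spec cr_valid hK (by norm_num) _ root2_8_ok hv1 hT
      ⟨h7, h8, u_zero_le hE, hEv.trans h8, hT0, hT.trans u_one.ge, hb0, hb1, hb, hEv, hvT⟩
  rcases le_total v (u 300000) with h9 | h9
  · exact tree_spec cr_valid hK (by norm_num) _ root2_9_ok hv1 hT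
      ⟨h8, h9, u_zero_le hE, hEv.trans h9, hT0, hT.trans u_one.ge, hb0, hb1, hb, hEv, hvT⟩
  rcases le_total v (u 310000) with h10 | h10
  · exact tree_spec cr_valid hK (by norm_num) _ root2_10_ok hv1 hT
      ⟨h9, h10, u_zero_le hE, hEv.trans h10, hT0, hT.trans u_one.ge, hb0, hb1, hb, hEv, hvT⟩
  exact tree_spec cr_valid hK (by norm_num) _ root2_11_ok hv1 hT
    ⟨h10, hv2, u_zero_le hE, hEv.trans hv2, hT0, hT.trans u_one.ge, hb0, hb1, hb, hEv, hvT⟩

end

end Vale.P232.Chk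

namespace Vale.P232

noncomputable section

open Chk in
/-- Thin slices, with slack. -/
theorem scalar_thin_strict {E T v : ℝ} (hv : 0 ≤ v) (hv1 : v ≤ 1 / π)
    (hE : 0 ≤ E) (hEv : E ≤ v) (hvT : v ≤ T) (hT : T ≤ 1) (hT0 : T0Y ≤ T) :
    Cert2G (candJ v + 1 / 100000) LY LY v E E T := by
  rcases thin_good scalar_corner hv hv1 hE hEv hvT hT (le_T0Y.trans hT0) (b := 0) (u_zero_le le_rfl)
    (u_nonneg _) (by norm_num) with h | ⟨h, -⟩
  · exact h
  · norm_num at h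

open Chk in
/-- Cyclic slices, with slack. -/
theorem scalar_cyc_strict {E T v : ℝ} (hv : 0 ≤ v) (hv1 : v ≤ 1 / π)
    (hE : 0 ≤ E) (hEv : E ≤ v) (hvT : v ≤ T) (hT : T ≤ 1) (hT0 : T0Y ≤ T) :
    Cert2G (candJ v + 1 / 100000) LY LCyc v E E T := by
  rcases cyc_good scalar_corner hv hv1 hE hEv hvT hT (le_T0Y.trans hT0) (b := 0) (u_zero_le le_rfl)
    (u_nonneg _) (by norm_num) with h | ⟨h, -⟩
  · exact h
  · norm_num at h

open Chk in
/-- Thick slices: slack, except near the slab, where the bound is `2 + (√(1-T) + √E)/20`. -/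
theorem scalar_thick_strict {E T v b : ℝ} (hv : 0 ≤ v) (hv1 : v ≤ 1 / π)
    (hE : 0 ≤ E) (hEv : E ≤ v) (hvT : v ≤ T) (hT : T ≤ 1) (hT0 : 1 / π ≤ T) (hb0 : 0 ≤ b)
    (hb : b ≤ 1 / 2) :
    Cert2G (candJ v + 1 / 100000) (fun a => LZ a b) (fun a => LCross a b) v E (alo v E T) T ∨
      (7 / 25 ≤ v ∧ E ≤ 1 / 200 ∧ 199 / 200 ≤ T ∧
        Cert2G (2 + (√(1 - T) + √E) / 20) (fun a => LZ a b) (fun a => LCross a b) v E
          (alo v E T) T) := by
  rcases thick_good scalar_corner hv hv1 hE hEv hvT hT (le_inv_pi.trans hT0) (u_zero_le hb0)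
    (hb.trans (le_of_eq (by norm_num [u]))) hb with h | ⟨-, h⟩
  · exact Or.inl h
  · exact Or.inr h

/-- Thin slices. -/
theorem scalar_thin {E T v : ℝ} (hv : 0 ≤ v) (hv1 : v ≤ 1 / π) (hE : 0 ≤ E) (hEv : E ≤ v)
    (hvT : v ≤ T) (hT : T ≤ 1) (hT0 : T0Y ≤ T) : Cert2 LY LY v E E T :=
  (scalar_thin_strict hv hv1 hE hEv hvT hT hT0).cert2 (by linarith)

/-- Cyclic slices. -/
theorem scalar_cyc {E T v : ℝ} (hv : 0 ≤ v) (hv1 : v ≤ 1 / π) (hE : 0 ≤ E) (hEv : E ≤ v)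
    (hvT : v ≤ T) (hT : T ≤ 1) (hT0 : T0Y ≤ T) : Cert2 LY LCyc v E E T :=
  (scalar_cyc_strict hv hv1 hE hEv hvT hT hT0).cert2 (by linarith)

/-- Thick slices. -/
theorem scalar_thick {E T v b : ℝ} (hv : 0 ≤ v) (hv1 : v ≤ 1 / π) (hE : 0 ≤ E) (hEv : E ≤ v)
    (hvT : v ≤ T) (hT : T ≤ 1) (hT0 : 1 / π ≤ T) (hb0 : 0 ≤ b) (hb : b ≤ 1 / 2) :
    Cert2 (fun a => LZ a b) (fun a => LCross a b) v E (alo v E T) T := by
  rcases scalar_thick_strict hv hv1 hE hEv hvT hT hT0 hb0 hb with h | ⟨-, -, -, h⟩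
  · exact h.cert2 (by linarith)
  · exact h.cert2 ((min_le_right _ _).trans
      (le_add_of_nonneg_right (by positivity)))

end

end Vale.P232
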