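import Vale.Agent.P232.ReduceMain
import Vale.Agent.P232.ScalarMain
import Vale.Agent.P232.ScalarDiscCert
import Vale.Agent.P232.FluxLib

/-!
P232: the scalar bounds of the case split, from the certificates, and the profile.
-/

open MeasureTheory Real Set

namespace Vale.P232

noncomputable section

/-- The four scalar inequalities. -/
theorem scalarBounds : ScalarBounds where
  disc := scalar_disc_cert
  thin := fun hv hv1 hE hEv hvT hT hT0 => by
    have h := scalar_thin hv.le hv1.le hE hEv hvT hT hT0
    unfold HasCert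
    rwa [max_self]
  cyc := fun hv hv1 hE hEv hvT hT hT0 => by
    have h := scalar_cyc hv.le hv1.le hE hEv hvT hT hT0
    unfold HasCert
    rwa [max_self]
  thick := fun hv hv1 hE hEv hvT hT hT0 hb0 hb =>
    scalar_thick hv.le hv1.le hE hEv hvT hT hT0 hb0 hb

/-- The isoperimetric profile of the cubic torus. -/
theorem profile_eq_J : ∀ V ∈ Ioo (0 : ℝ) 1, profile V = ENNReal.ofReal (J V) :=
  profile_eq_of_bounds planarBounds scalarBounds

/-- The infimum is attained by a ball, a tube, a slab or one of their complements. -/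
theorem exists_minimiser {V : ℝ} (hV : V ∈ Ioo (0 : ℝ) 1) :
    ∃ E : Set V3, MeasurableSet E ∧ IsPeriodic E ∧ tvol E = V ∧ perimeter E = profile V := by
  obtain ⟨h0, h1⟩ := hV
  have hv0 : 0 < min V (1 - V) := lt_min h0 (by linarith)
  have hv1 : min V (1 - V) ≤ 1 / 2 := by
    rcases le_total V (1 / 2) with h | h
    · exact le_trans (min_le_left _ _) h
    · exact le_trans (min_le_right _ _) (by linarith)
  have hgo : ∀ M : ℝ, J V = M → (∃ E, MeasurableSet E ∧ IsPeriodic E ∧ tvol E = min V (1 - V) ∧
      perimeter E ≤ ENNReal.ofReal M) →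
      ∃ E : Set V3, MeasurableSet E ∧ IsPeriodic E ∧ tvol E = V ∧ perimeter E = profile V := by
    rintro M hM ⟨E, hm, hp, hv, hP⟩
    rw [← hM, ← profile_eq_J V ⟨h0, h1⟩] at hP
    rcases le_total V (1 - V) with h | h
    · rw [min_eq_left h] at hv
      refine ⟨E, hm, hp, hv, le_antisymm hP ?_⟩
      exact iInf_le_of_le E (iInf_le_of_le hm (iInf_le_of_le hp (iInf_le_of_le hv le_rfl)))
    · rw [min_eq_right h] at hv
      have hv' : tvol Eᶜ = V := by rw [Upper.tvol_compl hm, hv]; ring
      have hp' := Upper.isPeriodic_compl hp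
      refine ⟨Eᶜ, hm.compl, hp', hv', le_antisymm (by rwa [Upper.perimeter_compl hm]) ?_⟩
      exact iInf_le_of_le Eᶜ (iInf_le_of_le hm.compl (iInf_le_of_le hp' (iInf_le_of_le hv' le_rfl)))
  rcases min_choice (min (ballP (min V (1 - V))) (tubeP (min V (1 - V)))) 2 with h | h
  · rcases min_choice (ballP (min V (1 - V))) (tubeP (min V (1 - V))) with h' | h'
    · exact hgo _ (h.trans h') (Upper.exists_ball hv0 hv1)
    · exact hgo _ (h.trans h') (Upper.exists_tube hv0 hv1)
  · exact hgo _ h (Upper.exists_slab hv0 (by linarith))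

end

end Vale.P232
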