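import Vale.Agent.P232.Heat

/-!
P232, module A: submodularity of the perimeter and the resulting concavity of the profile.
-/

open MeasureTheory Set Filter Topology
open scoped ENNReal

namespace Vale.P232

noncomputable section

theorem IsPeriodic.union {E F : Set V3} (hE : IsPeriodic E) (hF : IsPeriodic F) :
    IsPeriodic (E ∪ F) := fun x k => or_congr (hE x k) (hF x k)

theorem IsPeriodic.inter {E F : Set V3} (hE : IsPeriodic E) (hF : IsPeriodic F) :
    IsPeriodic (E ∩ F) := fun x k => and_congr (hE x k) (hF x k)

theorem IsPeriodic.compl {E : Set V3} (hE : IsPeriodic E) : IsPeriodic Eᶜ :=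
  fun x k => not_congr (hE x k)

theorem IsPeriodic.shift {E : Set V3} (hE : IsPeriodic E) (t : V3) :
    IsPeriodic {x | x + t ∈ E} := fun x k => by
  simp only [mem_ofPred_eq]
  rw [show x + (fun i => (k i : ℝ)) + t = x + t + fun i => (k i : ℝ) by abel]
  exact hE (x + t) k

theorem measurableSet_shift {E : Set V3} (hE : MeasurableSet E) (t : V3) :
    MeasurableSet {x | x + t ∈ E} := measurable_add_const t hE

theorem integrableOn_ind {E : Set V3} (hE : MeasurableSet E) : IntegrableOn (ind E) cube :=
  (integrable_const (1 : ℝ)).indicator hE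

theorem ind_union_add_inter (E F : Set V3) (x : V3) :
    ind (E ∪ F) x + ind (E ∩ F) x = ind E x + ind F x := by
  by_cases h1 : x ∈ E <;> by_cases h2 : x ∈ F <;> simp [ind, h1, h2]

theorem ind_shift_union_add_inter (E F : Set V3) (x y : V3) :
    |ind (E ∪ F) y - ind (E ∪ F) x| + |ind (E ∩ F) y - ind (E ∩ F) x|
      ≤ |ind E y - ind E x| + |ind F y - ind F x| := by
  by_cases h1 : x ∈ E <;> by_cases h2 : x ∈ F <;> by_cases h3 : y ∈ E <;> by_cases h4 : y ∈ F <;>
    simp [ind, h1, h2, h3, h4]

theorem tvol_union_add_inter {E F : Set V3} (hE : MeasurableSet E) (hF : MeasurableSet F) :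
    tvol (E ∪ F) + tvol (E ∩ F) = tvol E + tvol F := by
  rw [tvol_eq_integral (hE.union hF), tvol_eq_integral (hE.inter hF), tvol_eq_integral hE,
    tvol_eq_integral hF, ← integral_add (integrableOn_ind (hE.union hF))
      (integrableOn_ind (hE.inter hF)), ← integral_add (integrableOn_ind hE) (integrableOn_ind hF)]
  simp only [ind_union_add_inter]

theorem integrableOn_shift_ind {E : Set V3} (hE : MeasurableSet E) (h : V3) :
    IntegrableOn (fun x => |ind E (x + h) - ind E x|) cube :=
  Integrable.of_bound
    (((measurable_ind hE).comp (measurable_add_const h)).sub (measurable_ind hE)).norm.aestronglyMeasurable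
    1 (Eventually.of_forall fun x => by
      simp only [Real.norm_eq_abs, abs_abs, Function.comp_apply, Pi.sub_apply]
      exact abs_ind_sub_le E _ _)

theorem Phi_union_add_inter_le {E F : Set V3} (hE : MeasurableSet E) (hF : MeasurableSet F)
    (hEp : IsPeriodic E) (hFp : IsPeriodic F) {r : ℝ} (hr : 0 < r) :
    Phi r (E ∪ F) + Phi r (E ∩ F) ≤ Phi r E + Phi r F := by
  simp only [Phi, ← add_div]
  refine div_le_div_of_nonneg_right ?_ (kappa_pos hr).le
  rw [← integral_add (integrableOn_shiftDiff (hE.union hF) (hEp.union hFp) r)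
      (integrableOn_shiftDiff (hE.inter hF) (hEp.inter hFp) r),
    ← integral_add (integrableOn_shiftDiff hE hEp r) (integrableOn_shiftDiff hF hFp r)]
  refine setIntegral_mono ((integrableOn_shiftDiff (hE.union hF) (hEp.union hFp) r).add
    (integrableOn_shiftDiff (hE.inter hF) (hEp.inter hFp) r))
    ((integrableOn_shiftDiff hE hEp r).add (integrableOn_shiftDiff hF hFp r)) fun h => ?_
  rw [shiftDiff_eq (hE.union hF), shiftDiff_eq (hE.inter hF), shiftDiff_eq hE, shiftDiff_eq hF,
    ← integral_add (integrableOn_shift_ind (hE.union hF) h) (integrableOn_shift_ind (hE.inter hF) h),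
    ← integral_add (integrableOn_shift_ind hE h) (integrableOn_shift_ind hF h)]
  exact setIntegral_mono ((integrableOn_shift_ind (hE.union hF) h).add
      (integrableOn_shift_ind (hE.inter hF) h))
    ((integrableOn_shift_ind hE h).add (integrableOn_shift_ind hF h))
    fun x => ind_shift_union_add_inter E F x (x + h)

/-- A4: submodularity. -/
theorem perimeter_union_add_inter_le {E F : Set V3} (hE : MeasurableSet E) (hF : MeasurableSet F)
    (hEp : IsPeriodic E) (hFp : IsPeriodic F) :
    perimeter (E ∪ F) + perimeter (E ∩ F) ≤ perimeter E + perimeter F := by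
  by_cases h : perimeter E = ⊤
  · simp [h]
  by_cases h' : perimeter F = ⊤
  · simp [h']
  set a := (perimeter E).toReal with ha
  set b := (perimeter F).toReal with hb
  have hE' := perBound_toReal h
  have hF' := perBound_toReal h'
  have key : ∀ X Y, IsTestField X → IsTestField Y →
      (∫ x in (E ∪ F) ∩ cube, div3 X x) + (∫ x in (E ∩ F) ∩ cube, div3 Y x) ≤ a + b := by
    intro X Y hX hY
    refine le_of_forall_pos_le_add fun ε hε => ?_
    obtain ⟨r, ⟨h1, h2⟩, hr⟩ := (((eventually_div_le_Phi (hE.union hF) (hEp.union hFp) hX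
      (half_pos hε)).and (eventually_div_le_Phi (hE.inter hF) (hEp.inter hFp) hY
      (half_pos hε))).and self_mem_nhdsWithin).exists
    have := Phi_union_add_inter_le hE hF hEp hFp hr
    have := Phi_le_of_perBound hE hEp hE' hr
    have := Phi_le_of_perBound hF hFp hF' hr
    linarith
  have h0 : IsTestField (fun _ : V3 => (0 : V3)) :=
    ⟨contDiff_const, fun _ _ => rfl, fun _ => by simp⟩
  have hU : perimeter (E ∪ F) ≠ ⊤ := by
    refine ne_top_of_le_ne_top ENNReal.ofReal_ne_top (PerBound.perimeter_le (B := a + b) fun X hX => ?_)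
    have := key X _ hX h0
    simpa [div3] using this
  have hI : perimeter (E ∩ F) ≠ ⊤ := by
    refine ne_top_of_le_ne_top ENNReal.ofReal_ne_top (PerBound.perimeter_le (B := a + b) fun X hX => ?_)
    have := key _ X h0 hX
    simpa [div3] using this
  have hab : perimeter E + perimeter F = ENNReal.ofReal (a + b) := by
    rw [ENNReal.ofReal_add ENNReal.toReal_nonneg ENNReal.toReal_nonneg, ENNReal.ofReal_toReal h,
      ENNReal.ofReal_toReal h']
  rw [hab]
  set u := (perimeter (E ∪ F)).toReal
  set w := (perimeter (E ∩ F)).toReal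
  rw [← ENNReal.ofReal_toReal hU, ← ENNReal.ofReal_toReal hI,
    ← ENNReal.ofReal_add ENNReal.toReal_nonneg ENNReal.toReal_nonneg]
  refine ENNReal.ofReal_le_ofReal ?_
  have hw : ∀ X, IsTestField X → ∫ x in (E ∩ F) ∩ cube, div3 X x ≤ a + b - u := fun Y hY => by
    have hb' : PerBound (E ∪ F) (a + b - ∫ x in (E ∩ F) ∩ cube, div3 Y x) := fun X hX => by
      linarith [key X Y hX hY]
    have := ENNReal.toReal_mono ENNReal.ofReal_ne_top hb'.perimeter_le
    rw [ENNReal.toReal_ofReal hb'.nonneg] at this
    linarith
  have h2 : PerBound (E ∩ F) (a + b - u) := hw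
  have := ENNReal.toReal_mono ENNReal.ofReal_ne_top h2.perimeter_le
  rw [ENNReal.toReal_ofReal h2.nonneg] at this
  linarith

theorem perimeter_shift {E : Set V3} (hE : MeasurableSet E) (hp : IsPeriodic E) (t : V3) :
    perimeter {x | x + t ∈ E} ≤ perimeter E := by
  refine iSup₂_le fun X hX => ?_
  refine le_trans (ENNReal.ofReal_le_ofReal (le_of_eq ?_))
    (le_iSup₂ (f := fun X (_ : IsTestField X) => ENNReal.ofReal (∫ x in E ∩ cube, div3 X x))
      (fun x => (1 : ℝ) • X (x + -t)) (isTestField_translate hX (-t) 1 (one_pow 2)))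
  rw [setIntegral_inter_cube (measurableSet_shift hE t), setIntegral_inter_cube hE]
  simp only [div3_translate hX.1, one_mul]
  rw [← integral_periodic_translate (g := fun x => ind E x * div3 X (x + -t)) (fun x k => by
    simp only [hp.ind x k, show x + (fun i => (k i : ℝ)) + -t = x + -t + fun i => (k i : ℝ) by abel,
      periodic_div3 hX.2.1 _ k]) t]
  refine setIntegral_congr_fun measurableSet_cube fun x _ => ?_
  simp [ind, Set.indicator]

theorem perimeter_compl_le_self {E : Set V3} (hE : MeasurableSet E) :
    perimeter Eᶜ ≤ perimeter E := by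
  refine iSup₂_le fun X hX => ?_
  refine le_trans (ENNReal.ofReal_le_ofReal (le_of_eq ?_))
    (le_iSup₂ (f := fun X (_ : IsTestField X) => ENNReal.ofReal (∫ x in E ∩ cube, div3 X x))
      (fun x => (-1 : ℝ) • X (x + 0)) (isTestField_translate hX 0 (-1) (by norm_num)))
  rw [setIntegral_inter_cube hE.compl, setIntegral_inter_cube hE]
  simp only [div3_translate hX.1]
  simp only [add_zero, neg_one_mul, mul_neg, integral_neg]
  have h0 : ∫ x in cube, div3 X x = 0 := by
    simpa [fderiv_const] using
      integral_dot_grad_add (f := fun _ => (1 : ℝ)) contDiff_const (fun _ _ => rfl) hX.1 hX.2.1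
  have hd := Continuous.integrableOn_cube (continuous_divergence hX.1)
  have hi : IntegrableOn (fun x => ind E x * div3 X x) cube :=
    hd.bdd_mul (c := 1) (measurable_ind hE).aestronglyMeasurable (Eventually.of_forall fun x => by
      rw [Real.norm_eq_abs, abs_of_nonneg (ind_nonneg _ _)]; exact ind_le_one _ _)
  have e : ∀ x, ind Eᶜ x * div3 X x = div3 X x - ind E x * div3 X x := fun x => by
    by_cases h : x ∈ E <;> simp [ind, h]
  simp only [e]
  rw [integral_sub hd hi, h0, zero_sub]

theorem tvol_shift {E : Set V3} (hE : MeasurableSet E) (hp : IsPeriodic E) (t : V3) :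
    tvol {x | x + t ∈ E} = tvol E := by
  rw [tvol_eq_integral (measurableSet_shift hE t), tvol_eq_integral hE,
    ← integral_periodic_translate hp.ind t]
  refine setIntegral_congr_fun measurableSet_cube fun x _ => ?_
  simp [ind, Set.indicator]

theorem tvol_compl_eq {E : Set V3} (hE : MeasurableSet E) : tvol Eᶜ = 1 - tvol E := by
  rw [tvol_eq_integral hE.compl, tvol_eq_integral hE]
  have e : ∀ x, ind Eᶜ x = 1 - ind E x := fun x => by by_cases h : x ∈ E <;> simp [ind, h]
  simp only [e]
  rw [integral_sub (integrable_const 1) (integrableOn_ind hE)]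
  simp [measureReal_def, volume_cube_eq_one]

theorem profile_le {E : Set V3} (hE : MeasurableSet E) (hp : IsPeriodic E) :
    profile (tvol E) ≤ perimeter E :=
  iInf_le_of_le E (iInf_le_of_le hE (iInf_le_of_le hp (iInf_le_of_le rfl le_rfl)))

theorem profile_symm (V : ℝ) : profile V = profile (1 - V) := by
  have h : ∀ W, profile (1 - W) ≤ profile W := fun W => le_iInf fun E => le_iInf fun hE =>
    le_iInf fun hp => le_iInf fun hv => by
      have := profile_le hE.compl hp.compl
      rw [tvol_compl_eq hE, hv] at this
      exact this.trans (perimeter_compl_le_self hE)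
  refine le_antisymm ?_ (h V)
  simpa using h (1 - V)

theorem tendsto_shiftDiff_zero {E : Set V3} (hE : MeasurableSet E) (hp : IsPeriodic E) :
    Tendsto (shiftDiff E) (𝓝 0) (𝓝 0) := by
  have hA : Tendsto (fun n => ∫ x in cube, |mol n E x - ind E x|) atTop (𝓝 0) := by
    have := tendsto_integral_of_dominated_convergence (μ := (volume : Measure V3).restrict cube)
      (F := fun n x => |mol n E x - ind E x|) (f := fun _ => (0 : ℝ)) (fun _ => 1)
      (fun n => ((contDiff_mol hE n (k := 1)).continuous.measurable.sub
        (measurable_ind hE)).norm.aestronglyMeasurable)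
      (integrable_const _) (fun n => Eventually.of_forall fun x => by
        rw [Real.norm_eq_abs, abs_abs]
        exact abs_sub_le_iff.2 ⟨by linarith [ind_nonneg E x, mol_le_one hE n x],
          by linarith [mol_nonneg n E x, ind_le_one E x]⟩)
      (ae_restrict_of_ae (by
        filter_upwards [tendsto_mol hE] with x hx
        simpa using (hx.sub_const (ind E x)).abs))
    simpa using this
  rw [Metric.tendsto_nhds]
  intro ε hε
  obtain ⟨n, hn⟩ := (hA.eventually_lt_const (by linarith : (0 : ℝ) < ε / 4)).exists
  have hc : Continuous (mol n E) := (contDiff_mol hE n (k := 1)).continuous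
  have hG : IsPeriodicFun fun x => |mol n E x - ind E x| := fun x k => by
    simp only [periodic_mol hp n x k, hp.ind x k]
  have hint : ∀ h, IntegrableOn (fun x => |mol n E (x + h) - ind E (x + h)|) cube := fun h =>
    Integrable.of_bound ((hc.measurable.sub (measurable_ind hE)).norm.comp
      (measurable_add_const h)).aestronglyMeasurable 1 (Eventually.of_forall fun x => by
        simp only [Function.comp_apply, Pi.sub_apply, Real.norm_eq_abs, abs_abs]
        exact abs_sub_le_iff.2 ⟨by linarith [ind_nonneg E (x + h), mol_le_one hE n (x + h)],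
          by linarith [mol_nonneg n E (x + h), ind_le_one E (x + h)]⟩)
  have hK : Continuous fun h => ∫ x in cube, |mol n E (x + h) - mol n E x| :=
    continuous_of_dominated (bound := fun _ => 1)
      (fun h => ((hc.comp (continuous_id.add continuous_const)).sub hc).abs.aestronglyMeasurable)
      (fun h => Eventually.of_forall fun x => by
        rw [Real.norm_eq_abs, abs_abs]
        exact abs_sub_le_iff.2 ⟨by linarith [mol_nonneg n E x, mol_le_one hE n (x + h)],
          by linarith [mol_nonneg n E (x + h), mol_le_one hE n x]⟩) (integrable_const _)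
      (Eventually.of_forall fun x =>
        ((hc.comp (continuous_const.add continuous_id)).sub continuous_const).abs)
  filter_upwards [(hK.tendsto 0).eventually_lt_const
    (show ∫ x in cube, |mol n E (x + 0) - mol n E x| < ε / 2 by simpa using half_pos hε)] with h hh
  rw [Real.dist_eq, sub_zero, abs_of_nonneg (shiftDiff_nonneg E h), shiftDiff_eq hE]
  have hc1 : IntegrableOn (fun x => |mol n E (x + h) - mol n E x|) cube :=
    Continuous.integrableOn_cube ((hc.comp (continuous_id.add continuous_const)).sub hc).abs
  have h0 : IntegrableOn (fun x => |mol n E x - ind E x|) cube := by simpa using hint 0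
  calc ∫ x in cube, |ind E (x + h) - ind E x|
      ≤ ∫ x in cube, (|mol n E (x + h) - ind E (x + h)| + |mol n E (x + h) - mol n E x|
          + |mol n E x - ind E x|) := by
        refine setIntegral_mono (integrableOn_shift_ind hE h) (((hint h).add hc1).add h0) fun x => ?_
        have := abs_sub_le (ind E (x + h)) (mol n E (x + h)) (ind E x)
        have := abs_sub_le (mol n E (x + h)) (mol n E x) (ind E x)
        rw [abs_sub_comm (mol n E (x + h)) (ind E (x + h))]
        linarith
    _ = (∫ x in cube, |mol n E x - ind E x|) + (∫ x in cube, |mol n E (x + h) - mol n E x|)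
          + ∫ x in cube, |mol n E x - ind E x| := by
        have hab : IntegrableOn
            (fun x => |mol n E (x + h) - ind E (x + h)| + |mol n E (x + h) - mol n E x|) cube :=
          (hint h).add hc1
        rw [integral_add hab h0, integral_add (hint h) hc1,
          integral_periodic_translate hG h]
    _ < ε := by linarith

/-- The volume of the intersection with a translate. -/
def overlap (E : Set V3) (t : V3) : ℝ := tvol (E ∩ {x | x + t ∈ E})

theorem overlap_eq {E : Set V3} (hE : MeasurableSet E) (t : V3) :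
    overlap E t = ∫ x in cube, ind E x * ind E (x + t) := by
  rw [overlap, tvol_eq_integral (hE.inter (measurableSet_shift hE t))]
  refine setIntegral_congr_fun measurableSet_cube fun x _ => ?_
  by_cases h1 : x ∈ E <;> by_cases h2 : x + t ∈ E <;> simp [ind, h1, h2]

theorem continuous_overlap {E : Set V3} (hE : MeasurableSet E) (hp : IsPeriodic E) :
    Continuous (overlap E) := by
  rw [continuous_iff_continuousAt]
  intro s
  rw [ContinuousAt, tendsto_iff_dist_tendsto_zero]
  have h0 : Tendsto (fun t => shiftDiff E (t - s)) (𝓝 s) (𝓝 0) :=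
    (tendsto_shiftDiff_zero hE hp).comp (tendsto_sub_nhds_zero_iff.2 tendsto_id)
  refine squeeze_zero (fun t => dist_nonneg) (fun t => ?_) h0
  have hi : ∀ t, IntegrableOn (fun x => ind E x * ind E (x + t)) cube := fun t => by
    refine (integrableOn_ind (hE.inter (measurableSet_shift hE t))).congr
      (Eventually.of_forall fun x => ?_)
    by_cases h1 : x ∈ E <;> by_cases h2 : x + t ∈ E <;> simp [ind, h1, h2]
  rw [Real.dist_eq, overlap_eq hE, overlap_eq hE, ← integral_sub (hi t) (hi s), shiftDiff_eq hE]
  refine (abs_integral_le_integral_abs).trans ?_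
  have hG : IsPeriodicFun fun x => |ind E (x + (t - s)) - ind E x| := fun x k => by
    simp only [show x + (fun i => (k i : ℝ)) + (t - s) = x + (t - s) + fun i => (k i : ℝ) by abel,
      hp.ind _ k]
  rw [← integral_periodic_translate hG s]
  refine integral_mono_of_nonneg (Eventually.of_forall fun _ => abs_nonneg _) ?_
    (Eventually.of_forall fun x => ?_)
  · refine Integrable.of_bound (Measurable.aestronglyMeasurable
      ((((measurable_ind hE).comp (measurable_add_const (t - s))).sub
        (measurable_ind hE)).norm.comp (measurable_add_const s))) 1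
      (Eventually.of_forall fun x => ?_)
    simp only [Function.comp_apply, Pi.sub_apply, Real.norm_eq_abs, abs_abs]
    exact abs_ind_sub_le E _ _
  · simp only
    rw [← mul_sub, abs_mul, abs_of_nonneg (ind_nonneg _ _),
      show x + s + (t - s) = x + t by abel]
    exact mul_le_of_le_one_left (abs_nonneg _) (ind_le_one _ _)

theorem integral_overlap {E : Set V3} (hE : MeasurableSet E) (hp : IsPeriodic E) :
    ∫ t in cube, overlap E t = tvol E ^ 2 := by
  have hint : Integrable (Function.uncurry fun t x => ind E x * ind E (x + t))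
      (((volume : Measure V3).restrict cube).prod ((volume : Measure V3).restrict cube)) :=
    Integrable.of_bound (((measurable_ind hE).comp measurable_snd).mul ((measurable_ind hE).comp
      (measurable_snd.add measurable_fst))).aestronglyMeasurable 1
      (Eventually.of_forall fun p => by
        simp only [Function.uncurry, norm_mul, Real.norm_eq_abs, abs_of_nonneg (ind_nonneg _ _)]
        exact mul_le_one₀ (ind_le_one _ _) (ind_nonneg _ _) (ind_le_one _ _))
  simp only [overlap_eq hE]
  rw [integral_integral_swap hint]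
  have : ∀ x, ∫ t in cube, ind E x * ind E (x + t) = ind E x * tvol E := fun x => by
    rw [integral_const_mul, tvol_eq_integral hE, ← integral_periodic_translate hp.ind x]
    simp only [add_comm]
  simp only [this]
  rw [integral_mul_const, ← tvol_eq_integral hE, sq]

/-- The profile lies above its chords at scale `v (1 - v)`. -/
theorem profile_midpoint (v δ : ℝ) (h0 : 0 ≤ δ) (h1 : δ ≤ v * (1 - v)) :
    profile (v + δ) + profile (v - δ) ≤ 2 * profile v := by
  by_contra hlt
  rw [not_le] at hlt
  have hlt' : profile v < (profile (v + δ) + profile (v - δ)) / 2 := by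
    rw [ENNReal.lt_div_iff_mul_lt (Or.inl two_ne_zero) (Or.inl ENNReal.ofNat_ne_top), mul_comm]
    exact hlt
  obtain ⟨E, hE⟩ := iInf_lt_iff.1 hlt'
  obtain ⟨hEm, hE⟩ := iInf_lt_iff.1 hE
  obtain ⟨hEp, hE⟩ := iInf_lt_iff.1 hE
  obtain ⟨hEv, hE⟩ := iInf_lt_iff.1 hE
  haveI : IsProbabilityMeasure ((volume : Measure V3).restrict cube) := ⟨by simp [volume_cube_eq_one]⟩
  obtain ⟨t0, ht0⟩ := exists_le_integral (μ := (volume : Measure V3).restrict cube)
    (f := overlap E) (Continuous.integrableOn_cube (continuous_overlap hEm hEp))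
  rw [integral_overlap hEm hEp, hEv] at ht0
  have hz : overlap E 0 = v := by simp [overlap, hEv]
  obtain ⟨s, -, hs⟩ := intermediate_value_Icc' (zero_le_one (α := ℝ))
    ((continuous_overlap hEm hEp).comp (continuous_id.smul continuous_const)).continuousOn
    (show v - δ ∈ Icc ((overlap E) ((1 : ℝ) • t0)) (overlap E ((0 : ℝ) • t0)) by
      rw [zero_smul, one_smul, hz]; constructor <;> nlinarith)
  simp only [Function.comp_apply, id_eq] at hs
  have hm : MeasurableSet {x | x + s • t0 ∈ E} := measurableSet_shift hEm _
  have hp' := hEp.shift (s • t0)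
  have hI : tvol (E ∩ {x | x + s • t0 ∈ E}) = v - δ := hs
  have hU : tvol (E ∪ {x | x + s • t0 ∈ E}) = v + δ := by
    have := tvol_union_add_inter hEm hm
    rw [tvol_shift hEm hEp, hEv, hI] at this
    linarith
  have hle : profile (v + δ) + profile (v - δ) ≤ perimeter E + perimeter E := by
    rw [← hI, ← hU]
    exact ((add_le_add (profile_le (hEm.union hm) (hEp.union hp'))
      (profile_le (hEm.inter hm) (hEp.inter hp'))).trans
      (perimeter_union_add_inter_le hEm hm hEp hp')).trans
      (add_le_add le_rfl (perimeter_shift hEm hEp _))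
  rw [ENNReal.lt_div_iff_mul_lt (Or.inl two_ne_zero) (Or.inl ENNReal.ofNat_ne_top), mul_two] at hE
  exact absurd hle (not_le.2 hE)

/-- A5: a bound at the ends of an interval propagates inside. -/
theorem le_profile_of_endpoints {a b C : ℝ} (hC : 0 ≤ C) (ha0 : 0 < a) (hb1 : b < 1)
    (ha : ENNReal.ofReal C ≤ profile a) (hb : ENNReal.ofReal C ≤ profile b) {v : ℝ}
    (hv : v ∈ Icc a b) : ENNReal.ofReal C ≤ profile v := by
  set h : ℝ → ℝ := fun w => (min (profile w) (ENNReal.ofReal C)).toReal
  have hfin : ∀ w, min (profile w) (ENNReal.ofReal C) ≠ ⊤ := fun w =>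
    ne_top_of_le_ne_top ENNReal.ofReal_ne_top (min_le_right _ _)
  have h2 : ∀ w, h w ≤ C := fun w => by
    have := ENNReal.toReal_mono ENNReal.ofReal_ne_top
      (min_le_right (profile w) (ENNReal.ofReal C))
    rwa [ENNReal.toReal_ofReal hC] at this
  have hnn : ∀ w, 0 ≤ h w := fun w => ENNReal.toReal_nonneg
  have hmid : ∀ w δ, 0 ≤ δ → δ ≤ w * (1 - w) → h (w + δ) + h (w - δ) ≤ 2 * h w := by
    intro w δ d0 d1
    rcases le_or_gt (ENNReal.ofReal C) (profile w) with hw | hw
    · have : h w = C := by simp only [h, min_eq_right hw]; exact ENNReal.toReal_ofReal hC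
      linarith [h2 (w + δ), h2 (w - δ)]
    · have hne : profile w ≠ ⊤ := hw.ne_top
      have e : h w = (profile w).toReal := by simp only [h, min_eq_left hw.le]
      have hsum := (add_le_add (min_le_left (profile (w + δ)) (ENNReal.ofReal C))
        (min_le_left (profile (w - δ)) (ENNReal.ofReal C))).trans (profile_midpoint w δ d0 d1)
      have := ENNReal.toReal_mono (ENNReal.mul_ne_top ENNReal.ofNat_ne_top hne) hsum
      rw [ENNReal.toReal_add (hfin _) (hfin _), ENNReal.toReal_mul] at this
      rw [ENNReal.toReal_ofNat, ← e] at this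
      exact this
  by_contra hlt
  rw [not_le] at hlt
  have hv2 : h v < C := by
    have : h v = (profile v).toReal := by simp only [h, min_eq_left hlt.le]
    rw [this]
    exact (ENNReal.toReal_lt_toReal hlt.ne_top ENNReal.ofReal_ne_top).2 hlt |>.trans_eq
      (ENNReal.toReal_ofReal hC)
  have ha2 : h a = C := by simp only [h, min_eq_right ha]; exact ENNReal.toReal_ofReal hC
  have hb2 : h b = C := by simp only [h, min_eq_right hb]; exact ENNReal.toReal_ofReal hC
  set c := min (a * (1 - a)) (b * (1 - b)) with hc
  have hab : a ≤ b := hv.1.trans hv.2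
  have hc0 : 0 < c :=
    lt_min (mul_pos ha0 (by linarith)) (mul_pos (by linarith) (by linarith))
  set η := (C - h v) / 2 with hη
  have hη0 : 0 < η := by rw [hη]; linarith
  set ψ : ℝ → ℝ := fun w => h w + η * ((w - a) * (b - w))
  have hψv : ψ v < C := by
    have : (v - a) * (b - v) ≤ 1 := by nlinarith [hv.1, hv.2]
    simp only [ψ]; rw [hη] at *
    nlinarith
  set m := sInf (ψ '' Icc a b)
  have hbdd : BddBelow (ψ '' Icc a b) := ⟨0, by
    rintro _ ⟨w, hw, rfl⟩
    exact add_nonneg (hnn w) (mul_nonneg hη0.le
      (mul_nonneg (sub_nonneg.2 hw.1) (sub_nonneg.2 hw.2)))⟩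
  have hm : ∀ w ∈ Icc a b, m ≤ ψ w := fun w hw => csInf_le hbdd ⟨w, hw, rfl⟩
  have hm2 : m < C := (hm v hv).trans_lt hψv
  have hθ : m < m + min ((C - m) / 2) (η * c ^ 2) :=
    lt_add_of_pos_right m (lt_min (by linarith) (by positivity))
  obtain ⟨_, ⟨w, hw, rfl⟩, hwlt⟩ := exists_lt_of_csInf_lt ((nonempty_Icc.2 hab).image ψ) hθ
  have hmin1 := min_le_left ((C - m) / 2) (η * c ^ 2)
  have hmin2 := min_le_right ((C - m) / 2) (η * c ^ 2)
  have hconc : c ≤ w * (1 - w) := by
    rcases le_total w (1 - w) with h' | h'
    · exact (min_le_left _ _).trans (by nlinarith [hw.1, hw.2])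
    · exact (min_le_right _ _).trans (by nlinarith [hw.1, hw.2])
  set δ := min c (min (w - a) (b - w)) with hδ
  have hδ0 : 0 ≤ δ := le_min hc0.le (le_min (sub_nonneg.2 hw.1) (sub_nonneg.2 hw.2))
  have d1 : δ ≤ c := min_le_left _ _
  have d2 : δ ≤ w - a := (min_le_right _ _).trans (min_le_left _ _)
  have d3 : δ ≤ b - w := (min_le_right _ _).trans (min_le_right _ _)
  have key : ψ (w + δ) + ψ (w - δ) ≤ 2 * ψ w - 2 * η * δ ^ 2 := by
    have := hmid w δ hδ0 (d1.trans hconc)
    simp only [ψ]
    nlinarith
  have p1 := hm (w + δ) ⟨by linarith [hw.1], by linarith⟩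
  have p2 := hm (w - δ) ⟨by linarith, by linarith [hw.2]⟩
  have hηδ : 0 ≤ η * δ ^ 2 := by positivity
  rcases le_total c (min (w - a) (b - w)) with hcase | hcase
  · have : δ = c := min_eq_left hcase
    rw [this] at key p1 p2
    linarith
  · rcases le_total (w - a) (b - w) with hs | hs
    · have e : δ = w - a := by rw [hδ, min_eq_right hcase, min_eq_left hs]
      have : ψ (w - δ) = C := by simp [ψ, e, ha2]
      linarith
    · have e : δ = b - w := by rw [hδ, min_eq_right hcase, min_eq_right hs]
      have : ψ (w + δ) = C := by simp [ψ, e, hb2]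
      linarith

/-- A5 in the form used for the slab range. -/
theorem two_le_profile_of_endpoints {a b : ℝ} (ha0 : 0 < a) (hb1 : b < 1)
    (ha : ENNReal.ofReal 2 ≤ profile a) (hb : ENNReal.ofReal 2 ≤ profile b) {v : ℝ}
    (hv : v ∈ Icc a b) : ENNReal.ofReal 2 ≤ profile v :=
  le_profile_of_endpoints zero_le_two ha0 hb1 ha hb hv

/-- The tube bound just below `1 / π` gives the slab bound on `[1/π, 1 - 1/π]`. -/
theorem two_le_profile_slab_range
    (h : ∀ a : ℝ, 3 / 10 ≤ a → a < 1 / Real.pi →
      ENNReal.ofReal (2 * Real.sqrt (Real.pi * a)) ≤ profile a) :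
    ∀ v ∈ Icc (1 / Real.pi) (1 - 1 / Real.pi), ENNReal.ofReal 2 ≤ profile v := by
  intro v hv
  have hπ := Real.pi_pos
  have h03 : (3 : ℝ) / 10 < 1 / Real.pi := by
    rw [lt_div_iff₀ hπ]; linarith [Real.pi_lt_d2]
  have key : ∀ a, 3 / 10 ≤ a → a < 1 / Real.pi →
      ENNReal.ofReal (2 * Real.sqrt (Real.pi * a)) ≤ profile v := fun a ha1 ha2 =>
    le_profile_of_endpoints (a := a) (b := 1 - a) (by positivity) (by linarith) (by linarith)
      (h a ha1 ha2) (by rw [← profile_symm]; exact h a ha1 ha2)
      ⟨ha2.le.trans hv.1, hv.2.trans (by linarith)⟩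
  have ht : Tendsto (fun a : ℝ => ENNReal.ofReal (2 * Real.sqrt (Real.pi * a)))
      (𝓝[<] (1 / Real.pi)) (𝓝 (ENNReal.ofReal 2)) := by
    refine ENNReal.tendsto_ofReal (tendsto_nhdsWithin_of_tendsto_nhds ?_)
    have hc : Continuous fun a : ℝ => 2 * Real.sqrt (Real.pi * a) := by fun_prop
    have hval : 2 * Real.sqrt (Real.pi * (1 / Real.pi)) = 2 := by
      rw [mul_one_div, div_self hπ.ne', Real.sqrt_one, mul_one]
    simpa only [hval] using hc.tendsto (1 / Real.pi)
  refine le_of_tendsto ht ?_
  filter_upwards [Ioo_mem_nhdsLT h03] with a ha using key a ha.1.le ha.2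

end

end Vale.P232
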