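import Vale.Agent.P232.Heat
import Vale.Agent.P232.Steiner

/-!
P232: symmetrisation does not increase the De Giorgi perimeter.
-/

open MeasureTheory Set

namespace Vale.P232

noncomputable section

/-- Every measurable periodic set has a symmetric monotone competitor of the same volume and
no larger perimeter. -/
theorem exists_symMono_perimeter_le (E : Set V3) (hE : MeasurableSet E) (hp : IsPeriodic E) :
    ∃ E' : Set V3, MeasurableSet E' ∧ SymMono E' ∧ tvol E' = tvol E ∧
      perimeter E' ≤ perimeter E := by
  obtain ⟨E', hm, hs, hv, hPhi⟩ := Steiner.exists_symMono E hE hp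
  exact ⟨E', hm, hs, hv,
    perimeter_le_of_Phi_le_Phi hE hp hm hs.1 fun r hr => hPhi r hr.1 hr.2⟩

/-- A lower bound for symmetric monotone sets of volume `V` is one for the profile at `V`. -/
theorem le_profile_of_symMono {V : ℝ} {B : ENNReal}
    (h : ∀ E : Set V3, MeasurableSet E → SymMono E → tvol E = V → B ≤ perimeter E) :
    B ≤ profile V :=
  le_iInf fun E => le_iInf fun hE => le_iInf fun hp => le_iInf fun hV => by
    obtain ⟨E', hm, hs, hv, hper⟩ := exists_symMono_perimeter_le E hE hp
    exact (h E' hm hs (hv.trans hV)).trans hper

end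

end Vale.P232
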