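import Vale.Agent.P232.Heat
import Vale.Agent.P232.Symm
import Vale.Agent.P232.Shapes

/-!
P232: null sets, translations and Fubini along an axis, for the lift through Steiner
symmetrisation.
-/

open MeasureTheory Set Filter Topology

namespace Vale.P232

open Rearr

noncomputable section

/-- The perimeter only depends on the set up to a null set. -/
theorem perimeter_congr_ae {E F : Set V3} (h : E =ᵐ[volume] F) : perimeter E = perimeter F := by
  unfold perimeter
  refine iSup_congr fun X => iSup_congr fun _ => ?_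
  rw [setIntegral_congr_set (h.inter (ae_eq_refl cube))]

theorem tvol_congr_ae' {E F : Set V3} (h : E =ᵐ[volume] F) : tvol E = tvol F := by
  unfold tvol
  rw [measure_congr (h.inter (ae_eq_refl cube))]

/-- Symmetrisation does not increase the perimeter. -/
theorem perimeter_St_le (i : Fin 3) {E : Set V3} (hE : MeasurableSet E) (hp : IsPeriodic E) :
    perimeter (Steiner.St i E) ≤ perimeter E :=
  perimeter_le_of_Phi_le_Phi hE hp (Steiner.measurableSet_St i hE) (Steiner.periodic_St i hp)
    fun r hr => Steiner.Phi_St_le i hE hp hr.1 (by linarith [hr.2])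

theorem measurable_volume_fib (i : Fin 3) {S : Set V3} (hS : MeasurableSet S) :
    Measurable fun y : Steiner.V2 => volume (Steiner.fib i S y) :=
  measurable_measure_prodMk_left ((Steiner.measurable_insertNth i) hS)

/-- Almost everywhere statements may be checked on almost every fibre. -/
theorem ae_ae_fib (i : Fin 3) {P : V3 → Prop} (h : ∀ᵐ x : V3, P x) :
    ∀ᵐ y : Steiner.V2, ∀ᵐ t : ℝ, P (i.insertNth t y) := by
  obtain ⟨s, hs, hsm, hs0⟩ := exists_measurable_superset_of_null (ae_iff.1 h)
  rw [Steiner.volume_axis i s hsm,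
    lintegral_eq_zero_iff (measurable_volume_fib i hsm)] at hs0
  filter_upwards [hs0] with y hy
  exact ae_iff.2 (measure_mono_null (fun t ht => hs ht) hy)

/-- Conversely. -/
theorem ae_of_ae_fib (i : Fin 3) {S : Set V3} (hS : MeasurableSet S)
    (h : ∀ᵐ y : Steiner.V2, ∀ᵐ t : ℝ, i.insertNth t y ∉ S) : ∀ᵐ x : V3, x ∉ S := by
  rw [ae_iff]
  simp only [not_not, Set.ofPred_mem_eq]
  rw [Steiner.volume_axis i S hS, lintegral_eq_zero_iff (measurable_volume_fib i hS)]
  filter_upwards [h] with y hy
  have := ae_iff.1 hy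
  simpa [Steiner.fib] using this

/-- Sets whose fibres agree almost everywhere agree almost everywhere. -/
theorem ae_eq_of_fib (i : Fin 3) {E F : Set V3} (hE : MeasurableSet E) (hF : MeasurableSet F)
    (h : ∀ᵐ y : Steiner.V2, Steiner.fib i E y =ᵐ[volume] Steiner.fib i F y) :
    E =ᵐ[volume] F := by
  have hd : ∀ᵐ x : V3, x ∉ symmDiff E F := by
    refine ae_of_ae_fib i (Steiner.measurableSet_symmDiff' hE hF) ?_
    filter_upwards [h] with y hy
    filter_upwards [hy] with t ht
    have ht' : (i.insertNth t y : V3) ∈ E ↔ (i.insertNth t y : V3) ∈ F := iff_of_eq ht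
    rw [Set.mem_symmDiff]
    tauto
  filter_upwards [hd] with x hx
  rw [Set.mem_symmDiff] at hx
  exact propext (by tauto : x ∈ E ↔ x ∈ F)

theorem fib_congr_ae (i : Fin 3) {E F : Set V3} (h : E =ᵐ[volume] F) :
    ∀ᵐ y : Steiner.V2, Steiner.fib i E y =ᵐ[volume] Steiner.fib i F y := by
  filter_upwards [ae_ae_fib i (P := fun x => (x ∈ E) = (x ∈ F)) h] with y hy
  exact hy

/-- Symmetrisation respects null sets. -/
theorem St_congr_ae (i : Fin 3) {E F : Set V3} (hE : MeasurableSet E) (hF : MeasurableSet F)
    (h : E =ᵐ[volume] F) : Steiner.St i E =ᵐ[volume] Steiner.St i F := by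
  refine ae_eq_of_fib i (Steiner.measurableSet_St i hE) (Steiner.measurableSet_St i hF) ?_
  filter_upwards [fib_congr_ae i h] with y hy
  rw [Steiner.fib_St, Steiner.fib_St, measure_congr (hy.inter (ae_eq_refl I01))]
  exact ae_eq_refl _

/-- Translate of a set. -/
def shiftSet (t : V3) (E : Set V3) : Set V3 := {x | x + t ∈ E}

theorem measurableSet_shiftSet (t : V3) {E : Set V3} (hE : MeasurableSet E) :
    MeasurableSet (shiftSet t E) :=
  hE.preimage (measurable_add_const t)

theorem isPeriodic_shiftSet (t : V3) {E : Set V3} (hp : IsPeriodic E) :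
    IsPeriodic (shiftSet t E) := fun x k => by
  simp only [shiftSet, mem_ofPred_eq]
  rw [show x + (fun i => (k i : ℝ)) + t = x + t + fun i => (k i : ℝ) by abel]
  exact hp _ _

theorem shiftSet_congr_ae (t : V3) {E F : Set V3} (h : E =ᵐ[volume] F) :
    shiftSet t E =ᵐ[volume] shiftSet t F :=
  (measurePreserving_add_right volume t).quasiMeasurePreserving.preimage_ae_eq h

theorem shiftSet_shiftSet (s t : V3) (E : Set V3) :
    shiftSet s (shiftSet t E) = shiftSet (s + t) E := by
  ext x; simp [shiftSet, add_assoc]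

theorem shiftSet_zero (E : Set V3) : shiftSet 0 E = E := by ext x; simp [shiftSet]

theorem perimeter_shiftSet_le (t : V3) {E : Set V3} (hE : MeasurableSet E) (hp : IsPeriodic E) :
    perimeter (shiftSet t E) ≤ perimeter E := by
  refine iSup₂_le fun X hX => ?_
  have hY : IsTestField fun x => (1 : ℝ) • X (x + -t) := isTestField_translate hX (-t) 1 (one_pow 2)
  refine le_trans (le_of_eq (congrArg ENNReal.ofReal ?_))
    (le_iSup₂ (f := fun Y (_ : IsTestField Y) => ENNReal.ofReal (∫ x in E ∩ cube, div3 Y x)) _ hY)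
  rw [setIntegral_inter_cube (measurableSet_shiftSet t hE), setIntegral_inter_cube hE]
  simp only [div3_translate hX.1, one_mul]
  have hg : IsPeriodicFun fun x => ind E x * div3 X (x + -t) := fun x k => by
    simp only [hp.ind x k, show x + (fun i => (k i : ℝ)) + -t = x + -t + fun i => (k i : ℝ) by abel,
      periodic_div3 hX.2.1 _ k]
  rw [← integral_periodic_translate hg t]
  refine setIntegral_congr_fun measurableSet_cube fun x _ => ?_
  simp only [add_neg_cancel_right]
  by_cases h : x + t ∈ E <;> simp [ind, shiftSet, h]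

/-- The perimeter is translation invariant. -/
theorem perimeter_shiftSet (t : V3) {E : Set V3} (hE : MeasurableSet E) (hp : IsPeriodic E) :
    perimeter (shiftSet t E) = perimeter E := by
  refine le_antisymm (perimeter_shiftSet_le t hE hp) ?_
  have := perimeter_shiftSet_le (-t) (measurableSet_shiftSet t hE) (isPeriodic_shiftSet t hp)
  rwa [shiftSet_shiftSet, neg_add_cancel, shiftSet_zero] at this

theorem tvol_shiftSet (t : V3) {E : Set V3} (hE : MeasurableSet E) (hp : IsPeriodic E) :
    tvol (shiftSet t E) = tvol E := by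
  rw [tvol_eq_integral (measurableSet_shiftSet t hE), tvol_eq_integral hE,
    ← integral_periodic_translate hp.ind t]
  refine setIntegral_congr_fun measurableSet_cube fun x _ => ?_
  by_cases h : x + t ∈ E <;> simp [ind, shiftSet, h]

theorem continuous_insertNth (i : Fin 3) :
    Continuous fun p : Steiner.V2 × ℝ => (i.insertNth p.2 p.1 : V3) := by
  refine continuous_pi fun k => ?_
  rcases Fin.eq_self_or_eq_succAbove i k with rfl | ⟨j, rfl⟩
  · simpa using continuous_snd
  · simp only [Fin.insertNth_apply_succAbove]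
    exact (continuous_apply j).comp continuous_fst

theorem contDiff_insertNth (i : Fin 3) (y : Steiner.V2) :
    ContDiff ℝ 1 fun t : ℝ => (i.insertNth t y : V3) := by
  refine contDiff_pi.2 fun k => ?_
  rcases Fin.eq_self_or_eq_succAbove i k with rfl | ⟨j, rfl⟩
  · simp only [Fin.insertNth_apply_same]; exact contDiff_id
  · simp only [Fin.insertNth_apply_succAbove]; exact contDiff_const

theorem hasDerivAt_insertNth (i : Fin 3) (y : Steiner.V2) (t : ℝ) :
    HasDerivAt (fun t : ℝ => (i.insertNth t y : V3)) (e i) t := by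
  refine hasDerivAt_pi.2 fun k => ?_
  rcases Fin.eq_self_or_eq_succAbove i k with rfl | ⟨j, rfl⟩
  · simp only [Fin.insertNth_apply_same, e, Pi.single_eq_same]; exact hasDerivAt_id t
  · simp only [Fin.insertNth_apply_succAbove, e, Pi.single_eq_of_ne (Fin.succAbove_ne i j)]
    exact hasDerivAt_const t (y j)

theorem insertNth_add_one (i : Fin 3) (y : Steiner.V2) (t : ℝ) :
    (i.insertNth (t + 1) y : V3)
      = i.insertNth t y + fun k => ((Pi.single i (1 : ℤ) : Fin 3 → ℤ) k : ℝ) := by
  ext k
  rcases Fin.eq_self_or_eq_succAbove i k with rfl | ⟨j, rfl⟩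
  · simp
  · simp [Fin.succAbove_ne i j]

/-- Fubini along an axis, on the cube. -/
theorem integral_cube_axis (i : Fin 3) {F : V3 → ℝ} (hF : IntegrableOn F cube) :
    ∫ x in cube, F x = ∫ y in Steiner.cube2, ∫ t in I01, F (i.insertNth t y) := by
  have hmp := (volume_preserving_piFinSuccAbove (fun _ : Fin 3 => ℝ) i).symm
  set φ := (MeasurableEquiv.piFinSuccAbove (fun _ : Fin 3 => ℝ) i).symm
  have hφ : ∀ p : ℝ × Steiner.V2, φ p = i.insertNth p.1 p.2 := fun p => rfl
  have hpre : φ ⁻¹' cube = I01 ×ˢ Steiner.cube2 := by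
    ext p
    simp [hφ, Steiner.insertNth_mem_cube]
  rw [← hmp.setIntegral_preimage_emb φ.measurableEmbedding, hpre, Measure.volume_eq_prod]
  have hint : IntegrableOn (F ∘ φ) (I01 ×ˢ Steiner.cube2)
      ((volume : Measure ℝ).prod (volume : Measure Steiner.V2)) := by
    rw [← Measure.volume_eq_prod, ← hpre]
    exact (hmp.integrableOn_comp_preimage φ.measurableEmbedding).2 hF
  refine (setIntegral_prod (fun p => F (φ p)) hint).trans ?_
  rw [integral_integral_swap]
  · rfl
  · rw [Measure.prod_restrict]; exact hint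

end

end Vale.P232
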