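import Vale.Agent.P232.Upper
import Vale.Agent.P232.Perm
import Vale.Agent.P232.SteinerLiftBase
import Vale.Agent.P232.HeatConcave

/-!
P232: volume and perimeter of the balls, tubes and slabs `shapeAt W c R`.
-/

open MeasureTheory Real Set

namespace Vale.P232

noncomputable section

theorem tvol_congr_ae {E F : Set V3} (h : E =ᵐ[volume] F) : tvol E = tvol F := tvol_congr_ae' h

/-- The shapes are translates of the model shapes. -/
theorem shapeAt_eq_shiftSet (W : Finset (Fin 3)) (c : V3) (R : ℝ) :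
    shapeAt W c R = shiftSet (fun i => 1 / 2 - c i) (Upper.shape W R) := by
  ext x
  simp only [shapeAt, shiftSet, Upper.shape, Upper.qd, mem_ofPred_eq, Pi.add_apply]
  have h : ∀ i, Rearr.dd (x i - c i) ^ 2 = (Int.fract (x i + (1 / 2 - c i)) - 1 / 2) ^ 2 := by
    intro i
    rw [Rearr.dd, sq_abs, round_eq, show x i - c i + 1 / 2 = x i + (1 / 2 - c i) by ring,
      Int.fract]
    ring
  simp only [h]

theorem tvol_shapeAt (W : Finset (Fin 3)) (c : V3) (R : ℝ) :
    tvol (shapeAt W c R) = tvol (Upper.shape W R) := by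
  rw [shapeAt_eq_shiftSet]
  exact tvol_shift Upper.measurableSet_shape Upper.isPeriodic_shape _

theorem perimeter_shapeAt_le (W : Finset (Fin 3)) (c : V3) {R : ℝ} (h0 : 0 < R) (h1 : R ≤ 1 / 2) :
    perimeter (shapeAt W c R) ≤ ENNReal.ofReal (W.card * tvol (shapeAt W c R) / R) := by
  rw [tvol_shapeAt, shapeAt_eq_shiftSet]
  exact (perimeter_shiftSet_le _ Upper.measurableSet_shape Upper.isPeriodic_shape).trans
    (Upper.perimeter_shape_le h0 h1)

/-- The volume of a model shape does not change under a permutation of the coordinates. -/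
theorem tvol_shape_map (σ : Equiv.Perm (Fin 3)) (W : Finset (Fin 3)) (R : ℝ) :
    tvol (Upper.shape (W.map σ.toEmbedding) R) = tvol (Upper.shape W R) := by
  unfold tvol
  have h : Upper.shape (W.map σ.toEmbedding) R ∩ cube
      = permL σ.symm ⁻¹' (Upper.shape W R ∩ cube) := by
    rw [preimage_inter, permL_preimage_cube]
    congr 1
    ext x
    simp [Upper.shape, Upper.qd, permL_apply]
  rw [h, (measurePreserving_permL σ.symm).measure_preimage
    (Upper.measurableSet_shape.inter measurableSet_cube).nullMeasurableSet]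

theorem tvol_shapeAt_univ {c : V3} {R : ℝ} (h0 : 0 < R) (h1 : R ≤ 1 / 2) :
    tvol (shapeAt Finset.univ c R) = 4 / 3 * π * R ^ 3 := by
  rw [tvol_shapeAt, Upper.tvol_ball h0 h1]

theorem tvol_shapeAt_compl (i : Fin 3) {c : V3} {R : ℝ} (h0 : 0 < R) (h1 : R ≤ 1 / 2) :
    tvol (shapeAt {i}ᶜ c R) = π * R ^ 2 := by
  rw [tvol_shapeAt, show ({i}ᶜ : Finset (Fin 3))
      = ({1, 2} : Finset (Fin 3)).map (Equiv.swap 0 i).toEmbedding by revert i; decide,
    tvol_shape_map, Upper.tvol_tube h0 h1]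

theorem tvol_shapeAt_single (i : Fin 3) {c : V3} {R : ℝ} (h0 : 0 < R) (h1 : R ≤ 1 / 2) :
    tvol (shapeAt {i} c R) = 2 * R := by
  rw [tvol_shapeAt, show ({i} : Finset (Fin 3))
      = ({0} : Finset (Fin 3)).map (Equiv.swap 0 i).toEmbedding by revert i; decide,
    tvol_shape_map, Upper.tvol_slab h0 h1]

theorem ballP_ball {R : ℝ} (h0 : 0 < R) : ballP (4 / 3 * π * R ^ 3) = 4 * π * R ^ 2 := by
  refine (pow_left_inj₀ (n := 3) (by unfold ballP; positivity) (by positivity) (by norm_num)).1 ?_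
  have e1 : ((36 * π) ^ (1 / 3 : ℝ)) ^ 3 = 36 * π := by
    rw [← Real.rpow_natCast _ 3, ← Real.rpow_mul (by positivity)]
    norm_num
  have e2 : ∀ v : ℝ, 0 ≤ v → (v ^ (2 / 3 : ℝ)) ^ 3 = v ^ 2 := fun v hv => by
    rw [← Real.rpow_natCast _ 3, ← Real.rpow_mul hv, ← Real.rpow_natCast _ 2]
    norm_num
  rw [ballP, mul_pow ((36 * π) ^ (1 / 3 : ℝ)), e1, e2 _ (by positivity)]
  ring

theorem tubeP_tube {R : ℝ} (h0 : 0 < R) : tubeP (π * R ^ 2) = 2 * π * R := by
  rw [tubeP, show π * (π * R ^ 2) = (π * R) ^ 2 by ring, Real.sqrt_sq (by positivity)]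
  ring

theorem perimeter_of_isBallSet {E : Set V3} (_hE : MeasurableSet E) (_hp : IsPeriodic E)
    (h : IsBallSet E) : perimeter E ≤ ENNReal.ofReal (ballP (tvol E)) := by
  obtain ⟨c, R, h0, h1, hae⟩ := h
  rw [perimeter_congr_ae hae, tvol_congr_ae hae]
  refine (perimeter_shapeAt_le _ c h0 h1).trans (ENNReal.ofReal_le_ofReal (le_of_eq ?_))
  rw [tvol_shapeAt_univ h0 h1, ballP_ball h0, Finset.card_univ, Fintype.card_fin]
  field_simp
  norm_num

theorem perimeter_of_isTubeSet {E : Set V3} (_hE : MeasurableSet E) (_hp : IsPeriodic E)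
    (h : IsTubeSet E) : perimeter E ≤ ENNReal.ofReal (tubeP (tvol E)) := by
  obtain ⟨i, c, R, h0, h1, hae⟩ := h
  rw [perimeter_congr_ae hae, tvol_congr_ae hae]
  refine (perimeter_shapeAt_le _ c h0 h1).trans (ENNReal.ofReal_le_ofReal (le_of_eq ?_))
  rw [tvol_shapeAt_compl i h0 h1, tubeP_tube h0, Finset.card_compl, Finset.card_singleton,
    Fintype.card_fin]
  field_simp
  norm_num

theorem perimeter_of_isSlabSet {E : Set V3} (_hE : MeasurableSet E) (_hp : IsPeriodic E)
    (h : IsSlabSet E) : perimeter E ≤ ENNReal.ofReal 2 := by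
  obtain ⟨i, c, R, h0, h1, hae⟩ := h
  rw [perimeter_congr_ae hae]
  refine (perimeter_shapeAt_le _ c h0 h1.le).trans (ENNReal.ofReal_le_ofReal (le_of_eq ?_))
  rw [tvol_shapeAt_single i h0 h1.le, Finset.card_singleton]
  field_simp
  norm_num

end

end Vale.P232
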