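import Vale.Agent.P232.SteinerLift
import Vale.Agent.P232.ShapeFacts
import Vale.Agent.P232.RigidDefs
import Vale.Agent.P232.ScalarInst

/-!
P232: from symmetric monotone minimisers to all minimisers of volume at most `1/π`.
-/

open MeasureTheory Real Set

namespace Vale.P232

noncomputable section

open Steiner in
lemma symMono_St3 {E : Set V3} (hp : IsPeriodic E) :
    SymMono (St 2 (St 1 (St 0 E))) := by
  set E₂ := St 2 (St 1 (St 0 E))
  have a0 : MonoAx 0 E₂ := monoAx_St_of_ne 2 (by decide) (monoAx_St_of_ne 1 (by decide)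
    (monoAx_St_self 0))
  have a1 : MonoAx 1 E₂ := monoAx_St_of_ne 2 (by decide) (monoAx_St_self 1)
  have a2 : MonoAx 2 E₂ := monoAx_St_self 2
  refine ⟨periodic_St 2 (periodic_St 1 (periodic_St 0 hp)), fun x y hx hy hmem => ?_⟩
  have hdd : ∀ c, Rearr.dd (y c) ≤ Rearr.dd (x c) := fun c => by
    rw [dd_eq_abs (hx c), dd_eq_abs ((hy c).trans (hx c))]
    exact hy c
  set x₁ := Function.update x 0 (y 0)
  set x₂ := Function.update x₁ 1 (y 1)
  have h₁ : x₁ ∈ E₂ := a0 x x₁ (fun k hk => by simp [x₁, hk]) (by simpa [x₁] using hdd 0) hmem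
  have h₂ : x₂ ∈ E₂ := a1 x₁ x₂ (fun k hk => by simp [x₂, hk])
    (by simpa [x₁, x₂] using hdd 1) h₁
  refine a2 x₂ y (fun k hk => ?_) (by simpa [x₁, x₂] using hdd 2) h₂
  fin_cases k <;> simp_all [x₁, x₂]

/-- Minimisers of volume at most `1/π`, from the symmetric ones. -/
theorem classify_of_symMono_chain
    (hsym : ∀ {F : Set V3}, MeasurableSet F → SymMono F → tvol F ∈ Ioc (0:ℝ) (1 / π) →
      perimeter F ≤ ENNReal.ofReal (candJ (tvol F)) → IsCentredShape F)
    {E : Set V3} (hE : MeasurableSet E) (hp : IsPeriodic E) (hv : tvol E ∈ Ioc (0:ℝ) (1 / π))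
    (hP : perimeter E ≤ ENNReal.ofReal (candJ (tvol E))) :
    IsBallSet E ∨ IsTubeSet E ∨ IsSlabSet E := by
  set E0 := Steiner.St 0 E
  set E1 := Steiner.St 1 E0
  set E2 := Steiner.St 2 E1
  have m0 := Steiner.measurableSet_St 0 hE
  have m1 := Steiner.measurableSet_St 1 m0
  have m2 := Steiner.measurableSet_St 2 m1
  have p0 := Steiner.periodic_St 0 hp
  have p1 := Steiner.periodic_St 1 p0
  have p2 := Steiner.periodic_St 2 p1
  have hvol : tvol E2 = tvol E :=
    (Steiner.tvol_St 2 m1).trans ((Steiner.tvol_St 1 m0).trans (Steiner.tvol_St 0 hE))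
  have hpi : 1 / π < 1 / 2 := one_div_lt_one_div_of_lt two_pos (by linarith [Real.pi_gt_three])
  have hlow : perimeter E ≤ perimeter E2 := by
    refine hP.trans ?_
    rw [← hvol]
    have h := profile_eq_J (tvol E2) ⟨by rw [hvol]; exact hv.1, by rw [hvol]; linarith [hv.2]⟩
    rw [J, min_eq_left (by rw [hvol]; linarith [hv.2])] at h
    rw [← h]
    exact iInf_le_of_le E2 (iInf_le_of_le m2 (iInf_le_of_le p2 (iInf_le_of_le rfl le_rfl)))
  have h0 := perimeter_St_le 0 hE hp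
  have h1 := perimeter_St_le 1 m0 p0
  have h2 := perimeter_St_le 2 m1 p1
  obtain ⟨W, R, hW, hR0, hR, hae⟩ := hsym m2 (symMono_St3 hp) (by rwa [hvol])
    (by rw [hvol]; exact (h2.trans (h1.trans h0)).trans hP)
  have hvR : tvol (shapeAt W 0 R) ≤ 1 / π := by
    rw [← tvol_congr_ae hae, hvol]; exact hv.2
  have hlt : R < 1 / 2 := by
    refine lt_of_le_of_ne hR fun e => ?_
    subst e
    rcases hW with rfl | ⟨i, rfl | rfl⟩
    · rw [tvol_shapeAt_univ hR0 le_rfl, le_div_iff₀ pi_pos] at hvR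
      nlinarith [Real.pi_gt_three, mul_lt_mul Real.pi_gt_three Real.pi_gt_three.le three_pos
        pi_pos.le]
    · rw [tvol_shapeAt_compl i hR0 le_rfl, le_div_iff₀ pi_pos] at hvR
      nlinarith [Real.pi_gt_three]
    · rw [tvol_shapeAt_single i hR0 le_rfl] at hvR
      linarith
  obtain ⟨a, ha⟩ := lift_shapeAt 2 m1 p1 hR0 hlt (fun _ => rfl) hae (h1.trans (h0.trans hlow))
  obtain ⟨b, hb⟩ := lift_shapeAt 1 m0 p0 hR0 hlt (fun _ => by simp) ha
    (h0.trans (hlow.trans h2))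
  obtain ⟨d, hd⟩ := lift_shapeAt 0 hE hp hR0 hlt (fun _ => by simp) hb
    (hlow.trans (h2.trans h1))
  rcases hW with rfl | ⟨i, rfl | rfl⟩
  · exact Or.inl ⟨_, R, hR0, hR, hd⟩
  · exact Or.inr (Or.inl ⟨i, _, R, hR0, hR, hd⟩)
  · exact Or.inr (Or.inr ⟨i, _, R, hR0, hlt, hd⟩)

end

end Vale.P232
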