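import Vale.Agent.P232.Rearr

/-!
P232: one dimensional total variation along the fibres, for Steiner rigidity.
If smooth periodic `g n` converge a.e. to the indicator of `A` and their variation over a period
is eventually below `3` along a subsequence, then `A` is an arc; a weighted variation is at least
the sum of the weights at the two ends.
-/

open MeasureTheory Set Filter Topology

namespace Vale.P232.Rigid

open Rearr

noncomputable section

/-- An arc of length `m` centred at `c`. -/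
def arcAt (c m : ℝ) : Set ℝ := {t | dd (t - c) < m / 2}

/-- The weighted variation over a period. -/
def wvar (β g : ℝ → ℝ) : ℝ := ∫ t in (0 : ℝ)..1, β t * |deriv g t|

variable {g : ℕ → ℝ → ℝ} {A : Set ℝ} {β : ℝ → ℝ}

lemma jump_le {f : ℝ → ℝ} (hf : ContDiff ℝ 1 f) (hβ : Continuous β) {u w b : ℝ} (huw : u ≤ w)
    (hb0 : 0 ≤ b) (hb : ∀ t ∈ Icc u w, b ≤ β t) :
    b * |f w - f u| ≤ ∫ t in u..w, β t * |deriv f t| := by
  have hd : Continuous (deriv f) := hf.continuous_deriv le_rfl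
  have h1 : ∫ t in u..w, deriv f t = f w - f u :=
    intervalIntegral.integral_eq_sub_of_hasDerivAt
      (fun t _ => (hf.differentiable (by norm_num) t).hasDerivAt) (hd.intervalIntegrable _ _)
  rw [← h1]
  calc b * |∫ t in u..w, deriv f t| ≤ b * ∫ t in u..w, |deriv f t| :=
        mul_le_mul_of_nonneg_left (intervalIntegral.abs_integral_le_integral_abs huw) hb0
    _ = ∫ t in u..w, b * |deriv f t| := (intervalIntegral.integral_const_mul _ _).symm
    _ ≤ ∫ t in u..w, β t * |deriv f t| :=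
        intervalIntegral.integral_mono_on huw ((continuous_const.mul hd.abs).intervalIntegrable _ _)
          ((hβ.mul hd.abs).intervalIntegrable _ _)
          fun t ht => mul_le_mul_of_nonneg_right (hb t ht) (abs_nonneg _)

lemma periodic_deriv {f : ℝ → ℝ} (hf : Function.Periodic f 1) :
    Function.Periodic (deriv f) 1 := fun t => by
  rw [← deriv_comp_add_const f 1 t]
  congr 1
  exact funext hf

lemma wvar_window {f : ℝ → ℝ} (hf : Function.Periodic f 1) (hp : Function.Periodic β 1) (a : ℝ) :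
    ∫ t in a..a + 1, β t * |deriv f t| = wvar β f := by
  have h : Function.Periodic (fun t => β t * |deriv f t|) 1 := fun t => by
    simp only [hp t, periodic_deriv hf t]
  simpa [wvar] using h.intervalIntegral_add_eq a 0

/-- Two intervals in one period: the variation dominates the jumps. -/
lemma two_jumps_le {f : ℝ → ℝ} (hf : ContDiff ℝ 1 f) (hfp : Function.Periodic f 1)
    (hβ : Continuous β) (hp : Function.Periodic β 1) (h0 : ∀ t, 0 ≤ β t)
    {u w u' w' b b' : ℝ} (h1 : u ≤ w) (h2 : w ≤ u') (h3 : u' ≤ w') (h4 : w' ≤ u + 1)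
    (hb0 : 0 ≤ b) (hb : ∀ t ∈ Icc u w, b ≤ β t)
    (hb0' : 0 ≤ b') (hb' : ∀ t ∈ Icc u' w', b' ≤ β t) :
    b * |f w - f u| + b' * |f w' - f u'| ≤ wvar β f := by
  have hd : Continuous fun t => β t * |deriv f t| := hβ.mul (hf.continuous_deriv le_rfl).abs
  have hn : ∀ a c, a ≤ c → 0 ≤ ∫ t in a..c, β t * |deriv f t| := fun a c h =>
    intervalIntegral.integral_nonneg h fun t _ => mul_nonneg (h0 t) (abs_nonneg _)
  rw [← wvar_window hfp hp u,
    ← intervalIntegral.integral_add_adjacent_intervals (hd.intervalIntegrable u w')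
      (hd.intervalIntegrable w' (u + 1)),
    ← intervalIntegral.integral_add_adjacent_intervals (hd.intervalIntegrable u u')
      (hd.intervalIntegrable u' w'),
    ← intervalIntegral.integral_add_adjacent_intervals (hd.intervalIntegrable u w)
      (hd.intervalIntegrable w u')]
  linarith [jump_le hf hβ h1 hb0 hb, jump_le hf hβ h3 hb0' hb', hn w u' h2, hn w' (u + 1) h4]

/-- Four alternating values force variation at least `3`. -/
lemma eventually_four (hg : ∀ n, ContDiff ℝ 1 (g n)) (hgp : ∀ n, Function.Periodic (g n) 1)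
    {p₁ p₂ p₃ p₄ : ℝ} (h12 : p₁ < p₂) (h23 : p₂ < p₃) (h34 : p₃ < p₄) (h41 : p₄ < p₁ + 1)
    (l₁ : Tendsto (fun n => g n p₁) atTop (𝓝 0)) (l₂ : Tendsto (fun n => g n p₂) atTop (𝓝 1))
    (l₃ : Tendsto (fun n => g n p₃) atTop (𝓝 0)) (l₄ : Tendsto (fun n => g n p₄) atTop (𝓝 1)) :
    ∀ᶠ n in atTop, 3 ≤ wvar (fun _ => 1) (g n) := by
  have hlim : Tendsto (fun n => (g n p₂ - g n p₁) + (g n p₂ - g n p₃) + (g n p₄ - g n p₃) +
      (g n p₄ - g n p₁)) atTop (𝓝 4) := by
    have := (((l₂.sub l₁).add (l₂.sub l₃)).add (l₄.sub l₃)).add (l₄.sub l₁)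
    norm_num at this
    exact this
  filter_upwards [hlim.eventually_const_le (show (3 : ℝ) < 4 by norm_num)] with n hn
  have hd : Continuous fun t => |deriv (g n) t| := ((hg n).continuous_deriv le_rfl).abs
  have hj : ∀ u w, u ≤ w → |g n w - g n u| ≤ ∫ t in u..w, |deriv (g n) t| := fun u w h => by
    simpa using jump_le (hg n) continuous_const (b := 1) h zero_le_one (fun _ _ => le_rfl)
  have hw : ∫ t in p₁..p₁ + 1, |deriv (g n) t| = wvar (fun _ => 1) (g n) := by
    simpa using wvar_window (hgp n) (β := fun _ : ℝ => (1 : ℝ)) (fun _ => rfl) p₁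
  rw [← hw,
    ← intervalIntegral.integral_add_adjacent_intervals (hd.intervalIntegrable p₁ p₄)
      (hd.intervalIntegrable p₄ (p₁ + 1)),
    ← intervalIntegral.integral_add_adjacent_intervals (hd.intervalIntegrable p₁ p₃)
      (hd.intervalIntegrable p₃ p₄),
    ← intervalIntegral.integral_add_adjacent_intervals (hd.intervalIntegrable p₁ p₂)
      (hd.intervalIntegrable p₂ p₃)]
  have a := hj _ _ h12.le
  have b := hj _ _ h23.le
  have c := hj _ _ h34.le
  have d := hj _ _ h41.le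
  rw [hgp n p₁] at d
  linarith [le_abs_self (g n p₂ - g n p₁), neg_le_abs (g n p₃ - g n p₂),
    le_abs_self (g n p₄ - g n p₃), neg_le_abs (g n p₁ - g n p₄)]

lemma per1_ae_eq_of_window {A B : Set ℝ} (hA : ∀ (a : ℝ) (z : ℤ), a + z ∈ A ↔ a ∈ A)
    (hB : ∀ (a : ℝ) (z : ℤ), a + z ∈ B ↔ a ∈ B) (x₀ : ℝ)
    (h : ∀ᵐ t : ℝ, t ∈ Ioo x₀ (x₀ + 1) → (t ∈ A ↔ t ∈ B)) : A =ᵐ[volume] B := by
  have hsh : ∀ z : ℤ, ∀ᵐ t : ℝ, t + z ∈ Ioo x₀ (x₀ + 1) → (t ∈ A ↔ t ∈ B) := fun z => by
    filter_upwards [(measurePreserving_add_right volume (z : ℝ)).quasiMeasurePreserving.ae h]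
      with t ht hmem
    simpa [hA, hB] using ht hmem
  have hne : ∀ᵐ t : ℝ, ∀ z : ℤ, t ≠ x₀ + z := ae_all_iff.2 fun z => volume.ae_ne _
  filter_upwards [ae_all_iff.2 hsh, hne] with t ht htn
  refine propext (ht (-⌊t - x₀⌋) ⟨?_, ?_⟩)
  · rcases (Int.floor_le (t - x₀)).lt_or_eq with h1 | h1
    · push_cast; linarith
    · exact absurd (by linarith : t = x₀ + (⌊t - x₀⌋ : ℝ)) (htn _)
  · push_cast; linarith [Int.lt_floor_add_one (t - x₀)]

/-- Small variation forces an arc. -/
theorem exists_arc (hA : ∀ (a : ℝ) (z : ℤ), a + z ∈ A ↔ a ∈ A) {m : ℝ}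
    (hm0 : 0 < m) (hm1 : m < 1) (hvol : ∀ a : ℝ, (volume (A ∩ Ioo a (a + 1))).toReal = m)
    (hg : ∀ n, ContDiff ℝ 1 (g n)) (hgp : ∀ n, Function.Periodic (g n) 1)
    (hlim : ∀ᵐ t : ℝ, Tendsto (fun n => g n t) atTop (𝓝 (A.indicator 1 t)))
    (hvar : ∃ᶠ n in atTop, wvar (fun _ => 1) (g n) < 3) :
    ∃ c : ℝ, A =ᵐ[volume] arcAt c m := by
  set C : Set ℝ := {t | Tendsto (fun n => g n t) atTop (𝓝 (A.indicator 1 t))} with hC
  have none4 : ∀ p₁ p₂ p₃ p₄ : ℝ, p₁ < p₂ → p₂ < p₃ → p₃ < p₄ → p₄ < p₁ + 1 →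
      p₁ ∈ C \ A → p₂ ∈ C ∩ A → p₃ ∈ C \ A → p₄ ∈ C ∩ A → False := by
    intro p₁ p₂ p₃ p₄ a b c d e1 e2 e3 e4
    obtain ⟨n, hn, hn'⟩ := ((eventually_four hg hgp a b c d
      (by simpa [hC, indicator_of_notMem e1.2] using e1.1)
      (by simpa [hC, indicator_of_mem e2.2] using e2.1)
      (by simpa [hC, indicator_of_notMem e3.2] using e3.1)
      (by simpa [hC, indicator_of_mem e4.2] using e4.1)).and_frequently hvar).exists
    linarith
  have hCn : volume Cᶜ = 0 := ae_iff.1 hlim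
  obtain ⟨x₀, hx₀C, hx₀A⟩ : ∃ x, x ∈ C ∧ x ∉ A := by
    by_contra hcon
    push Not at hcon
    have : (volume (A ∩ Ioo 0 (0 + 1))).toReal = 1 := by
      rw [measure_congr (show (A ∩ Ioo (0 : ℝ) (0 + 1) : Set ℝ) =ᵐ[volume] Ioo 0 (0 + 1) from ?_)]
      · simp
      · filter_upwards [hlim] with t ht
        exact propext ⟨fun h => h.2, fun h => ⟨hcon t ht, h⟩⟩
    
    linarith [hvol 0]
  set S := C ∩ A ∩ Ioo x₀ (x₀ + 1) with hS
  have hSvol : (volume S).toReal = m := by
    rw [← hvol x₀]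
    refine congrArg ENNReal.toReal (measure_congr ?_)
    filter_upwards [hlim] with t ht
    exact propext ⟨fun h => ⟨h.1.2, h.2⟩, fun h => ⟨⟨ht, h.1⟩, h.2⟩⟩
  have hSne : S.Nonempty := by
    by_contra h
    rw [not_nonempty_iff_eq_empty] at h
    simp [h] at hSvol
    linarith
  have hbb : BddBelow S := ⟨x₀, fun t ht => ht.2.1.le⟩
  have hba : BddAbove S := ⟨x₀ + 1, fun t ht => ht.2.2.le⟩
  set p := sInf S
  set q := sSup S
  have hp0 : x₀ ≤ p := le_csInf hSne fun t ht => ht.2.1.le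
  have hq0 : q ≤ x₀ + 1 := csSup_le hSne fun t ht => ht.2.2.le
  have hfill : ∀ t ∈ C, t ∈ Ioo p q → t ∈ A := fun t htC ht => by
    obtain ⟨s, hs, hst⟩ := exists_lt_of_csInf_lt hSne ht.1
    obtain ⟨s', hs', hst'⟩ := exists_lt_of_lt_csSup hSne ht.2
    by_contra htA
    exact none4 x₀ s t s' hs.2.1 hst hst' hs'.2.2 ⟨hx₀C, hx₀A⟩ hs.1 ⟨htC, htA⟩ hs'.1
  have hwin : ∀ᵐ t : ℝ, t ∈ Ioo x₀ (x₀ + 1) → (t ∈ A ↔ t ∈ Ioo p q) := by
    filter_upwards [hlim, volume.ae_ne p, volume.ae_ne q] with t ht h1 h2 hw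
    refine ⟨fun h => ⟨lt_of_le_of_ne (csInf_le hbb ⟨⟨ht, h⟩, hw⟩) (Ne.symm h1),
      lt_of_le_of_ne (le_csSup hba ⟨⟨ht, h⟩, hw⟩) h2⟩, hfill t ht⟩
  have hlen : q - p = m := by
    rw [← hvol x₀]
    have : (A ∩ Ioo x₀ (x₀ + 1) : Set ℝ) =ᵐ[volume] Ioo p q := by
      filter_upwards [hwin] with t ht
      exact propext ⟨fun h => (ht h.2).1 h.1, fun h =>
        have hw : t ∈ Ioo x₀ (x₀ + 1) := ⟨hp0.trans_lt h.1, h.2.trans_le hq0⟩
        ⟨(ht hw).2 h, hw⟩⟩
    rw [measure_congr this, Real.volume_Ioo, ENNReal.toReal_ofReal]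
    linarith [csInf_le_csSup hSne hbb hba]
  refine ⟨(p + q) / 2, per1_ae_eq_of_window hA
    (fun a z => by simp [arcAt, show a + (z : ℝ) - (p + q) / 2 = a - (p + q) / 2 + z by ring,
      dd_add_int]) x₀ ?_⟩
  filter_upwards [hwin] with t ht hw
  rw [ht hw]
  constructor
  · intro h
    have := dd_le_abs (t - (p + q) / 2) 0
    simp only [arcAt, mem_ofPred_eq]
    have : |t - (p + q) / 2| < m / 2 := abs_lt.2 ⟨by linarith [h.1], by linarith [h.2]⟩
    simp at *
    linarith
  · intro h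
    simp only [arcAt, mem_ofPred_eq, dd] at h
    have hr := abs_lt.1 h
    set z := round (t - (p + q) / 2)
    have hz : z = 0 := by
      by_contra hz
      rcases lt_or_gt_of_ne hz with hl | hl
      · have : (z : ℝ) ≤ -1 := by exact_mod_cast Int.le_sub_one_of_lt hl
        linarith [hw.1, hr.1, hr.2]
      · have : (1 : ℝ) ≤ z := by exact_mod_cast hl
        linarith [hw.2, hr.1, hr.2]
    rw [hz, Int.cast_zero] at hr
    exact ⟨by linarith, by linarith⟩

/-- The weighted variation is at least the weights at both ends of the arc. -/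
theorem eventually_ends_le {c m : ℝ} (hm0 : 0 < m) (hm1 : m < 1) (hA : A =ᵐ[volume] arcAt c m)
    (hg : ∀ n, ContDiff ℝ 1 (g n)) (hgp : ∀ n, Function.Periodic (g n) 1)
    (hlim : ∀ᵐ t : ℝ, Tendsto (fun n => g n t) atTop (𝓝 (A.indicator 1 t)))
    (hβ : Continuous β) (hp : Function.Periodic β 1) (h0 : ∀ t, 0 ≤ β t) {ε : ℝ} (hε : 0 < ε) :
    ∀ᶠ n in atTop, β (c - m / 2) + β (c + m / 2) - ε ≤ wvar β (g n) := by
  obtain ⟨η₁, hη₁, hb₁⟩ := Metric.continuous_iff.1 hβ (c - m / 2) (ε / 4) (by linarith)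
  obtain ⟨η₂, hη₂, hb₂⟩ := Metric.continuous_iff.1 hβ (c + m / 2) (ε / 4) (by linarith)
  set η := min (min η₁ η₂) (min (m / 4) ((1 - m) / 4)) with hηdef
  have hη : 0 < η := lt_min (lt_min hη₁ hη₂) (lt_min (by linarith) (by linarith))
  have e1 : η ≤ η₁ := (min_le_left _ _).trans (min_le_left _ _)
  have e2 : η ≤ η₂ := (min_le_left _ _).trans (min_le_right _ _)
  have e3 : η ≤ m / 4 := (min_le_right _ _).trans (min_le_left _ _)
  have e4 : η ≤ (1 - m) / 4 := (min_le_right _ _).trans (min_le_right _ _)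
  have pick : ∀ a b : ℝ, a < b → ∃ t ∈ Ioo a b,
      Tendsto (fun n => g n t) atTop (𝓝 (A.indicator 1 t)) ∧ (t ∈ A ↔ t ∈ arcAt c m) := by
    intro a b hab
    have : ∀ᵐ t : ℝ, Tendsto (fun n => g n t) atTop (𝓝 (A.indicator 1 t)) ∧
        (t ∈ A ↔ t ∈ arcAt c m) := by
      filter_upwards [hlim, hA] with t h1 h2
      exact ⟨h1, iff_of_eq h2⟩
    exact Filter.Frequently.exists (((frequently_ae_mem_iff (s := Ioo a b)).2
      (by simp [Real.volume_Ioo, hab])).and_eventually this)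
  obtain ⟨u, hu, lu, au⟩ := pick (c - m / 2 - η) (c - m / 2) (by linarith)
  obtain ⟨w, hw, lw, aw⟩ := pick (c - m / 2) (c - m / 2 + η) (by linarith)
  obtain ⟨u', hu', lu', au'⟩ := pick (c + m / 2 - η) (c + m / 2) (by linarith)
  obtain ⟨w', hw', lw', aw'⟩ := pick (c + m / 2) (c + m / 2 + η) (by linarith)
  have hin : ∀ t : ℝ, |t - c| < m / 2 → t ∈ arcAt c m := fun t ht => by
    have := dd_le_abs (t - c) 0
    simp at this
    simp only [arcAt, mem_ofPred_eq]; linarith
  have hout : ∀ t : ℝ, m / 2 < |t - c| → |t - c| < 1 - m / 2 → t ∉ arcAt c m := by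
    intro t h1 h2 h
    simp only [arcAt, mem_ofPred_eq, dd] at h
    set z := round (t - c)
    rcases eq_or_ne z 0 with hz | hz
    · rw [hz, Int.cast_zero, sub_zero] at h; linarith
    · have : (1 : ℝ) ≤ |(z : ℝ)| := by exact_mod_cast Int.one_le_abs hz
      have : |(z : ℝ)| ≤ |t - c| + |t - c - z| := by
        have := abs_sub (t - c) (t - c - z)
        simpa using this
      linarith
  rw [indicator_of_notMem fun h => hout u
    (by rw [abs_of_neg (by linarith [hu.2])]; linarith [hu.2])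
    (by rw [abs_of_neg (by linarith [hu.2])]; linarith [hu.1]) (au.1 h)] at lu
  rw [indicator_of_mem (aw.2 (hin w (abs_lt.2 ⟨by linarith [hw.1], by linarith [hw.2]⟩)))] at lw
  rw [indicator_of_mem (au'.2 (hin u' (abs_lt.2 ⟨by linarith [hu'.1], by linarith [hu'.2]⟩)))]
    at lu'
  rw [indicator_of_notMem fun h => hout w'
    (by rw [abs_of_pos (by linarith [hw'.1])]; linarith [hw'.1])
    (by rw [abs_of_pos (by linarith [hw'.1])]; linarith [hw'.2]) (aw'.1 h)] at lw'
  set b := max 0 (β (c - m / 2) - ε / 4)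
  set b' := max 0 (β (c + m / 2) - ε / 4)
  have hl : Tendsto (fun n => b * |g n w - g n u| + b' * |g n w' - g n u'|) atTop (𝓝 (b + b')) := by
    have := ((lw.sub lu).abs.const_mul b).add ((lw'.sub lu').abs.const_mul b')
    simpa using this
  filter_upwards [hl.eventually_const_le
    (show b + b' - ε / 4 < b + b' by linarith)] with n hn
  have hbb : ∀ t ∈ Icc u w, b ≤ β t := fun t ht => max_le (h0 t) (by
    have := hb₁ t (by rw [Real.dist_eq, abs_lt]; constructor <;> linarith [ht.1, ht.2, hu.1, hw.2])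
    rw [Real.dist_eq, abs_lt] at this; linarith)
  have hbb' : ∀ t ∈ Icc u' w', b' ≤ β t := fun t ht => max_le (h0 t) (by
    have := hb₂ t (by
      rw [Real.dist_eq, abs_lt]; constructor <;> linarith [ht.1, ht.2, hu'.1, hw'.2])
    rw [Real.dist_eq, abs_lt] at this; linarith)
  have := two_jumps_le (hg n) (hgp n) hβ hp h0 (u := u) (w := w) (u' := u') (w' := w')
    (by linarith [hu.2, hw.1]) (by linarith [hw.2, hu'.1]) (by linarith [hu'.2, hw'.1])
    (by linarith [hw'.2, hu.1]) (le_max_left _ _) hbb (le_max_left _ _) hbb'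
  linarith [le_max_right 0 (β (c - m / 2) - ε / 4), le_max_right 0 (β (c + m / 2) - ε / 4)]

/-- Fourier coefficient of an arc. -/
theorem integral_arc_cos {c m : ℝ} (hm0 : 0 ≤ m) (hm1 : m < 1) (θ : ℝ) :
    ∫ t in (c - 1 / 2)..(c + 1 / 2), (arcAt c m).indicator (fun t => Real.cos (2 * Real.pi * t + θ)) t
      = Real.sin (Real.pi * m) / Real.pi * Real.cos (2 * Real.pi * c + θ) := by
  have he : ∀ t ∈ Ioc (c - 1 / 2) (c + 1 / 2), (t ∈ arcAt c m ↔ t ∈ Ioo (c - m / 2) (c + m / 2)) := by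
    intro t ht
    simp only [arcAt, mem_ofPred_eq, mem_Ioo]
    constructor
    · intro h
      simp only [dd] at h
      set z := round (t - c)
      have hr := abs_lt.1 h
      have hz : z = 0 := by
        by_contra hz
        rcases lt_or_gt_of_ne hz with hl | hl
        · have : (z : ℝ) ≤ -1 := by exact_mod_cast Int.le_sub_one_of_lt hl
          linarith [ht.1, ht.2, hr.1, hr.2]
        · have : (1 : ℝ) ≤ z := by exact_mod_cast hl
          linarith [ht.1, ht.2, hr.1, hr.2]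
      rw [hz, Int.cast_zero] at hr
      constructor <;> linarith
    · intro h
      have := dd_le_abs (t - c) 0
      simp at this
      have : |t - c| < m / 2 := abs_lt.2 ⟨by linarith, by linarith⟩
      linarith
  rw [intervalIntegral.integral_of_le (by linarith),
    setIntegral_congr_fun measurableSet_Ioc (g := (Ioo (c - m / 2) (c + m / 2)).indicator
      fun t => Real.cos (2 * Real.pi * t + θ)) fun t ht => by
      by_cases h : t ∈ arcAt c m
      · rw [indicator_of_mem h, indicator_of_mem ((he t ht).1 h)]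
      · rw [indicator_of_notMem h, indicator_of_notMem fun h' => h ((he t ht).2 h')],
    setIntegral_indicator measurableSet_Ioo,
    inter_eq_right.2 (show Ioo (c - m / 2) (c + m / 2) ⊆ Ioc (c - 1 / 2) (c + 1 / 2) from
      fun t ht => ⟨by linarith [ht.1], by linarith [ht.2]⟩),
    ← integral_Ioc_eq_integral_Ioo, ← intervalIntegral.integral_of_le (by linarith),
    intervalIntegral.integral_eq_sub_of_hasDerivAt
      (f := fun t => Real.sin (2 * Real.pi * t + θ) / (2 * Real.pi))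
      (fun t _ => by
        have := ((((hasDerivAt_id t).const_mul (2 * Real.pi)).add_const θ).sin).div_const
          (2 * Real.pi)
        simp only [id_eq] at this
        rw [mul_one, mul_div_assoc, div_self Real.two_pi_pos.ne', mul_one] at this
        exact this)
      ((by fun_prop : Continuous fun t => Real.cos (2 * Real.pi * t + θ)).intervalIntegrable _ _)]
  have hs := Real.sin_sub_sin (2 * Real.pi * (c + m / 2) + θ) (2 * Real.pi * (c - m / 2) + θ)
  rw [← sub_div, hs]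
  ring_nf

end

end Vale.P232.Rigid
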