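import Vale.Agent.P232.Root
import Vale.Agent.P232.Coord

/-!
P232: the level sets of a `CoreFun` as graphs, and their area.
-/

open MeasureTheory Set Filter Topology

namespace Vale.P232

noncomputable section

/-- Partial derivative at `pt x y z`. -/
def dd (f : V3 → ℝ) (i : Fin 3) (x y z : ℝ) : ℝ := fderiv ℝ f (pt x y z) (e i)

/-- Height of the level set `{f > t}` over `(x,y)`. -/
def zr (f : V3 → ℝ) (t x y : ℝ) : ℝ := root (fun s => f (pt x y s)) t

/-- Extent of the level set in the first coordinate over `(y,z)`. -/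
def xr (f : V3 → ℝ) (t y z : ℝ) : ℝ := root (fun s => f (pt s y z)) t

/-- Extent of the level set in the second coordinate over `(x,z)`. -/
def yr (f : V3 → ℝ) (t x z : ℝ) : ℝ := root (fun s => f (pt x s z)) t

/-- Surface element of the graph of `zr`. -/
def Wel (f : V3 → ℝ) (t x y : ℝ) : ℝ :=
  gradLen f (pt x y (zr f t x y)) / |dd f 2 x y (zr f t x y)|

/-- Area of the level set (as a graph over the last two axes). -/
def Qz (f : V3 → ℝ) (t : ℝ) : ENNReal :=
  8 * ∫⁻ x in Ioo (0:ℝ) (1/2), ∫⁻ y in Ioo (0:ℝ) (1/2),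
    if zr f t x y ∈ Ioo (0:ℝ) (1/2) then ENNReal.ofReal (Wel f t x y) else 0

namespace CoreFun

variable {f : V3 → ℝ}

lemma continuous (hf : CoreFun f) : Continuous f := hf.smooth.continuous

lemma hasDerivAt_update (hf : CoreFun f) (i : Fin 3) (x : V3) (s : ℝ) :
    HasDerivAt (fun u => f (Function.update x i u)) (fderiv ℝ f (Function.update x i s) (e i)) s := by
  have h1 : HasDerivAt (fun u => Function.update x i u) (e i) s := by
    have : (fun u => Function.update x i u) = fun u => x + (u - x i) • e i := by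
      funext u j
      rcases eq_or_ne j i with rfl | h
      · simp [e]
      · simp [e, Function.update_of_ne h, Pi.single_eq_of_ne h]
    rw [this]
    simpa using (((hasDerivAt_id s).sub_const (x i)).smul_const (e i)).const_add x
  exact ((hf.smooth.differentiable one_ne_zero) _).hasFDerivAt.comp_hasDerivAt s h1

lemma hasDerivAt_x (hf : CoreFun f) (x y z : ℝ) :
    HasDerivAt (fun u => f (pt u y z)) (dd f 0 x y z) x := by
  have h := hf.hasDerivAt_update 0 (pt x y z) x
  simp only [update_pt_0] at h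
  exact h

lemma hasDerivAt_y (hf : CoreFun f) (x y z : ℝ) :
    HasDerivAt (fun u => f (pt x u z)) (dd f 1 x y z) y := by
  have h := hf.hasDerivAt_update 1 (pt x y z) y
  simp only [update_pt_1] at h
  exact h

lemma hasDerivAt_z (hf : CoreFun f) (x y z : ℝ) :
    HasDerivAt (fun u => f (pt x y u)) (dd f 2 x y z) z := by
  have h := hf.hasDerivAt_update 2 (pt x y z) z
  simp only [update_pt_2] at h
  exact h

lemma continuous_dd (hf : CoreFun f) (i : Fin 3) :
    Continuous (fun q : ℝ × ℝ × ℝ => dd f i q.1 q.2.1 q.2.2) :=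
  ((hf.smooth.continuous_fderiv one_ne_zero).comp continuous_pt).clm_apply continuous_const

lemma dd_neg_x (hf : CoreFun f) {x : ℝ} (y z : ℝ) (hx : x ∈ Ioo (0:ℝ) (1/2)) :
    dd f 0 x y z < 0 := hf.deriv_neg 0 _ (by simpa [pt] using hx.1) (by simpa [pt] using hx.2)

lemma dd_neg_y (hf : CoreFun f) {y : ℝ} (x z : ℝ) (hy : y ∈ Ioo (0:ℝ) (1/2)) :
    dd f 1 x y z < 0 := hf.deriv_neg 1 _ (by simpa [pt] using hy.1) (by simpa [pt] using hy.2)

lemma dd_neg_z (hf : CoreFun f) {z : ℝ} (x y : ℝ) (hz : z ∈ Ioo (0:ℝ) (1/2)) :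
    dd f 2 x y z < 0 := hf.deriv_neg 2 _ (by simpa [pt] using hz.1) (by simpa [pt] using hz.2)

lemma strictAnti_x (hf : CoreFun f) (y z : ℝ) :
    StrictAntiOn (fun u => f (pt u y z)) (Icc 0 (1/2)) := by
  refine strictAntiOn_of_deriv_neg (convex_Icc _ _)
    (fun u _ => (hf.hasDerivAt_x u y z).continuousAt.continuousWithinAt) fun u hu => ?_
  rw [interior_Icc] at hu
  rw [(hf.hasDerivAt_x u y z).deriv]
  exact hf.dd_neg_x y z hu

lemma strictAnti_y (hf : CoreFun f) (x z : ℝ) :
    StrictAntiOn (fun u => f (pt x u z)) (Icc 0 (1/2)) := by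
  refine strictAntiOn_of_deriv_neg (convex_Icc _ _)
    (fun u _ => (hf.hasDerivAt_y x u z).continuousAt.continuousWithinAt) fun u hu => ?_
  rw [interior_Icc] at hu
  rw [(hf.hasDerivAt_y x u z).deriv]
  exact hf.dd_neg_y x z hu

lemma strictAnti_z (hf : CoreFun f) (x y : ℝ) :
    StrictAntiOn (fun u => f (pt x y u)) (Icc 0 (1/2)) := by
  refine strictAntiOn_of_deriv_neg (convex_Icc _ _)
    (fun u _ => (hf.hasDerivAt_z x y u).continuousAt.continuousWithinAt) fun u hu => ?_
  rw [interior_Icc] at hu
  rw [(hf.hasDerivAt_z x y u).deriv]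
  exact hf.dd_neg_z x y hu

lemma continuous_zr (hf : CoreFun f) :
    Continuous (fun q : ℝ × ℝ × ℝ => zr f q.1 q.2.1 q.2.2) :=
  continuous_root (F := fun (q : ℝ × ℝ × ℝ) s => f (pt q.2.1 q.2.2 s)) (lev := fun q => q.1)
    (hf.continuous.comp (continuous_pt.comp (f := fun w : (ℝ × ℝ × ℝ) × ℝ =>
      (w.1.2.1, w.1.2.2, w.2)) (by fun_prop))) continuous_fst (fun q => hf.strictAnti_z _ _)

lemma continuous_xr (hf : CoreFun f) :
    Continuous (fun q : ℝ × ℝ × ℝ => xr f q.1 q.2.1 q.2.2) :=
  continuous_root (F := fun (q : ℝ × ℝ × ℝ) s => f (pt s q.2.1 q.2.2)) (lev := fun q => q.1)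
    (hf.continuous.comp (continuous_pt.comp (f := fun w : (ℝ × ℝ × ℝ) × ℝ =>
      (w.2, w.1.2.1, w.1.2.2)) (by fun_prop))) continuous_fst (fun q => hf.strictAnti_x _ _)

lemma continuous_yr (hf : CoreFun f) :
    Continuous (fun q : ℝ × ℝ × ℝ => yr f q.1 q.2.1 q.2.2) :=
  continuous_root (F := fun (q : ℝ × ℝ × ℝ) s => f (pt q.2.1 s q.2.2)) (lev := fun q => q.1)
    (hf.continuous.comp (continuous_pt.comp (f := fun w : (ℝ × ℝ × ℝ) × ℝ =>
      (w.1.2.1, w.2, w.1.2.2)) (by fun_prop))) continuous_fst (fun q => hf.strictAnti_y _ _)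

lemma continuous_gradLen (hf : CoreFun f) : Continuous (gradLen f) :=
  Real.continuous_sqrt.comp (continuous_finsetSum _ fun i _ =>
    (((hf.smooth.continuous_fderiv one_ne_zero).clm_apply continuous_const).pow 2))

lemma measurable_Wel (hf : CoreFun f) :
    Measurable (fun q : ℝ × ℝ × ℝ => Wel f q.1 q.2.1 q.2.2) := by
  have hp : Continuous (fun q : ℝ × ℝ × ℝ => ((q.2.1, q.2.2, zr f q.1 q.2.1 q.2.2) : ℝ × ℝ × ℝ)) :=
    (continuous_fst.comp continuous_snd).prodMk
      ((continuous_snd.comp continuous_snd).prodMk hf.continuous_zr)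
  exact ((hf.continuous_gradLen.comp (continuous_pt.comp hp)).measurable).div
    (((hf.continuous_dd 2).comp hp).abs.measurable)

lemma measurable_graphIntegrand (hf : CoreFun f) :
    Measurable (fun q : ℝ × ℝ × ℝ => if zr f q.1 q.2.1 q.2.2 ∈ Ioo (0:ℝ) (1/2) then
      ENNReal.ofReal (Wel f q.1 q.2.1 q.2.2) else 0) :=
  Measurable.ite (hf.continuous_zr.measurable measurableSet_Ioo)
    hf.measurable_Wel.ennreal_ofReal measurable_const

lemma measurable_Qz (hf : CoreFun f) : Measurable (Qz f) := by
  unfold Qz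
  refine Measurable.const_mul ?_ _
  have h : Measurable (fun q : ℝ × ℝ => ∫⁻ y in Ioo (0:ℝ) (1/2),
      if zr f q.1 q.2 y ∈ Ioo (0:ℝ) (1/2) then ENNReal.ofReal (Wel f q.1 q.2 y) else 0) :=
    (hf.measurable_graphIntegrand.comp (measurable_fst.fst.prodMk
      (measurable_fst.snd.prodMk measurable_snd))).lintegral_prod_right'
  exact h.lintegral_prod_right'

/-- One fibre of the coarea formula. -/
lemma fibre_coarea (hf : CoreFun f) (x y : ℝ) {T : Set ℝ} (hT : MeasurableSet T) :
    ∫⁻ z in Ioo (0:ℝ) (1/2), T.indicator (fun _ => ENNReal.ofReal (gradLen f (pt x y z)))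
        (f (pt x y z)) =
      ∫⁻ t in T, if zr f t x y ∈ Ioo (0:ℝ) (1/2) then ENNReal.ofReal (Wel f t x y) else 0 := by
  set g := fun z => f (pt x y z) with hg
  have hsa := hf.strictAnti_z x y
  have hc : ContinuousOn g (Icc 0 (1/2)) := fun u _ =>
    (hf.hasDerivAt_z x y u).continuousAt.continuousWithinAt
  have himg : g '' Ioo (0:ℝ) (1/2) = {t | zr f t x y ∈ Ioo (0:ℝ) (1/2)} := by
    ext t
    constructor
    · rintro ⟨z, hz, rfl⟩
      show root g (g z) ∈ Ioo (0:ℝ) (1/2)
      rwa [root_eq_of_apply_eq hc hsa hz rfl]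
    · intro ht
      exact ⟨_, ht, apply_root hc hsa ht.1 ht.2⟩
  have hinj : InjOn g (Ioo (0:ℝ) (1/2)) := hsa.injOn.mono Ioo_subset_Icc_self
  set H := fun t => T.indicator (fun s => ENNReal.ofReal (Wel f s x y)) t with hH
  have key := lintegral_image_eq_lintegral_abs_deriv_mul (f := g) (f' := fun z => dd f 2 x y z)
    measurableSet_Ioo (fun z _ => (hf.hasDerivAt_z x y z).hasDerivWithinAt) hinj H
  have lhs : ∀ z ∈ Ioo (0:ℝ) (1/2),
      T.indicator (fun _ => ENNReal.ofReal (gradLen f (pt x y z))) (g z) =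
        ENNReal.ofReal |dd f 2 x y z| * H (g z) := by
    intro z hz
    by_cases hzT : g z ∈ T
    · rw [indicator_of_mem hzT, hH]
      simp only [indicator_of_mem hzT]
      have hz' : zr f (g z) x y = z := root_eq_of_apply_eq hc hsa hz rfl
      rw [← ENNReal.ofReal_mul (abs_nonneg _)]
      congr 1
      unfold Wel
      rw [hz', mul_div_cancel₀]
      exact abs_ne_zero.2 (hf.dd_neg_z x y hz).ne
    · rw [indicator_of_notMem hzT, hH]
      simp only [indicator_of_notMem hzT, mul_zero]
  rw [setLIntegral_congr_fun measurableSet_Ioo lhs, ← key, himg]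
  have hms : MeasurableSet {t | zr f t x y ∈ Ioo (0:ℝ) (1/2)} :=
    (hf.continuous_zr.comp (f := fun t : ℝ => (t, x, y)) (by fun_prop)).measurable measurableSet_Ioo
  rw [← lintegral_indicator hms, ← lintegral_indicator hT]
  refine lintegral_congr fun t => ?_
  by_cases ht : t ∈ T <;> simp [hH, indicator_apply, ht]

/-- Coarea formula: the gradient integral over `{f ∈ T}` is the integral of the level areas. -/
theorem coarea (hf : CoreFun f) {T : Set ℝ} (hT : MeasurableSet T) :
    ∫⁻ p in cube, T.indicator (fun _ => ENNReal.ofReal (gradLen f p)) (f p) =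
      ∫⁻ t in T, Qz f t := by
  have hG : Measurable (fun p => T.indicator (fun _ => ENNReal.ofReal (gradLen f p)) (f p)) := by
    have : (fun p => T.indicator (fun _ => ENNReal.ofReal (gradLen f p)) (f p)) =
        (f ⁻¹' T).indicator (fun p => ENNReal.ofReal (gradLen f p)) := by
      funext p
      by_cases hp : f p ∈ T <;> simp [indicator_apply, hp]
    rw [this]
    exact hf.continuous_gradLen.measurable.ennreal_ofReal.indicator (hf.continuous.measurable hT)
  have hper : IsPeriodicFun (gradLen f) := by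
    intro p k
    have hfe : (fun q => f (q + fun i => (k i : ℝ))) = f := funext fun q => hf.periodic q k
    have h : fderiv ℝ f (p + fun i => (k i : ℝ)) = fderiv ℝ f p := by
      have h' := fderiv_comp_add_right (𝕜 := ℝ) (f := f) (x := p) (fun i => (k i : ℝ))
      rw [hfe] at h'
      exact h'.symm
    simp [gradLen, h]
  have hev : ∀ (i : Fin 3) p, gradLen f (Function.update p i (-p i)) = gradLen f p := by
    intro i p
    set L : V3 ≃L[ℝ] V3 := ContinuousLinearEquiv.piCongrRight fun j =>
      if j = i then ContinuousLinearEquiv.neg ℝ else ContinuousLinearEquiv.refl ℝ ℝ with hL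
    have hLapply : ∀ q, L q = Function.update q i (-q i) := by
      intro q
      funext j
      simp only [hL, ContinuousLinearEquiv.piCongrRight_apply]
      rcases eq_or_ne j i with rfl | hj
      · simp
      · simp [hj]
    have hfe : f ∘ L = f := funext fun q => by
      simp only [Function.comp_apply, hLapply]; exact hf.even i q
    have h := (L.comp_right_fderiv (f := f) (x := p))
    rw [hfe] at h
    have hsq : ∀ j, fderiv ℝ f p (e j) ^ 2 = fderiv ℝ f (L p) (e j) ^ 2 := by
      intro j
      rw [h]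
      simp only [ContinuousLinearMap.comp_apply, ContinuousLinearEquiv.coe_coe, hLapply]
      rcases eq_or_ne j i with rfl | hj
      · have : Function.update (e j) j (-e j j) = - e j := by
          funext k
          rcases eq_or_ne k j with rfl | hk
          · simp
          · simp [e, hk]
        rw [this, map_neg, neg_sq]
      · have : Function.update (e j) i (-e j i) = e j := by
          funext k
          rcases eq_or_ne k i with rfl | hk
          · simp [e, Ne.symm hj]
          · simp [hk]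
        rw [this]
    unfold gradLen
    rw [← hLapply]
    congr 1
    exact Finset.sum_congr rfl fun j _ => (hsq j).symm
  rw [lintegral_cube_octant hG (fun p k => by simp only [hper p k, hf.periodic p k])
    (fun i p => by simp only [hev i p, hf.even i p])]
  unfold Qz
  rw [lintegral_const_mul' _ _ (by norm_num : (8 : ENNReal) ≠ ⊤)]
  congr 1
  have h1 : ∀ x, ∫⁻ y in Ioo (0:ℝ) (1/2), ∫⁻ z in Ioo (0:ℝ) (1/2),
        T.indicator (fun _ => ENNReal.ofReal (gradLen f (pt x y z))) (f (pt x y z)) =
      ∫⁻ t in T, ∫⁻ y in Ioo (0:ℝ) (1/2),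
        if zr f t x y ∈ Ioo (0:ℝ) (1/2) then ENNReal.ofReal (Wel f t x y) else 0 := by
    intro x
    simp_rw [hf.fibre_coarea x _ hT]
    exact lintegral_lintegral_swap ((hf.measurable_graphIntegrand.comp
      (measurable_snd.prodMk (measurable_const.prodMk measurable_fst))).aemeasurable)
  simp_rw [h1]
  exact lintegral_lintegral_swap (((hf.measurable_graphIntegrand.comp
    (measurable_fst.snd.prodMk (measurable_fst.fst.prodMk measurable_snd))).lintegral_prod_right').aemeasurable)

end CoreFun

end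

end Vale.P232
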