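import Vale.Agent.P232.HeatMollify

/-!
P232, module A: the nonlocal perimeter and the De Giorgi perimeter.
-/

open MeasureTheory Set Filter Topology
open scoped ENNReal

namespace Vale.P232

noncomputable section

instance isFiniteMeasure_eball (r : ℝ) :
    IsFiniteMeasure ((volume : Measure V3).restrict (eball r)) :=
  ⟨by simpa using volume_eball_lt_top r⟩

theorem fderiv_apply_eq (f : V3 → ℝ) (x h : V3) :
    fderiv ℝ f x h = ∑ i, fderiv ℝ f x (e i) * h i := by
  conv_lhs => rw [show h = ∑ i, h i • e i by
    funext j; simp [e, Finset.sum_apply, Pi.single_apply]]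
  simp [mul_comm]

theorem continuous_gradLen {f : V3 → ℝ} (hf : ContDiff ℝ 1 f) : Continuous (gradLen f) :=
  Real.continuous_sqrt.comp (continuous_finsetSum _ fun _ _ =>
    ((hf.continuous_fderiv (by norm_num)).clm_apply continuous_const).pow 2)

theorem dot_le_gradLen {f : V3 → ℝ} {X : V3 → V3} (hX : IsTestField X) (x : V3) :
    |∑ i, X x i * fderiv ℝ f x (e i)| ≤ gradLen f x := by
  refine abs_le_of_sq_le_sq ?_ (Real.sqrt_nonneg _)
  rw [gradLen, Real.sq_sqrt (Finset.sum_nonneg fun i _ => sq_nonneg _)]
  exact (Finset.sum_mul_sq_le_sq_mul_sq _ _ _).trans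
    (mul_le_of_le_one_left (Finset.sum_nonneg fun i _ => sq_nonneg _) (hX.2.2 x))

theorem integral_div_le_gradLen {f : V3 → ℝ} (hf : ContDiff ℝ 1 f) (hfp : IsPeriodicFun f)
    {X : V3 → V3} (hX : IsTestField X) :
    ∫ x in cube, f x * div3 X x ≤ ∫ x in cube, gradLen f x := by
  have h := integral_dot_grad_add hf hfp hX.1 hX.2.1
  have hc : Continuous fun x => ∑ i, X x i * fderiv ℝ f x (e i) :=
    continuous_finsetSum _ fun i _ => ((continuous_apply i).comp hX.1.continuous).mul
      ((hf.continuous_fderiv (by norm_num)).clm_apply continuous_const)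
  have h1 := setIntegral_mono (s := cube) (μ := (volume : Measure V3))
    (Continuous.integrableOn_cube (continuous_gradLen hf).neg) (Continuous.integrableOn_cube hc)
    fun x => neg_le_of_abs_le (dot_le_gradLen hX x)
  simp only [Pi.neg_apply, integral_neg] at h1
  linarith

/-- The cost of a translation is bounded by the directional gradient mass. -/
theorem integral_shift_le {f : V3 → ℝ} (hf : ContDiff ℝ 1 f) (hfp : IsPeriodicFun f) (h : V3) :
    ∫ x in cube, |f (x + h) - f x| ≤ ∫ x in cube, |fderiv ℝ f x h| := by
  have hc : Continuous fun x => fderiv ℝ f x h :=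
    (hf.continuous_fderiv (by norm_num)).clm_apply continuous_const
  have hfd : IsPeriodicFun fun x => |fderiv ℝ f x h| := fun x k => by
    simp only [hfp.periodic_fderiv x k]
  have ftc : ∀ x, |f (x + h) - f x| ≤ ∫ t in (0 : ℝ)..1, |fderiv ℝ f (x + t • h) h| := fun x => by
    have hd : ∀ t ∈ uIcc (0 : ℝ) 1,
        HasDerivAt (fun s => f (x + s • h)) (fderiv ℝ f (x + t • h) h) t := fun t _ => by
      have h1 : HasDerivAt (fun s : ℝ => x + s • h) h t := by
        simpa using ((hasDerivAt_id t).smul_const h).const_add x
      exact (hf.differentiable (by norm_num) _).hasFDerivAt.comp_hasDerivAt t h1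
    have := intervalIntegral.integral_eq_sub_of_hasDerivAt hd
      ((hc.comp (by fun_prop)).intervalIntegrable _ _)
    simp only [one_smul, zero_smul, add_zero] at this
    rw [← this]
    exact intervalIntegral.abs_integral_le_integral_abs zero_le_one
  obtain ⟨C, -, hC⟩ := hfd.exists_bound hc.abs
  haveI : IsFiniteMeasure (volume.restrict (uIoc (0 : ℝ) 1)) := ⟨by simp⟩
  have hint : Integrable (Function.uncurry fun (t : ℝ) x => |fderiv ℝ f (x + t • h) h|)
      ((volume.restrict (uIoc (0 : ℝ) 1)).prod ((volume : Measure V3).restrict cube)) :=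
    Integrable.of_bound (hc.abs.comp (by fun_prop)).aestronglyMeasurable C
      (Eventually.of_forall fun p => hC _)
  calc ∫ x in cube, |f (x + h) - f x|
      ≤ ∫ x in cube, ∫ t in (0 : ℝ)..1, |fderiv ℝ f (x + t • h) h| := by
        refine setIntegral_mono (Continuous.integrableOn_cube ?_) ?_ ftc
        · exact ((hf.continuous.comp (continuous_id.add continuous_const)).sub hf.continuous).abs
        · refine (hint.integral_prod_right).congr (Eventually.of_forall fun x => ?_)
          simp [intervalIntegral.integral_of_le zero_le_one,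
            uIoc_of_le (zero_le_one : (0 : ℝ) ≤ 1)]
    _ = ∫ t in (0 : ℝ)..1, ∫ x in cube, |fderiv ℝ f (x + t • h) h| :=
        (MeasureTheory.intervalIntegral_integral_swap hint).symm
    _ = ∫ t in (0 : ℝ)..1, ∫ x in cube, |fderiv ℝ f x h| :=
        intervalIntegral.integral_congr fun t _ =>
          integral_periodic_translate (g := fun x => |fderiv ℝ f x h|) hfd (t • h)
    _ = ∫ x in cube, |fderiv ℝ f x h| := by simp

theorem integrable_dir {f : V3 → ℝ} (hf : ContDiff ℝ 1 f) (r : ℝ) :
    Integrable (Function.uncurry fun (h : V3) x => |fderiv ℝ f x h|)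
      (((volume : Measure V3).restrict (eball r)).prod ((volume : Measure V3).restrict cube)) := by
  have hc : Continuous fun p : V3 × V3 => |fderiv ℝ f p.2 p.1| :=
    (((hf.continuous_fderiv (by norm_num)).comp continuous_snd).clm_apply continuous_fst).abs
  obtain ⟨C, hC⟩ := ((isCompact_eball r).prod (isCompact_Icc : IsCompact (Icc (0 : V3) 1))
    ).exists_bound_of_continuousOn hc.continuousOn
  refine Integrable.of_bound hc.aestronglyMeasurable C ?_
  rw [Measure.prod_restrict]
  filter_upwards [ae_restrict_mem ((measurableSet_eball r).prod measurableSet_cube)] with p hp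
  exact hC p ⟨hp.1, fun i => (hp.2 i (mem_univ i)).1, fun i => (hp.2 i (mem_univ i)).2.le⟩

/-- Averaging over directions. -/
theorem integral_ball_dir {f : V3 → ℝ} (hf : ContDiff ℝ 1 f) (r : ℝ) :
    ∫ h in eball r, ∫ x in cube, |fderiv ℝ f x h| = kappa r * ∫ x in cube, gradLen f x := by
  rw [integral_integral_swap (integrable_dir hf r), ← integral_const_mul]
  refine setIntegral_congr_fun measurableSet_cube fun x _ => ?_
  rw [show (fun h => |fderiv ℝ f x h|) = fun h => |∑ i, fderiv ℝ f x (e i) * h i| from
    funext fun h => congrArg abs (fderiv_apply_eq f x h),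
    integral_abs_dot (fun i => fderiv ℝ f x (e i)) r, mul_comm]
  rfl

theorem integrableOn_shift {f : V3 → ℝ} (hf : Continuous f) (hfp : IsPeriodicFun f) (r : ℝ) :
    IntegrableOn (fun h => ∫ x in cube, |f (x + h) - f x|) (eball r) := by
  obtain ⟨C, -, hC⟩ := hfp.exists_bound hf
  refine integrableOn_eball ?_ r
  refine continuous_of_dominated (bound := fun _ => 2 * C)
    (fun h => ((hf.comp (continuous_id.add continuous_const)).sub hf).abs.aestronglyMeasurable)
    (fun h => Eventually.of_forall fun x => ?_) (integrable_const _)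
    (Eventually.of_forall fun x => ((hf.comp (continuous_const.add continuous_id)).sub
      continuous_const).abs)
  rw [Real.norm_eq_abs, abs_abs]
  exact (abs_sub _ _).trans (by
    linarith [Real.norm_eq_abs (f (x + h)) ▸ hC (x + h), Real.norm_eq_abs (f x) ▸ hC x])

theorem integral_ball_shift_le {f : V3 → ℝ} (hf : ContDiff ℝ 1 f) (hfp : IsPeriodicFun f)
    (r : ℝ) :
    ∫ h in eball r, ∫ x in cube, |f (x + h) - f x| ≤ kappa r * ∫ x in cube, gradLen f x := by
  rw [← integral_ball_dir hf r]
  exact setIntegral_mono (integrableOn_shift hf.continuous hfp r)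
    (integrable_dir hf r).integral_prod_left fun h => integral_shift_le hf hfp h

/-- The shift cost of mollified indicators converges. -/
theorem tendsto_shift_mol {E : Set V3} (hE : MeasurableSet E) (h : V3) :
    Tendsto (fun n => ∫ x in cube, |mol n E (x + h) - mol n E x|) atTop (𝓝 (shiftDiff E h)) := by
  rw [shiftDiff_eq hE]
  have hc : ∀ n, Continuous (mol n E) := fun n => (contDiff_mol hE n (k := 1)).continuous
  refine tendsto_integral_of_dominated_convergence (fun _ => 1)
    (fun n => (((hc n).comp (continuous_id.add continuous_const)).sub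
      (hc n)).abs.aestronglyMeasurable) (integrable_const _)
    (fun n => Eventually.of_forall fun x => ?_) ?_
  · rw [Real.norm_eq_abs, abs_abs]
    exact abs_sub_le_iff.2 ⟨by linarith [mol_nonneg n E x, mol_le_one hE n (x + h)],
      by linarith [mol_nonneg n E (x + h), mol_le_one hE n x]⟩
  · refine ae_restrict_of_ae ?_
    filter_upwards [tendsto_mol hE, (measurePreserving_add_right (volume : Measure V3)
      h).quasiMeasurePreserving.ae (tendsto_mol hE)] with x h1 h2
    exact (h2.sub h1).abs

theorem shiftDiff_le_one {E : Set V3} (hE : MeasurableSet E) (h : V3) : shiftDiff E h ≤ 1 := by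
  rw [shiftDiff_eq hE]
  calc ∫ x in cube, |ind E (x + h) - ind E x| ≤ ∫ _x in cube, (1 : ℝ) :=
        integral_mono_of_nonneg (Eventually.of_forall fun _ => abs_nonneg _) (integrable_const _)
          (Eventually.of_forall fun x => abs_ind_sub_le E _ _)
    _ = 1 := by simp [measureReal_def, volume_cube_eq_one]

theorem integrableOn_shiftDiff {E : Set V3} (hE : MeasurableSet E) (hp : IsPeriodic E) (r : ℝ) :
    IntegrableOn (shiftDiff E) (eball r) := by
  refine Integrable.of_bound ?_ 1 (Eventually.of_forall fun h => ?_)
  · exact aestronglyMeasurable_of_tendsto_ae atTop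
      (fun n => (integrableOn_shift (contDiff_mol hE n (k := 1)).continuous (periodic_mol hp n)
        r).aestronglyMeasurable)
      (Eventually.of_forall fun h => tendsto_shift_mol hE h)
  · rw [Real.norm_eq_abs, abs_of_nonneg (shiftDiff_nonneg E h)]
    exact shiftDiff_le_one hE h

theorem tendsto_ball_shift_mol {E : Set V3} (hE : MeasurableSet E) (hp : IsPeriodic E) (r : ℝ) :
    Tendsto (fun n => ∫ h in eball r, ∫ x in cube, |mol n E (x + h) - mol n E x|) atTop
      (𝓝 (∫ h in eball r, shiftDiff E h)) := by
  refine tendsto_integral_of_dominated_convergence (fun _ => 1)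
    (fun n => (integrableOn_shift (contDiff_mol hE n (k := 1)).continuous (periodic_mol hp n)
      r).aestronglyMeasurable) (integrable_const _)
    (fun n => Eventually.of_forall fun h => ?_)
    (Eventually.of_forall fun h => tendsto_shift_mol hE h)
  rw [Real.norm_eq_abs, abs_of_nonneg (integral_nonneg fun x => abs_nonneg _)]
  calc ∫ x in cube, |mol n E (x + h) - mol n E x| ≤ ∫ _x in cube, (1 : ℝ) :=
        integral_mono_of_nonneg (Eventually.of_forall fun _ => abs_nonneg _) (integrable_const _)
          (Eventually.of_forall fun x => abs_sub_le_iff.2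
            ⟨by linarith [mol_nonneg n E x, mol_le_one hE n (x + h)],
              by linarith [mol_nonneg n E (x + h), mol_le_one hE n x]⟩)
    _ = 1 := by simp [measureReal_def, volume_cube_eq_one]

theorem PerBound.nonneg {E : Set V3} {B : ℝ} (h : PerBound E B) : 0 ≤ B := by
  have := h (fun _ => 0) ⟨contDiff_const, fun _ _ => rfl, fun _ => by simp⟩
  simpa [div3] using this

/-- A1: the nonlocal perimeter is at most any bound of the De Giorgi perimeter. -/
theorem Phi_le_of_perBound {E : Set V3} (hE : MeasurableSet E) (hp : IsPeriodic E) {B : ℝ}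
    (hB : PerBound E B) {r : ℝ} (hr : 0 < r) : Phi r E ≤ B := by
  rw [Phi, div_le_iff₀ (kappa_pos hr), mul_comm B]
  refine le_of_tendsto' (tendsto_ball_shift_mol hE hp r) fun n => ?_
  exact (integral_ball_shift_le (contDiff_mol hE n) (periodic_mol hp n) r).trans
    (mul_le_mul_of_nonneg_left (integral_gradLen_mol_le hE hp hB n) (kappa_pos hr).le)

/-- A1. -/
theorem ofReal_Phi_le_perimeter {E : Set V3} (hE : MeasurableSet E) (hp : IsPeriodic E) {r : ℝ}
    (hr : 0 < r) : ENNReal.ofReal (Phi r E) ≤ perimeter E := by
  by_cases h : perimeter E = ⊤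
  · simp [h]
  · exact (ENNReal.ofReal_le_iff_le_toReal h).2 (Phi_le_of_perBound hE hp (perBound_toReal h) hr)

/-- Mollification does not raise the shift cost. -/
theorem shift_mol_le {E : Set V3} (hE : MeasurableSet E) (hp : IsPeriodic E) (n : ℕ) (h : V3) :
    ∫ x in cube, |mol n E (x + h) - mol n E x| ≤ shiftDiff E h := by
  set G : V3 → ℝ := fun x => |ind E (x + h) - ind E x|
  have hG : IsPeriodicFun G := fun x k => by
    simp only [G, show x + (fun i => (k i : ℝ)) + h = (x + h) + fun i => (k i : ℝ) by abel,
      hp.ind _ k]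
  have hint : Integrable (Function.uncurry fun x t => rho n t * G (x - t))
      (((volume : Measure V3).restrict cube).prod volume) := by
    refine ((integrable_rho n).comp_snd _).mul_bdd (c := 1) (Measurable.aestronglyMeasurable ?_)
      (Eventually.of_forall fun p => ?_)
    · exact (((measurable_ind hE).comp ((measurable_fst.sub measurable_snd).add_const h)).sub
        ((measurable_ind hE).comp (measurable_fst.sub measurable_snd))).norm
    · simp only [G, Real.norm_eq_abs, abs_abs]; exact abs_ind_sub_le E _ _
  have hc : Continuous fun x => |mol n E (x + h) - mol n E x| :=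
    (((contDiff_mol hE n (k := 1)).continuous.comp (continuous_id.add continuous_const)).sub
      (contDiff_mol hE n (k := 1)).continuous).abs
  calc ∫ x in cube, |mol n E (x + h) - mol n E x|
      ≤ ∫ x in cube, ∫ t, rho n t * G (x - t) := by
        refine setIntegral_mono (Continuous.integrableOn_cube hc) hint.integral_prod_left
          fun x => ?_
        rw [mol_apply, mol_apply, ← integral_sub (integrable_rho_mul hE n _)
          (integrable_rho_mul hE n _)]
        refine (abs_integral_le_integral_abs).trans (le_of_eq ?_)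
        congr 1
        funext t
        simp only [G]
        rw [← mul_sub, abs_mul, abs_of_nonneg (rho_nonneg n t),
          show x + h - t = x - t + h by abel]
    _ = ∫ t, rho n t * ∫ x in cube, G (x - t) := by
        rw [integral_integral_swap hint]; simp only [integral_const_mul]
    _ = shiftDiff E h := by
        have : ∀ t, ∫ x in cube, G (x - t) = shiftDiff E h := fun t => by
          rw [shiftDiff_eq hE]
          have := integral_periodic_translate hG (-t)
          simpa [G, sub_eq_add_neg] using this
        simp only [this, integral_mul_const, integral_rho, one_mul]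

theorem exists_taylor_bound {f : V3 → ℝ} (hf : ContDiff ℝ 2 f) (hfp : IsPeriodicFun f) :
    ∃ C, 0 ≤ C ∧ ∀ x h : V3, |fderiv ℝ f x h| ≤ |f (x + h) - f x| + C * ‖h‖ ^ 2 := by
  obtain ⟨C, hC0, hC⟩ := hfp.periodic_fderiv.periodic_fderiv.exists_bound
    ((hf.fderiv_right (m := 1) (by norm_num)).continuous_fderiv (by norm_num))
  refine ⟨C, hC0, fun x h => ?_⟩
  have hd : ∀ y ∈ Metric.closedBall x ‖h‖, ‖fderiv ℝ f y - fderiv ℝ f x‖ ≤ C * ‖h‖ :=
    fun y hy => by
      refine ((convex_univ : Convex ℝ (univ : Set V3)).norm_image_sub_le_of_norm_fderiv_le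
        (fun z _ => (hf.fderiv_right (m := 1) (by norm_num)).differentiable (by norm_num) z)
        (fun z _ => hC z) (mem_univ x) (mem_univ y)).trans ?_
      gcongr
      simpa [dist_eq_norm] using hy
  have hm := (convex_closedBall x ‖h‖).norm_image_sub_le_of_norm_fderiv_le'
    (fun z _ => hf.differentiable (by norm_num) z) hd (Metric.mem_closedBall_self (norm_nonneg h))
    (show x + h ∈ Metric.closedBall x ‖h‖ by simp [dist_eq_norm])
  simp only [add_sub_cancel_left, Real.norm_eq_abs] at hm
  have := abs_sub_abs_le_abs_sub (fderiv ℝ f x h) (f (x + h) - f x)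
  rw [abs_sub_comm] at hm
  linarith [sq ‖h‖]

/-- The mollified gradient mass is below the nonlocal perimeter, up to `O(r)`. -/
theorem exists_gradLen_le_Phi {E : Set V3} (hE : MeasurableSet E) (hp : IsPeriodic E) (n : ℕ) :
    ∃ C, 0 ≤ C ∧ ∀ r, 0 < r → ∫ x in cube, gradLen (mol n E) x ≤ Phi r E + C * r := by
  set f := mol n E
  have hf : ContDiff ℝ 2 f := contDiff_mol hE n
  obtain ⟨C, hC0, hC⟩ := exists_taylor_bound hf (periodic_mol hp n)
  refine ⟨3 * C, by positivity, fun r hr => ?_⟩
  have hsum : IntegrableOn (fun h : V3 => C * (r * ∑ i, |h i|)) (eball r) :=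
    integrableOn_eball (by fun_prop) r
  have h1 : ∫ h in eball r, ∫ x in cube, |fderiv ℝ f x h|
      ≤ ∫ h in eball r, (shiftDiff E h + C * (r * ∑ i, |h i|)) := by
    refine setIntegral_mono_on (integrable_dir (hf.of_le (by norm_num)) r).integral_prod_left
      ((integrableOn_shiftDiff hE hp r).add hsum) (measurableSet_eball r) fun h hh => ?_
    have hc1 : Continuous fun x => |f (x + h) - f x| :=
      ((hf.continuous.comp (continuous_id.add continuous_const)).sub hf.continuous).abs
    calc ∫ x in cube, |fderiv ℝ f x h|
        ≤ ∫ x in cube, (|f (x + h) - f x| + C * (r * ∑ i, |h i|)) :=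
          setIntegral_mono (Continuous.integrableOn_cube
              ((hf.continuous_fderiv (by norm_num)).clm_apply continuous_const).abs)
            (Continuous.integrableOn_cube (hc1.add continuous_const))
            fun x => (hC x h).trans (add_le_add le_rfl
              (mul_le_mul_of_nonneg_left (norm_sq_le hr.le hh) hC0))
      _ = (∫ x in cube, |f (x + h) - f x|) + C * (r * ∑ i, |h i|) := by
          rw [integral_add (Continuous.integrableOn_cube hc1) (integrable_const _)]
          simp [measureReal_def, volume_cube_eq_one]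
      _ ≤ _ := add_le_add (shift_mol_le hE hp n h) le_rfl
  have h2 : ∫ h in eball r, C * (r * ∑ i, |h i|) = 3 * C * r * kappa r := by
    simp only [integral_const_mul]
    rw [integral_finsetSum _ fun i _ => integrableOn_eball (by fun_prop) r]
    simp only [integral_abs_apply, Finset.sum_const, Finset.card_univ, Fintype.card_fin,
      nsmul_eq_mul]
    push_cast; ring
  rw [integral_ball_dir (hf.of_le (by norm_num)) r,
    integral_add (integrableOn_shiftDiff hE hp r) hsum, h2] at h1
  have hk := kappa_pos hr
  have e1 : Phi r E * kappa r = ∫ h in eball r, shiftDiff E h := by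
    rw [Phi, div_mul_cancel₀ _ hk.ne']
  refine le_of_mul_le_mul_right ?_ hk
  linarith

/-- For every test field the nonlocal perimeters eventually exceed its pairing, up to `ε`. -/
theorem eventually_div_le_Phi {E : Set V3} (hE : MeasurableSet E) (hp : IsPeriodic E)
    {X : V3 → V3} (hX : IsTestField X) {ε : ℝ} (hε : 0 < ε) :
    ∀ᶠ r in 𝓝[>] (0 : ℝ), ∫ x in E ∩ cube, div3 X x ≤ Phi r E + ε := by
  obtain ⟨C', hC'0, hC'⟩ := (periodic_div3 hX.2.1).exists_bound (continuous_divergence hX.1)
  have ht : Tendsto (fun n => ∫ x in cube, mol n E x * div3 X x) atTop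
      (𝓝 (∫ x in cube, ind E x * div3 X x)) := by
    refine tendsto_integral_of_dominated_convergence (fun _ => C')
      (fun n => ((contDiff_mol hE n (k := 1)).continuous.mul
        (continuous_divergence hX.1)).aestronglyMeasurable) (integrable_const _)
      (fun n => Eventually.of_forall fun x => ?_) (ae_restrict_of_ae ?_)
    · rw [norm_mul, Real.norm_eq_abs, abs_of_nonneg (mol_nonneg n E x)]
      exact (mul_le_of_le_one_left (norm_nonneg _) (mol_le_one hE n x)).trans (hC' x)
    · filter_upwards [tendsto_mol hE] with x hx using hx.mul_const _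
  obtain ⟨n, hn⟩ :=
    (ht.eventually_const_lt (sub_lt_self (∫ x in cube, ind E x * div3 X x) (half_pos hε))).exists
  obtain ⟨C, hC0, hC⟩ := exists_gradLen_le_Phi hE hp n
  have h1 := integral_div_le_gradLen (contDiff_mol hE n (k := 1)) (periodic_mol hp n) hX
  have hδ : 0 < ε / 2 / (C + 1) := by positivity
  filter_upwards [Ioo_mem_nhdsGT hδ] with r hr
  have h2 := hC r hr.1
  have h3 : r * (C + 1) < ε / 2 := (lt_div_iff₀ (by positivity)).1 hr.2
  rw [setIntegral_inter_cube hE]
  nlinarith [hr.1]

/-- A2: bounds of the nonlocal perimeters at arbitrarily small scales bound the perimeter. -/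
theorem perimeter_le_of_frequently {E : Set V3} (hE : MeasurableSet E) (hp : IsPeriodic E)
    {M : ℝ} (hM : ∃ᶠ r in 𝓝[>] (0 : ℝ), Phi r E ≤ M) : perimeter E ≤ ENNReal.ofReal M := by
  refine PerBound.perimeter_le fun X hX => le_of_forall_pos_le_add fun ε hε => ?_
  obtain ⟨r, h1, h2⟩ := (hM.and_eventually (eventually_div_le_Phi hE hp hX hε)).exists
  linarith

/-- A2. -/
theorem perimeter_le_of_Phi_le {E : Set V3} (hE : MeasurableSet E) (hp : IsPeriodic E) {M : ℝ}
    (hM : ∀ r ∈ Ioo (0 : ℝ) (1 / 4), Phi r E ≤ M) : perimeter E ≤ ENNReal.ofReal M := by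
  refine perimeter_le_of_frequently hE hp (Eventually.frequently ?_)
  filter_upwards [Ioo_mem_nhdsGT (show (0 : ℝ) < 1 / 4 by norm_num)] with r hr using hM r hr

/-- A set whose nonlocal perimeters are below those of `E` has no larger perimeter. -/
theorem perimeter_le_of_Phi_le_Phi {E E' : Set V3} (hE : MeasurableSet E) (hp : IsPeriodic E)
    (hE' : MeasurableSet E') (hp' : IsPeriodic E')
    (h : ∀ r ∈ Ioo (0 : ℝ) (1 / 4), Phi r E' ≤ Phi r E) : perimeter E' ≤ perimeter E := by
  by_cases ht : perimeter E = ⊤
  · simp [ht]
  · rw [← ENNReal.ofReal_toReal ht]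
    exact perimeter_le_of_Phi_le hE' hp' fun r hr =>
      (h r hr).trans (Phi_le_of_perBound hE hp (perBound_toReal ht) hr.1)

end

end Vale.P232
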