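import Vale.Agent.P232.Defs

/-!
P232, module A: the normalising constant of the nonlocal perimeter and rotation invariance.
-/

open MeasureTheory Set Filter Topology

namespace Vale.P232

noncomputable section

theorem isClosed_eball (r : ℝ) : IsClosed (eball r) :=
  isClosed_le (by fun_prop) continuous_const

theorem measurableSet_eball (r : ℝ) : MeasurableSet (eball r) := (isClosed_eball r).measurableSet

theorem abs_apply_le_of_mem_eball {r : ℝ} (hr : 0 ≤ r) {h : V3} (hh : h ∈ eball r) (i : Fin 3) :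
    |h i| ≤ r := by
  have h1 : h i ^ 2 ≤ r ^ 2 :=
    (Finset.single_le_sum (fun j _ => sq_nonneg (h j)) (Finset.mem_univ i)).trans hh
  exact abs_le_of_sq_le_sq h1 hr

theorem norm_le_of_mem_eball {r : ℝ} (hr : 0 ≤ r) {h : V3} (hh : h ∈ eball r) : ‖h‖ ≤ r :=
  (pi_norm_le_iff_of_nonneg hr).2 fun i => abs_apply_le_of_mem_eball hr hh i

theorem isCompact_eball (r : ℝ) : IsCompact (eball r) := by
  refine (isCompact_closedBall (0 : V3) |r|).of_isClosed_subset (isClosed_eball r) fun h hh => ?_
  rw [mem_closedBall_zero_iff]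
  exact norm_le_of_mem_eball (abs_nonneg r) (show _ ≤ |r| ^ 2 by rw [sq_abs]; exact hh)

theorem volume_eball_lt_top (r : ℝ) : volume (eball r) < ⊤ := (isCompact_eball r).measure_lt_top

theorem integrableOn_eball {g : V3 → ℝ} (hg : Continuous g) (r : ℝ) : IntegrableOn g (eball r) :=
  hg.continuousOn.integrableOn_compact (isCompact_eball r)

theorem len_nonneg (a : V3) : 0 ≤ len a := Real.sqrt_nonneg _

theorem len_eq_norm (a : V3) : len a = ‖WithLp.toLp 2 a‖ := by
  simp [len, EuclideanSpace.norm_eq]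

/-- Rotation invariance. -/
theorem integral_abs_dot (a : V3) (r : ℝ) :
    ∫ h in eball r, |∑ i, a i * h i| = len a * kappa r := by
  set v : EuclideanSpace ℝ (Fin 3) := WithLp.toLp 2 a
  set w : EuclideanSpace ℝ (Fin 3) := ‖v‖ • EuclideanSpace.single 0 (1 : ℝ)
  have hvw : ‖v‖ = ‖w‖ := by simp [w, norm_smul]
  set R := Submodule.reflection (ℝ ∙ (v - w))ᗮ
  have hRv : R v = w := Submodule.reflection_sub hvw
  set S : Set (EuclideanSpace ℝ (Fin 3)) := Metric.closedBall 0 |r|
  have hS : (WithLp.ofLp : EuclideanSpace ℝ (Fin 3) → V3) ⁻¹' eball r = S := by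
    ext y
    simp only [S, mem_preimage, eball, mem_setOf_eq, mem_closedBall_zero_iff,
      EuclideanSpace.norm_eq, Real.norm_eq_abs, sq_abs]
    rw [Real.sqrt_le_left (abs_nonneg r), sq_abs]
  have hT : ∀ g : V3 → ℝ, ∫ h in eball r, g h
      = ∫ y in S, g (WithLp.ofLp y) := fun g => by
    rw [← hS]
    exact ((PiLp.volume_preserving_ofLp (Fin 3)).setIntegral_preimage_emb
      (MeasurableEquiv.toLp 2 V3).symm.measurableEmbedding g (eball r)).symm
  have hmp := R.measurePreserving
  have hRS : R ⁻¹' S = S := by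
    ext y; simp [S]
  have dot : ∀ u y : EuclideanSpace ℝ (Fin 3),
      ∑ i, WithLp.ofLp u i * WithLp.ofLp y i = inner ℝ u y := fun u y => by
    simp [PiLp.inner_apply, mul_comm]
  calc ∫ h in eball r, |∑ i, a i * h i| = ∫ y in S, |inner ℝ v y| := by
        rw [hT fun h => |∑ i, a i * h i|]
        simp only [← dot]; rfl
    _ = ∫ y in R ⁻¹' S, |inner ℝ w (R y)| := by
        rw [hRS]; simp [← hRv]
    _ = ∫ y in S, |inner ℝ w y| :=
        hmp.setIntegral_preimage_emb R.toHomeomorph.measurableEmbedding (fun y => |inner ℝ w y|) S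
    _ = ∫ y in S, len a * |WithLp.ofLp y 0| := by
        refine setIntegral_congr_fun measurableSet_closedBall fun y _ => ?_
        simp [w, len_eq_norm, v, inner_smul_left, EuclideanSpace.inner_single_left, abs_mul]
    _ = len a * kappa r := by rw [integral_const_mul, kappa, hT fun h => |h 0|]

theorem integral_abs_apply (i : Fin 3) (r : ℝ) : ∫ h in eball r, |h i| = kappa r := by
  have := integral_abs_dot (e i) r
  simpa [e, len, Pi.single_apply, Finset.sum_ite_eq'] using this

theorem kappa_pos {r : ℝ} (hr : 0 < r) : 0 < kappa r := by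
  refine (setIntegral_pos_iff_support_of_nonneg_ae (Eventually.of_forall fun h => abs_nonneg (h 0))
    (integrableOn_eball (by fun_prop) r)).2 ?_
  set U : Set V3 := Set.univ.pi fun _ => Ioo (0 : ℝ) (r / 2)
  refine lt_of_lt_of_le ?_ (measure_mono (show U ⊆ Function.support (fun h => |h 0|) ∩ eball r
    from fun h hh => ⟨?_, ?_⟩))
  · simp only [U, volume_pi_pi, Real.volume_Ioo, sub_zero, Finset.prod_const]
    exact ENNReal.pow_pos (ENNReal.ofReal_pos.2 (by linarith)) _
  · simp [(hh 0 (mem_univ _)).1.ne']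
  · have b : ∀ i, h i ^ 2 ≤ (r / 2) ^ 2 := fun i => by
      have h1 := hh i (mem_univ _)
      exact pow_le_pow_left₀ h1.1.le h1.2.le 2
    simp only [eball, mem_setOf_eq, Fin.sum_univ_three]
    nlinarith [b 0, b 1, b 2]

theorem norm_sq_le {r : ℝ} (hr : 0 ≤ r) {h : V3} (hh : h ∈ eball r) :
    ‖h‖ ^ 2 ≤ r * ∑ i, |h i| := by
  rw [sq]
  refine mul_le_mul (norm_le_of_mem_eball hr hh) ?_ (norm_nonneg _) hr
  exact (pi_norm_le_iff_of_nonneg (Finset.sum_nonneg fun i _ => abs_nonneg _)).2 fun i =>
    Finset.single_le_sum (f := fun j => |h j|) (fun j _ => abs_nonneg _) (Finset.mem_univ i)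

end

end Vale.P232
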