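import Vale.Agent.P232.HeatPeriodic
import Vale.Agent.P232.HeatKappa

/-!
P232, module A: mollified indicators and the perimeter.
-/

open MeasureTheory Set Filter Topology
open scoped Convolution ENNReal

namespace Vale.P232

noncomputable section

/-- The indicator of `E`. -/
def ind (E : Set V3) : V3 → ℝ := E.indicator fun _ => 1

theorem ind_nonneg (E : Set V3) (x : V3) : 0 ≤ ind E x := indicator_nonneg (fun _ _ => zero_le_one) x

theorem ind_le_one (E : Set V3) (x : V3) : ind E x ≤ 1 :=
  indicator_le_self' (fun _ _ => zero_le_one) x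

theorem abs_ind_sub_le (E : Set V3) (x y : V3) : |ind E x - ind E y| ≤ 1 :=
  abs_sub_le_iff.2 ⟨by linarith [ind_nonneg E y, ind_le_one E x],
    by linarith [ind_nonneg E x, ind_le_one E y]⟩

theorem measurable_ind {E : Set V3} (hE : MeasurableSet E) : Measurable (ind E) :=
  measurable_const.indicator hE

theorem IsPeriodic.ind {E : Set V3} (hE : IsPeriodic E) : IsPeriodicFun (ind E) := fun x k => by
  by_cases h : x ∈ E
  · simp [Vale.P232.ind, h, (hE x k).2 h]
  · simp [Vale.P232.ind, h, mt (hE x k).1 h]

theorem locallyIntegrable_ind {E : Set V3} (hE : MeasurableSet E) :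
    LocallyIntegrable (ind E) volume :=
  (locallyIntegrable_const (1 : ℝ)).indicator hE

theorem setIntegral_inter_cube {E : Set V3} (hE : MeasurableSet E) (g : V3 → ℝ) :
    ∫ x in E ∩ cube, g x = ∫ x in cube, ind E x * g x := by
  rw [inter_comm, ← setIntegral_indicator hE]
  refine setIntegral_congr_fun measurableSet_cube fun x _ => ?_
  by_cases h : x ∈ E <;> simp [ind, h]

theorem tvol_eq_integral {E : Set V3} (hE : MeasurableSet E) : tvol E = ∫ x in cube, ind E x := by
  have := setIntegral_inter_cube hE fun _ => (1 : ℝ)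
  simpa [tvol, measureReal_def] using this

theorem shiftDiff_eq {E : Set V3} (hE : MeasurableSet E) (h : V3) :
    shiftDiff E h = ∫ x in cube, |ind E (x + h) - ind E x| := by
  have hm : MeasurableSet (symmDiff E {x | x + h ∈ E}) :=
    hE.symmDiff (measurable_add_const h hE)
  rw [shiftDiff, tvol_eq_integral hm]
  refine setIntegral_congr_fun measurableSet_cube fun x _ => ?_
  by_cases h1 : x ∈ E <;> by_cases h2 : x + h ∈ E <;>
    simp [ind, Set.mem_symmDiff, h1, h2]

theorem shiftDiff_nonneg (E : Set V3) (h : V3) : 0 ≤ shiftDiff E h := ENNReal.toReal_nonneg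

theorem Phi_nonneg (r : ℝ) (E : Set V3) : 0 ≤ Phi r E :=
  div_nonneg (setIntegral_nonneg (measurableSet_eball r) fun h _ => shiftDiff_nonneg E h)
    (setIntegral_nonneg (measurableSet_eball r) fun h _ => abs_nonneg _)

/-- The mollifier at scale `1/(n+1)`. -/
def mbump (n : ℕ) : ContDiffBump (0 : V3) :=
  ⟨1 / (2 * (n + 1)), 1 / (n + 1), by positivity,
    by rw [div_lt_div_iff₀ (by positivity) (by positivity)]; linarith [n.cast_nonneg (α := ℝ)]⟩

/-- Its density. -/
def rho (n : ℕ) : V3 → ℝ := (mbump n).normed volume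

theorem rho_nonneg (n : ℕ) (t : V3) : 0 ≤ rho n t := (mbump n).nonneg_normed t

theorem integrable_rho (n : ℕ) : Integrable (rho n) := (mbump n).integrable_normed

theorem integral_rho (n : ℕ) : ∫ t, rho n t = 1 := (mbump n).integral_normed

theorem rho_eq_zero {n : ℕ} {t : V3} (ht : 1 / ((n : ℝ) + 1) ≤ ‖t‖) : rho n t = 0 := by
  have : t ∉ Function.support (rho n) := by
    rw [rho, (mbump n).support_normed_eq, mem_ball_zero_iff]
    exact not_lt.2 ht
  simpa using this

/-- An admissible smoothing kernel. -/
structure IsKernel (k : V3 → ℝ) : Prop where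
  contDiff : ContDiff ℝ 2 k
  compact : HasCompactSupport k
  nonneg : ∀ t, 0 ≤ k t
  mass : ∫ t, k t = 1

theorem IsKernel.integrable {k : V3 → ℝ} (hk : IsKernel k) : Integrable k :=
  hk.contDiff.continuous.integrable_of_hasCompactSupport hk.compact

theorem isKernel_rho (n : ℕ) : IsKernel (rho n) :=
  ⟨(mbump n).contDiff_normed, (mbump n).hasCompactSupport_normed, rho_nonneg n, integral_rho n⟩

/-- The indicator smoothed by a kernel. -/
def conv (k : V3 → ℝ) (E : Set V3) : V3 → ℝ :=
  k ⋆[ContinuousLinearMap.lsmul ℝ ℝ, volume] ind E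

theorem conv_apply (k : V3 → ℝ) (E : Set V3) (x : V3) :
    conv k E x = ∫ t, k t * ind E (x - t) := rfl

theorem contDiff_conv {k : V3 → ℝ} (hk : IsKernel k) {E : Set V3} (hE : MeasurableSet E) :
    ContDiff ℝ 2 (conv k E) :=
  hk.compact.contDiff_convolution_left _ hk.contDiff (locallyIntegrable_ind hE)

theorem periodic_conv {E : Set V3} (hE : IsPeriodic E) (k : V3 → ℝ) : IsPeriodicFun (conv k E) :=
  fun x l => by
    simp only [conv_apply]
    congr 1
    funext t
    rw [show x + (fun i => (l i : ℝ)) - t = (x - t) + fun i => (l i : ℝ) by abel, hE.ind]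

theorem integrable_conv {k : V3 → ℝ} (hk : IsKernel k) {E : Set V3} (hE : MeasurableSet E)
    (x : V3) : Integrable fun t => k t * ind E (x - t) :=
  hk.integrable.mul_bdd (c := 1)
    ((measurable_ind hE).comp (measurable_const.sub measurable_id)).aestronglyMeasurable
    (Eventually.of_forall fun t => by
      rw [Real.norm_eq_abs, abs_of_nonneg (ind_nonneg _ _)]; exact ind_le_one _ _)

/-- The mollified indicator. -/
def mol (n : ℕ) (E : Set V3) : V3 → ℝ := conv (rho n) E

theorem mol_apply (n : ℕ) (E : Set V3) (x : V3) :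
    mol n E x = ∫ t, rho n t * ind E (x - t) := rfl

theorem contDiff_mol {E : Set V3} (hE : MeasurableSet E) (n : ℕ) {k : ℕ∞} :
    ContDiff ℝ k (mol n E) :=
  (mbump n).hasCompactSupport_normed.contDiff_convolution_left _ (mbump n).contDiff_normed
    (locallyIntegrable_ind hE)

theorem periodic_mol {E : Set V3} (hE : IsPeriodic E) (n : ℕ) : IsPeriodicFun (mol n E) :=
  fun x k => by
    simp only [mol_apply]
    congr 1
    funext t
    rw [show x + (fun i => (k i : ℝ)) - t = (x - t) + fun i => (k i : ℝ) by abel, hE.ind]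

theorem integrable_rho_mul {E : Set V3} (hE : MeasurableSet E) (n : ℕ) (x : V3) :
    Integrable fun t => rho n t * ind E (x - t) :=
  (integrable_rho n).mul_bdd (c := 1)
    ((measurable_ind hE).comp (measurable_const.sub measurable_id)).aestronglyMeasurable
    (Eventually.of_forall fun t => by
      rw [Real.norm_eq_abs, abs_of_nonneg (ind_nonneg _ _)]; exact ind_le_one _ _)

theorem mol_nonneg (n : ℕ) (E : Set V3) (x : V3) : 0 ≤ mol n E x := by
  rw [mol_apply]
  exact integral_nonneg fun t => mul_nonneg (rho_nonneg n t) (ind_nonneg _ _)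

theorem mol_le_one {E : Set V3} (hE : MeasurableSet E) (n : ℕ) (x : V3) : mol n E x ≤ 1 := by
  rw [mol_apply, ← integral_rho n]
  exact integral_mono (integrable_rho_mul hE n x) (integrable_rho n) fun t =>
    mul_le_of_le_one_right (rho_nonneg n t) (ind_le_one _ _)

theorem tendsto_mol {E : Set V3} (hE : MeasurableSet E) :
    ∀ᵐ x : V3, Tendsto (fun n => mol n E x) atTop (𝓝 (ind E x)) :=
  ContDiffBump.ae_convolution_tendsto_right_of_locallyIntegrable (φ := mbump) (K := 2)
    tendsto_one_div_add_atTop_nhds_zero_nat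
    (Eventually.of_forall fun n => by simp only [mbump]; field_simp; rfl)
    (locallyIntegrable_ind hE)

/-- `B` bounds the divergence of every test field on `E`. -/
def PerBound (E : Set V3) (B : ℝ) : Prop :=
  ∀ X, IsTestField X → ∫ x in E ∩ cube, div3 X x ≤ B

theorem perBound_toReal {E : Set V3} (h : perimeter E ≠ ⊤) :
    PerBound E (perimeter E).toReal := fun X hX => by
  have h1 : ENNReal.ofReal (∫ x in E ∩ cube, div3 X x) ≤ perimeter E :=
    le_iSup₂ (f := fun X (_ : IsTestField X) => ENNReal.ofReal (∫ x in E ∩ cube, div3 X x)) X hX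
  exact (ENNReal.ofReal_le_iff_le_toReal h).1 h1

theorem PerBound.perimeter_le {E : Set V3} {B : ℝ} (h : PerBound E B) :
    perimeter E ≤ ENNReal.ofReal B :=
  iSup₂_le fun X hX => ENNReal.ofReal_le_ofReal (h X hX)

theorem IsTestField.abs_le_one {X : V3 → V3} (hX : IsTestField X) (x : V3) (i : Fin 3) :
    |X x i| ≤ 1 :=
  abs_le_of_sq_le_sq (by
    simpa using (Finset.single_le_sum (fun j _ => sq_nonneg (X x j)) (Finset.mem_univ i)).trans
      (hX.2.2 x)) zero_le_one

theorem continuous_divergence {X : V3 → V3} (hX : ContDiff ℝ 1 X) : Continuous (div3 X) :=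
  continuous_finsetSum _ fun i _ =>
    (continuous_apply i).comp ((hX.continuous_fderiv (by norm_num)).clm_apply continuous_const)

theorem periodic_div3 {X : V3 → V3} (hX : IsPeriodicFun X) : IsPeriodicFun (div3 X) :=
  fun x k => by simp only [div3, hX.periodic_fderiv x k]

theorem isTestField_translate {X : V3 → V3} (hX : IsTestField X) (t : V3) (σ : ℝ)
    (hσ : σ ^ 2 = 1) : IsTestField fun x => σ • X (x + t) := by
  refine ⟨(hX.1.comp (contDiff_id.add contDiff_const)).const_smul σ, fun x k => ?_, fun x => ?_⟩
  · simp only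
    rw [show x + (fun i => (k i : ℝ)) + t = x + t + fun i => (k i : ℝ) by abel, hX.2.1]
  · simp only [Pi.smul_apply, smul_eq_mul, mul_pow, hσ, one_mul]
    exact hX.2.2 _

theorem div3_translate {X : V3 → V3} (hX : ContDiff ℝ 1 X) (t : V3) (σ : ℝ) (x : V3) :
    div3 (fun x => σ • X (x + t)) x = σ * div3 X (x + t) := by
  simp only [div3]
  rw [fderiv_fun_const_smul (f := fun y => X (y + t))
    (((hX.differentiable (by norm_num)) (x + t)).comp x (differentiableAt_id.add_const t)) σ,
    fderiv_comp_add_right, Finset.mul_sum]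
  rfl

/-- Integration by parts on the torus. -/
theorem integral_dot_grad_add {f : V3 → ℝ} (hf : ContDiff ℝ 1 f) (hfp : IsPeriodicFun f)
    {Y : V3 → V3} (hY : ContDiff ℝ 1 Y) (hYp : IsPeriodicFun Y) :
    (∫ x in cube, ∑ i, Y x i * fderiv ℝ f x (e i)) + ∫ x in cube, f x * div3 Y x = 0 := by
  have hYi : ∀ i, ContDiff ℝ 1 fun x => Y x i := fun i =>
    (contDiff_apply ℝ ℝ i).comp hY
  have hprod : ∀ i x, fderiv ℝ (fun y => f y * Y y i) x (e i)
      = Y x i * fderiv ℝ f x (e i) + f x * fderiv ℝ Y x (e i) i := fun i x => by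
    have h1 : fderiv ℝ (fun y => Y y i) x (e i) = fderiv ℝ Y x (e i) i := by
      have := ((hY.differentiable (by norm_num) x).hasFDerivAt)
      rw [((hasFDerivAt_pi'.1 this) i).fderiv]
      rfl
    rw [fderiv_fun_mul (hf.differentiable (by norm_num) x)
      ((hYi i).differentiable (by norm_num) x)]
    simp [h1]; ring
  have hper : ∀ i, IsPeriodicFun fun y => f y * Y y i := fun i x k => by
    simp only [hfp x k, hYp x k]
  have hz : ∀ i, ∫ x in cube, fderiv ℝ (fun y => f y * Y y i) x (e i) = 0 := fun i =>
    integral_fderiv_eq_zero (hf.mul (hYi i)) (hper i) _ ((hper i).add_e i)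
  have hc1 : Continuous fun x => ∑ i, Y x i * fderiv ℝ f x (e i) :=
    continuous_finsetSum _ fun i _ => (hYi i).continuous.mul
      ((hf.continuous_fderiv (by norm_num)).clm_apply continuous_const)
  have hc2 : Continuous fun x => f x * div3 Y x := hf.continuous.mul (continuous_divergence hY)
  have hsum : ∫ x in cube, ((∑ i, Y x i * fderiv ℝ f x (e i)) + f x * div3 Y x) = 0 := by
    have e1 : (fun x => (∑ i, Y x i * fderiv ℝ f x (e i)) + f x * div3 Y x)
        = fun x => ∑ i, fderiv ℝ (fun y => f y * Y y i) x (e i) := by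
      funext x; simp only [hprod, div3, Finset.mul_sum, Finset.sum_add_distrib]
    rw [e1, integral_finsetSum _ fun i _ => Continuous.integrableOn_cube
      (((hf.mul (hYi i)).continuous_fderiv (by norm_num)).clm_apply continuous_const)]
    simp [hz]
  rw [integral_add (Continuous.integrableOn_cube hc1) (Continuous.integrableOn_cube hc2)] at hsum
  exact hsum

/-- Testing the gradient of a mollified indicator. -/
theorem integral_dot_grad_conv_le {E : Set V3} (hE : MeasurableSet E) (hp : IsPeriodic E) {B : ℝ}
    (hB : PerBound E B) {Y : V3 → V3} (hY : IsTestField Y) {ρ : V3 → ℝ} (hρ : IsKernel ρ) :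
    ∫ x in cube, ∑ i, Y x i * fderiv ℝ (conv ρ E) x (e i) ≤ B := by
  set f := conv ρ E
  have hf : ContDiff ℝ 1 f := (contDiff_conv hρ hE).of_le (by norm_num)
  have hsum := integral_dot_grad_add hf (periodic_conv hp ρ) hY.1 hY.2.1
  obtain ⟨C, hC0, hC⟩ := (periodic_div3 hY.2.1).exists_bound (continuous_divergence hY.1)
  have hint : Integrable (Function.uncurry fun x t => ρ t * (ind E (x - t) * div3 Y x))
      (((volume : Measure V3).restrict cube).prod volume) := by
    refine (hρ.integrable.comp_snd _).mul_bdd (c := C) (Measurable.aestronglyMeasurable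
      (((measurable_ind hE).comp (measurable_fst.sub measurable_snd)).mul
        ((continuous_divergence hY.1).measurable.comp measurable_fst))) (Eventually.of_forall fun p => ?_)
    rw [norm_mul, Real.norm_eq_abs, abs_of_nonneg (ind_nonneg _ _)]
    exact (mul_le_of_le_one_left (norm_nonneg _) (ind_le_one _ _)).trans (hC _)
  have heq : ∫ x in cube, f x * div3 Y x
      = ∫ t, ρ t * ∫ x in cube, ind E (x - t) * div3 Y x := by
    calc ∫ x in cube, f x * div3 Y x
        = ∫ x in cube, ∫ t, ρ t * (ind E (x - t) * div3 Y x) := by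
          refine setIntegral_congr_fun measurableSet_cube fun x _ => ?_
          simp only [f, conv_apply, ← integral_mul_const, mul_assoc]
      _ = ∫ t, ∫ x in cube, ρ t * (ind E (x - t) * div3 Y x) := integral_integral_swap hint
      _ = _ := by simp only [integral_const_mul]
  have hb : ∀ t, -B ≤ ∫ x in cube, ind E (x - t) * div3 Y x := fun t => by
    have h1 : ∫ x in cube, ind E (x - t) * div3 Y x
        = ∫ x in cube, ind E x * div3 Y (x + t) := by
      rw [← integral_periodic_translate (g := fun x => ind E (x - t) * div3 Y x)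
        (fun x k => by
          simp only [periodic_div3 hY.2.1 x k,
            show x + (fun i => (k i : ℝ)) - t = (x - t) + fun i => (k i : ℝ) by abel, hp.ind _ k])
        t]
      simp
    have h2 := hB _ (isTestField_translate hY t (-1) (by norm_num))
    simp only [div3_translate hY.1, setIntegral_inter_cube hE, neg_one_mul, mul_neg,
      integral_neg] at h2
    linarith
  have hb2 : ∀ t, ∫ x in cube, ind E (x - t) * div3 Y x ≤ C := fun t => by
    refine (le_abs_self _).trans ((abs_integral_le_integral_abs).trans ?_)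
    calc ∫ x in cube, |ind E (x - t) * div3 Y x| ≤ ∫ _x in cube, C :=
          integral_mono_of_nonneg (Eventually.of_forall fun _ => abs_nonneg _) (integrable_const C)
            (Eventually.of_forall fun x => by
              simp only
              rw [abs_mul, abs_of_nonneg (ind_nonneg _ _)]
              exact (mul_le_of_le_one_left (abs_nonneg _) (ind_le_one _ _)).trans (hC _))
      _ = C := by simp [measureReal_def, volume_cube_eq_one]
  have hlow : -B ≤ ∫ t, ρ t * ∫ x in cube, ind E (x - t) * div3 Y x := by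
    calc -B = ∫ t, ρ t * (-B) := by rw [integral_mul_const, hρ.mass, one_mul]
      _ ≤ _ := by
        refine integral_mono (hρ.integrable.mul_const _) ?_
          fun t => mul_le_mul_of_nonneg_left (hb t) (hρ.nonneg t)
        have h := hint.integral_prod_right
        simpa only [Function.uncurry_apply_pair, integral_const_mul] using h
  rw [heq] at hsum
  linarith

/-- The gradient of a mollified indicator is bounded by the perimeter. -/
theorem integral_gradLen_conv_le {E : Set V3} (hE : MeasurableSet E) (hp : IsPeriodic E) {B : ℝ}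
    (hB : PerBound E B) {ρ : V3 → ℝ} (hρ : IsKernel ρ) : ∫ x in cube, gradLen (conv ρ E) x ≤ B := by
  set f := conv ρ E
  refine le_of_forall_pos_le_add fun ε hε => ?_
  have hf2 : ContDiff ℝ 2 f := (contDiff_conv hρ hE).of_le (by norm_num)
  have hfd : ∀ i, ContDiff ℝ 1 fun x => fderiv ℝ f x (e i) := fun i =>
    (hf2.fderiv_right (by norm_num)).clm_apply contDiff_const
  set S : V3 → ℝ := fun x => ∑ i, fderiv ℝ f x (e i) ^ 2
  have hS : ∀ x, 0 ≤ S x := fun x => Finset.sum_nonneg fun i _ => sq_nonneg _
  have hSp : ∀ x, 0 < S x + ε ^ 2 := fun x => by have := hS x; positivity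
  set Y : V3 → V3 := fun x i => fderiv ℝ f x (e i) / Real.sqrt (S x + ε ^ 2)
  have hS1 : ContDiff ℝ 1 S := ContDiff.sum fun i _ => (hfd i).pow 2
  have hY : IsTestField Y := by
    refine ⟨contDiff_pi.2 fun i => (hfd i).div ((hS1.add contDiff_const).sqrt fun x => (hSp x).ne')
      fun x => (Real.sqrt_pos.2 (hSp x)).ne', fun x k => ?_, fun x => ?_⟩
    · funext i
      simp only [Y, S, (periodic_conv hp ρ).periodic_fderiv x k, f]
    · simp only [Y, div_pow, ← Finset.sum_div, Real.sq_sqrt (hSp x).le]
      exact (div_le_one (hSp x)).2 (le_add_of_nonneg_right (sq_nonneg ε))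
  have hpt : ∀ x, gradLen f x - ε ≤ ∑ i, Y x i * fderiv ℝ f x (e i) := fun x => by
    simp only [Y, gradLen, div_mul_eq_mul_div, ← pow_two, ← Finset.sum_div]
    rw [le_div_iff₀ (Real.sqrt_pos.2 (hSp x))]
    have h1 := Real.sq_sqrt (hS x)
    have h3 : Real.sqrt (S x + ε ^ 2) ≤ Real.sqrt (S x) + ε := by
      rw [Real.sqrt_le_left (by positivity)]
      nlinarith [Real.sqrt_nonneg (S x)]
    rcases le_total (Real.sqrt (S x)) ε with h | h
    · nlinarith [Real.sqrt_nonneg (S x + ε ^ 2), hS x]
    · nlinarith
  have hg : Continuous (gradLen f) := (Real.continuous_sqrt.comp hS1.continuous)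
  have hYc : Continuous fun x => ∑ i, Y x i * fderiv ℝ f x (e i) :=
    continuous_finsetSum _ fun i _ =>
      ((continuous_apply i).comp hY.1.continuous).mul (hfd i).continuous
  have h := setIntegral_mono (s := cube) (μ := volume)
    (Continuous.integrableOn_cube (hg.sub continuous_const)) (Continuous.integrableOn_cube hYc) hpt
  simp only [Pi.sub_apply] at h
  rw [integral_sub (Continuous.integrableOn_cube hg) (integrable_const ε)] at h
  simp [measureReal_def, volume_cube_eq_one] at h
  linarith [integral_dot_grad_conv_le hE hp hB hY hρ]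

theorem integral_gradLen_mol_le {E : Set V3} (hE : MeasurableSet E) (hp : IsPeriodic E) {B : ℝ}
    (hB : PerBound E B) (n : ℕ) : ∫ x in cube, gradLen (mol n E) x ≤ B :=
  integral_gradLen_conv_le hE hp hB (isKernel_rho n)

/-- Smoothing does not raise the gradient mass above the perimeter. -/
theorem ofReal_integral_gradLen_conv_le {E : Set V3} (hE : MeasurableSet E) (hp : IsPeriodic E)
    {ρ : V3 → ℝ} (hk : ContDiff ℝ 2 ρ) (hc : HasCompactSupport ρ) (h0 : ∀ h, 0 ≤ ρ h)
    (h1 : ∫ h, ρ h = 1) :
    ENNReal.ofReal (∫ x in cube,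
        gradLen (ρ ⋆[ContinuousLinearMap.mul ℝ ℝ, volume] E.indicator 1) x) ≤ perimeter E := by
  show ENNReal.ofReal (∫ x in cube, gradLen (conv ρ E) x) ≤ perimeter E
  by_cases h : perimeter E = ⊤
  · simp [h]
  · exact (ENNReal.ofReal_le_iff_le_toReal h).2
      (integral_gradLen_conv_le hE hp (perBound_toReal h) ⟨hk, hc, h0, h1⟩)

/-- Mollification does not raise the gradient mass above the perimeter. -/
theorem ofReal_integral_gradLen_mol_le {E : Set V3} (hE : MeasurableSet E) (hp : IsPeriodic E)
    (n : ℕ) : ENNReal.ofReal (∫ x in cube, gradLen (mol n E) x) ≤ perimeter E := by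
  by_cases h : perimeter E = ⊤
  · simp [h]
  · exact (ENNReal.ofReal_le_iff_le_toReal h).2
      (integral_gradLen_mol_le hE hp (perBound_toReal h) n)

end

end Vale.P232
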