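import Vale.Agent.P232.Defs
import Vale.Agent.P232.Coord

/-!
P232, module A: integration of periodic functions over the unit cube.
-/

open MeasureTheory Set Filter Topology

namespace Vale.P232

noncomputable section

theorem volume_cube_eq_one : volume cube = 1 := by simp [cube, volume_pi_pi]

instance isFiniteMeasure_cube : IsFiniteMeasure ((volume : Measure V3).restrict cube) :=
  ⟨by simp [volume_cube_eq_one]⟩

theorem cube_eq_fundamentalDomain : cube = ZSpan.fundamentalDomain (Pi.basisFun ℝ (Fin 3)) :=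
  (ZSpan.fundamentalDomain_pi_basisFun).symm

theorem IsPeriodicFun.add_lattice {α : Type*} {F : V3 → α} (hF : IsPeriodicFun F) {g : V3}
    (hg : g ∈ Submodule.span ℤ (Set.range (Pi.basisFun ℝ (Fin 3)))) (x : V3) :
    F (g + x) = F x := by
  induction hg using Submodule.span_induction generalizing x with
  | mem y hy =>
    obtain ⟨i, rfl⟩ := hy
    have : (Pi.basisFun ℝ (Fin 3)) i = fun j => ((Pi.single i (1 : ℤ) : Fin 3 → ℤ) j : ℝ) := by
      funext j
      rcases eq_or_ne j i with rfl | h <;> simp [*, Pi.basisFun_apply]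
    rw [this, add_comm, hF]
  | zero => simp
  | add y z _ _ hy hz => rw [add_assoc, hy, hz]
  | smul n y _ hy =>
    induction n using Int.induction_on generalizing x with
    | zero => simp
    | succ n ih => rw [add_smul, one_smul, add_assoc, ih, hy]
    | pred n ih =>
      have := hy ((-(n : ℤ) - 1) • y + x)
      rw [← this, sub_smul, one_smul, ← add_assoc, add_sub_cancel, ih]

theorem integral_periodic_translate {E : Type*} [NormedAddCommGroup E] [NormedSpace ℝ E]
    {g : V3 → E} (hg : IsPeriodicFun g) (h : V3) :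
    ∫ x in cube, g (x + h) = ∫ x in cube, g x := by
  have h1 : ∫ x in cube, g (x + h) = ∫ x in (fun x => x + (-h)) ⁻¹' cube, g x := by
    rw [← (measurePreserving_add_right (volume : Measure V3) h).setIntegral_preimage_emb
      (MeasurableEquiv.addRight h).measurableEmbedding g]
    congr 1
    simp [preimage_preimage]
  rw [h1]
  have d1 : IsAddFundamentalDomain (Submodule.span ℤ (Set.range (Pi.basisFun ℝ (Fin 3))))
      ((fun x => x + (-h)) ⁻¹' cube) (volume : Measure V3) := by
    refine IsAddFundamentalDomain.mk'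
      ((measurable_add_const (-h)) measurableSet_cube).nullMeasurableSet fun x => ?_
    obtain ⟨v, hv, huniq⟩ :=
      ZSpan.exist_unique_vadd_mem_fundamentalDomain (Pi.basisFun ℝ (Fin 3)) (x + (-h))
    have key : ∀ w : Submodule.span ℤ (Set.range (Pi.basisFun ℝ (Fin 3))),
        w +ᵥ x ∈ (fun x => x + (-h)) ⁻¹' cube
          ↔ w +ᵥ (x + (-h)) ∈ ZSpan.fundamentalDomain (Pi.basisFun ℝ (Fin 3)) := fun w => by
      rw [mem_preimage, ← cube_eq_fundamentalDomain,
        show (w +ᵥ x) + -h = w +ᵥ (x + -h) from add_assoc _ _ _]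
    exact ⟨v, (key v).2 hv, fun w hw => huniq w ((key w).1 hw)⟩
  have d2 : IsAddFundamentalDomain (Submodule.span ℤ (Set.range (Pi.basisFun ℝ (Fin 3))))
      cube (volume : Measure V3) := by
    rw [cube_eq_fundamentalDomain]; exact ZSpan.isAddFundamentalDomain _ _
  haveI : VAddInvariantMeasure (Submodule.span ℤ (Set.range (Pi.basisFun ℝ (Fin 3)))) V3 volume :=
    ⟨fun c s _ => measure_preimage_add (volume : Measure V3) (c : V3) s⟩
  exact d1.setIntegral_eq d2 fun v x => hg.add_lattice v.2 x

theorem exists_int_reduce (x : V3) :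
    ∃ k : Fin 3 → ℤ, x + (fun i => (k i : ℝ)) ∈ Icc (0 : V3) 1 :=
  ⟨fun i => -⌊x i⌋, fun i => by have := Int.floor_le (x i); simp; linarith,
    fun i => by have := (Int.lt_floor_add_one (x i)).le; simp; linarith⟩

theorem IsPeriodicFun.exists_bound {E : Type*} [NormedAddCommGroup E] {g : V3 → E}
    (hg : IsPeriodicFun g) (hc : Continuous g) : ∃ C, 0 ≤ C ∧ ∀ x, ‖g x‖ ≤ C := by
  obtain ⟨C, hC⟩ := (isCompact_Icc : IsCompact (Icc (0 : V3) 1)).exists_bound_of_continuousOn
    hc.continuousOn
  refine ⟨C, (norm_nonneg _).trans (hC 0 (left_mem_Icc.2 zero_le_one)), fun x => ?_⟩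
  obtain ⟨k, hk⟩ := exists_int_reduce x
  exact (hg x k).symm ▸ hC _ hk

theorem IsPeriodicFun.periodic_fderiv {E : Type*} [NormedAddCommGroup E] [NormedSpace ℝ E] {g : V3 → E}
    (hg : IsPeriodicFun g) : IsPeriodicFun (fderiv ℝ g) := fun x k => by
  rw [← fderiv_comp_add_right]
  exact congrArg (fun G => fderiv ℝ G x) (funext fun y => hg y k)

theorem Continuous.integrableOn_cube {E : Type*} [NormedAddCommGroup E] {g : V3 → E}
    (hc : Continuous g) : IntegrableOn g cube :=
  (hc.integrableOn_Icc (a := (0 : V3)) (b := 1)).mono_set fun _ hx =>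
    ⟨fun i => (hx i (mem_univ i)).1, fun i => (hx i (mem_univ i)).2.le⟩

/-- The integral of a partial derivative of a periodic function vanishes. -/
theorem integral_fderiv_eq_zero {G : V3 → ℝ} (hG : ContDiff ℝ 1 G) (hp : IsPeriodicFun G)
    (w : V3) (hw : ∀ x, G (x + w) = G x) : ∫ x in cube, fderiv ℝ G x w = 0 := by
  have hc : Continuous fun x => fderiv ℝ G x w :=
    (hG.continuous_fderiv (by norm_num)).clm_apply continuous_const
  have ftc : ∀ x, ∫ t in (0 : ℝ)..1, fderiv ℝ G (x + t • w) w = 0 := fun x => by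
    have hd : ∀ t ∈ uIcc (0 : ℝ) 1,
        HasDerivAt (fun s => G (x + s • w)) (fderiv ℝ G (x + t • w) w) t := fun t _ => by
      have h1 : HasDerivAt (fun s : ℝ => x + s • w) w t := by
        simpa using ((hasDerivAt_id t).smul_const w).const_add x
      exact (hG.differentiable (by norm_num) _).hasFDerivAt.comp_hasDerivAt t h1
    rw [intervalIntegral.integral_eq_sub_of_hasDerivAt hd
      ((hc.comp (by fun_prop)).intervalIntegrable _ _)]
    simp [hw]
  have hpw : IsPeriodicFun fun x => fderiv ℝ G x w :=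
    fun y k => by simp only [hp.periodic_fderiv y k]
  obtain ⟨C, -, hC⟩ := hpw.exists_bound hc
  haveI : IsFiniteMeasure (volume.restrict (uIoc (0 : ℝ) 1)) := ⟨by simp⟩
  have hint : Integrable (Function.uncurry fun (t : ℝ) x => fderiv ℝ G (x + t • w) w)
      ((volume.restrict (uIoc (0 : ℝ) 1)).prod ((volume : Measure V3).restrict cube)) :=
    Integrable.of_bound (hc.comp (by fun_prop)).aestronglyMeasurable C
      (Eventually.of_forall fun p => hC _)
  have := MeasureTheory.intervalIntegral_integral_swap hint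
  simp only [ftc, integral_zero] at this
  calc ∫ x in cube, fderiv ℝ G x w
      = ∫ t in (0 : ℝ)..1, ∫ x in cube, fderiv ℝ G x w := by simp
    _ = ∫ t in (0 : ℝ)..1, ∫ x in cube, fderiv ℝ G (x + t • w) w :=
        intervalIntegral.integral_congr fun t _ => (integral_periodic_translate
          (g := fun x => fderiv ℝ G x w) hpw (t • w)).symm
    _ = 0 := this

theorem IsPeriodicFun.add_e {α : Type*} {F : V3 → α} (hF : IsPeriodicFun F) (i : Fin 3)
    (x : V3) : F (x + e i) = F x := by
  have : e i = fun j => ((Pi.single i (1 : ℤ) : Fin 3 → ℤ) j : ℝ) := by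
    funext j
    rcases eq_or_ne j i with rfl | h <;> simp [*, e]
  rw [this, hF]

end

end Vale.P232
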