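import Vale.Agent.P232.RigidDefs
import Vale.Agent.P232.FluxLib
import Vale.Agent.P232.ScalarMain
import Vale.Agent.P232.ScalarDiscCert

/-!
P232: almost every level of volume at most `1/π` is a disc level, a corner level, or leaves
uniform room.
-/

open MeasureTheory Set Filter Topology Real
open scoped ENNReal

namespace Vale.P232

noncomputable section

variable {f : V3 → ℝ}

namespace CoreFun

/-- The bound from a two-phase certificate with an arbitrary value. -/
theorem certG_case (hf : CoreFun f) (t : ℝ) {L Lin : ℝ → ℝ} {al B : ℝ}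
    (hLm : Measurable L) (hLinm : Measurable Lin)
    (hal : ∀ z ∈ Ioo (0:ℝ) h0, al ≤ sliceA f t z)
    (hfl : Flux hf t (Ioo (0:ℝ) (1/2))
      (fun z => if z < h0 then Lin (sliceA f t z) else L (sliceA f t z)))
    (hcert : Cert2G B L Lin (tvol {p | t < f p}) (sliceA f t (1/2)) al (sliceA f t 0)) :
    ENNReal.ofReal B ≤ Qz f t := by
  obtain ⟨lam, mu, m, c, hcm, hc', hcond, hcond', hval⟩ := hcert
  have hc : ∀ a, c a ∈ Icc (0:ℝ) 1 := hc'
  have hA := (hf.continuous_sliceA t).measurable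
  have hb := hf.cert_bound t (lam := lam) (mu := mu) (m := m) (h := h0)
    (by unfold h0; constructor <;> norm_num) hcm hc
    (Measurable.ite measurableSet_Iio (hLinm.comp hA) (hLm.comp hA)) hfl
    ((ae_restrict_mem measurableSet_Ioo).mono fun z hz => by
      have hmem := hf.sliceA_mem t ⟨hz.1.le, hz.2.le⟩
      by_cases hzh : z < h0
      · simp only [if_pos hzh]
        exact hcond' _ ⟨hal z ⟨hz.1, hzh⟩, hmem.2⟩
      · simp only [if_neg hzh]
        exact hcond _ hmem)
  exact le_trans (ENNReal.ofReal_le_ofReal hval) hb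

/-- The disc bound at a disc level. -/
theorem discLevel_bound (hf : CoreFun f) {t : ℝ} (h : DiscLevel hf t) :
    ENNReal.ofReal (candJ (tvol {p | t < f p})) ≤ Qz f t := by
  obtain ⟨lam, mu, c, hcm, hc, hcond, hval⟩ :=
    scalar_disc_cert (sliceA_nonneg t (1/2)) (hf.sliceA_half_le t) (hf.le_sliceA_zero t)
  have hm : Measurable (fun z => discP (sliceA f t z)) := by
    unfold discP
    exact ((Real.continuous_sqrt.comp (continuous_const.mul (hf.continuous_sliceA t))).const_mul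
      2).measurable
  have hb := hf.cert_bound t (lam := lam) (mu := mu) (m := 0) (h := 0) ⟨le_refl _, by norm_num⟩
    hcm hc hm h.flux ((ae_restrict_mem measurableSet_Ioo).mono fun z hz => by
      simp only [add_zero, ite_self]
      exact hcond _ (hf.sliceA_mem t ⟨hz.1.le, hz.2.le⟩))
  refine le_trans (ENNReal.ofReal_le_ofReal ?_) hb
  linarith

/-- All slices small. -/
theorem small_level (hf : CoreFun f) (t : ℝ) (hT : sliceA f t 0 ≤ 1 / π) : DiscLevel hf t := by
  have hle : ∀ z ∈ Ioo (0:ℝ) (1/2), sliceA f t z ≤ 1 / π := fun z hz =>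
    (hf.sliceA_mem t ⟨hz.1.le, hz.2.le⟩).2.trans hT
  refine ⟨hT.trans ?_, hf.flux_cases t (planarBounds.none hf t) ?_ ?_ ?_,
    fun z hz _ _ h => absurd (hle z hz) (not_le.2 h), fun z hz _ _ h => absurd (hle z hz) (not_le.2 h)⟩
  · unfold T0 T0Y
    rw [div_le_div_iff₀ pi_pos (by positivity)]
    linarith [pi_pos]
  · refine (planarBounds.singleX hf t (1/2) le_rfl).mono Subset.rfl fun z hz => ?_
    exact ((discP_mono (hle z hz.2)).trans_eq discP_inv_pi).trans (le_max_left _ _)
  · refine (planarBounds.singleY hf t (1/2) le_rfl).mono Subset.rfl fun z hz => ?_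
    exact ((discP_mono (hle z hz.2)).trans_eq discP_inv_pi).trans (le_max_left _ _)
  · refine (planarBounds.cross hf t 0).mono (fun z hz => ⟨hz.1, hz.2, hz.2.le⟩) fun z hz => ?_
    have hA := hle z hz.2
    have := inv_pi_le_half
    exact (discP_mono (by linarith)).trans
      (discP_one_sub_le_crossL (sliceA_nonneg t z) (hf.sliceA_le_one t z))

/-- Both arms thin: a disc level or uniform room. -/
theorem thin_level (hf : CoreFun f) (t : ℝ) (hv : tvol {p | t < f p} ≤ 1 / π)
    (hx : arm f t 0 1 ≤ h0) (hy : arm f t 1 0 ≤ h0) :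
    DiscLevel hf t ∨ ENNReal.ofReal (candJ (tvol {p | t < f p}) + 1 / 100000) ≤ Qz f t := by
  have hfl : Flux hf t (Ioo (0:ℝ) (1/2)) (fun z => capL (sliceA f t z)) := by
    refine hf.flux_cases t ((planarBounds.none hf t).mono Subset.rfl fun z _ => min_le_left _ _)
      ((planarBounds.singleX hf t (4/5) (by norm_num)).mono Subset.rfl fun z hz => ?_)
      ((planarBounds.singleY hf t (4/5) (by norm_num)).mono Subset.rfl fun z hz => ?_)
      ((planarBounds.diag hf t).mono Subset.rfl fun z hz => ?_)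
    · exact capL_le_arcF (sliceA_nonneg t z) ((hf.bX_le t ⟨hz.2.1.le, hz.2.2.le⟩).trans hx)
    · exact capL_le_arcF (sliceA_nonneg t z) ((hf.bY_le t ⟨hz.2.1.le, hz.2.2.le⟩).trans hy)
    · exact capL_le_diag ((hf.bX_le t ⟨hz.2.1.le, hz.2.2.le⟩).trans hx)
        ((hf.bY_le t ⟨hz.2.1.le, hz.2.2.le⟩).trans hy)
  rcases le_or_gt T0 (sliceA f t 0) with hT | hT
  · exact Or.inr <| hf.certG_case t (L := capL) (Lin := capL) (al := sliceA f t (1/2))
      measurable_capL measurable_capL
      (fun z hz => (hf.sliceA_mem t ⟨hz.1.le, hz.2.le.trans (by unfold h0; norm_num)⟩).1)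
      (by simpa only [ite_self] using hfl)
      (scalar_thin_strict ENNReal.toReal_nonneg hv (sliceA_nonneg t _) (hf.sliceA_half_le t)
        (hf.le_sliceA_zero t) (hf.sliceA_le_one t 0) hT)
  · exact Or.inl ⟨hT.le, hfl.mono Subset.rfl fun z hz =>
      le_min le_rfl ((discP_mono ((hf.sliceA_mem t ⟨hz.2.1.le, hz.2.2.le⟩).2.trans hT.le)).trans_eq
        discP_T0),
      fun z hz _ _ _ => (hf.bX_le t ⟨hz.1.le, hz.2.le⟩).trans hx,
      fun z hz _ _ _ => (hf.bY_le t ⟨hz.1.le, hz.2.le⟩).trans hy⟩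

/-- The cyclic case: a disc level or uniform room. -/
theorem cyc_level (hf : CoreFun f) (t : ℝ) (hv : tvol {p | t < f p} ≤ 1 / π)
    (h12 : arm f t 1 2 ≤ h0) (h02 : h0 ≤ arm f t 0 2) (h01 : arm f t 0 1 ≤ h0) :
    DiscLevel hf t ∨ ENNReal.ofReal (candJ (tvol {p | t < f p}) + 1 / 100000) ≤ Qz f t := by
  set A := sliceA f t with hA
  set ℓ := fun z => if z < h0 then cycL (A z) else capL (A z) with hℓ
  have hcap : ∀ z, ℓ z ≤ capL (A z) := by
    intro z
    simp only [hℓ]
    split_ifs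
    · exact min_le_left _ _
    · exact le_rfl
  have hnoY : ∀ z ∈ Ioo (0:ℝ) (1/2), 0 < xr f t (1/2) z → yr f t (1/2) z ≠ 0 := by
    intro z hz hxp hy0
    have hz' : z ∈ Ico (0:ℝ) (1/2) := ⟨hz.1.le, hz.2⟩
    have h1 := (hf.wrapY_iff t hz').1 hxp
    exact absurd hy0 ((hf.wrapX_iff t hz').2 (by linarith)).ne'
  have hfl : Flux hf t (Ioo (0:ℝ) (1/2)) ℓ := by
    refine hf.flux_cases t ((planarBounds.none hf t).mono Subset.rfl fun z _ =>
        (hcap z).trans (min_le_left _ _))
      ((planarBounds.singleX hf t (4/5) (by norm_num)).mono Subset.rfl fun z hz => ?_)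
      ((Flux.zero (ℓ := fun _ => 0) fun _ _ => le_rfl).mono Subset.rfl fun z hz => ?_) ?_
    · exact (hcap z).trans (capL_le_arcF (sliceA_nonneg t z)
        ((hf.bX_le t ⟨hz.2.1.le, hz.2.2.le⟩).trans h01))
    · exact absurd hz.1.1 (hnoY z hz.2 hz.1.2)
    · refine ((planarBounds.cross hf t 0).mono
        (T := {z | 0 < yr f t (1/2) z ∧ 0 < xr f t (1/2) z})
        (fun z hz => ⟨hz.1, hz.2, hz.2.le⟩) fun _ _ => le_rfl).sup
        ((measurable_crossL 0).comp (hf.continuous_sliceA t).measurable)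
        (show Measurable (fun z => 4 * (1/2 - yr f t (1/2) z)) from
          measurable_const.mul (measurable_const.sub (hf.continuous_yr.comp
            (f := fun z : ℝ => (t, (1/2:ℝ), z)) (by fun_prop)).measurable))
        (planarBounds.drop hf t) |>.mono Subset.rfl fun z hz => ?_
      have hzh : z < h0 := ((hf.wrapY_iff t ⟨hz.2.1.le, hz.2.2⟩).1 hz.1.2).trans_le h12
      simp only [hℓ, if_pos hzh]
      refine (min_le_right _ _).trans (max_le_max ?_ ?_)
      · exact discP_one_sub_le_crossL (sliceA_nonneg t z) (hf.sliceA_le_one t z)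
      · have := (hf.bX_le t ⟨hz.2.1.le, hz.2.2.le⟩).trans h01
        unfold h0 at this
        linarith
  rcases le_or_gt T0 (A 0) with hT | hT
  · exact Or.inr <| hf.certG_case t (L := capL) (Lin := cycL) (al := A (1/2)) measurable_capL
      measurable_cycL
      (fun z hz => (hf.sliceA_mem t ⟨hz.1.le, hz.2.le.trans (by unfold h0; norm_num)⟩).1) hfl
      (scalar_cyc_strict ENNReal.toReal_nonneg hv (sliceA_nonneg t _) (hf.sliceA_half_le t)
        (hf.le_sliceA_zero t) (hf.sliceA_le_one t 0) hT)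
  · refine Or.inl ⟨hT.le, hfl.mono Subset.rfl fun z hz => ?_,
      fun z hz _ _ _ => (hf.bX_le t ⟨hz.1.le, hz.2.le⟩).trans h01,
      fun z hz h h' _ => absurd h' (hnoY z hz h)⟩
    have hz' := (hf.sliceA_mem t ⟨hz.2.1.le, hz.2.2.le⟩).2.trans hT.le
    have h1 : discP (A z) ≤ kap := (discP_mono hz').trans_eq discP_T0
    have h2 := T0_lt
    simp only [hℓ]
    split_ifs
    · exact le_min (le_min le_rfl h1) ((discP_mono (by linarith)).trans (le_max_left _ _))
    · exact le_min le_rfl h1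

/-- A thick cross range: a disc level, a corner level or uniform room. -/
theorem thick_level (hf : CoreFun f) (t : ℝ) (hv : tvol {p | t < f p} ≤ 1 / π)
    (h02 : h0 ≤ arm f t 0 2) (hle : arm f t 0 2 ≤ arm f t 1 2) :
    (DiscLevel hf t ∨ CornerLevel hf t) ∨
      ENNReal.ofReal (candJ (tvol {p | t < f p}) + 1 / 100000) ≤ Qz f t := by
  rcases le_or_gt (sliceA f t 0) (1 / π) with hT | hT
  · exact Or.inl (Or.inl (hf.small_level t hT))
  set zc := arm f t 0 2 with hzc
  have hzcI : zc ∈ Icc (0:ℝ) (1/2) := root_mem _ _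
  set b := xr f t (1/2) zc with hb
  have hb0 : 0 ≤ b := root_nonneg _ _
  have hb1 : b ≤ 1 / 2 := root_le_half _ _
  have hout : ∀ z ∈ Ioo (0:ℝ) (1/2), yr f t (1/2) z = 0 →
      ¬ z < h0 ∧ xr f t (1/2) z ≤ b := by
    intro z hz h
    have hge : zc ≤ z := not_lt.1 fun hlt =>
      absurd ((hf.wrapX_iff t ⟨hz.1.le, hz.2⟩).2 hlt) (by rw [h]; exact lt_irrefl _)
    exact ⟨fun hzh => by linarith, hf.xr_antitone_z t (1/2) hzcI ⟨hz.1.le, hz.2.le⟩ hge⟩
  have hfl : Flux hf t (Ioo (0:ℝ) (1/2))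
      (fun z => if z < h0 then crossL (sliceA f t z) b else thickL (sliceA f t z) b) := by
    refine hf.flux_cases t ((planarBounds.none hf t).mono Subset.rfl fun z hz => ?_)
      ((Flux.zero (ℓ := fun _ => 0) fun _ _ => le_rfl).mono Subset.rfl fun z hz => ?_)
      ((flux_FZ planarBounds hf t).mono Subset.rfl fun z hz => ?_) ?_
    · simp only [if_neg (hout z hz.2 hz.1.1).1]
      exact min_le_left _ _
    · exfalso
      have hz' : z ∈ Ico (0:ℝ) (1/2) := ⟨hz.2.1.le, hz.2.2⟩
      have h1 := (hf.wrapX_iff t hz').1 hz.1.1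
      exact absurd hz.1.2 ((hf.wrapY_iff t hz').2 (h1.trans_le hle)).ne'
    · simp only [if_neg (hout z hz.2 hz.1.1).1]
      exact ((min_le_right _ _).trans (min_le_left _ _)).trans (FZ_anti (hout z hz.2 hz.1.1).2)
    · intro ε hε
      obtain ⟨a, b', g1, g2, g3, g4, g5, g6⟩ := planarBounds.cross hf t b ε hε
      refine ⟨a, b', g1, g2, g3, g4, g5, fun z hz => ?_⟩
      have hbz : b ≤ xr f t (1/2) z := hf.xr_antitone_z t (1/2) ⟨hz.2.1.le, hz.2.2.le⟩ hzcI
        ((hf.wrapX_iff t ⟨hz.2.1.le, hz.2.2⟩).1 hz.1.1).le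
      refine (ENNReal.ofReal_le_ofReal (sub_le_sub_right ?_ ε)).trans
        (g6 z ⟨⟨hz.1.1, hz.1.2, hbz⟩, hz.2⟩)
      dsimp only
      split_ifs
      · exact le_rfl
      · exact (min_le_right _ _).trans (min_le_right _ _)
  have hal : ∀ z ∈ Ioo (0:ℝ) h0,
      alo (tvol {p | t < f p}) (sliceA f t (1/2)) (sliceA f t 0) ≤ sliceA f t z := fun z hz =>
    max_le (hf.sliceA_mem t ⟨hz.1.le, hz.2.le.trans (by unfold h0; norm_num)⟩).1
      (hf.alZ_le_sliceA t ⟨hz.1.le, hz.2.le⟩)
  rcases scalar_thick_strict (b := b) ENNReal.toReal_nonneg hv (sliceA_nonneg t _)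
    (hf.sliceA_half_le t) (hf.le_sliceA_zero t) (hf.sliceA_le_one t 0) hT.le hb0 hb1 with
    h | ⟨hv7, -, -, h⟩
  · exact Or.inr (hf.certG_case t (measurable_thickL b) (measurable_crossL b) hal hfl h)
  · refine Or.inl (Or.inr ⟨hv7, hfl.mono Subset.rfl fun z hz => ?_,
      le_trans (ENNReal.ofReal_le_ofReal ?_)
        (hf.certG_case t (measurable_thickL b) (measurable_crossL b) hal hfl h)⟩)
    · have hc : cornerL (sliceA f t z) ≤ crossL (sliceA f t z) b :=
        ((min_le_right _ _).trans (min_le_right _ _)).trans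
          (discP_one_sub_le_crossL (sliceA_nonneg t z) (hf.sliceA_le_one t z))
      split_ifs
      · exact hc
      · exact le_min (min_le_left _ _)
          (le_min (((min_le_right _ _).trans (min_le_left _ _)).trans (le_max_left _ _)) hc)
    · have := Real.sqrt_nonneg (1 - sliceA f t 0)
      have := Real.sqrt_nonneg (sliceA f t (1/2))
      linarith

end CoreFun

/-- Almost every level of volume at most `1/π` is a disc level or a corner level in suitable
coordinates, or leaves uniform room. -/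
theorem levelCase_ae (hf : CoreFun f) : ∀ᵐ t, LevelCase hf t := by
  have hq : ∀ᵐ t, ∀ σ : Equiv.Perm (Fin 3), Qz (permFun σ f) t = Qz f t :=
    ae_all_iff.2 fun σ => Qz_perm_ae hf σ
  filter_upwards [hq] with t hσ hv
  set v := tvol {p | t < f p} with hvdef
  have go : ∀ σ : Equiv.Perm (Fin 3),
      (arm f t (σ 0) (σ 1) ≤ h0 ∧ arm f t (σ 1) (σ 0) ≤ h0) ∨
      (arm f t (σ 1) (σ 2) ≤ h0 ∧ h0 ≤ arm f t (σ 0) (σ 2) ∧ arm f t (σ 0) (σ 1) ≤ h0) ∨
      (h0 ≤ arm f t (σ 0) (σ 2) ∧ arm f t (σ 0) (σ 2) ≤ arm f t (σ 1) (σ 2)) →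
      (∃ σ : Equiv.Perm (Fin 3), Qz (permFun σ f) t = Qz f t ∧
        (DiscLevel (hf.perm σ) t ∨ CornerLevel (hf.perm σ) t)) ∨
      ENNReal.ofReal (candJ v + 1 / 100000) ≤ Qz f t := by
    intro σ h
    have hv' : tvol {p | t < permFun σ f p} ≤ 1 / π := by
      rw [tvol_level_perm hf σ t]; exact hv.2
    rw [← hσ σ, hvdef, ← tvol_level_perm hf σ t]
    rcases h with ⟨a1, a2⟩ | ⟨a1, a2, a3⟩ | ⟨a1, a2⟩
    · exact ((hf.perm σ).thin_level t hv' (by rwa [arm_perm]) (by rwa [arm_perm])).imp_left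
        fun h => ⟨σ, rfl, Or.inl h⟩
    · exact ((hf.perm σ).cyc_level t hv' (by rwa [arm_perm]) (by rwa [arm_perm])
        (by rwa [arm_perm])).imp_left fun h => ⟨σ, rfl, Or.inl h⟩
    · exact ((hf.perm σ).thick_level t hv' (by rwa [arm_perm])
        (by rwa [arm_perm, arm_perm])).imp_left fun h => ⟨σ, rfl, h⟩
  have thick : ∀ a b d : Fin 3, a ≠ b → b ≠ d → a ≠ d → h0 ≤ arm f t a d → h0 ≤ arm f t b d →
      (∃ σ : Equiv.Perm (Fin 3), Qz (permFun σ f) t = Qz f t ∧
        (DiscLevel (hf.perm σ) t ∨ CornerLevel (hf.perm σ) t)) ∨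
      ENNReal.ofReal (candJ v + 1 / 100000) ≤ Qz f t := by
    intro a b d hab hbd had h1 h2
    have mk : ∀ a b : Fin 3, a ≠ b → b ≠ d → a ≠ d →
        ∃ σ : Equiv.Perm (Fin 3), σ 0 = a ∧ σ 1 = b ∧ σ 2 = d := by
      clear h1 h2 had hbd hab
      revert d
      decide
    rcases le_total (arm f t a d) (arm f t b d) with h | h
    · obtain ⟨σ, e0, e1, e2⟩ := mk a b hab hbd had
      exact go σ (Or.inr (Or.inr (by rw [e0, e1, e2]; exact ⟨h1, h⟩)))
    · obtain ⟨σ, e0, e1, e2⟩ := mk b a (Ne.symm hab) had hbd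
      exact go σ (Or.inr (Or.inr (by rw [e0, e1, e2]; exact ⟨h2, h⟩)))
  by_cases hz : h0 ≤ arm f t 0 2 ∧ h0 ≤ arm f t 1 2
  · exact thick 0 1 2 (by decide) (by decide) (by decide) hz.1 hz.2
  by_cases hxd : h0 ≤ arm f t 1 0 ∧ h0 ≤ arm f t 2 0
  · exact thick 1 2 0 (by decide) (by decide) (by decide) hxd.1 hxd.2
  by_cases hyd : h0 ≤ arm f t 0 1 ∧ h0 ≤ arm f t 2 1
  · exact thick 0 2 1 (by decide) (by decide) (by decide) hyd.1 hyd.2
  rw [not_and_or, not_le, not_le] at hz hxd hyd
  rcases le_or_gt (arm f t 0 1) h0 with h01 | h01 <;> rcases le_or_gt (arm f t 1 0) h0 with h10 | h10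
  · exact go (Equiv.refl _) (Or.inl ⟨h01, h10⟩)
  · have h20 : arm f t 2 0 < h0 := hxd.resolve_left (not_lt.2 h10.le)
    rcases le_or_gt (arm f t 0 2) h0 with h02 | h02
    · exact go (Equiv.swap 1 2) (Or.inl ⟨by simpa [Equiv.swap_apply_def] using h02,
        by simpa [Equiv.swap_apply_def] using h20.le⟩)
    · have h12 : arm f t 1 2 < h0 := hz.resolve_left (not_lt.2 h02.le)
      exact go (Equiv.refl _) (Or.inr (Or.inl ⟨h12.le, h02.le, h01⟩))
  · have h21 : arm f t 2 1 < h0 := hyd.resolve_left (not_lt.2 h01.le)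
    rcases le_or_gt (arm f t 1 2) h0 with h12 | h12
    · exact go (Equiv.swap 0 2) (Or.inl ⟨by simpa [Equiv.swap_apply_def] using h21.le,
        by simpa [Equiv.swap_apply_def] using h12⟩)
    · have h02 : arm f t 0 2 < h0 := hz.resolve_right (not_lt.2 h12.le)
      exact go (Equiv.swap 0 1) (Or.inr (Or.inl ⟨by simpa [Equiv.swap_apply_def] using h02.le,
        by simpa [Equiv.swap_apply_def] using h12.le, by simpa [Equiv.swap_apply_def] using h10⟩))
  · have h20 : arm f t 2 0 < h0 := hxd.resolve_left (not_lt.2 h10.le)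
    have h21 : arm f t 2 1 < h0 := hyd.resolve_left (not_lt.2 h01.le)
    rcases lt_or_ge (arm f t 0 2) h0 with h02 | h02
    · exact go (Equiv.swap 1 2) (Or.inl ⟨by simpa [Equiv.swap_apply_def] using h02.le,
        by simpa [Equiv.swap_apply_def] using h20.le⟩)
    · have h12 : arm f t 1 2 < h0 := hz.resolve_left (not_lt.2 h02)
      exact go (Equiv.swap 0 2) (Or.inl ⟨by simpa [Equiv.swap_apply_def] using h21.le,
        by simpa [Equiv.swap_apply_def] using h12.le⟩)

/-- The level bound up to and including volume `1/π`. -/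
theorem candJ_le_Qz (hf : CoreFun f) : ∀ᵐ t, tvol {p | t < f p} ≤ 1 / π →
    ENNReal.ofReal (candJ (tvol {p | t < f p})) ≤ Qz f t := by
  filter_upwards [levelCase_ae hf] with t ht hv
  rcases eq_or_lt_of_le (show 0 ≤ tvol {p | t < f p} from ENNReal.toReal_nonneg) with h | h
  · rw [← h, show candJ 0 = 0 by simp [candJ, ballP, tubeP]]
    simp
  rcases ht ⟨h, hv⟩ with ⟨σ, hQ, hD | hC⟩ | hS
  · rw [← tvol_level_perm hf σ t, ← hQ]
    exact (hf.perm σ).discLevel_bound hD
  · rw [← hQ]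
    refine le_trans (ENNReal.ofReal_le_ofReal ((min_le_right _ _).trans ?_)) hC.bound
    exact le_add_of_nonneg_right (by positivity)
  · exact le_trans (ENNReal.ofReal_le_ofReal (by linarith)) hS

end

end Vale.P232
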