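import Vale.Agent.P232.RigidFlux
import Vale.Agent.P232.ScalarInst
import Vale.Agent.P232.SteinerLiftBase

/-!
P232: levels of core functions approximating a symmetric monotone minimiser.
-/

open MeasureTheory Real Set Filter Topology
open scoped ENNReal

namespace Vale.P232

noncomputable section

namespace LevelSeqK

variable {E : Set V3}

theorem abs_ind_sub_comm_le (A B : Set V3) (x : V3) :
    |ind A x - ind B x| = ind (symmDiff A B) x := by
  by_cases h1 : x ∈ A <;> by_cases h2 : x ∈ B <;> simp [ind, Set.mem_symmDiff, h1, h2]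

theorem tvol_symmDiff_level {f : V3 → ℝ} (hf : CoreFun f) (hE : MeasurableSet E) {t : ℝ}
    (ht : t ∈ Ioo (0:ℝ) 1) :
    tvol (symmDiff {p | t < f p} E) ≤ (∫ x in cube, |f x - ind E x|) / min t (1 - t) := by
  have hm : 0 < min t (1 - t) := lt_min ht.1 (by linarith [ht.2])
  have hS : MeasurableSet {p | t < f p} := measurableSet_lt measurable_const hf.continuous.measurable
  have hD : MeasurableSet (symmDiff {p | t < f p} E) := Steiner.measurableSet_symmDiff' hS hE
  rw [tvol_eq_integral hD, le_div_iff₀ hm, ← integral_mul_const]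
  have hfi : IntegrableOn (fun x => |f x - ind E x|) cube :=
    ((Continuous.integrableOn_cube hf.continuous).sub (integrableOn_ind hE)).abs
  refine setIntegral_mono ((integrableOn_ind hD).mul_const _) hfi fun x => ?_
  have h0 := hf.nonneg x
  have h1 := hf.le_one x
  by_cases hx : x ∈ E <;> by_cases hy : t < f x <;>
    simp [ind, Set.mem_symmDiff, hx, hy, abs_nonneg]
  · exact Or.inr (by linarith [neg_abs_le (f x - 1), not_lt.1 hy])
  · exact Or.inl (by linarith [abs_of_nonneg h0])

theorem candJ_nonneg' {v : ℝ} (hv : 0 ≤ v) : 0 ≤ candJ v := by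
  unfold candJ ballP tubeP
  exact le_min (le_min (mul_nonneg (Real.rpow_nonneg (by positivity) _) (Real.rpow_nonneg hv _))
    (by positivity)) (by norm_num)

/-- Selection of levels. -/
theorem select (hE : MeasurableSet E) (h0 : 0 < tvol E) {f : ℕ → V3 → ℝ} {M : ℕ → ℝ}
    (hf : ∀ n, CoreFun (f n)) (hM : ∀ n, ∫ x in cube, gradLen (f n) x ≤ M n)
    (hMlim : Tendsto M atTop (𝓝 (candJ (tvol E))))
    (hL1 : Tendsto (fun n => ∫ x in cube, |f n x - ind E x|) atTop (𝓝 0))
    (hgood : ∀ᵐ t ∂(volume.restrict (Ioo (0:ℝ) 1)),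
      ∀ᶠ n in atTop, tvol {p | t < f n p} ≤ 1 / π)
    (G : (f : V3 → ℝ) → ℝ → Prop) (hG : ∀ f, CoreFun f → ∀ᵐ t, G f t) :
    ∃ S : LevelSeq E, ∀ n, G (S.f n) (S.t n) := by
  set μ := volume.restrict (Ioo (0:ℝ) 1) with hμ
  have : IsProbabilityMeasure μ := ⟨by simp [hμ]⟩
  set J := candJ (tvol E)
  have hint : ∫⁻ t, liminf (fun n => Qz (f n) t) atTop ∂μ ≤ ENNReal.ofReal J := by
    refine (lintegral_liminf_le fun n => (hf n).measurable_Qz).trans ?_
    refine (liminf_le_liminf (Eventually.of_forall fun n => lintegral_Qz_le (hf n) (hM n))).trans ?_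
    exact (ENNReal.tendsto_ofReal hMlim).liminf_eq.le
  have hae : ∀ᵐ t ∂μ, t ∈ Ioo (0:ℝ) 1 ∧ (∀ n, G (f n) t) ∧
      ∀ᶠ n in atTop, tvol {p | t < f n p} ≤ 1 / π := by
    filter_upwards [ae_restrict_mem measurableSet_Ioo,
      ae_all_iff.2 (fun n => ae_restrict_of_ae (hG (f n) (hf n))), hgood] with t h1 h2 h3
    exact ⟨h1, h2, h3⟩
  obtain ⟨t, ht, hQ⟩ := exists_notMem_null_le_laverage (μ := μ) (IsProbabilityMeasure.ne_zero μ)
    (Measurable.liminf fun n => (hf n).measurable_Qz).aemeasurable (ae_iff.1 hae)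
  rw [laverage_eq_lintegral] at hQ
  simp only [mem_ofPred_eq, not_not] at ht
  obtain ⟨htI, htG, htgood⟩ := ht
  have hsd : Tendsto (fun n => tvol (symmDiff {p | t < f n p} E)) atTop (𝓝 0) := by
    refine squeeze_zero (fun n => ENNReal.toReal_nonneg)
      (fun n => tvol_symmDiff_level (hf n) hE htI) ?_
    simpa using hL1.div_const (min t (1 - t))
  have hpos : ∀ᶠ n in atTop, tvol {p | t < f n p} ∈ Ioc (0:ℝ) (1/π) := by
    filter_upwards [htgood, hsd.eventually_lt_const h0] with n h1 h2
    refine ⟨?_, h1⟩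
    have := abs_tvol_sub_le (A := {p | t < f n p}) (B := E)
      (measurableSet_lt measurable_const (hf n).continuous.measurable) hE
    linarith [neg_abs_le (tvol {p | t < f n p} - tvol E)]
  have hfreq : ∀ k : ℕ, ∃ᶠ n in atTop,
      Qz (f n) t < ENNReal.ofReal (J + 1 / ((k:ℝ) + 1)) ∧
        tvol {p | t < f n p} ∈ Ioc (0:ℝ) (1/π) := fun k => by
    refine (frequently_lt_of_liminf_lt (by isBoundedDefault)
      ((hQ.trans hint).trans_lt ?_)).and_eventually hpos
    have hp : (0:ℝ) < 1 / ((k:ℝ) + 1) := by positivity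
    have hJ : 0 ≤ J := candJ_nonneg' h0.le
    exact (ENNReal.ofReal_lt_ofReal_iff (by linarith)).2 (by linarith)
  obtain ⟨φ, hφ, hφp⟩ := extraction_forall_of_frequently hfreq
  refine ⟨⟨fun k => f (φ k), fun _ => t, fun k => hf (φ k), fun _ => htI, fun k => (hφp k).2,
    hsd.comp hφ.tendsto_atTop, fun ε hε => ?_⟩, fun k => htG (φ k)⟩
  filter_upwards [(tendsto_one_div_add_atTop_nhds_zero_nat (𝕜 := ℝ)).eventually_lt_const hε]
    with k hk
  exact (hφp k).1.le.trans (ENNReal.ofReal_le_ofReal (by linarith))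

/-- Symmetric monotone sets are monotone along each axis. -/
theorem monoAx_of_symMono (hs : SymMono E) (j : Fin 3) : Steiner.MonoAx j E := by
  intro x y hxy hd hx
  set k : Fin 3 → ℤ := fun c => -round (x c)
  set k' : Fin 3 → ℤ := fun c => -round (y c)
  refine (hs.1 y k').1 (hs.2 (x + fun c => (k c : ℝ)) _ (fun c => ?_) (fun c => ?_) ((hs.1 x k).2 hx))
  · simpa [k, ← sub_eq_add_neg] using abs_sub_round (x c)
  · simp only [Pi.add_apply, k, k', Int.cast_neg, ← sub_eq_add_neg]
    by_cases hc : c = j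
    · subst hc; exact hd
    · rw [hxy c hc]

theorem symMono_of_monoAx (hp : IsPeriodic E) (h : ∀ j, Steiner.MonoAx j E) : SymMono E := by
  refine ⟨hp, fun x y hx hy hmem => ?_⟩
  have hdd : ∀ c, Rearr.dd (y c) ≤ Rearr.dd (x c) := fun c => by
    rw [Steiner.dd_eq_abs (hx c), Steiner.dd_eq_abs ((hy c).trans (hx c))]
    exact hy c
  set x₁ := Function.update x 0 (y 0)
  set x₂ := Function.update x₁ 1 (y 1)
  have h₁ : x₁ ∈ E := h 0 x x₁ (fun k hk => by simp [x₁, hk]) (by simpa [x₁] using hdd 0) hmem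
  have h₂ : x₂ ∈ E := h 1 x₁ x₂ (fun k hk => by simp [x₂, hk])
    (by simpa [x₁, x₂] using hdd 1) h₁
  refine h 2 x₂ y (fun k hk => ?_) (by simpa [x₁, x₂] using hdd 2) h₂
  fin_cases k <;> simp_all [x₁, x₂]

theorem per1_ae_eq {A B : Set ℝ} (hA : Steiner.Per1 A) (hB : Steiner.Per1 B)
    (h : volume (symmDiff A B ∩ Rearr.I01) = 0) : A =ᵐ[volume] B := by
  rw [← measure_symmDiff_eq_zero_iff]
  have hsub : symmDiff A B ⊆ ⋃ z : ℤ, (fun a : ℝ => a + z) ⁻¹' (symmDiff A B ∩ Rearr.I01) := by
    intro a ha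
    refine mem_iUnion.2 ⟨-⌊a⌋, ?_, ?_⟩
    · rw [Set.mem_symmDiff] at ha ⊢
      simpa only [hA a, hB a] using ha
    · simp only [Rearr.I01, mem_Ico, Int.cast_neg]
      constructor <;> linarith [Int.floor_le a, Int.lt_floor_add_one a]
  refine measure_mono_null hsub (measure_iUnion_null fun z => ?_)
  rw [measure_preimage_add_right, h]

/-- Symmetrisation does not change a symmetric monotone set. -/
theorem St_of_symMono (hE : MeasurableSet E) (hs : SymMono E) (i : Fin 3) :
    Steiner.St i E =ᵐ[volume] E := by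
  refine ae_eq_of_fib i (Steiner.measurableSet_St i hE) hE (Eventually.of_forall fun y => ?_)
  rw [Steiner.fib_St]
  set A := Steiner.fib i E y with hA
  set m := (volume (A ∩ Rearr.I01)).toReal with hm
  have hAm : MeasurableSet A := Steiner.measurableSet_fib i hE y
  have hfin : ∀ B : Set ℝ, volume (B ∩ Rearr.I01) ≠ ⊤ := fun B =>
    measure_ne_top_of_subset inter_subset_right (by simp [Rearr.I01, Real.volume_Ico])
  have hm1 : m ≤ 1 := by
    refine ENNReal.toReal_le_of_le_ofReal zero_le_one ((measure_mono inter_subset_right).trans ?_)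
    simp [Rearr.I01]
  have hvol : volume (Rearr.carc m ∩ Rearr.I01) = volume (A ∩ Rearr.I01) := by
    rw [Rearr.volume_carc ENNReal.toReal_nonneg hm1, ENNReal.ofReal_toReal (hfin A)]
  have hdown : ∀ {a b : ℝ}, Rearr.dd b ≤ Rearr.dd a → a ∈ A → b ∈ A := fun {a b} hab ha =>
    monoAx_of_symMono hs i (i.insertNth a y) (i.insertNth b y) (fun c hc => by
      obtain ⟨l, rfl⟩ := (Fin.eq_self_or_eq_succAbove i c).resolve_left hc
      simp) (by simpa using hab) ha
  refine per1_ae_eq (Steiner.per1_carc m) (Steiner.per1_fib i hs.1 y) ?_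
  have htot : Rearr.carc m ⊆ A ∨ A ⊆ Rearr.carc m := by
    by_contra h
    simp only [not_or, not_subset] at h
    obtain ⟨⟨c, hc, hcA⟩, a, ha, hac⟩ := h
    simp only [Rearr.carc, mem_ofPred_eq, not_lt] at hc hac
    exact hcA (hdown (hc.le.trans hac) ha)
  have key : ∀ {P Q : Set ℝ}, MeasurableSet P → P ⊆ Q →
      volume (P ∩ Rearr.I01) = volume (Q ∩ Rearr.I01) → volume (symmDiff P Q ∩ Rearr.I01) = 0 := by
    intro P Q hP hPQ he
    rw [symmDiff_of_le hPQ]
    show volume ((Q \ P) ∩ Rearr.I01) = 0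
    rw [show (Q \ P) ∩ Rearr.I01 = (Q ∩ Rearr.I01) \ (P ∩ Rearr.I01) by ext; simp; tauto,
      measure_sdiff (inter_subset_inter_left _ hPQ)
        (hP.inter Steiner.measurableSet_I01).nullMeasurableSet (hfin P), he, tsub_self]
  rcases htot with h | h
  · exact key (Rearr.measurableSet_carc m) h hvol
  · rw [symmDiff_comm]
    exact key hAm h hvol.symm

theorem shift_add_mem {A : Set V3} {s t : V3} (hs : {x | x + s ∈ A} =ᵐ[volume] A)
    (ht : {x | x + t ∈ A} =ᵐ[volume] A) : {x | x + (s + t) ∈ A} =ᵐ[volume] A := by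
  have h := (measurePreserving_add_right (volume : Measure V3) s).quasiMeasurePreserving.preimage_ae_eq ht
  have e : (fun x => x + s) ⁻¹' {x | x + t ∈ A} = {x | x + (s + t) ∈ A} := by
    ext x; simp [add_assoc]
  rw [e] at h
  exact h.trans hs

/-- A set with `0 < V < 1` loses volume under arbitrarily small axis translations. -/
theorem exists_small_drop (hE : MeasurableSet E) (hp : IsPeriodic E) (h0 : 0 < tvol E)
    (h1 : tvol E < 1) {η : ℝ} (hη : 0 < η) :
    ∃ (i : Fin 3) (s : ℝ), ‖s • e i‖ < η ∧ overlap E (s • e i) < tvol E := by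
  by_contra hno
  push Not at hno
  have hstep : ∀ (i : Fin 3) (s : ℝ), ‖s • e i‖ < η → {x | x + s • e i ∈ E} =ᵐ[volume] E := by
    intro i s hs
    have h := hno i s hs
    have hm := measurableSet_shift hE (s • e i)
    have hsum := tvol_union_add_inter hE hm
    have hv := tvol_shift hE hp (s • e i)
    have hd : tvol (symmDiff E {x | x + s • e i ∈ E}) = 0 := by
      have hle : overlap E (s • e i) ≤ tvol E := ENNReal.toReal_mono
        (measure_ne_top_of_subset inter_subset_right (by simp [volume_cube_eq_one]))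
        (measure_mono (inter_subset_inter_left _ inter_subset_left))
      have hu := tvol_union_add_inter (Steiner.measurableSet_symmDiff' hE hm) (hE.inter hm)
      have e1 : symmDiff E {x | x + s • e i ∈ E} ∪ (E ∩ {x | x + s • e i ∈ E})
          = E ∪ {x | x + s • e i ∈ E} := by
        ext x; simp [Set.mem_symmDiff]; tauto
      have e2 : symmDiff E {x | x + s • e i ∈ E} ∩ (E ∩ {x | x + s • e i ∈ E}) = ∅ := by
        ext x; simp [Set.mem_symmDiff]; tauto
      rw [e1, e2] at hu
      have e3 : tvol (∅ : Set V3) = 0 := by simp [tvol]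
      unfold overlap at h hle
      linarith
    refine (measure_symmDiff_eq_zero_iff.1 ?_).symm
    have hper : IsPeriodic (symmDiff E {x | x + s • e i ∈ E}) := fun x k => by
      simp only [Set.mem_symmDiff, hp x k, (hp.shift (s • e i)) x k]
    have h0' : volume (symmDiff E {x | x + s • e i ∈ E} ∩ cube) = 0 := by
      unfold tvol at hd
      rcases (ENNReal.toReal_eq_zero_iff _).1 hd with h | h
      · exact h
      · exact absurd h (measure_ne_top_of_subset inter_subset_right (by simp [volume_cube_eq_one]))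
    have hsub : symmDiff E {x | x + s • e i ∈ E} ⊆ ⋃ k : Fin 3 → ℤ,
        (fun x : V3 => x + fun c => (k c : ℝ)) ⁻¹' (symmDiff E {x | x + s • e i ∈ E} ∩ cube) := by
      intro x hx
      refine mem_iUnion.2 ⟨fun c => -⌊x c⌋, (hper x _).2 hx, fun c _ => ?_⟩
      simp only [Pi.add_apply, mem_Ico, Int.cast_neg]
      constructor <;> linarith [Int.floor_le (x c), Int.lt_floor_add_one (x c)]
    refine measure_mono_null hsub (measure_iUnion_null fun k => ?_)
    rw [measure_preimage_add_right, h0']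
  have haxis : ∀ (i : Fin 3) (s : ℝ), {x | x + s • e i ∈ E} =ᵐ[volume] E := by
    intro i s
    obtain ⟨N, hN⟩ := exists_nat_gt (‖s • e i‖ / η)
    have hN0 : (0:ℝ) < N := lt_of_le_of_lt (by positivity) hN
    have hsmall : ‖(s / N) • e i‖ < η := by
      rw [div_eq_inv_mul, mul_smul, norm_smul, norm_inv, Real.norm_of_nonneg hN0.le,
        inv_mul_lt_iff₀ hN0]
      rw [div_lt_iff₀ hη] at hN
      linarith
    have hk : ∀ k : ℕ, {x | x + ((k:ℝ) * (s / N)) • e i ∈ E} =ᵐ[volume] E := by
      intro k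
      induction k with
      | zero =>
        refine (Eventually.of_forall fun x => ?_)
        show (x + (((0:ℕ):ℝ) * (s / N)) • e i ∈ E) = (x ∈ E)
        simp
      | succ k ih =>
        rw [show (((k + 1 : ℕ) : ℝ) * (s / N)) • e i
            = ((k:ℝ) * (s / N)) • e i + (s / N) • e i by rw [← add_smul]; push_cast; ring_nf]
        exact shift_add_mem ih (hstep i _ hsmall)
    have := hk N
    rwa [mul_div_cancel₀ _ hN0.ne'] at this
  have hall : ∀ t : V3, {x | x + t ∈ E} =ᵐ[volume] E := fun t => by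
    have e1 : t = t 0 • e 0 + (t 1 • e 1 + t 2 • e 2) := by
      funext c; fin_cases c <;> simp [e]
    rw [e1]
    exact shift_add_mem (haxis 0 _) (shift_add_mem (haxis 1 _) (haxis 2 _))
  have hov : ∀ t, overlap E t = tvol E := fun t => tvol_congr_ae' (by
    filter_upwards [hall t] with x hx
    exact propext ⟨fun h => h.1, fun h => ⟨h, (iff_of_eq hx).2 h⟩⟩)
  have hi := integral_overlap hE hp
  simp only [hov] at hi
  rw [setIntegral_const, measureReal_def, volume_cube_eq_one] at hi
  simp at hi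
  nlinarith

theorem candJ_inv_pi : candJ (1 / π) = 2 := by
  have hπ := Real.pi_gt_three
  refine min_eq_right (le_min ?_ ?_)
  · have h03 : (3 : ℝ) / 10 ≤ 1 / π := by
      rw [le_div_iff₀ (by linarith)]; linarith [Real.pi_lt_d2]
    have hv0 : (0:ℝ) ≤ 1 / π := by positivity
    refine le_of_pow_le_pow_left₀ three_ne_zero
      (mul_nonneg (Real.rpow_nonneg (by positivity) _) (Real.rpow_nonneg hv0 _)) ?_
    rw [ballP, mul_pow, ← Real.rpow_natCast ((36 * π) ^ (1 / 3 : ℝ)) 3,
      ← Real.rpow_natCast ((1 / π) ^ (2 / 3 : ℝ)) 3, ← Real.rpow_mul (by positivity),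
      ← Real.rpow_mul hv0]
    norm_num
    field_simp
    nlinarith [Real.pi_lt_d2]
  · unfold tubeP
    rw [mul_one_div, div_self (by linarith : π ≠ 0), Real.sqrt_one, mul_one]

/-- Symmetric monotone competitors just below volume `1/π`. -/
theorem exists_below (hE : MeasurableSet E) (hs : SymMono E) (hv : tvol E = 1 / π)
    (hP : perimeter E ≤ ENNReal.ofReal 2) {η : ℝ} (hη : 0 < η) :
    ∃ F : Set V3, MeasurableSet F ∧ SymMono F ∧ tvol F < 1 / π ∧
      perimeter F ≤ ENNReal.ofReal 2 ∧ (∫ x in cube, |ind F x - ind E x|) ≤ η := by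
  have hπ := Real.pi_gt_three
  have hv0 : 0 < tvol E := by rw [hv]; positivity
  have hv13 : 1 / π ≤ 1 / 3 := one_div_le_one_div_of_le (by norm_num) hπ.le
  have hov : Tendsto (overlap E) (𝓝 0) (𝓝 (tvol E)) := by
    have h := (continuous_overlap hE hs.1).tendsto 0
    rwa [show overlap E 0 = tvol E by simp [overlap]] at h
  obtain ⟨ρ, hρ, hρη⟩ := Metric.eventually_nhds_iff.1 (hov.eventually_const_lt
    (show tvol E - min η (1/100) < tvol E by linarith [lt_min hη (by norm_num : (0:ℝ) < 1/100)]))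
  obtain ⟨i, s, hs', hdrop⟩ := exists_small_drop hE hs.1 hv0 (by rw [hv]; linarith) hρ
  set t := s • e i with ht
  have hm := measurableSet_shift hE t
  set F0 := E ∩ {x | x + t ∈ E} with hF0
  have hF0m : MeasurableSet F0 := hE.inter hm
  have hF0p : IsPeriodic F0 := hs.1.inter (hs.1.shift t)
  have hlo : tvol E - min η (1/100) < tvol F0 := hρη (by rwa [dist_zero_right])
  have hmin1 := min_le_left η (1/100 : ℝ)
  have hmin2 := min_le_right η (1/100 : ℝ)
  -- perimeter
  have hU := tvol_union_add_inter hE hm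
  rw [tvol_shift hE hs.1 t] at hU
  have hUI : tvol (E ∪ {x | x + t ∈ E}) ∈ Icc (1/π) (1 - 1/π) := by
    have : tvol F0 < tvol E := hdrop
    constructor <;> linarith
  have hPU : ENNReal.ofReal 2 ≤ perimeter (E ∪ {x | x + t ∈ E}) := by
    refine le_trans ?_ (profile_le (hE.union hm) (hs.1.union (hs.1.shift t)))
    exact two_le_profile_slab_range (fun a ha1 ha2 => by
      rw [← candJ_tube_range ha1 ha2, profile_eq_J a ⟨by linarith, by linarith⟩, J,
        min_eq_left (by linarith)]) _ hUI
  have hPF : perimeter F0 ≤ ENNReal.ofReal 2 := by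
    have h := perimeter_union_add_inter_le hE hm hs.1 (hs.1.shift t)
    have h2 : ENNReal.ofReal 2 + perimeter F0 ≤ ENNReal.ofReal 2 + ENNReal.ofReal 2 :=
      (add_le_add hPU le_rfl).trans
        (h.trans (add_le_add hP ((perimeter_shift hE hs.1 t).trans hP)))
    exact ENNReal.le_of_add_le_add_left ENNReal.ofReal_ne_top h2
  refine ⟨Steiner.St i F0, Steiner.measurableSet_St i hF0m, ?_, ?_,
    (perimeter_St_le i hF0m hF0p).trans hPF, ?_⟩
  · refine symMono_of_monoAx (Steiner.periodic_St i hF0p) fun j => ?_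
    by_cases hj : j = i
    · subst hj; exact Steiner.monoAx_St_self j
    refine Steiner.monoAx_St_of_ne i hj fun x y hxy hd hx => ?_
    refine ⟨monoAx_of_symMono hs j x y hxy hd hx.1, monoAx_of_symMono hs j (x + t) (y + t)
      (fun k hk => by simp [hxy k hk]) ?_ hx.2⟩
    simpa [ht, e, hj] using hd
  · rw [Steiner.tvol_St i hF0m, ← hv]; exact hdrop
  · set F := Steiner.St i F0
    have hFm : MeasurableSet F := Steiner.measurableSet_St i hF0m
    have hSm := Steiner.measurableSet_St i hE
    have hsub : F ⊆ Steiner.St i E := fun x hx => by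
      simp only [F, Steiner.St, Rearr.carc, mem_ofPred_eq] at hx ⊢
      refine hx.trans_le (div_le_div_of_nonneg_right ?_ zero_le_two)
      exact ENNReal.toReal_mono (measure_ne_top_of_subset inter_subset_right
        (by simp [Rearr.I01, Real.volume_Ico])) (measure_mono (inter_subset_inter_left _
          fun a ha => ha.1))
    have hae := St_of_symMono hE hs i
    have e1 : ∀ᵐ x : V3, |ind F x - ind E x| = ind (Steiner.St i E) x - ind F x := by
      filter_upwards [hae] with x hx
      have hx' : x ∈ Steiner.St i E ↔ x ∈ E := iff_of_eq hx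
      by_cases h1 : x ∈ F
      · simp [ind, h1, hsub h1, hx'.1 (hsub h1)]
      · by_cases h2 : x ∈ E
        · simp [ind, h1, h2, hx'.2 h2]
        · simp [ind, h1, h2, mt hx'.1 h2]
    rw [integral_congr_ae (ae_restrict_of_ae e1),
      integral_sub (integrableOn_ind hSm) (integrableOn_ind hFm), ← tvol_eq_integral hSm,
      ← tvol_eq_integral hFm, Steiner.tvol_St i hE, Steiner.tvol_St i hF0m]
    linarith

theorem strict (hE : MeasurableSet E) (hs : SymMono E) (h0 : 0 < tvol E) (hv : tvol E < 1/π)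
    (hP : perimeter E ≤ ENNReal.ofReal (candJ (tvol E)))
    (G : (f : V3 → ℝ) → ℝ → Prop) (hG : ∀ f, CoreFun f → ∀ᵐ t, G f t) :
    ∃ S : LevelSeq E, ∀ n, G (S.f n) (S.t n) := by
  obtain ⟨f, hf, hM, hL1, hvol⟩ :=
    exists_coreFun_approx_perimeter hE hs hP (candJ_nonneg' h0.le)
  refine select hE h0 hf hM ?_ hL1 ?_ G hG
  · simpa using (tendsto_one_div_add_atTop_nhds_zero_nat (𝕜 := ℝ)).const_add (candJ (tvol E))
  · filter_upwards [ae_restrict_mem measurableSet_Ioo] with t ht
    exact ((hvol t ht).eventually_lt_const hv).mono fun n hn => hn.le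

theorem endpoint (hE : MeasurableSet E) (hs : SymMono E) (hv : tvol E = 1 / π)
    (hP : perimeter E ≤ ENNReal.ofReal (candJ (tvol E)))
    (G : (f : V3 → ℝ) → ℝ → Prop) (hG : ∀ f, CoreFun f → ∀ᵐ t, G f t) :
    ∃ S : LevelSeq E, ∀ n, G (S.f n) (S.t n) := by
  set μ := volume.restrict (Ioo (0:ℝ) 1) with hμ
  have : IsProbabilityMeasure μ := ⟨by simp [hμ]⟩
  rw [hv, candJ_inv_pi] at hP
  have key : ∀ j : ℕ, ∃ f : V3 → ℝ, CoreFun f ∧ (∫ x in cube, gradLen f x) ≤ 2 + (1/2:ℝ) ^ j ∧
      (∫ x in cube, |f x - ind E x|) ≤ 2 * (1/2:ℝ) ^ j ∧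
      μ {t | 1 / π < tvol {p | t < f p}} ≤ ENNReal.ofReal ((1/2:ℝ) ^ j) := by
    intro j
    have hp : (0:ℝ) < (1/2:ℝ) ^ j := by positivity
    obtain ⟨F, hFm, hFs, hFv, hFP, hFE⟩ := exists_below hE hs hv hP hp
    obtain ⟨f, hf, hM, hL1, hvol⟩ := exists_coreFun_approx_perimeter hFm hFs hFP zero_le_two
    have hbad : Tendsto (fun n => μ {t | 1 / π < tvol {p | t < f n p}}) atTop (𝓝 0) := by
      have hms : ∀ n, MeasurableSet {t | 1 / π < tvol {p | t < f n p}} := fun n =>
        measurable_tvol_superlevel measurableSet_Ioi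
      have h := tendsto_lintegral_of_dominated_convergence (μ := μ) (fun _ => (1:ℝ≥0∞))
        (F := fun n => ({t | 1 / π < tvol {p | t < f n p}}).indicator 1) (f := fun _ => 0)
        (fun n => measurable_one.indicator (hms n))
        (fun n => ae_of_all _ fun t => indicator_le_self' (fun _ _ => zero_le) t) (by simp) ?_
      · simp only [lintegral_indicator_one (hms _), lintegral_zero] at h
        exact h
      · filter_upwards [ae_restrict_mem measurableSet_Ioo] with t ht
        refine tendsto_const_nhds.congr' ?_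
        filter_upwards [(hvol t ht).eventually_lt_const hFv] with n hn
        rw [indicator_of_notMem]
        simp only [mem_ofPred_eq, not_lt]
        exact hn.le
    obtain ⟨n, h1, h2, h3⟩ := (((tendsto_one_div_add_atTop_nhds_zero_nat (𝕜 := ℝ)).eventually_le_const
      hp).and ((hL1.eventually_le_const hp).and
        (hbad.eventually_le_const (ENNReal.ofReal_pos.2 hp)))).exists
    refine ⟨f n, hf n, (hM n).trans (by linarith), ?_, h3⟩
    have i1 : IntegrableOn (fun x => |f n x - ind F x|) cube :=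
      ((Continuous.integrableOn_cube (hf n).continuous).sub (integrableOn_ind hFm)).abs
    have i2 : IntegrableOn (fun x => |ind F x - ind E x|) cube :=
      ((integrableOn_ind hFm).sub (integrableOn_ind hE)).abs
    calc ∫ x in cube, |f n x - ind E x|
        ≤ ∫ x in cube, (|f n x - ind F x| + |ind F x - ind E x|) :=
          setIntegral_mono ((Continuous.integrableOn_cube (hf n).continuous).sub
            (integrableOn_ind hE)).abs (i1.add i2) fun x => abs_sub_le _ _ _
      _ = (∫ x in cube, |f n x - ind F x|) + ∫ x in cube, |ind F x - ind E x| :=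
          integral_add i1 i2
      _ ≤ (1/2:ℝ) ^ j + (1/2:ℝ) ^ j := add_le_add h2 hFE
      _ = 2 * (1/2:ℝ) ^ j := by ring
  choose f hf hM hL1 hbad using key
  have hpow : Tendsto (fun j : ℕ => (1/2:ℝ) ^ j) atTop (𝓝 0) :=
    tendsto_pow_atTop_nhds_zero_of_lt_one (by norm_num) (by norm_num)
  refine select hE (by rw [hv]; positivity) hf hM ?_ ?_ ?_ G hG
  · rw [hv, candJ_inv_pi]; simpa using hpow.const_add 2
  · exact squeeze_zero (fun j => integral_nonneg fun x => abs_nonneg _) hL1
      (by simpa using hpow.const_mul 2)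
  · have hsum : (∑' j, μ {t | 1 / π < tvol {p | t < f j p}}) ≠ ⊤ := by
      refine ne_top_of_le_ne_top (ENNReal.ofReal_ne_top (r := 2)) ?_
      refine (ENNReal.tsum_le_tsum hbad).trans ?_
      rw [← ENNReal.ofReal_tsum_of_nonneg (fun j => by positivity)
        (summable_geometric_of_lt_one (by norm_num) (by norm_num)), tsum_geometric_two]
    filter_upwards [ae_eventually_notMem hsum] with t ht
    exact ht.mono fun n hn => not_lt.1 hn

end LevelSeqK

/-- Approximating levels of a minimiser of volume below `1/π`. -/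
theorem exists_levelSeq_strict {E : Set V3} (hE : MeasurableSet E) (hs : SymMono E)
    (h0 : 0 < tvol E) (hv : tvol E < 1/π) (hP : perimeter E ≤ ENNReal.ofReal (candJ (tvol E)))
    (G : (f : V3 → ℝ) → ℝ → Prop) (hG : ∀ f, CoreFun f → ∀ᵐ t, G f t) :
    ∃ S : LevelSeq E, ∀ n, G (S.f n) (S.t n) :=
  LevelSeqK.strict hE hs h0 hv hP G hG

/-- Approximating levels of a minimiser of volume at most `1/π`. -/
theorem exists_levelSeq {E : Set V3} (hE : MeasurableSet E) (hs : SymMono E)
    (h0 : 0 < tvol E) (hv : tvol E ≤ 1/π) (hP : perimeter E ≤ ENNReal.ofReal (candJ (tvol E)))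
    (G : (f : V3 → ℝ) → ℝ → Prop) (hG : ∀ f, CoreFun f → ∀ᵐ t, G f t) :
    ∃ S : LevelSeq E, ∀ n, G (S.f n) (S.t n) :=
  hv.lt_or_eq.elim (fun h => LevelSeqK.strict hE hs h0 h hP G hG)
    (fun h => LevelSeqK.endpoint hE hs h hP G hG)

end

end Vale.P232
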