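import Vale.Agent.P232.PlanarDefs

/-!
P232: lower bounds for fluxes through the boundary of a monotone planar slice.

For `Q : Quad` with `q = Q.area` the slice has area `4 q` and its boundary has length at least
`4 * Q.flux a b` for every field `(a, b)` with nonnegative entries and Euclidean length at most one.
-/

open MeasureTheory Set Real Filter Topology intervalIntegral
open scoped ENNReal

namespace Vale.P232

noncomputable section

/-- Horizontal component of the field calibrating an arc of radius `e`. -/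
def linU (e x : ℝ) : ℝ := min 1 (max 0 (x / e))

lemma linU_mem (e x : ℝ) : linU e x ∈ Icc (0:ℝ) 1 :=
  ⟨le_min zero_le_one (le_max_left _ _), min_le_left _ _⟩

lemma continuous_linU (e : ℝ) : Continuous (linU e) := by
  unfold linU; fun_prop

lemma linU_eq {e x : ℝ} (he : 0 < e) (hx : x ∈ Icc 0 e) : linU e x = x / e := by
  unfold linU
  rw [max_eq_right (div_nonneg hx.1 he.le), min_eq_right ((div_le_one he).2 hx.2)]

lemma coF_nonneg (u : ℝ → ℝ) (x : ℝ) : 0 ≤ coF u x := Real.sqrt_nonneg _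

lemma continuous_coF {u : ℝ → ℝ} (hu : Continuous u) : Continuous (coF u) := by
  unfold coF; fun_prop

lemma coF_le_one (u : ℝ → ℝ) (x : ℝ) : coF u x ≤ 1 := by
  unfold coF
  rw [Real.sqrt_le_one]
  nlinarith [sq_nonneg (u x)]

lemma sq_add_coF_sq {u : ℝ → ℝ} {x : ℝ} (h : u x ∈ Icc (0:ℝ) 1) :
    u x ^ 2 + coF u x ^ 2 = 1 := by
  unfold coF
  rw [Real.sq_sqrt (by nlinarith [h.1, h.2])]
  ring

/-- The quarter circle. -/
lemma integral_quarter_circle : ∫ r in (0:ℝ)..1, √(1 - r ^ 2) = π / 4 := by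
  have hc : Continuous fun r : ℝ => √(1 - r ^ 2) := by fun_prop
  have hs : ∫ r in (-1:ℝ)..0, √(1 - r ^ 2) = ∫ r in (0:ℝ)..1, √(1 - r ^ 2) := by
    have h := intervalIntegral.integral_comp_neg (a := (0:ℝ)) (b := 1) (fun r : ℝ => √(1 - r ^ 2))
    simp only [neg_sq, neg_zero] at h
    exact h.symm
  have h2 := integral_add_adjacent_intervals (μ := volume) (hc.intervalIntegrable (-1) 0)
    (hc.intervalIntegrable 0 1)
  rw [integral_sqrt_one_sub_sq, hs] at h2
  linarith

lemma integral_coF_linU {e : ℝ} (he : 0 < e) : ∫ x in (0:ℝ)..e, coF (linU e) x = π * e / 4 := by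
  have h1 : ∫ x in (0:ℝ)..e, coF (linU e) x = ∫ x in (0:ℝ)..e, √(1 - (x / e) ^ 2) :=
    integral_congr fun x hx => by
      rw [uIcc_of_le he.le] at hx
      show coF (linU e) x = √(1 - (x / e) ^ 2)
      rw [coF, linU_eq he hx]
  rw [h1, intervalIntegral.integral_comp_div (fun r => √(1 - r ^ 2)) he.ne', zero_div,
    div_self he.ne', integral_quarter_circle]
  simp only [smul_eq_mul]
  ring

/-! ### The disc field -/

lemma continuous_sq1_integrand (δ : ℝ) : Continuous fun r : ℝ => max (√(1 - r ^ 2)) δ := by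
  fun_prop

lemma hasDerivAt_sq1 (δ s : ℝ) : HasDerivAt (sq1 δ) (max (√(1 - s ^ 2)) δ) s :=
  ((continuous_sq1_integrand δ).integral_hasStrictDerivAt 0 s).hasDerivAt

lemma continuous_sq1 (δ : ℝ) : Continuous (sq1 δ) :=
  continuous_iff_continuousAt.2 fun s => (hasDerivAt_sq1 δ s).continuousAt

lemma sq1_zero (δ : ℝ) : sq1 δ 0 = 0 := by simp [sq1]

lemma strictMono_sq1 {δ : ℝ} (hδ : 0 < δ) : StrictMono (sq1 δ) :=
  strictMono_of_deriv_pos fun s => by
    rw [(hasDerivAt_sq1 δ s).deriv]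
    exact lt_max_of_lt_right hδ

lemma mul_le_sq1 {δ s : ℝ} (hs : 0 ≤ s) : δ * s ≤ sq1 δ s := by
  have h := intervalIntegral.integral_mono_on (μ := volume) hs intervalIntegrable_const
    ((continuous_sq1_integrand δ).intervalIntegrable 0 s) (fun r _ => le_max_right (√(1 - r ^ 2)) δ)
  rw [intervalIntegral.integral_const, smul_eq_mul, sub_zero, mul_comm] at h
  exact h

lemma sq1_neg (δ s : ℝ) : sq1 δ (-s) = -sq1 δ s := by
  have h := intervalIntegral.integral_comp_neg (a := (0:ℝ)) (b := s)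
    (fun r : ℝ => max (√(1 - r ^ 2)) δ)
  simp only [neg_sq, neg_zero] at h
  unfold sq1
  rw [integral_symm (-s) 0, ← h]

lemma surjective_sq1 {δ : ℝ} (hδ : 0 < δ) : Function.Surjective (sq1 δ) := by
  intro y
  obtain ⟨M, hM⟩ : ∃ M : ℝ, M = |y| / δ := ⟨_, rfl⟩
  have hM0 : 0 ≤ M := hM ▸ div_nonneg (abs_nonneg y) hδ.le
  have h1 : |y| ≤ sq1 δ M := by
    refine le_trans ?_ (mul_le_sq1 hM0)
    rw [hM, mul_div_cancel₀ _ hδ.ne']
  have h2 : y ∈ Icc (sq1 δ (-M)) (sq1 δ M) := by
    rw [sq1_neg]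
    exact abs_le.1 h1
  obtain ⟨x, -, hx⟩ := intermediate_value_Icc (by linarith) (continuous_sq1 δ).continuousOn h2
  exact ⟨x, hx⟩

lemma sq1_invFun {δ : ℝ} (hδ : 0 < δ) (y : ℝ) : sq1 δ (Function.invFun (sq1 δ) y) = y :=
  Function.invFun_eq (surjective_sq1 hδ y)

lemma invFun_sq1 {δ : ℝ} (hδ : 0 < δ) (s : ℝ) : Function.invFun (sq1 δ) (sq1 δ s) = s :=
  Function.leftInverse_invFun (strictMono_sq1 hδ).injective s

lemma continuous_invFun_sq1 {δ : ℝ} (hδ : 0 < δ) : Continuous (Function.invFun (sq1 δ)) := by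
  have hm : Monotone (Function.invFun (sq1 δ)) := by
    intro a b hab
    by_contra h
    have := strictMono_sq1 hδ (not_le.1 h)
    rw [sq1_invFun hδ, sq1_invFun hδ] at this
    linarith
  exact hm.continuous_of_surjective fun s => ⟨sq1 δ s, invFun_sq1 hδ s⟩

lemma pi_div_four_le_sq1 (δ : ℝ) : π / 4 ≤ sq1 δ 1 := by
  rw [← integral_quarter_circle]
  exact intervalIntegral.integral_mono_on zero_le_one
    ((by fun_prop : Continuous fun r : ℝ => √(1 - r ^ 2)).intervalIntegrable _ _)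
    ((continuous_sq1_integrand δ).intervalIntegrable _ _) fun r _ => le_max_left _ _

lemma discU_mem (δ q : ℝ) (φ : ℝ → ℝ) (x : ℝ) : discU δ q φ x ∈ Icc (0:ℝ) 1 :=
  ⟨le_min zero_le_one (le_max_left _ _), min_le_left _ _⟩

lemma continuous_discU {δ : ℝ} (hδ : 0 < δ) (q : ℝ) {φ : ℝ → ℝ} (hφ : Continuous φ) :
    Continuous (discU δ q φ) :=
  continuous_const.min (continuous_const.max ((continuous_invFun_sq1 hδ).comp
    (continuous_const.mul (continuous_primitive (fun a b => hφ.intervalIntegrable a b) 0))))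

namespace Quad

variable (Q : Quad)

lemma area_nonneg : 0 ≤ Q.area :=
  integral_nonneg (by norm_num) fun x _ => (Q.phi_mem x).1

lemma not_inv {x y : ℝ} (hx : x ∈ Ioo (0:ℝ) (1/2)) (hy : y ∈ Ioo (0:ℝ) (1/2)) :
    Q.phi x ≤ y ↔ Q.psi y ≤ x := by
  simpa only [not_lt] using not_congr (Q.inv x hx y hy)

lemma psi_lt_of_phi_lt {x y : ℝ} (hx : x ∈ Ioo (0:ℝ) (1/2)) (hy : y ∈ Ioo (0:ℝ) (1/2))
    (h : Q.phi x < y) : Q.psi y < x := by
  have hev : ∀ᶠ u in 𝓝[<] x, Q.phi u < y :=
    (Q.cont_phi.continuousAt.eventually (gt_mem_nhds h)).filter_mono nhdsWithin_le_nhds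
  obtain ⟨u, hu1, hu2⟩ := (hev.and (Ioo_mem_nhdsLT hx.1)).exists
  exact ((Q.not_inv ⟨hu2.1, hu2.2.trans hx.2⟩ hy).1 hu1.le).trans_lt hu2.2

lemma phi_pos_iff {x : ℝ} (hx : x ∈ Ioo (0:ℝ) (1/2)) : 0 < Q.phi x ↔ x < Q.psi 0 := by
  constructor
  · intro h
    obtain ⟨y, hy1, hy2⟩ := exists_between (lt_min h (by norm_num : (0:ℝ) < 1/2))
    obtain ⟨hy2, hy3⟩ := lt_min_iff.1 hy2
    exact ((Q.inv x hx y ⟨hy1, hy3⟩).1 hy2).trans_le
      (Q.anti_psi ⟨le_rfl, by norm_num⟩ ⟨hy1.le, hy3.le⟩ hy1.le)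
  · intro h
    have hev : ∀ᶠ y in 𝓝[>] (0:ℝ), x < Q.psi y :=
      (Q.cont_psi.continuousAt.eventually (lt_mem_nhds h)).filter_mono nhdsWithin_le_nhds
    obtain ⟨y, hy1, hy2⟩ := (hev.and (Ioo_mem_nhdsGT (by norm_num : (0:ℝ) < 1/2))).exists
    exact hy2.1.trans ((Q.inv x hx y hy2).2 hy1)

lemma phi_lt_half_iff {x : ℝ} (hx : x ∈ Ioo (0:ℝ) (1/2)) :
    Q.phi x < 1/2 ↔ Q.psi (1/2) < x := by
  constructor
  · intro h
    obtain ⟨y, hy1, hy2⟩ := exists_between h
    have hy : y ∈ Ioo (0:ℝ) (1/2) := ⟨(Q.phi_mem x).1.trans_lt hy1, hy2⟩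
    exact (Q.anti_psi ⟨hy.1.le, hy.2.le⟩ ⟨by norm_num, le_rfl⟩ hy.2.le).trans_lt
      (Q.psi_lt_of_phi_lt hx hy hy1)
  · intro h
    have hev : ∀ᶠ y in 𝓝[<] (1/2:ℝ), Q.psi y < x :=
      (Q.cont_psi.continuousAt.eventually (gt_mem_nhds h)).filter_mono nhdsWithin_le_nhds
    obtain ⟨y, hy1, hy2⟩ := (hev.and (Ioo_mem_nhdsLT (by norm_num : (0:ℝ) < 1/2))).exists
    exact ((Q.not_inv hx hy2).2 hy1.le).trans_lt hy2.2

lemma phi_eq_zero {x : ℝ} (hx : x ∈ Ioo (0:ℝ) (1/2)) (h : Q.psi 0 ≤ x) : Q.phi x = 0 := by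
  refine le_antisymm (not_lt.1 fun hp => ?_) (Q.phi_mem x).1
  exact absurd ((Q.phi_pos_iff hx).1 hp) (not_lt.2 h)

lemma phi_eq_half {x : ℝ} (hx : x ∈ Ioo (0:ℝ) (1/2)) (h : x ≤ Q.psi (1/2)) :
    Q.phi x = 1/2 := by
  refine le_antisymm (Q.phi_mem x).2 (not_lt.1 fun hp => ?_)
  exact absurd ((Q.phi_lt_half_iff hx).1 hp) (not_lt.2 h)

lemma phi_interior_iff {x : ℝ} (hx : x ∈ Ioo (0:ℝ) (1/2)) :
    Q.phi x ∈ Ioo (0:ℝ) (1/2) ↔ x ∈ Ioo (Q.psi (1/2)) (Q.psi 0) := by
  rw [mem_Ioo, mem_Ioo, Q.phi_pos_iff hx, Q.phi_lt_half_iff hx, and_comm]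

lemma psi_zero_eq_half (h : 0 < Q.phi (1/2)) : Q.psi 0 = 1/2 := by
  refine le_antisymm (Q.psi_mem 0).2 (not_lt.1 fun hp => ?_)
  obtain ⟨x, hx1, hx2⟩ := exists_between hp
  have hx : x ∈ Ioo (0:ℝ) (1/2) := ⟨(Q.psi_mem 0).1.trans_lt hx1, hx2⟩
  have := Q.phi_eq_zero hx hx1.le
  linarith [Q.anti_phi ⟨hx.1.le, hx.2.le⟩ ⟨by norm_num, le_rfl⟩ hx.2.le]

lemma phi_zero_eq_half (h : 0 < Q.psi (1/2)) : Q.phi 0 = 1/2 := Q.swap.psi_zero_eq_half h

lemma psi_half_le_zero : Q.psi (1/2) ≤ Q.psi 0 :=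
  Q.anti_psi ⟨le_rfl, by norm_num⟩ ⟨by norm_num, le_rfl⟩ (by norm_num)

/-- One half of the flux, for a coefficient depending on the abscissa only. -/
lemma half_flux {g : ℝ → ℝ} (hg : Continuous g) (hg0 : ∀ x, 0 ≤ g x) :
    (∫⁻ x in Ioo (0:ℝ) (1/2),
      if Q.phi x ∈ Ioo (0:ℝ) (1/2) then ENNReal.ofReal (g x) else 0)
    = ENNReal.ofReal (∫ x in Q.psi (1/2)..Q.psi 0, g x) := by
  have h1 : (∫⁻ x in Ioo (0:ℝ) (1/2),
        if Q.phi x ∈ Ioo (0:ℝ) (1/2) then ENNReal.ofReal (g x) else 0)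
      = ∫⁻ x in Ioo (0:ℝ) (1/2),
        (Ioo (Q.psi (1/2)) (Q.psi 0)).indicator (fun x => ENNReal.ofReal (g x)) x := by
    refine setLIntegral_congr_fun measurableSet_Ioo fun x hx => ?_
    simp only [Q.phi_interior_iff hx, indicator_apply]
  rw [h1, setLIntegral_indicator measurableSet_Ioo,
    inter_eq_left.2 (Ioo_subset_Ioo (Q.psi_mem _).1 (Q.psi_mem _).2),
    integral_of_le Q.psi_half_le_zero, ← integral_Ioc_eq_integral_Ioo.symm,
    ofReal_integral_eq_lintegral_ofReal
      ((hg.continuousOn.integrableOn_Icc).mono_set Ioo_subset_Icc_self)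
      (Eventually.of_forall hg0)]

/-- Integrals along the curve, extended to the whole side. -/
lemma integral_middle {g : ℝ → ℝ} (hg : Continuous g) (h0 : g 0 = 0) :
    ∫ x in Q.psi (1/2)..Q.psi 0, g (Q.phi x)
      = (∫ x in (0:ℝ)..(1/2), g (Q.phi x)) - Q.psi (1/2) * g (1/2) := by
  have hc : Continuous fun x => g (Q.phi x) := hg.comp Q.cont_phi
  have e1 : ∫ x in (0:ℝ)..Q.psi (1/2), g (Q.phi x) = Q.psi (1/2) * g (1/2) := by
    rw [integral_congr_Ioo_of_le (g := fun _ => g (1/2)) (Q.psi_mem _).1 (fun x hx => by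
      rw [Q.phi_eq_half ⟨hx.1, hx.2.trans_le (Q.psi_mem _).2⟩ hx.2.le])]
    simp
  have e2 : ∫ x in Q.psi 0..(1/2), g (Q.phi x) = 0 := by
    rw [integral_congr_Ioo_of_le (g := fun _ => (0:ℝ)) (Q.psi_mem _).2 (fun x hx => by
      rw [Q.phi_eq_zero ⟨(Q.psi_mem _).1.trans_lt hx.1, hx.2⟩ hx.1.le, h0])]
    simp
  rw [← e1, ← integral_add_adjacent_intervals (μ := volume) (hc.intervalIntegrable (0:ℝ) (Q.psi 0))
    (hc.intervalIntegrable _ (1/2)), e2,
    ← integral_add_adjacent_intervals (μ := volume) (hc.intervalIntegrable (0:ℝ) (Q.psi (1/2)))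
    (hc.intervalIntegrable _ (Q.psi 0))]
  ring

/-- Layer cake: a primitive integrated against `psi` is its derivative integrated against `phi`. -/
lemma layer {W w : ℝ → ℝ} (hw : Continuous w) (hw0 : ∀ x, 0 ≤ w x)
    (hW : ∀ x, HasDerivAt W (w x) x) (h0 : W 0 = 0) :
    ∫ y in (0:ℝ)..(1/2), W (Q.psi y) = ∫ x in (0:ℝ)..(1/2), w x * Q.phi x := by
  set I : Set ℝ := Ioo (0:ℝ) (1/2) with hI
  set F : ℝ → ℝ → ℝ≥0∞ := fun x y =>
    {p : ℝ × ℝ | p.1 < Q.psi p.2}.indicator (fun p => ENNReal.ofReal (w p.1)) (x, y) with hF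
  have hFm : Measurable (Function.uncurry F) := by
    rw [hF]
    exact (hw.measurable.comp measurable_fst).ennreal_ofReal.indicator
      (measurableSet_lt measurable_fst (Q.cont_psi.measurable.comp measurable_snd))
  have hWc : Continuous W := continuous_iff_continuousAt.2 fun x => (hW x).continuousAt
  have hWi : ∀ a, W a = ∫ x in (0:ℝ)..a, w x := fun a => by
    rw [integral_eq_sub_of_hasDerivAt (fun x _ => hW x) (hw.intervalIntegrable _ _), h0, sub_zero]
  have hWnn : ∀ y, 0 ≤ W (Q.psi y) := fun y => by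
    rw [hWi]
    exact integral_nonneg (Q.psi_mem y).1 fun x _ => hw0 x
  have e1 : ∀ y ∈ I, ENNReal.ofReal (W (Q.psi y)) = ∫⁻ x in I, F x y := by
    intro y _
    have : (fun x => F x y) = (Iio (Q.psi y)).indicator (fun x => ENNReal.ofReal (w x)) := by
      funext x
      simp [hF, indicator_apply]
    rw [this, setLIntegral_indicator measurableSet_Iio, hI, inter_comm, Ioo_inter_Iio,
      min_eq_right (Q.psi_mem y).2, hWi, integral_of_le (Q.psi_mem y).1,
      integral_Ioc_eq_integral_Ioo, ofReal_integral_eq_lintegral_ofReal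
        (hw.continuousOn.integrableOn_Icc.mono_set Ioo_subset_Icc_self) (Eventually.of_forall hw0)]
  have e2 : ∀ x ∈ I, (∫⁻ y in I, F x y) = ENNReal.ofReal (w x * Q.phi x) := by
    intro x hx
    have : ∀ y ∈ I, F x y = (Iio (Q.phi x)).indicator (fun _ => ENNReal.ofReal (w x)) y := by
      intro y hy
      simp [hF, indicator_apply, Q.inv x hx y hy]
    rw [setLIntegral_congr_fun measurableSet_Ioo this, setLIntegral_indicator measurableSet_Iio,
      inter_comm, Ioo_inter_Iio, min_eq_right (Q.phi_mem x).2, setLIntegral_const,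
      Real.volume_Ioo, sub_zero, ← ENNReal.ofReal_mul (hw0 x)]
  have eq : ENNReal.ofReal (∫ y in I, W (Q.psi y)) = ENNReal.ofReal (∫ x in I, w x * Q.phi x) := by
    have i1 : IntegrableOn (fun y => W (Q.psi y)) I :=
      (hWc.comp Q.cont_psi).continuousOn.integrableOn_Icc.mono_set Ioo_subset_Icc_self
    have i2 : IntegrableOn (fun x => w x * Q.phi x) I :=
      (hw.mul Q.cont_phi).continuousOn.integrableOn_Icc.mono_set Ioo_subset_Icc_self
    rw [ofReal_integral_eq_lintegral_ofReal i1 (Eventually.of_forall hWnn),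
      ofReal_integral_eq_lintegral_ofReal i2
        (Eventually.of_forall fun x => mul_nonneg (hw0 x) (Q.phi_mem x).1),
      setLIntegral_congr_fun measurableSet_Ioo e1,
      ← setLIntegral_congr_fun measurableSet_Ioo e2]
    exact (lintegral_lintegral_swap hFm.aemeasurable).symm
  rw [ENNReal.ofReal_eq_ofReal_iff (setIntegral_nonneg measurableSet_Ioo fun y _ => hWnn y)
    (setIntegral_nonneg measurableSet_Ioo fun x _ => mul_nonneg (hw0 x) (Q.phi_mem x).1)] at eq
  rw [integral_of_le (by norm_num), integral_of_le (by norm_num), integral_Ioc_eq_integral_Ioo,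
    integral_Ioc_eq_integral_Ioo]
  exact eq

/-- P7: exchanging the axes. -/
theorem flux_swap (a b : ℝ → ℝ → ℝ) :
    Q.swap.flux a b = Q.flux (fun x y => b y x) (fun x y => a y x) :=
  add_comm _ _

theorem area_swap : Q.swap.area = Q.area := by
  have h := Q.layer (W := id) (w := fun _ => 1) continuous_const (fun _ => zero_le_one)
    hasDerivAt_id rfl
  simp only [id, one_mul] at h
  exact h

/-- K: flux of a field whose components depend on the abscissa only. -/
theorem flux_eq {u v W w : ℝ → ℝ} (hu : Continuous u) (hu0 : ∀ x, 0 ≤ u x) (hv : Continuous v)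
    (hv0 : ∀ x, 0 ≤ v x) (hw : Continuous w) (hw0 : ∀ x, 0 ≤ w x)
    (hW : ∀ x, HasDerivAt W (w x) x) (h0 : W 0 = 0)
    (huW : ∀ x ∈ Icc 0 (Q.psi 0), u x = W x) :
    Q.flux (fun x _ => u x) (fun x _ => v x) =
      ENNReal.ofReal ((∫ x in (0:ℝ)..(1/2), w x * Q.phi x) - Q.phi (1/2) * W (1/2)) +
      ENNReal.ofReal (∫ x in Q.psi (1/2)..Q.psi 0, v x) := by
  have hWc : Continuous W := continuous_iff_continuousAt.2 fun x => (hW x).continuousAt
  have hmid := Q.swap.integral_middle hWc h0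
  simp only [swap] at hmid
  rw [Q.layer hw hw0 hW h0] at hmid
  show (∫⁻ y in Ioo (0:ℝ) (1/2),
      if Q.psi y ∈ Ioo (0:ℝ) (1/2) then ENNReal.ofReal (u (Q.psi y)) else 0) + _ = _
  rw [Q.half_flux hv hv0]
  congr 1
  have h := Q.swap.half_flux (g := fun y => u (Q.psi y)) (hu.comp Q.cont_psi) (fun y => hu0 _)
  simp only [swap] at h
  refine h.trans ?_
  rw [← hmid]
  congr 1
  refine integral_congr fun y hy => huW _ ?_
  rw [uIcc_of_le (show Q.phi (1/2) ≤ Q.phi 0 from Q.swap.psi_half_le_zero)] at hy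
  exact ⟨(Q.psi_mem y).1, Q.anti_psi ⟨le_rfl, by norm_num⟩
    ⟨(Q.phi_mem _).1.trans hy.1, hy.2.trans (Q.phi_mem _).2⟩ ((Q.phi_mem _).1.trans hy.1)⟩

/-- P1: a slice without wrapping beats the disc. -/
theorem flux_disc (h1 : Q.phi (1/2) = 0) (h2 : Q.psi (1/2) = 0) (hq : 0 < Q.area) {δ : ℝ}
    (hδ : 0 < δ) :
    ENNReal.ofReal (√(π * Q.area) - δ) ≤
      Q.flux (fun x _ => discU δ Q.area Q.phi x)
        (fun x _ => coF (discU δ Q.area Q.phi) x) := by
  set q := Q.area with hqd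
  set k := π / (4 * q) with hk
  have hk0 : 0 < k := div_pos pi_pos (by linarith)
  set I0 := fun x => ∫ s in (0:ℝ)..x, Q.phi s with hI0
  set W := fun x => Function.invFun (sq1 δ) (k * I0 x) with hWd
  set w := fun x => (max (√(1 - W x ^ 2)) δ)⁻¹ * (k * Q.phi x) with hwd
  have hI : ∀ x, HasDerivAt I0 (Q.phi x) x := fun x =>
    (Q.cont_phi.integral_hasStrictDerivAt 0 x).hasDerivAt
  have hI0c : Continuous I0 := continuous_iff_continuousAt.2 fun x => (hI x).continuousAt
  have hWc : Continuous W := (continuous_invFun_sq1 hδ).comp (continuous_const.mul hI0c)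
  have hmax : ∀ x, 0 < max (√(1 - W x ^ 2)) δ := fun x => lt_max_of_lt_right hδ
  have hw : Continuous w :=
    ((by fun_prop : Continuous fun x => max (√(1 - W x ^ 2)) δ).inv₀ fun x => (hmax x).ne').mul
      (continuous_const.mul Q.cont_phi)
  have hw0 : ∀ x, 0 ≤ w x := fun x =>
    mul_nonneg (inv_nonneg.2 (hmax x).le) (mul_nonneg hk0.le (Q.phi_mem x).1)
  have hW : ∀ x, HasDerivAt W (w x) x := by
    intro x
    have hinv : HasDerivAt (Function.invFun (sq1 δ)) (max (√(1 - W x ^ 2)) δ)⁻¹ (k * I0 x) :=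
      HasDerivAt.of_local_left_inverse (continuous_invFun_sq1 hδ).continuousAt
        (hasDerivAt_sq1 δ _) (hmax x).ne' (Eventually.of_forall (sq1_invFun hδ))
    exact hinv.comp x ((hI x).const_mul k)
  have h0 : W 0 = 0 := by
    have : k * I0 0 = sq1 δ 0 := by simp [hI0, sq1_zero]
    simp only [hWd, this, invFun_sq1 hδ]
  have hu : ∀ x ∈ Icc (0:ℝ) (1/2), discU δ q Q.phi x = W x := by
    intro x hx
    have hmono : ∀ a b, a ≤ b → W a ≤ W b := fun a b hab =>
      monotone_of_hasDerivAt_nonneg hW hw0 hab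
    have hW0 : 0 ≤ W x := h0 ▸ hmono 0 x hx.1
    have hW1 : W x ≤ 1 := by
      refine (hmono x (1/2) hx.2).trans (not_lt.1 fun h => ?_)
      have h' := strictMono_sq1 hδ h
      rw [sq1_invFun hδ] at h'
      have : k * I0 (1/2) = π / 4 := by
        show π / (4 * q) * Q.area = π / 4
        rw [← hqd]
        field_simp
      linarith [pi_div_four_le_sq1 δ]
    show min 1 (max 0 (W x)) = W x
    rw [max_eq_right hW0, min_eq_right hW1]
  set u := discU δ q Q.phi with hud
  have huc : Continuous u := continuous_discU hδ q Q.cont_phi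
  rw [Q.flux_eq huc (fun x => (discU_mem δ q Q.phi x).1) (continuous_coF huc)
    (fun x => coF_nonneg u x) hw hw0 hW h0
    (fun x hx => hu x ⟨hx.1, hx.2.trans (Q.psi_mem 0).2⟩), h1, zero_mul, sub_zero, h2]
  refine le_trans (ENNReal.ofReal_le_ofReal ?_) ENNReal.ofReal_add_le
  set e := Q.psi 0 with hed
  have he : 0 ≤ e ∧ e ≤ 1/2 := Q.psi_mem 0
  have hcw : Continuous fun x => w x * Q.phi x := hw.mul Q.cont_phi
  have hpt : ∀ x ∈ Icc 0 e, 2 * √k * Q.phi x - δ ≤ w x * Q.phi x + coF u x := by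
    intro x hx
    have hxI : x ∈ Icc (0:ℝ) (1/2) := ⟨hx.1, hx.2.trans he.2⟩
    have hco : coF u x = √(1 - W x ^ 2) := by rw [coF, hu x hxI]
    rw [hco]
    set m := max (√(1 - W x ^ 2)) δ with hm
    have hm0 : 0 < m := hmax x
    have hsq : √k ^ 2 = k := Real.sq_sqrt hk0.le
    have hamgm : 2 * √k * Q.phi x ≤ w x * Q.phi x + m := by
      have e : w x * Q.phi x + m - 2 * √k * Q.phi x = (√k * Q.phi x - m) ^ 2 / m := by
        simp only [hwd]
        rw [← hm]
        field_simp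
        linear_combination (-(Q.phi x ^ 2)) * hsq
      linarith [div_nonneg (sq_nonneg (√k * Q.phi x - m)) hm0.le]
    have hm2 : m ≤ √(1 - W x ^ 2) + δ :=
      max_le (by linarith) (by linarith [Real.sqrt_nonneg (1 - W x ^ 2)])
    linarith
  have hint : ∫ x in (0:ℝ)..e, Q.phi x = q := by
    have h := Q.integral_middle continuous_id rfl
    rw [h2, zero_mul, sub_zero] at h
    exact h
  have hA : Continuous fun x => 2 * √k * Q.phi x := continuous_const.mul Q.cont_phi
  have hA' : Continuous fun x => 2 * √k * Q.phi x - δ := hA.sub continuous_const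
  have hB : Continuous fun x => w x * Q.phi x + coF u x := hcw.add (continuous_coF huc)
  have hmono := intervalIntegral.integral_mono_on (μ := volume) he.1
    (hA'.intervalIntegrable _ _) (hB.intervalIntegrable _ _) hpt
  rw [intervalIntegral.integral_sub (hA.intervalIntegrable _ _) intervalIntegrable_const,
    intervalIntegral.integral_const_mul, intervalIntegral.integral_const, hint,
    intervalIntegral.integral_add (hcw.intervalIntegrable _ _)
      ((continuous_coF huc).intervalIntegrable _ _), sub_zero, smul_eq_mul] at hmono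
  have hext : ∫ x in (0:ℝ)..e, w x * Q.phi x ≤ ∫ x in (0:ℝ)..(1/2), w x * Q.phi x := by
    rw [← integral_add_adjacent_intervals (μ := volume) (hcw.intervalIntegrable 0 e)
      (hcw.intervalIntegrable e (1/2))]
    have := integral_nonneg (μ := volume) he.2 fun x _ => mul_nonneg (hw0 x) (Q.phi_mem x).1
    linarith
  have hkey : 2 * √k * q = √(π * q) := by
    have : π * q = (2 * √k * q) ^ 2 := by
      rw [mul_pow, mul_pow, Real.sq_sqrt hk0.le, hk]
      field_simp
      norm_num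
    rw [this, Real.sqrt_sq (by positivity)]
  nlinarith [he.2, hδ]

/-- P2: a slice without wrapping, of extent `e` along the first axis. -/
theorem flux_stadium (h1 : Q.phi (1/2) = 0) (h2 : Q.psi (1/2) = 0) (he : 0 < Q.psi 0) :
    ENNReal.ofReal (π * Q.psi 0 / 4 + Q.area / Q.psi 0) ≤
      Q.flux (fun x _ => linU (Q.psi 0) x) (fun x _ => coF (linU (Q.psi 0)) x) := by
  set e := Q.psi 0 with hed
  rw [Q.flux_eq (continuous_linU e) (fun x => (linU_mem e x).1)
    (continuous_coF (continuous_linU e)) (fun x => coF_nonneg _ x)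
    (W := fun x => x / e) (w := fun _ => 1 / e) continuous_const (fun _ => by positivity)
    (fun x => (hasDerivAt_id x).div_const e) (zero_div e) (fun x hx => linU_eq he hx), h1,
    zero_mul, sub_zero, h2, integral_coF_linU he, intervalIntegral.integral_const_mul]
  refine le_trans (ENNReal.ofReal_le_ofReal ?_) ENNReal.ofReal_add_le
  rw [one_div, inv_mul_eq_div, add_comm]
  exact le_rfl

/-- P3: a slice wrapping along the first axis only, with arms of thickness at most `b`. -/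
theorem flux_arc (h2 : Q.psi (1/2) = 0) (hpos : 0 < Q.phi (1/2)) {b : ℝ} (hb : Q.phi (1/2) ≤ b)
    {R : ℝ} (hR : 1/2 ≤ R) :
    ENNReal.ofReal ((∫ x in (0:ℝ)..(1/2), √(1 - (x / R) ^ 2)) + (Q.area - b / 2) / R) ≤
      Q.flux (fun x _ => linU R x) (fun x _ => coF (linU R) x) := by
  have hR0 : 0 < R := by linarith
  have he : Q.psi 0 = 1/2 := Q.psi_zero_eq_half hpos
  rw [Q.flux_eq (continuous_linU R) (fun x => (linU_mem R x).1)
    (continuous_coF (continuous_linU R)) (fun x => coF_nonneg _ x)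
    (W := fun x => x / R) (w := fun _ => 1 / R) continuous_const (fun _ => by positivity)
    (fun x => (hasDerivAt_id x).div_const R) (zero_div R)
    (fun x hx => linU_eq hR0 ⟨hx.1, by linarith [hx.2]⟩), h2, he,
    intervalIntegral.integral_const_mul]
  have hco : ∫ x in (0:ℝ)..(1/2), coF (linU R) x = ∫ x in (0:ℝ)..(1/2), √(1 - (x / R) ^ 2) :=
    integral_congr fun x hx => by
      rw [uIcc_of_le (by norm_num)] at hx
      show coF (linU R) x = √(1 - (x / R) ^ 2)
      rw [coF, linU_eq hR0 ⟨hx.1, hx.2.trans hR⟩]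
  rw [hco]
  refine le_trans (ENNReal.ofReal_le_ofReal ?_) ENNReal.ofReal_add_le
  show _ ≤ 1 / R * Q.area - Q.phi (1/2) * (1 / 2 / R) + _
  have h3 : Q.phi (1/2) * (1 / 2 / R) ≤ b * (1 / 2 / R) :=
    mul_le_mul_of_nonneg_right hb (by positivity)
  have h4 : (Q.area - b / 2) / R = 1 / R * Q.area - b * (1 / 2 / R) := by field_simp
  linarith

/-- Flux of a constant field: the two projections of the curve. -/
theorem flux_const {c d : ℝ} (hc : 0 ≤ c) (hd : 0 ≤ d) :
    Q.flux (fun _ _ => c) (fun _ _ => d) =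
      ENNReal.ofReal (c * (Q.phi 0 - Q.phi (1/2))) +
      ENNReal.ofReal (d * (Q.psi 0 - Q.psi (1/2))) := by
  show _ + _ = _
  congr 1
  · have h := Q.swap.half_flux (g := fun _ => c) continuous_const (fun _ => hc)
    simp only [swap] at h
    refine h.trans ?_
    simp [mul_comm]
  · rw [Q.half_flux (g := fun _ => d) continuous_const (fun _ => hd)]
    simp [mul_comm]

/-- P4: a slice wrapping along the first axis only. -/
theorem flux_single (hpos : 0 < Q.phi (1/2)) (h2 : Q.psi (1/2) = 0) :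
    ENNReal.ofReal (1/2) ≤ Q.flux (fun _ _ => 0) (fun _ _ => 1) := by
  rw [Q.flux_const le_rfl zero_le_one, Q.psi_zero_eq_half hpos, h2]
  simp

/-- P5: a cross, diagonal field. -/
theorem flux_cross_diag (h1 : 0 < Q.phi (1/2)) (h2 : 0 < Q.psi (1/2)) {c : ℝ} (hc : 0 ≤ c) :
    ENNReal.ofReal (c * ((1/2 - Q.psi (1/2)) + (1/2 - Q.phi (1/2)))) ≤
      Q.flux (fun _ _ => c) (fun _ _ => c) := by
  rw [Q.flux_const hc hc, Q.psi_zero_eq_half h1, Q.phi_zero_eq_half h2]
  refine le_trans (le_of_eq ?_) ENNReal.ofReal_add_le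
  congr 1
  ring

/-- P5: a cross, horizontal field. -/
theorem flux_cross_side (h2 : 0 < Q.psi (1/2)) :
    ENNReal.ofReal (1/2 - Q.phi (1/2)) ≤ Q.flux (fun _ _ => 1) (fun _ _ => 0) := by
  rw [Q.flux_const zero_le_one le_rfl, Q.phi_zero_eq_half h2]
  simp

/-! ### The complementary slice -/

lemma mirror_mem {x : ℝ} (hx : x ∈ Ioo (0:ℝ) (1/2)) : 1/2 - x ∈ Ioo (0:ℝ) (1/2) :=
  ⟨by linarith [hx.2], by linarith [hx.1]⟩

/-- The complement of the slice, seen from the opposite corner. -/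
def compl : Quad where
  phi x := 1/2 - Q.phi (1/2 - x)
  psi y := 1/2 - Q.psi (1/2 - y)
  cont_phi := continuous_const.sub (Q.cont_phi.comp (continuous_const.sub continuous_id))
  cont_psi := continuous_const.sub (Q.cont_psi.comp (continuous_const.sub continuous_id))
  anti_phi := fun x hx y hy hxy => by
    linarith [Q.anti_phi (a := 1/2 - y) (b := 1/2 - x) ⟨by linarith [hy.2], by linarith [hy.1]⟩
      ⟨by linarith [hx.2], by linarith [hx.1]⟩ (by linarith)]
  anti_psi := fun x hx y hy hxy => by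
    linarith [Q.anti_psi (a := 1/2 - y) (b := 1/2 - x) ⟨by linarith [hy.2], by linarith [hy.1]⟩
      ⟨by linarith [hx.2], by linarith [hx.1]⟩ (by linarith)]
  phi_mem := fun x => ⟨by linarith [(Q.phi_mem (1/2 - x)).2], by linarith [(Q.phi_mem (1/2 - x)).1]⟩
  psi_mem := fun y => ⟨by linarith [(Q.psi_mem (1/2 - y)).2], by linarith [(Q.psi_mem (1/2 - y)).1]⟩
  inv := fun x hx y hy => by
    have hx' := mirror_mem hx
    have hy' := mirror_mem hy
    constructor
    · intro h
      linarith [Q.psi_lt_of_phi_lt hx' hy' (by linarith)]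
    · intro h
      have := Q.swap.psi_lt_of_phi_lt hy' hx' (show Q.psi (1/2 - y) < 1/2 - x by linarith)
      linarith [show Q.phi (1/2 - x) < 1/2 - y from this]

lemma compl_phi_half : Q.compl.phi (1/2) = 1/2 - Q.phi 0 := by
  simp [compl]

lemma compl_psi_half : Q.compl.psi (1/2) = 1/2 - Q.psi 0 := by
  simp [compl]

lemma compl_psi_zero : Q.compl.psi 0 = 1/2 - Q.psi (1/2) := by
  simp [compl]

/-- P6: the area of the complement. -/
theorem area_compl : Q.compl.area = 1/4 - Q.area := by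
  show ∫ x in (0:ℝ)..(1/2), (1/2 - Q.phi (1/2 - x)) = _
  have hc : Continuous fun x => Q.phi (1/2 - x) :=
    Q.cont_phi.comp (continuous_const.sub continuous_id)
  rw [intervalIntegral.integral_sub intervalIntegrable_const (hc.intervalIntegrable _ _),
    intervalIntegral.integral_comp_sub_left Q.phi (1/2), intervalIntegral.integral_const]
  simp only [sub_self, sub_zero, smul_eq_mul, area]
  norm_num

lemma lintegral_mirror (G : ℝ → ℝ≥0∞) :
    ∫⁻ x in Ioo (0:ℝ) (1/2), G (1/2 - x) = ∫⁻ x in Ioo (0:ℝ) (1/2), G x := by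
  have hmp : MeasurePreserving (fun x : ℝ => 1/2 - x) volume volume :=
    Measure.measurePreserving_sub_left volume (1/2)
  have hemb : MeasurableEmbedding (fun x : ℝ => 1/2 - x) :=
    (Homeomorph.subLeft (1/2 : ℝ)).measurableEmbedding
  have h := hmp.setLIntegral_comp_preimage_emb hemb G (Ioo (0:ℝ) (1/2))
  rw [preimage_const_sub_Ioo, sub_self, sub_zero] at h
  exact h

lemma mirror_mem_iff (v : ℝ) : 1/2 - v ∈ Ioo (0:ℝ) (1/2) ↔ v ∈ Ioo (0:ℝ) (1/2) := by
  constructor
  · intro h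
    simpa using mirror_mem h
  · exact mirror_mem

/-- P6: fluxes through the complement are fluxes through the slice. -/
theorem flux_compl (a b : ℝ → ℝ → ℝ) :
    Q.compl.flux a b =
      Q.flux (fun x y => a (1/2 - x) (1/2 - y)) (fun x y => b (1/2 - x) (1/2 - y)) := by
  show _ + _ = _ + _
  congr 1
  · refine (lintegral_mirror _).symm.trans (setLIntegral_congr_fun measurableSet_Ioo fun y _ => ?_)
    simp only [compl, sub_sub_cancel, mirror_mem_iff]
  · refine (lintegral_mirror _).symm.trans (setLIntegral_congr_fun measurableSet_Ioo fun x _ => ?_)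
    simp only [compl, sub_sub_cancel, mirror_mem_iff]

/-- P6: a cross beats the disc of the complementary area. -/
theorem flux_cross_disc (h1 : 0 < Q.phi (1/2)) (h2 : 0 < Q.psi (1/2)) (hq : Q.area < 1/4) {δ : ℝ}
    (hδ : 0 < δ) :
    ENNReal.ofReal (√(π * (1/4 - Q.area)) - δ) ≤
      Q.flux (fun x _ => discU δ Q.compl.area Q.compl.phi (1/2 - x))
        (fun x _ => coF (discU δ Q.compl.area Q.compl.phi) (1/2 - x)) := by
  have h := Q.compl.flux_disc (by rw [compl_phi_half, Q.phi_zero_eq_half h2, sub_self])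
    (by rw [compl_psi_half, Q.psi_zero_eq_half h1, sub_self])
    (by rw [area_compl]; linarith) hδ
  rw [flux_compl] at h
  rw [← area_compl]
  exact h

/-- P6: a cross beats the stadium in the complementary area. -/
theorem flux_cross_stadium (h1 : 0 < Q.phi (1/2)) (h2 : 0 < Q.psi (1/2))
    (he : Q.psi (1/2) < 1/2) :
    ENNReal.ofReal (π * (1/2 - Q.psi (1/2)) / 4 + (1/4 - Q.area) / (1/2 - Q.psi (1/2))) ≤
      Q.flux (fun x _ => linU (1/2 - Q.psi (1/2)) (1/2 - x))
        (fun x _ => coF (linU (1/2 - Q.psi (1/2))) (1/2 - x)) := by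
  have h := Q.compl.flux_stadium (by rw [compl_phi_half, Q.phi_zero_eq_half h2, sub_self])
    (by rw [compl_psi_half, Q.psi_zero_eq_half h1, sub_self])
    (by rw [compl_psi_zero]; linarith)
  rw [flux_compl, area_compl, compl_psi_zero] at h
  exact h

end Quad

end

end Vale.P232
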