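import Vale.Agent.P232.Root

/-!
P232: a monotone planar slice, seen in one quarter, and fluxes of fields through its boundary.
-/

open MeasureTheory Set Real
open scoped ENNReal

namespace Vale.P232

noncomputable section

/-- A slice restricted to the quarter `[0,1/2]²`: `phi` and `psi` are the two extents. -/
structure Quad where
  phi : ℝ → ℝ
  psi : ℝ → ℝ
  cont_phi : Continuous phi
  cont_psi : Continuous psi
  anti_phi : AntitoneOn phi (Icc 0 (1/2))
  anti_psi : AntitoneOn psi (Icc 0 (1/2))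
  phi_mem : ∀ x, phi x ∈ Icc (0:ℝ) (1/2)
  psi_mem : ∀ y, psi y ∈ Icc (0:ℝ) (1/2)
  inv : ∀ x ∈ Ioo (0:ℝ) (1/2), ∀ y ∈ Ioo (0:ℝ) (1/2), (y < phi x ↔ x < psi y)

namespace Quad

/-- Exchange the axes. -/
def swap (Q : Quad) : Quad where
  phi := Q.psi
  psi := Q.phi
  cont_phi := Q.cont_psi
  cont_psi := Q.cont_phi
  anti_phi := Q.anti_psi
  anti_psi := Q.anti_phi
  phi_mem := Q.psi_mem
  psi_mem := Q.phi_mem
  inv := fun x hx y hy => (Q.inv y hy x hx).symm

/-- Area of the slice in the quarter. -/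
def area (Q : Quad) : ℝ := ∫ x in (0:ℝ)..(1/2), Q.phi x

/-- Flux of the field `(a,b)` through the boundary in the open quarter. -/
def flux (Q : Quad) (a b : ℝ → ℝ → ℝ) : ℝ≥0∞ :=
  (∫⁻ y in Ioo (0:ℝ) (1/2),
      if Q.psi y ∈ Ioo (0:ℝ) (1/2) then ENNReal.ofReal (a (Q.psi y) y) else 0)
  + ∫⁻ x in Ioo (0:ℝ) (1/2),
      if Q.phi x ∈ Ioo (0:ℝ) (1/2) then ENNReal.ofReal (b x (Q.phi x)) else 0

end Quad

/-- Vertical component of the field with horizontal component `u`. -/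
def coF (u : ℝ → ℝ) (x : ℝ) : ℝ := Real.sqrt (1 - u x ^ 2)

/-- `Phi_δ(s) = ∫_0^s max (√(1-r²)) δ`. -/
def sq1 (δ s : ℝ) : ℝ := ∫ r in (0:ℝ)..s, max (Real.sqrt (1 - r ^ 2)) δ

/-- The horizontal component of the field calibrating a disc, for the profile `φ`. -/
def discU (δ q : ℝ) (φ : ℝ → ℝ) (x : ℝ) : ℝ :=
  min 1 (max 0 (Function.invFun (sq1 δ) (π / (4 * q) * ∫ s in (0:ℝ)..x, φ s)))

end

end Vale.P232
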