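import Vale.Agent.P232.Planar

/-!
P232, module L: slices without wrapping whose disc fluxes tend to the disc value tend to a disc.
-/

open MeasureTheory Set Real Filter Topology intervalIntegral
open scoped ENNReal

namespace Vale.P232

noncomputable section

/-! ### The primitive of the quarter circle -/

lemma sq1_zero_apply (s : ℝ) : sq1 0 s = ∫ r in (0:ℝ)..s, √(1 - r ^ 2) := by
  unfold sq1
  exact integral_congr fun r _ => max_eq_left (Real.sqrt_nonneg _)

lemma sq1_zero_one : sq1 0 1 = π / 4 := by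
  rw [sq1_zero_apply, integral_quarter_circle]

lemma monotone_sq1_zero : Monotone (sq1 0) :=
  monotone_of_hasDerivAt_nonneg (hasDerivAt_sq1 0) fun _ => le_max_right _ _

lemma strictMonoOn_sq1_zero : StrictMonoOn (sq1 0) (Icc (0:ℝ) 1) := by
  refine strictMonoOn_of_deriv_pos (convex_Icc 0 1) (continuous_sq1 0).continuousOn fun s hs => ?_
  rw [interior_Icc] at hs
  rw [(hasDerivAt_sq1 0 s).deriv]
  exact lt_max_of_lt_left (Real.sqrt_pos.2 (by nlinarith [hs.1, hs.2]))

lemma sq1_zero_le_sq1 {δ s : ℝ} (hδ : 0 ≤ δ) (hs : 0 ≤ s) : sq1 0 s ≤ sq1 δ s :=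
  intervalIntegral.integral_mono_on hs ((continuous_sq1_integrand 0).intervalIntegrable _ _)
    ((continuous_sq1_integrand δ).intervalIntegrable _ _) fun _ _ => max_le_max le_rfl hδ

lemma sq1_le_sq1_zero_add {δ s : ℝ} (hδ : 0 ≤ δ) (hs : 0 ≤ s) :
    sq1 δ s ≤ sq1 0 s + δ * s := by
  have hc : Continuous fun r : ℝ => max (√(1 - r ^ 2)) 0 + δ :=
    (continuous_sq1_integrand 0).add continuous_const
  have h := intervalIntegral.integral_mono_on (μ := volume) hs
    ((continuous_sq1_integrand δ).intervalIntegrable 0 s) (hc.intervalIntegrable 0 s)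
    (fun r _ => max_le (by linarith [le_max_left (√(1 - r ^ 2)) 0])
      (by linarith [le_max_right (√(1 - r ^ 2)) 0]))
  rw [intervalIntegral.integral_add ((continuous_sq1_integrand 0).intervalIntegrable 0 s)
    intervalIntegrable_const, intervalIntegral.integral_const, smul_eq_mul, sub_zero, mul_comm] at h
  exact h

/-- Inverse limit: preimages under `sq1 δₙ` converge when the images do. -/
lemma exists_tendsto_of_sq1 {δ s : ℕ → ℝ} (hδ0 : ∀ n, 0 < δ n) (hδ : Tendsto δ atTop (𝓝 0))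
    (hs : ∀ n, s n ∈ Icc (0:ℝ) 1) {L : ℝ}
    (h : Tendsto (fun n => sq1 (δ n) (s n)) atTop (𝓝 L)) :
    ∃ W ∈ Icc (0:ℝ) 1, sq1 0 W = L ∧ Tendsto s atTop (𝓝 W) := by
  have hG : Tendsto (fun n => sq1 0 (s n)) atTop (𝓝 L) := by
    have hlo : Tendsto (fun n => sq1 (δ n) (s n) - δ n) atTop (𝓝 L) := by
      simpa using h.sub hδ
    refine tendsto_of_tendsto_of_tendsto_of_le_of_le hlo h (fun n => ?_)
      (fun n => sq1_zero_le_sq1 (hδ0 n).le (hs n).1)
    have h1 := sq1_le_sq1_zero_add (hδ0 n).le (hs n).1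
    have h2 := mul_le_of_le_one_right (hδ0 n).le (hs n).2
    show sq1 (δ n) (s n) - δ n ≤ sq1 0 (s n)
    linarith
  obtain ⟨W, hW, hWL⟩ := (isCompact_Icc.image (continuous_sq1 0)).isClosed.mem_of_tendsto hG
    (Eventually.of_forall fun n => mem_image_of_mem _ (hs n))
  refine ⟨W, hW, hWL, tendsto_order.2 ⟨fun a ha => ?_, fun a ha => ?_⟩⟩
  · rcases lt_or_ge a 0 with ha0 | ha0
    · exact Eventually.of_forall fun n => ha0.trans_le (hs n).1
    · have hlt : sq1 0 a < L := hWL ▸ strictMonoOn_sq1_zero ⟨ha0, ha.le.trans hW.2⟩ hW ha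
      exact (hG.eventually (lt_mem_nhds hlt)).mono fun n hn => monotone_sq1_zero.reflect_lt hn
  · rcases lt_or_ge 1 a with ha1 | ha1
    · exact Eventually.of_forall fun n => (hs n).2.trans_lt ha1
    · have hlt : L < sq1 0 a := hWL ▸ strictMonoOn_sq1_zero hW ⟨hW.1.trans ha.le, ha1⟩ ha
      exact (hG.eventually (gt_mem_nhds hlt)).mono fun n hn => monotone_sq1_zero.reflect_lt hn

/-- The quarter circle of radius `1/c`, integrated. -/
lemma mul_integral_sqrt_one_sub_mul_sq {c : ℝ} (hc : c ≠ 0) (x : ℝ) :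
    c * ∫ s in (0:ℝ)..x, √(1 - (c * s) ^ 2) = sq1 0 (c * x) := by
  rw [sq1_zero_apply, intervalIntegral.integral_comp_mul_left (fun r => √(1 - r ^ 2)) hc,
    smul_eq_mul, mul_zero, ← mul_assoc, mul_inv_cancel₀ hc, one_mul]

/-- A continuous function starting nonpositive whose increments have nonpositive density where it
is positive stays nonpositive. -/
lemma nonpos_of_density {D g : ℝ → ℝ} {b : ℝ} (hb : 0 ≤ b) (hD : ContinuousOn D (Icc 0 b))
    (h0 : D 0 ≤ 0) (hint : ∀ a ∈ Icc 0 b, D b - D a = ∫ s in a..b, g s)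
    (hg : ∀ᵐ s ∂(volume.restrict (Ioo 0 b)), 0 < D s → g s ≤ 0) : D b ≤ 0 := by
  have hS : IsCompact (Icc 0 b ∩ D ⁻¹' Iic 0) :=
    isCompact_Icc.of_isClosed_subset (hD.preimage_isClosed_of_isClosed isClosed_Icc isClosed_Iic)
      inter_subset_left
  obtain ⟨a, ⟨ha, haD⟩, hamax⟩ := hS.exists_isGreatest ⟨0, ⟨le_rfl, hb⟩, h0⟩
  have hpos : ∀ s ∈ Ioo a b, 0 < D s := fun s hs => not_le.1 fun h =>
    not_le.2 hs.1 (hamax ⟨⟨ha.1.trans hs.1.le, hs.2.le⟩, h⟩)
  have hae : ∀ᵐ s ∂(volume.restrict (Ioo a b)), g s ≤ 0 := by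
    filter_upwards [ae_restrict_of_ae_restrict_of_subset (Ioo_subset_Ioo_left ha.1) hg,
      ae_restrict_mem measurableSet_Ioo] with s h1 h2 using h1 (hpos s h2)
  have hle : ∫ s in a..b, g s ≤ 0 := by
    rw [integral_of_le ha.2, integral_Ioc_eq_integral_Ioo]
    exact MeasureTheory.integral_nonpos_of_ae hae
  have := hint a ha
  have haD' : D a ≤ 0 := haD
  linarith

/-- A profile with `k ∫₀ˣ φ = G (W x)` and `√k φ = √(1 - W²)` has `k ∫₀ˣ φ = G (√k x)`. -/
lemma primitive_unique {k : ℝ} (hk : 0 < k) {φ W : ℝ → ℝ}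
    (hφ : IntervalIntegrable φ volume 0 (1/2))
    (hW : ∀ x ∈ Icc (0:ℝ) (1/2), W x ∈ Icc (0:ℝ) 1 ∧ sq1 0 (W x) = k * ∫ s in (0:ℝ)..x, φ s)
    (hae : ∀ᵐ x ∂(volume.restrict (Ioo (0:ℝ) (1/2))), √k * φ x = √(1 - W x ^ 2))
    {x : ℝ} (hx : x ∈ Icc (0:ℝ) (1/2)) :
    k * ∫ s in (0:ℝ)..x, φ s = sq1 0 (√k * x) := by
  set D := fun x => k * (∫ s in (0:ℝ)..x, φ s) - sq1 0 (√k * x) with hD
  set g := fun s => k * φ s - √k * √(1 - (√k * s) ^ 2) with hg
  have hsk : 0 < √k := Real.sqrt_pos.2 hk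
  have hcont : ContinuousOn D (Icc 0 (1/2)) := by
    have h1 : ContinuousOn (fun x => ∫ s in (0:ℝ)..x, φ s) (Icc 0 (1/2)) := by
      have h := intervalIntegral.continuousOn_primitive_interval' hφ left_mem_uIcc
      rwa [uIcc_of_le (by norm_num)] at h
    exact (continuousOn_const.mul h1).sub
      ((continuous_sq1 0).comp (continuous_const.mul continuous_id)).continuousOn
  have hc2 : Continuous fun s : ℝ => √(1 - (√k * s) ^ 2) := by fun_prop
  have hsub : ∀ a ∈ Icc (0:ℝ) x, D x - D a = ∫ s in a..x, g s := by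
    intro a ha
    have i1 : IntervalIntegrable φ volume 0 a := hφ.mono_set (by
      rw [uIcc_of_le ha.1, uIcc_of_le (by norm_num)]
      exact Icc_subset_Icc_right (ha.2.trans hx.2))
    have i2 : IntervalIntegrable φ volume a x := hφ.mono_set (by
      rw [uIcc_of_le ha.2, uIcc_of_le (by norm_num)]
      exact Icc_subset_Icc ha.1 hx.2)
    simp only [hD, hg]
    rw [intervalIntegral.integral_sub (i2.const_mul k)
      ((hc2.intervalIntegrable a x).const_mul √k), intervalIntegral.integral_const_mul,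
      intervalIntegral.integral_const_mul, ← mul_integral_sqrt_one_sub_mul_sq hsk.ne' x,
      ← mul_integral_sqrt_one_sub_mul_sq hsk.ne' a,
      ← integral_add_adjacent_intervals i1 i2,
      ← integral_add_adjacent_intervals (μ := volume) (hc2.intervalIntegrable 0 a)
        (hc2.intervalIntegrable a x)]
    ring
  have hD0 : D 0 = 0 := by simp [hD, sq1_zero]
  have hcontx : ContinuousOn D (Icc 0 x) := hcont.mono (Icc_subset_Icc_right hx.2)
  have haeq : ∀ᵐ s ∂(volume.restrict (Ioo (0:ℝ) x)),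
      (0 < D s → g s ≤ 0) ∧ (0 < -D s → -g s ≤ 0) := by
    filter_upwards [ae_restrict_of_ae_restrict_of_subset (Ioo_subset_Ioo_right hx.2) hae,
      ae_restrict_mem measurableSet_Ioo] with s hs hs2
    obtain ⟨hWs, hWeq⟩ := hW s ⟨hs2.1.le, hs2.2.le.trans hx.2⟩
    have hks : 0 ≤ √k * s := mul_nonneg hsk.le hs2.1.le
    have hgs : g s = √k * (√(1 - W s ^ 2) - √(1 - (√k * s) ^ 2)) := by
      simp only [hg]
      rw [← hs, mul_sub, ← mul_assoc, Real.mul_self_sqrt hk.le]
    constructor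
    · intro h
      have hlt : √k * s < W s := monotone_sq1_zero.reflect_lt (by
        rw [hWeq]; simpa [hD] using h)
      rw [hgs]
      exact mul_nonpos_of_nonneg_of_nonpos hsk.le (sub_nonpos.2 (Real.sqrt_le_sqrt
        (by nlinarith)))
    · intro h
      have hlt : W s < √k * s := monotone_sq1_zero.reflect_lt (by
        rw [hWeq]; simpa [hD] using h)
      rw [hgs, neg_nonpos]
      exact mul_nonneg hsk.le (sub_nonneg.2 (Real.sqrt_le_sqrt (by nlinarith [hWs.1])))
  have h1 := nonpos_of_density hx.1 hcontx hD0.le hsub (haeq.mono fun _ h => h.1)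
  have h2 := nonpos_of_density (D := fun s => -D s) (g := fun s => -g s) hx.1 hcontx.neg
    (by simp [hD0]) (fun a ha => by rw [intervalIntegral.integral_neg, ← hsub a ha]; ring)
    (haeq.mono fun _ h => h.2)
  simp only [hD] at h1 h2
  linarith

namespace Quad

variable (Q : Quad)

lemma integral_extent (h2 : Q.psi (1/2) = 0) : ∫ x in (0:ℝ)..Q.psi 0, Q.phi x = Q.area := by
  have h := Q.integral_middle continuous_id rfl
  rw [h2, zero_mul, sub_zero] at h
  exact h

lemma integral_eq_area {x : ℝ} (hx : x ∈ Icc (Q.psi 0) (1/2)) :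
    ∫ s in (0:ℝ)..x, Q.phi s = Q.area := by
  have hz : ∫ s in x..(1/2), Q.phi s = 0 := by
    rw [integral_congr_Ioo_of_le (g := fun _ => (0:ℝ)) hx.2 (fun s hs => Q.phi_eq_zero
      ⟨((Q.psi_mem 0).1.trans hx.1).trans_lt hs.1, hs.2⟩ (hx.1.trans hs.1.le))]
    simp
  have h := integral_add_adjacent_intervals (μ := volume) (Q.cont_phi.intervalIntegrable 0 x)
    (Q.cont_phi.intervalIntegrable x (1/2))
  rw [hz, add_zero] at h
  exact h

lemma sq1_discU (hq : 0 < Q.area) {δ : ℝ} (hδ : 0 < δ) {x : ℝ} (hx : x ∈ Icc (0:ℝ) (1/2)) :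
    sq1 δ (discU δ Q.area Q.phi x) = π / (4 * Q.area) * ∫ s in (0:ℝ)..x, Q.phi s := by
  set y := π / (4 * Q.area) * ∫ s in (0:ℝ)..x, Q.phi s with hy
  have hk : 0 ≤ π / (4 * Q.area) := by positivity
  have hnn : ∀ a b : ℝ, a ≤ b → 0 ≤ ∫ s in a..b, Q.phi s := fun a b hab =>
    integral_nonneg hab fun s _ => (Q.phi_mem s).1
  have hy0 : 0 ≤ y := mul_nonneg hk (hnn 0 x hx.1)
  have hy1 : y ≤ π / 4 := by
    have hle : ∫ s in (0:ℝ)..x, Q.phi s ≤ Q.area := by
      have h := integral_add_adjacent_intervals (μ := volume) (Q.cont_phi.intervalIntegrable 0 x)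
        (Q.cont_phi.intervalIntegrable x (1/2))
      have := hnn x (1/2) hx.2
      unfold area
      linarith
    refine (mul_le_mul_of_nonneg_left hle hk).trans (le_of_eq ?_)
    field_simp
  show sq1 δ (min 1 (max 0 (Function.invFun (sq1 δ) y))) = y
  have h0 : 0 ≤ Function.invFun (sq1 δ) y := by
    rw [← (strictMono_sq1 hδ).le_iff_le, sq1_invFun hδ, sq1_zero]
    exact hy0
  have h1 : Function.invFun (sq1 δ) y ≤ 1 := by
    rw [← (strictMono_sq1 hδ).le_iff_le, sq1_invFun hδ]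
    exact hy1.trans (pi_div_four_le_sq1 δ)
  rw [max_eq_right h0, min_eq_right h1, sq1_invFun hδ]

/-- `flux_disc`, keeping the square that its proof discards. -/
theorem flux_disc_gap (h1 : Q.phi (1/2) = 0) (h2 : Q.psi (1/2) = 0) (hq : 0 < Q.area) {δ : ℝ}
    (hδ : 0 < δ) (hδ1 : δ ≤ 1) :
    ENNReal.ofReal (√(π * Q.area) - δ + ∫ x in (0:ℝ)..Q.psi 0,
        (√(π / (4 * Q.area)) * Q.phi x - max (coF (discU δ Q.area Q.phi) x) δ) ^ 2) ≤
      Q.flux (fun x _ => discU δ Q.area Q.phi x)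
        (fun x _ => coF (discU δ Q.area Q.phi) x) := by
  set q := Q.area with hqd
  set k := π / (4 * q) with hk
  have hk0 : 0 < k := div_pos pi_pos (by linarith)
  set I0 := fun x => ∫ s in (0:ℝ)..x, Q.phi s with hI0
  set W := fun x => Function.invFun (sq1 δ) (k * I0 x) with hWd
  set w := fun x => (max (√(1 - W x ^ 2)) δ)⁻¹ * (k * Q.phi x) with hwd
  have hI : ∀ x, HasDerivAt I0 (Q.phi x) x := fun x =>
    (Q.cont_phi.integral_hasStrictDerivAt 0 x).hasDerivAt
  have hI0c : Continuous I0 := continuous_iff_continuousAt.2 fun x => (hI x).continuousAt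
  have hWc : Continuous W := (continuous_invFun_sq1 hδ).comp (continuous_const.mul hI0c)
  have hmax : ∀ x, 0 < max (√(1 - W x ^ 2)) δ := fun x => lt_max_of_lt_right hδ
  have hw : Continuous w :=
    ((by fun_prop : Continuous fun x => max (√(1 - W x ^ 2)) δ).inv₀ fun x => (hmax x).ne').mul
      (continuous_const.mul Q.cont_phi)
  have hw0 : ∀ x, 0 ≤ w x := fun x =>
    mul_nonneg (inv_nonneg.2 (hmax x).le) (mul_nonneg hk0.le (Q.phi_mem x).1)
  have hW : ∀ x, HasDerivAt W (w x) x := by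
    intro x
    have hinv : HasDerivAt (Function.invFun (sq1 δ)) (max (√(1 - W x ^ 2)) δ)⁻¹ (k * I0 x) :=
      HasDerivAt.of_local_left_inverse (continuous_invFun_sq1 hδ).continuousAt
        (hasDerivAt_sq1 δ _) (hmax x).ne' (Eventually.of_forall (sq1_invFun hδ))
    exact hinv.comp x ((hI x).const_mul k)
  have h0 : W 0 = 0 := by
    have : k * I0 0 = sq1 δ 0 := by simp [hI0, sq1_zero]
    simp only [hWd, this, invFun_sq1 hδ]
  have hu : ∀ x ∈ Icc (0:ℝ) (1/2), discU δ q Q.phi x = W x := fun x hx => by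
    apply (strictMono_sq1 hδ).injective
    simp only [hWd]
    rw [Q.sq1_discU hq hδ hx, sq1_invFun hδ]
  set u := discU δ q Q.phi with hud
  have huc : Continuous u := continuous_discU hδ q Q.cont_phi
  rw [Q.flux_eq huc (fun x => (discU_mem δ q Q.phi x).1) (continuous_coF huc)
    (fun x => coF_nonneg u x) hw hw0 hW h0
    (fun x hx => hu x ⟨hx.1, hx.2.trans (Q.psi_mem 0).2⟩), h1, zero_mul, sub_zero, h2]
  refine le_trans (ENNReal.ofReal_le_ofReal ?_) ENNReal.ofReal_add_le
  set e := Q.psi 0 with hed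
  have he : 0 ≤ e ∧ e ≤ 1/2 := Q.psi_mem 0
  have hcw : Continuous fun x => w x * Q.phi x := hw.mul Q.cont_phi
  have hsqc : Continuous fun x => (√k * Q.phi x - max (coF u x) δ) ^ 2 :=
    ((continuous_const.mul Q.cont_phi).sub ((continuous_coF huc).max continuous_const)).pow 2
  have hpt : ∀ x ∈ Icc 0 e, 2 * √k * Q.phi x - δ + (√k * Q.phi x - max (coF u x) δ) ^ 2 ≤
      w x * Q.phi x + coF u x := by
    intro x hx
    have hco : coF u x = √(1 - W x ^ 2) := by rw [coF, hu x ⟨hx.1, hx.2.trans he.2⟩]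
    rw [hco]
    set m := max (√(1 - W x ^ 2)) δ with hm
    have hm0 : 0 < m := hmax x
    have hm1 : m ≤ 1 := max_le (hco ▸ coF_le_one u x) hδ1
    have hsq : √k ^ 2 = k := Real.sq_sqrt hk0.le
    have heq : w x * Q.phi x + m - 2 * √k * Q.phi x = (√k * Q.phi x - m) ^ 2 / m := by
      simp only [hwd]
      rw [← hm]
      field_simp
      linear_combination (-(Q.phi x ^ 2)) * hsq
    have hge : (√k * Q.phi x - m) ^ 2 ≤ (√k * Q.phi x - m) ^ 2 / m :=
      (le_div_iff₀ hm0).2 (mul_le_of_le_one_right (sq_nonneg _) hm1)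
    have hm2 : m ≤ √(1 - W x ^ 2) + δ :=
      max_le (by linarith) (by linarith [Real.sqrt_nonneg (1 - W x ^ 2)])
    linarith
  have hint : ∫ x in (0:ℝ)..e, Q.phi x = q := Q.integral_extent h2
  have hA : Continuous fun x => 2 * √k * Q.phi x := continuous_const.mul Q.cont_phi
  have hA' : Continuous fun x => 2 * √k * Q.phi x - δ := hA.sub continuous_const
  have hB : Continuous fun x => w x * Q.phi x + coF u x := hcw.add (continuous_coF huc)
  have hL : Continuous fun x => 2 * √k * Q.phi x - δ + (√k * Q.phi x - max (coF u x) δ) ^ 2 :=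
    hA'.add hsqc
  have hmono := intervalIntegral.integral_mono_on (μ := volume) he.1
    (hL.intervalIntegrable _ _) (hB.intervalIntegrable _ _) hpt
  rw [intervalIntegral.integral_add (hA'.intervalIntegrable _ _) (hsqc.intervalIntegrable _ _),
    intervalIntegral.integral_sub (hA.intervalIntegrable _ _) intervalIntegrable_const,
    intervalIntegral.integral_const_mul, intervalIntegral.integral_const, hint,
    intervalIntegral.integral_add (hcw.intervalIntegrable _ _)
      ((continuous_coF huc).intervalIntegrable _ _), sub_zero, smul_eq_mul] at hmono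
  have hext : ∫ x in (0:ℝ)..e, w x * Q.phi x ≤ ∫ x in (0:ℝ)..(1/2), w x * Q.phi x := by
    rw [← integral_add_adjacent_intervals (μ := volume) (hcw.intervalIntegrable 0 e)
      (hcw.intervalIntegrable e (1/2))]
    have := integral_nonneg (μ := volume) he.2 fun x _ => mul_nonneg (hw0 x) (Q.phi_mem x).1
    linarith
  have hkey : 2 * √k * q = √(π * q) := by
    have : π * q = (2 * √k * q) ^ 2 := by
      rw [mul_pow, mul_pow, Real.sq_sqrt hk0.le, hk]
      field_simp
      norm_num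
    rw [this, Real.sqrt_sq (by positivity)]
  nlinarith [he.2, hδ]

/-- The gap on the whole side. -/
lemma integral_gap_le (hq : 0 < Q.area) {δ : ℝ} (hδ : 0 < δ) :
    ∫ x in (0:ℝ)..(1/2),
        (√(π / (4 * Q.area)) * Q.phi x - max (coF (discU δ Q.area Q.phi) x) δ) ^ 2 ≤
      (∫ x in (0:ℝ)..Q.psi 0,
        (√(π / (4 * Q.area)) * Q.phi x - max (coF (discU δ Q.area Q.phi) x) δ) ^ 2) +
      max (coF (discU δ Q.area Q.phi) (1/2)) δ ^ 2 := by
  set u := discU δ Q.area Q.phi with hu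
  set F := fun x => (√(π / (4 * Q.area)) * Q.phi x - max (coF u x) δ) ^ 2 with hF
  set C := max (coF u (1/2)) δ ^ 2 with hC
  have huc : Continuous u := continuous_discU hδ _ Q.cont_phi
  have hFc : Continuous F :=
    ((continuous_const.mul Q.cont_phi).sub ((continuous_coF huc).max continuous_const)).pow 2
  have he := Q.psi_mem 0
  have htail : ∫ x in Q.psi 0..(1/2), F x = (1/2 - Q.psi 0) * C := by
    rw [integral_congr_Ioo_of_le (g := fun _ => C) he.2 (fun x hx => ?_)]
    · simp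
    · have hx' : x ∈ Ioo (0:ℝ) (1/2) := ⟨he.1.trans_lt hx.1, hx.2⟩
      have hux : u x = u (1/2) := by
        apply (strictMono_sq1 hδ).injective
        rw [hu, Q.sq1_discU hq hδ ⟨hx'.1.le, hx'.2.le⟩,
          Q.sq1_discU hq hδ ⟨by norm_num, le_rfl⟩, Q.integral_eq_area ⟨hx.1.le, hx.2.le⟩,
          Q.integral_eq_area ⟨he.2, le_rfl⟩]
      simp only [hF, hC, coF, hux, Q.phi_eq_zero hx' hx.1.le, mul_zero, zero_sub, neg_sq]
  rw [← integral_add_adjacent_intervals (μ := volume) (hFc.intervalIntegrable 0 (Q.psi 0))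
    (hFc.intervalIntegrable (Q.psi 0) (1/2)), htail]
  have hC0 : 0 ≤ C := sq_nonneg _
  nlinarith [he.1]

end Quad

/-- L: slices without wrapping whose disc fluxes tend to the disc value tend to a disc. -/
theorem quad_disc_limit (Q : ℕ → Quad) {δ : ℕ → ℝ} (hδ0 : ∀ n, 0 < δ n)
    (hδ : Tendsto δ atTop (𝓝 0))
    (h1 : ∀ n, (Q n).phi (1/2) = 0) (h2 : ∀ n, (Q n).psi (1/2) = 0) {φ : ℝ → ℝ} {q : ℝ}
    (hq : 0 < q)
    (hconv : ∀ᵐ x ∂(volume.restrict (Ioo (0:ℝ) (1/2))),
      Tendsto (fun n => (Q n).phi x) atTop (𝓝 (φ x)))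
    (harea : Tendsto (fun n => (Q n).area) atTop (𝓝 q))
    (hflux : ∀ ε > (0:ℝ), ∀ᶠ n in atTop,
      (Q n).flux (fun x _ => discU (δ n) (Q n).area (Q n).phi x)
        (fun x _ => coF (discU (δ n) (Q n).area (Q n).phi) x) ≤
        ENNReal.ofReal (√(π * q) + ε)) :
    4 * q / π ≤ 1/4 ∧
      ∀ᵐ x ∂(volume.restrict (Ioo (0:ℝ) (1/2))), φ x = √(4 * q / π - x ^ 2) := by
  set μ := volume.restrict (Ioo (0:ℝ) (1/2)) with hμ
  set U := fun n => discU (δ n) (Q n).area (Q n).phi with hU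
  set k := π / (4 * q) with hk
  have hk0 : 0 < k := div_pos pi_pos (by linarith)
  have hkn : Tendsto (fun n => π / (4 * (Q n).area)) atTop (𝓝 k) :=
    tendsto_const_nhds.div (harea.const_mul 4) (by positivity)
  have hpos : ∀ᶠ n in atTop, 0 < (Q n).area := harea.eventually (lt_mem_nhds hq)
  -- the limit profile is integrable
  have hφm : AEStronglyMeasurable φ μ :=
    aestronglyMeasurable_of_tendsto_ae atTop
      (fun n => (Q n).cont_phi.aestronglyMeasurable) hconv
  have hφb : ∀ᵐ x ∂μ, φ x ∈ Icc (0:ℝ) (1/2) := hconv.mono fun x hx =>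
    isClosed_Icc.mem_of_tendsto hx (Eventually.of_forall fun n => (Q n).phi_mem x)
  have hφi : IntervalIntegrable φ volume 0 (1/2) := by
    rw [intervalIntegrable_iff_integrableOn_Ioo_of_le (by norm_num)]
    exact Integrable.of_bound hφm (1/2) (hφb.mono fun x hx => by
      rw [Real.norm_eq_abs, abs_of_nonneg hx.1]; exact hx.2)
  have hconv' : ∀ᵐ x ∂(volume : Measure ℝ), x ∈ Ioc (0:ℝ) (1/2) →
      Tendsto (fun n => (Q n).phi x) atTop (𝓝 (φ x)) := by
    rw [← ae_restrict_iff' measurableSet_Ioc, ← restrict_Ioo_eq_restrict_Ioc]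
    exact hconv
  have hI : ∀ x ∈ Icc (0:ℝ) (1/2), Tendsto (fun n => ∫ s in (0:ℝ)..x, (Q n).phi s) atTop
      (𝓝 (∫ s in (0:ℝ)..x, φ s)) := by
    intro x hx
    refine intervalIntegral.tendsto_integral_filter_of_dominated_convergence (fun _ => (1/2:ℝ))
      (Eventually.of_forall fun n => (Q n).cont_phi.aestronglyMeasurable)
      (Eventually.of_forall fun n => ae_of_all _ fun s _ => ?_) intervalIntegrable_const ?_
    · rw [Real.norm_eq_abs, abs_of_nonneg ((Q n).phi_mem s).1]
      exact ((Q n).phi_mem s).2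
    · filter_upwards [hconv'] with s hs hmem
      rw [uIoc_of_le hx.1] at hmem
      exact hs ⟨hmem.1, hmem.2.trans hx.2⟩
  have hIq : ∫ s in (0:ℝ)..(1/2), φ s = q :=
    tendsto_nhds_unique (hI (1/2) ⟨by norm_num, le_rfl⟩) harea
  -- the limit of the calibrating fields
  have hW : ∀ x, ∃ W : ℝ, x ∈ Icc (0:ℝ) (1/2) → W ∈ Icc (0:ℝ) 1 ∧
      sq1 0 W = k * (∫ s in (0:ℝ)..x, φ s) ∧ Tendsto (fun n => U n x) atTop (𝓝 W) := by
    intro x
    by_cases hx : x ∈ Icc (0:ℝ) (1/2)
    · obtain ⟨W, hW1, hW2, hW3⟩ := exists_tendsto_of_sq1 hδ0 hδ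
        (s := fun n => U n x) (fun n => discU_mem _ _ _ x) ((hkn.mul (hI x hx)).congr'
          (hpos.mono fun n hn => ((Q n).sq1_discU hn (hδ0 n) hx).symm))
      exact ⟨W, fun _ => ⟨hW1, hW2, hW3⟩⟩
    · exact ⟨0, fun h => absurd h hx⟩
  choose W hW using hW
  have hkq : k * q = π / 4 := by rw [hk]; field_simp
  have hWhalf : W (1/2) = 1 := by
    obtain ⟨hm, he, -⟩ := hW (1/2) ⟨by norm_num, le_rfl⟩
    refine strictMonoOn_sq1_zero.injOn hm ⟨zero_le_one, le_rfl⟩ ?_
    rw [he, hIq, hkq, sq1_zero_one]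
  have hm : ∀ x ∈ Icc (0:ℝ) (1/2), Tendsto (fun n => max (coF (U n) x) (δ n)) atTop
      (𝓝 (√(1 - W x ^ 2))) := by
    intro x hx
    have h := ((((hW x hx).2.2.pow 2).const_sub 1).sqrt).max hδ
    rw [max_eq_left (Real.sqrt_nonneg _)] at h
    exact h
  -- the squared gap tends to zero
  set F := fun n x => (√(π / (4 * (Q n).area)) * (Q n).phi x - max (coF (U n) x) (δ n)) ^ 2
    with hF
  have hδ1 : ∀ᶠ n in atTop, δ n ≤ 1 := hδ.eventually (ge_mem_nhds one_pos)
  have hFnn : ∀ n, 0 ≤ ∫ x in (0:ℝ)..(1/2), F n x := fun n =>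
    integral_nonneg (by norm_num) fun x _ => sq_nonneg _
  have hgap : Tendsto (fun n => ∫ x in (0:ℝ)..(1/2), F n x) atTop (𝓝 0) := by
    refine tendsto_order.2 ⟨fun a ha => Eventually.of_forall fun n => ha.trans_le (hFnn n),
      fun a ha => ?_⟩
    have hlim : Tendsto (fun n => (√(π * q) - √(π * (Q n).area)) + δ n +
        max (coF (U n) (1/2)) (δ n) ^ 2) atTop (𝓝 0) := by
      have h := (((harea.const_mul π).sqrt.const_sub √(π * q)).add hδ).add
        ((hm (1/2) ⟨by norm_num, le_rfl⟩).pow 2)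
      rw [hWhalf] at h
      simpa using h
    filter_upwards [hlim.eventually (gt_mem_nhds (half_pos ha)), hflux (a/2) (half_pos ha), hpos,
      hδ1] with n hn hfl hqn hdn
    have hgap := ((Q n).flux_disc_gap (h1 n) (h2 n) hqn (hδ0 n) hdn).trans hfl
    rw [ENNReal.ofReal_le_ofReal_iff (by positivity)] at hgap
    have hrest := (Q n).integral_gap_le hqn (hδ0 n)
    simp only [hF, hU] at hn hgap hrest ⊢
    linarith
  set M := (√k + 2) ^ 2 with hM
  have hlimit : Tendsto (fun n => ∫ x in (0:ℝ)..(1/2), F n x) atTop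
      (𝓝 (∫ x in (0:ℝ)..(1/2), (√k * φ x - √(1 - W x ^ 2)) ^ 2)) := by
    refine intervalIntegral.tendsto_integral_filter_of_dominated_convergence (fun _ => M)
      (Eventually.of_forall fun n => ?_) ?_ intervalIntegrable_const ?_
    · exact (((continuous_const.mul (Q n).cont_phi).sub
        ((continuous_coF (continuous_discU (hδ0 n) _ (Q n).cont_phi)).max continuous_const)).pow
        2).aestronglyMeasurable
    · filter_upwards [hkn.sqrt.eventually (gt_mem_nhds (lt_add_one √k)), hδ1] with n hkb hdn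
      refine ae_of_all _ fun x _ => ?_
      rw [Real.norm_eq_abs, abs_of_nonneg (sq_nonneg _)]
      simp only [hF, hM]
      have hφx := (Q n).phi_mem x
      have hsn := Real.sqrt_nonneg (π / (4 * (Q n).area))
      have hp0 : 0 ≤ √(π / (4 * (Q n).area)) * (Q n).phi x := mul_nonneg hsn hφx.1
      have hp1 : √(π / (4 * (Q n).area)) * (Q n).phi x ≤ (√k + 1) * (1/2) :=
        mul_le_mul hkb.le hφx.2 hφx.1 (by positivity)
      have hmle : max (coF (U n) x) (δ n) ≤ 1 := max_le (coF_le_one _ _) hdn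
      have hm0 : 0 ≤ max (coF (U n) x) (δ n) := le_max_of_le_left (coF_nonneg _ _)
      refine sq_le_sq' ?_ ?_ <;> nlinarith [Real.sqrt_nonneg k]
    · filter_upwards [hconv'] with x hx hmem
      rw [uIoc_of_le (by norm_num)] at hmem
      exact (((hkn.sqrt.mul (hx hmem)).sub (hm x ⟨hmem.1.le, hmem.2⟩)).pow 2)
  have hzero : ∫ x in (0:ℝ)..(1/2), (√k * φ x - √(1 - W x ^ 2)) ^ 2 = 0 :=
    tendsto_nhds_unique hlimit hgap
  have hWm : AEStronglyMeasurable (fun x => √(1 - W x ^ 2)) μ := by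
    refine aestronglyMeasurable_of_tendsto_ae atTop
      (f := fun n x => max (coF (U n) x) (δ n)) (fun n =>
      ((continuous_coF (continuous_discU (hδ0 n) _ (Q n).cont_phi)).max
        continuous_const).aestronglyMeasurable) ?_
    filter_upwards [ae_restrict_mem measurableSet_Ioo] with x hx using hm x (Ioo_subset_Icc_self hx)
  have hgi : Integrable (fun x => (√k * φ x - √(1 - W x ^ 2)) ^ 2) μ := by
    refine Integrable.of_bound (((hφm.const_mul √k).sub hWm).pow 2) M ?_
    filter_upwards [hφb] with x hx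
    rw [Real.norm_eq_abs, abs_of_nonneg (sq_nonneg _)]
    have hr : √(1 - W x ^ 2) ≤ 1 := coF_le_one W x
    have hr0 := Real.sqrt_nonneg (1 - W x ^ 2)
    have := Real.sqrt_nonneg k
    refine sq_le_sq' ?_ ?_ <;> nlinarith [hx.1, hx.2]
  have hae : ∀ᵐ x ∂μ, √k * φ x = √(1 - W x ^ 2) := by
    rw [integral_of_le (by norm_num), integral_Ioc_eq_integral_Ioo] at hzero
    filter_upwards [(integral_eq_zero_iff_of_nonneg (fun x => sq_nonneg _) hgi).1 hzero] with x hx
    exact sub_eq_zero.1 (pow_eq_zero_iff two_ne_zero |>.1 hx)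
  -- identification
  have hid : ∀ x ∈ Icc (0:ℝ) (1/2), sq1 0 (W x) = sq1 0 (√k * x) := fun x hx => by
    rw [(hW x hx).2.1]
    exact primitive_unique hk0 hφi (fun y hy => ⟨(hW y hy).1, (hW y hy).2.1⟩) hae hx
  have hsk : 0 < √k := Real.sqrt_pos.2 hk0
  have hbig : 1 ≤ √k * (1/2) := by
    by_contra h
    have h' := strictMonoOn_sq1_zero ⟨by positivity, (not_le.1 h).le⟩ ⟨zero_le_one, le_rfl⟩
      (not_le.1 h)
    rw [← hid (1/2) ⟨by norm_num, le_rfl⟩, hWhalf] at h'
    exact lt_irrefl _ h'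
  have hinv : 4 * q / π = 1 / k := by rw [hk, one_div_div]
  refine ⟨?_, ?_⟩
  · have h4 : 4 ≤ k := by nlinarith [Real.sq_sqrt hk0.le]
    rw [hinv]
    exact one_div_le_one_div_of_le (by norm_num) h4
  · filter_upwards [hae, ae_restrict_mem measurableSet_Ioo] with x hx hxI
    have hxI' := Ioo_subset_Icc_self hxI
    have hWx : W x = min 1 (√k * x) := by
      refine strictMonoOn_sq1_zero.injOn (hW x hxI').1
        ⟨le_min zero_le_one (by have := hxI.1; positivity), min_le_left _ _⟩ ?_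
      rcases le_total 1 (√k * x) with h | h
      · rw [min_eq_left h]
        refine le_antisymm (monotone_sq1_zero (hW x hxI').1.2) ?_
        rw [hid x hxI']
        exact monotone_sq1_zero h
      · rw [min_eq_right h, hid x hxI']
    have hsq : √(1 - W x ^ 2) = √(1 - k * x ^ 2) := by
      rw [hWx]
      rcases le_total 1 (√k * x) with h | h
      · rw [min_eq_left h]
        rw [Real.sqrt_eq_zero'.2 (by norm_num), Real.sqrt_eq_zero'.2]
        nlinarith [Real.sq_sqrt hk0.le]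
      · rw [min_eq_right h, mul_pow, Real.sq_sqrt hk0.le]
    rw [hsq] at hx
    have hfac : 1 - k * x ^ 2 = k * (4 * q / π - x ^ 2) := by
      rw [hinv, mul_sub, mul_one_div_cancel hk0.ne']
    rw [hfac, Real.sqrt_mul hk0.le] at hx
    exact mul_left_cancel₀ hsk.ne' hx

end

end Vale.P232
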