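import Mathlib
import Vale.Agent.P232.HeatMollify

/-!
P232: approximation of a symmetric monotone periodic set by `CoreFun`s.
-/

open MeasureTheory Real Set Filter Topology
open scoped Convolution

namespace Vale.P232

noncomputable section

namespace Smooth

/-- The basic even kernel. -/
def kb (t : ℝ) : ℝ := smoothTransition (1 - t ^ 2)

theorem contDiff_kb : ContDiff ℝ 2 kb := by
  exact (smoothTransition.contDiff (n := 2)).comp (by fun_prop)

theorem kb_nonneg (t : ℝ) : 0 ≤ kb t := smoothTransition.nonneg _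

theorem kb_le_one (t : ℝ) : kb t ≤ 1 := smoothTransition.le_one _

theorem kb_eq_zero {t : ℝ} (h : 1 ≤ |t|) : kb t = 0 :=
  smoothTransition.zero_of_nonpos (by nlinarith [sq_abs t, abs_nonneg t])

theorem kb_anti {s t : ℝ} (h : |s| ≤ |t|) : kb t ≤ kb s :=
  smoothTransition.monotone (by nlinarith [sq_abs t, sq_abs s, abs_nonneg s])

theorem hasCompactSupport_kb : HasCompactSupport kb :=
  HasCompactSupport.intro isCompact_Icc fun t ht => kb_eq_zero (by
    by_contra h
    have := abs_le.1 (not_le.1 h).le
    exact ht ⟨this.1, this.2⟩)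

theorem integral_kb_pos : 0 < ∫ t, kb t := by
  refine (contDiff_kb.continuous.integral_pos_of_hasCompactSupport_nonneg_nonzero
    hasCompactSupport_kb kb_nonneg (x := 0) ?_)
  exact (smoothTransition.pos_of_pos (by norm_num)).ne'

/-- The kernel of width `δ`. -/
def ker1 (δ t : ℝ) : ℝ := kb (t / δ) / (δ * ∫ s, kb s)

/-- The product kernel on `ℝ³`. -/
def ker3 (δ : ℝ) (h : V3) : ℝ := ∏ i, ker1 δ (h i)

variable {δ : ℝ}

theorem ker1_nonneg (hδ : 0 < δ) (t : ℝ) : 0 ≤ ker1 δ t :=
  div_nonneg (kb_nonneg _) (mul_nonneg hδ.le integral_kb_pos.le)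

theorem ker1_le (hδ : 0 < δ) (t : ℝ) : ker1 δ t ≤ 1 / (δ * ∫ s, kb s) :=
  div_le_div_of_nonneg_right (kb_le_one _) (mul_nonneg hδ.le integral_kb_pos.le)

theorem ker1_eq_zero (hδ : 0 < δ) {t : ℝ} (h : δ ≤ |t|) : ker1 δ t = 0 := by
  rw [ker1, kb_eq_zero, zero_div]
  rw [abs_div, abs_of_pos hδ, le_div_iff₀ hδ]
  linarith

theorem ker1_anti (hδ : 0 < δ) {s t : ℝ} (h : |s| ≤ |t|) : ker1 δ t ≤ ker1 δ s := by
  refine div_le_div_of_nonneg_right (kb_anti ?_) (mul_nonneg hδ.le integral_kb_pos.le)
  rw [abs_div, abs_div]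
  exact div_le_div_of_nonneg_right h (abs_nonneg _)

theorem ker1_neg (t : ℝ) : ker1 δ (-t) = ker1 δ t := by
  simp [ker1, kb, neg_div]

theorem integral_ker1 (hδ : 0 < δ) : ∫ t, ker1 δ t = 1 := by
  simp only [ker1]
  rw [integral_div, Measure.integral_comp_div, abs_of_pos hδ, smul_eq_mul, div_self]
  exact (mul_pos hδ integral_kb_pos).ne'

theorem contDiff_ker3 : ContDiff ℝ 2 (ker3 δ) := by
  refine contDiff_prod fun i _ => ?_
  exact ((contDiff_kb.comp (contDiff_id.div_const δ)).div_const _).comp (contDiff_apply ℝ ℝ i)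

theorem ker3_nonneg (hδ : 0 < δ) (h : V3) : 0 ≤ ker3 δ h :=
  Finset.prod_nonneg fun _ _ => ker1_nonneg hδ _

theorem ker3_le (hδ : 0 < δ) (h : V3) : ker3 δ h ≤ (1 / (δ * ∫ s, kb s)) ^ 3 :=
  le_trans (Finset.prod_le_prod (fun _ _ => ker1_nonneg hδ _) fun _ _ => ker1_le hδ _)
    (by simp)

theorem ker3_eq_zero (hδ : 0 < δ) {h : V3} {i : Fin 3} (hi : δ ≤ |h i|) : ker3 δ h = 0 :=
  Finset.prod_eq_zero (Finset.mem_univ i) (ker1_eq_zero hδ hi)

theorem ker3_eq_zero_of_notMem (hδ : 0 < δ) {h : V3} (hh : h ∉ Metric.closedBall (0 : V3) δ) :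
    ker3 δ h = 0 := by
  rw [mem_closedBall_zero_iff, pi_norm_le_iff_of_nonneg hδ.le] at hh
  push Not at hh
  obtain ⟨i, hi⟩ := hh
  exact ker3_eq_zero hδ (by simpa using hi.le)

theorem hasCompactSupport_ker3 (hδ : 0 < δ) : HasCompactSupport (ker3 δ) :=
  HasCompactSupport.intro (isCompact_closedBall _ _) fun _ h => ker3_eq_zero_of_notMem hδ h

theorem integral_ker3 (hδ : 0 < δ) : ∫ h, ker3 δ h = 1 := by
  unfold ker3
  rw [integral_fintype_prod_volume_eq_prod fun _ : Fin 3 => ker1 δ]
  simp [integral_ker1 hδ]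

/-- The mollified indicator. -/
def mol (δ : ℝ) (E : Set V3) : V3 → ℝ :=
  (ker3 δ) ⋆[ContinuousLinearMap.mul ℝ ℝ, volume] E.indicator 1

theorem mol_apply (E : Set V3) (x : V3) :
    mol δ E x = ∫ h, ker3 δ h * E.indicator 1 (x - h) := rfl

theorem mol_apply' (E : Set V3) (x : V3) :
    mol δ E x = ∫ y, ker3 δ (x - y) * E.indicator 1 y := by
  rw [mol_apply, ← integral_sub_left_eq_self _ _ x]
  simp

variable {E : Set V3}

theorem locallyIntegrable_ind (hE : MeasurableSet E) :
    LocallyIntegrable (E.indicator (1 : V3 → ℝ)) volume :=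
  (locallyIntegrable_const (1 : ℝ)).indicator hE

theorem contDiff_mol (hE : MeasurableSet E) (hδ : 0 < δ) : ContDiff ℝ 1 (mol δ E) :=
  (hasCompactSupport_ker3 hδ).contDiff_convolution_left _ (contDiff_ker3.of_le one_le_two)
    (locallyIntegrable_ind hE)

theorem integrable_ker3 (hδ : 0 < δ) (x : V3) : Integrable fun y => ker3 δ (x - y) :=
  ((contDiff_ker3.continuous.integrable_of_hasCompactSupport
    (hasCompactSupport_ker3 hδ)).comp_sub_left x)

theorem integrable_ker3_mul (hE : MeasurableSet E) (hδ : 0 < δ) (x : V3) :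
    Integrable fun y => ker3 δ (x - y) * E.indicator 1 y := by
  refine (integrable_ker3 hδ x).mul_bdd (c := 1)
    ((measurable_const.indicator hE).aestronglyMeasurable) (Eventually.of_forall fun y => ?_)
  by_cases hy : y ∈ E <;> simp [hy]

theorem mol_nonneg (hδ : 0 < δ) (x : V3) : 0 ≤ mol δ E x := by
  rw [mol_apply']
  exact integral_nonneg fun y =>
    mul_nonneg (ker3_nonneg hδ _) (indicator_nonneg (fun _ _ => zero_le_one) _)

theorem mol_le_one (hE : MeasurableSet E) (hδ : 0 < δ) (x : V3) : mol δ E x ≤ 1 := by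
  rw [mol_apply', ← integral_ker3 hδ, ← integral_sub_left_eq_self (ker3 δ) volume x]
  refine integral_mono (integrable_ker3_mul hE hδ x) (integrable_ker3 hδ x) fun y => ?_
  exact mul_le_of_le_one_right (ker3_nonneg hδ _)
    (indicator_le_self' (fun _ _ => zero_le_one) y |>.trans le_rfl)

theorem isPeriodicFun_mol (hp : IsPeriodic E) : IsPeriodicFun (mol δ E) := by
  intro x k
  rw [mol_apply, mol_apply]
  congr 1
  funext h
  have hh := hp (x - h) k
  rw [show x + (fun i => (k i : ℝ)) - h = x - h + fun i => (k i : ℝ) by abel]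
  congr 1
  by_cases hm : x - h ∈ E
  · rw [indicator_of_mem (hh.2 hm), indicator_of_mem hm]; rfl
  · rw [indicator_of_notMem (fun c => hm (hh.1 c)), indicator_of_notMem hm]

/-- Reflection of one coordinate about `c`. -/
def refl1 (i : Fin 3) (c : ℝ) (y : V3) : V3 := Function.update y i (2 * c - y i)

theorem refl1_refl1 (i : Fin 3) (c : ℝ) (y : V3) : refl1 i c (refl1 i c y) = y := by
  simp [refl1]

theorem measurePreserving_refl1 (i : Fin 3) (c : ℝ) :
    MeasurePreserving (refl1 i c) volume volume := by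
  have : refl1 i c = fun y j => if j = i then 2 * c - y j else y j := by
    funext y j
    by_cases hj : j = i
    · subst hj; simp [refl1]
    · simp [refl1, hj]
  rw [this]
  refine volume_preserving_pi (f := fun j t => if j = i then 2 * c - t else t) fun j => ?_
  by_cases hj : j = i
  · simp only [hj, if_true]
    exact Measure.measurePreserving_sub_left volume (2 * c)
  · simp only [hj, if_false]
    exact MeasurePreserving.id _

theorem integral_refl1 (i : Fin 3) (c : ℝ) (F : V3 → ℝ) :
    ∫ y, F (refl1 i c y) = ∫ y, F y := by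
  refine (measurePreserving_refl1 i c).integral_comp ?_ F
  refine MeasurableEmbedding.of_measurable_inverse (g := refl1 i c)
    (measurePreserving_refl1 i c).measurable ?_ (measurePreserving_refl1 i c).measurable
    (refl1_refl1 i c)
  rw [Function.Surjective.range_eq (f := refl1 i c) fun y => ⟨_, refl1_refl1 i c y⟩]
  exact MeasurableSet.univ

theorem symMono_fold (hs : SymMono E) {i : Fin 3} {y y' : V3} (ho : ∀ j, j ≠ i → y j = y' j)
    (hb : |y i| ≤ 1 / 2) (z : ℤ) (hz : |y i| ≤ |y' i - z|) (hz' : |y' i - z| ≤ 1 / 2)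
    (hy : y' ∈ E) : y ∈ E := by
  set k : Fin 3 → ℤ := fun j => if j = i then -z else -round (y' j) with hk
  set k' : Fin 3 → ℤ := fun j => if j = i then 0 else -round (y' j) with hk'
  have h1 : y' + (fun j => (k j : ℝ)) ∈ E := (hs.1 y' k).2 hy
  refine (hs.1 y k').1 (hs.2 _ _ (fun j => ?_) (fun j => ?_) h1)
  · by_cases hj : j = i
    · subst hj; simpa [hk, ← sub_eq_add_neg] using hz'
    · simpa [hk, hj, ← sub_eq_add_neg] using abs_sub_round (y' j)
  · by_cases hj : j = i
    · subst hj; simpa [hk, hk', ← sub_eq_add_neg] using hz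
    · simp [hk, hk', hj, ho j hj]

theorem symMono_even (hs : SymMono E) (i : Fin 3) (y : V3) :
    Function.update y i (-y i) ∈ E ↔ y ∈ E := by
  have key : ∀ w : V3, w ∈ E → Function.update w i (-w i) ∈ E := by
    intro w hw
    set k : Fin 3 → ℤ := fun j => -round (w j)
    set k' : Fin 3 → ℤ := fun j => if j = i then round (w j) else -round (w j)
    refine (hs.1 _ k').1 (hs.2 (w + fun j => (k j : ℝ)) _ (fun j => ?_) (fun j => ?_)
      ((hs.1 w k).2 hw))
    · simpa [k, ← sub_eq_add_neg] using abs_sub_round (w j)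
    · refine le_of_eq ?_
      by_cases hj : j = i
      · subst hj
        simp only [Pi.add_apply, Function.update_self, k, k', if_true]
        rw [← abs_neg]; push_cast; ring_nf
      · simp [k, k', hj]
  refine ⟨fun h => ?_, key y⟩
  simpa using key _ h

theorem mol_even (hs : SymMono E) (i : Fin 3) (x : V3) :
    mol δ E (Function.update x i (-x i)) = mol δ E x := by
  rw [mol_apply', mol_apply', ← integral_refl1 i 0 (fun y => ker3 δ (_ - y) * _)]
  congr 1
  funext y
  have h1 : ker3 δ (Function.update x i (-x i) - refl1 i 0 y) = ker3 δ (x - y) := by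
    refine Finset.prod_congr rfl fun j _ => ?_
    by_cases hj : j = i
    · subst hj
      rw [← ker1_neg]
      simp [refl1]; ring_nf
    · simp [refl1, hj]
  have h2 : refl1 i 0 y = Function.update y i (-y i) := by simp [refl1]
  rw [h1, h2]
  congr 1
  by_cases hy : y ∈ E
  · rw [indicator_of_mem hy, indicator_of_mem ((symMono_even hs i y).2 hy)]; rfl
  · rw [indicator_of_notMem hy, indicator_of_notMem fun h => hy ((symMono_even hs i y).1 h)]

theorem two_point (hs : SymMono E) {i : Fin 3} {c : ℝ} (hc0 : 0 ≤ c) (hc1 : c ≤ 1 / 2) {y : V3}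
    (h1 : c - 1 / 2 ≤ y i) (h2 : y i ≤ c) (hy : refl1 i c y ∈ E) : y ∈ E := by
  have hb : |y i| ≤ 1 / 2 := abs_le.2 ⟨by linarith, by linarith⟩
  have hr : (refl1 i c y) i = 2 * c - y i := by simp [refl1]
  have ho : ∀ j, j ≠ i → y j = refl1 i c y j := fun j hj => by simp [refl1, hj]
  rcases le_or_gt (2 * c - y i) (1 / 2) with h | h
  · refine symMono_fold hs ho hb 0 ?_ ?_ hy <;> rw [hr, Int.cast_zero, sub_zero,
      abs_of_nonneg (by linarith : (0 : ℝ) ≤ 2 * c - y i)]
    · exact abs_le.2 ⟨by linarith, by linarith⟩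
    · exact h
  · refine symMono_fold hs ho hb 1 ?_ ?_ hy <;> rw [hr, Int.cast_one,
      abs_of_nonpos (by linarith : 2 * c - y i - 1 ≤ 0)]
    · exact abs_le.2 ⟨by linarith, by linarith⟩
    · linarith

theorem mol_anti (hE : MeasurableSet E) (hs : SymMono E) (hδ : 0 < δ) (hδ4 : δ ≤ 1 / 4)
    (i : Fin 3) (x : V3) {a b : ℝ} (ha : 0 ≤ a) (hab : a ≤ b) (hb : b ≤ 1 / 2)
    (hsmall : b - a ≤ 1 / 4) :
    mol δ E (Function.update x i b) ≤ mol δ E (Function.update x i a) := by
  set c := (a + b) / 2 with hc
  set xa := Function.update x i a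
  set xb := Function.update x i b
  set K : V3 → ℝ := fun y => ker3 δ (xa - y) - ker3 δ (xb - y) with hKdef
  have hK : ∀ y, K (refl1 i c y) = -K y := by
    intro y
    have e1 : ker3 δ (xa - refl1 i c y) = ker3 δ (xb - y) := by
      refine Finset.prod_congr rfl fun j _ => ?_
      by_cases hj : j = i
      · subst hj
        rw [← ker1_neg]
        simp [xa, xb, refl1, hc]; ring_nf
      · simp [xa, xb, refl1, hj]
    have e2 : ker3 δ (xb - refl1 i c y) = ker3 δ (xa - y) := by
      refine Finset.prod_congr rfl fun j _ => ?_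
      by_cases hj : j = i
      · subst hj
        rw [← ker1_neg]
        simp [xa, xb, refl1, hc]; ring_nf
      · simp [xa, xb, refl1, hj]
    simp only [hKdef, e1, e2]; ring
  set φ : V3 → ℝ := E.indicator 1 with hφ
  have hKint : Integrable fun y => K y * φ y := by
    refine (Integrable.sub (integrable_ker3_mul hE hδ xa) (integrable_ker3_mul hE hδ xb)).congr
      (Eventually.of_forall fun y => ?_)
    simp [hKdef, hφ, sub_mul]
  have hflip : ∫ y, K y * φ (refl1 i c y) = -∫ y, K y * φ y := by
    rw [← integral_refl1 i c fun y => K y * φ y, ← integral_neg]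
    congr 1; funext y
    simp [hK]
  have hint2 : Integrable fun y => K y * φ (refl1 i c y) := by
    have := ((measurePreserving_refl1 i c).integrable_comp hKint.aestronglyMeasurable).2 hKint
    refine this.neg.congr (Eventually.of_forall fun y => ?_)
    simp [hK]
  have hside : ∀ y, y i ≤ c → 0 ≤ K y := by
    intro y hy
    rw [hKdef]
    refine sub_nonneg.2 (Finset.prod_le_prod (fun _ _ => ker1_nonneg hδ _) fun j _ => ?_)
    by_cases hj : j = i
    · subst hj
      refine ker1_anti hδ ?_
      simp only [xa, xb, Pi.sub_apply, Function.update_self]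
      rw [abs_le, abs_of_nonneg (by linarith : 0 ≤ b - y j)]
      constructor <;> linarith
    · simp [xa, xb, hj]
  have hpos : ∀ y, 0 ≤ K y * (φ y - φ (refl1 i c y)) := by
    have hmain : ∀ y, y i ≤ c → 0 ≤ K y * (φ y - φ (refl1 i c y)) := by
      intro y hy
      rcases (hside y hy).eq_or_lt with h0 | h0
      · rw [← h0, zero_mul]
      refine mul_nonneg h0.le (sub_nonneg.2 ?_)
      by_cases hm : refl1 i c y ∈ E
      · have hnear : ker3 δ (xa - y) ≠ 0 := by
          intro hz
          rw [hKdef] at h0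
          simp only [hz, zero_sub] at h0
          linarith [ker3_nonneg hδ (xb - y)]
        have : |(xa - y) i| < δ := by
          by_contra hh
          exact hnear (ker3_eq_zero hδ (not_lt.1 hh))
        simp only [xa, Pi.sub_apply, Function.update_self] at this
        have := abs_lt.1 this
        have hyE : y ∈ E := two_point hs (by linarith) (by linarith) (by linarith) hy hm
        simp [hφ, hm, hyE]
      · simp only [hφ, indicator_of_notMem hm]
        exact indicator_nonneg (fun _ _ => zero_le_one) _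
    intro y
    rcases le_or_gt (y i) c with hy | hy
    · exact hmain y hy
    · have := hmain (refl1 i c y) (by simp [refl1]; linarith)
      rw [hK, refl1_refl1] at this
      linarith
  have h2 : 0 ≤ ∫ y, K y * (φ y - φ (refl1 i c y)) := integral_nonneg hpos
  simp only [mul_sub] at h2
  rw [integral_sub hKint hint2, hflip] at h2
  have e : ∫ y, K y * φ y = mol δ E xa - mol δ E xb := by
    rw [mol_apply', mol_apply', ← integral_sub (integrable_ker3_mul hE hδ xa)
      (integrable_ker3_mul hE hδ xb)]
    congr 1; funext y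
    simp [hKdef, hφ, sub_mul]
  linarith

theorem mol_deriv_nonpos (hE : MeasurableSet E) (hs : SymMono E) (hδ : 0 < δ) (hδ4 : δ ≤ 1 / 4)
    (i : Fin 3) (x : V3) (h0 : 0 < x i) (h1 : x i < 1 / 2) :
    fderiv ℝ (mol δ E) x (e i) ≤ 0 := by
  have hd : HasDerivAt (fun t : ℝ => mol δ E (Function.update x i t))
      (fderiv ℝ (mol δ E) x (e i)) (x i) := by
    have hu : HasDerivAt (fun t : ℝ => Function.update x i t) (e i) (x i) :=
      hasDerivAt_update x i (x i)
    have hf := ((contDiff_mol hE hδ).differentiable one_ne_zero x).hasFDerivAt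
    have := hf.comp_hasDerivAt_of_eq (x i) hu (by simp)
    exact this
  refine le_of_tendsto_of_tendsto (hasDerivAt_iff_tendsto_slope_left_right.1 hd).2
    tendsto_const_nhds ?_
  have hU : ∀ᶠ t in 𝓝[>] (x i), t < min (1 / 2) (x i + 1 / 4) :=
    nhdsWithin_le_nhds (gt_mem_nhds (lt_min h1 (by linarith)))
  filter_upwards [hU, self_mem_nhdsWithin] with t ht htx
  have htx' : x i < t := htx
  rw [slope_def_field]
  refine div_nonpos_of_nonpos_of_nonneg ?_ (by linarith)
  have := mol_anti hE hs hδ hδ4 i x (a := x i) (b := t) h0.le htx'.le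
    ((ht.trans_le (min_le_left _ _)).le) (by linarith [ht.trans_le (min_le_right _ _)])
  linarith

theorem mol_tendsto_ae (hE : MeasurableSet E) {d : ℕ → ℝ} (hd : ∀ n, 0 < d n)
    (hlim : Tendsto d atTop (𝓝 0)) :
    ∀ᵐ x : V3, Tendsto (fun n => mol (d n) E x) atTop (𝓝 (E.indicator 1 x)) := by
  set I := ∫ s, kb s
  filter_upwards [IsUnifLocDoublingMeasure.ae_tendsto_average_norm_sub
    (μ := (volume : Measure V3)) (locallyIntegrable_ind hE) 1] with x hx
  have h := hx (l := atTop) (fun _ => x) d
    (tendsto_nhdsWithin_iff.2 ⟨hlim, Eventually.of_forall hd⟩)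
    (Eventually.of_forall fun n => Metric.mem_closedBall_self (by linarith [hd n]))
  rw [tendsto_iff_norm_sub_tendsto_zero]
  refine squeeze_zero (fun n => norm_nonneg _) (fun n => ?_)
    (by simpa using h.const_mul (8 / I ^ 3))
  set φ : V3 → ℝ := E.indicator 1
  set B := Metric.closedBall x (d n)
  have hvol : volume.real B = 8 * d n ^ 3 := by
    rw [Measure.real, Real.volume_pi_closedBall _ (hd n).le, Fintype.card_fin,
      ENNReal.toReal_ofReal (by have := hd n; positivity)]
    ring
  have hd1 : mol (d n) E x - φ x = ∫ y, ker3 (d n) (x - y) * (φ y - φ x) := by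
    simp only [mul_sub]
    rw [integral_sub (integrable_ker3_mul hE (hd n) x) ((integrable_ker3 (hd n) x).mul_const _),
      ← mol_apply', integral_mul_const, integral_sub_left_eq_self (ker3 (d n)) volume x,
      integral_ker3 (hd n), one_mul]
  have hi : IntegrableOn (fun y => ‖φ y - φ x‖) B :=
    (((locallyIntegrable_ind hE).integrableOn_isCompact (isCompact_closedBall _ _)).sub
      ((locallyIntegrable_const (φ x)).integrableOn_isCompact (isCompact_closedBall _ _))).norm
  rw [hd1, setAverage_eq, smul_eq_mul, hvol]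
  refine le_trans (norm_integral_le_integral_norm _) ?_
  have hBsupp : ∀ y ∉ B, ‖ker3 (d n) (x - y) * (φ y - φ x)‖ = 0 := by
    intro y hy
    rw [ker3_eq_zero_of_notMem (hd n), zero_mul, norm_zero]
    rw [Metric.mem_closedBall, dist_zero_right, ← dist_eq_norm, dist_comm]
    exact hy
  rw [← setIntegral_eq_integral_of_forall_compl_eq_zero hBsupp]
  calc ∫ y in B, ‖ker3 (d n) (x - y) * (φ y - φ x)‖
      ≤ ∫ y in B, (1 / (d n * I)) ^ 3 * ‖φ y - φ x‖ := by
        refine setIntegral_mono_on ?_ (hi.const_mul _) measurableSet_closedBall fun y _ => ?_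
        · exact (((integrable_ker3_mul hE (hd n) x).sub
            ((integrable_ker3 (hd n) x).mul_const (φ x))).congr
            (Eventually.of_forall fun y => by simp [φ, mul_sub])).norm.integrableOn
        · rw [norm_mul, Real.norm_of_nonneg (ker3_nonneg (hd n) _)]
          exact mul_le_mul_of_nonneg_right (ker3_le (hd n) _) (norm_nonneg _)
    _ = _ := by
        rw [integral_const_mul]
        have := hd n
        have := integral_kb_pos
        field_simp
        simp [Real.norm_eq_abs, I]

/-- The perturbation. -/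
def pert (x : V3) : ℝ := ∑ i, (1 + Real.cos (2 * π * x i))

theorem contDiff_pert : ContDiff ℝ 1 pert := by unfold pert; fun_prop

theorem fderiv_pert (x : V3) (i : Fin 3) :
    fderiv ℝ pert x (e i) = -(2 * π * Real.sin (2 * π * x i)) := by
  have h : ∀ j : Fin 3, HasFDerivAt (fun y : V3 => 1 + Real.cos (2 * π * y j))
      ((-(2 * π * Real.sin (2 * π * x j))) •
        ContinuousLinearMap.proj (R := ℝ) (φ := fun _ : Fin 3 => ℝ) j) x := by
    intro j
    refine (((hasFDerivAt_apply (𝕜 := ℝ) j x).const_mul (2 * π)).cos.const_add 1).congr_fderiv ?_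
    ext v; simp; ring
  rw [show fderiv ℝ pert x = _ from (HasFDerivAt.fun_sum (u := Finset.univ) fun j _ => h j).fderiv]
  simp [e, Pi.single_apply]

theorem pert_bounds (x : V3) : 0 ≤ pert x ∧ pert x ≤ 6 := by
  have h : ∀ i : Fin 3, 0 ≤ 1 + Real.cos (2 * π * x i) ∧ 1 + Real.cos (2 * π * x i) ≤ 2 := fun i =>
    ⟨by linarith [Real.neg_one_le_cos (2 * π * x i)], by linarith [Real.cos_le_one (2 * π * x i)]⟩
  refine ⟨Finset.sum_nonneg fun i _ => (h i).1, ?_⟩
  refine le_trans (Finset.sum_le_sum fun i _ => (h i).2) ?_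
  norm_num

/-- The approximating core function. -/
def approx (δ ε : ℝ) (E : Set V3) (x : V3) : ℝ := (mol δ E x + ε * pert x) / (1 + 6 * ε)

theorem fderiv_approx (hE : MeasurableSet E) (hδ : 0 < δ) (ε : ℝ) (x : V3) (i : Fin 3) :
    fderiv ℝ (approx δ ε E) x (e i)
      = (fderiv ℝ (mol δ E) x (e i) + ε * fderiv ℝ pert x (e i)) / (1 + 6 * ε) := by
  have h := ((((contDiff_mol hE hδ).differentiable one_ne_zero x).hasFDerivAt.fun_add
    ((contDiff_pert.differentiable one_ne_zero x).hasFDerivAt.const_mul ε)).mul_const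
    (1 + 6 * ε)⁻¹)
  have e1 : approx δ ε E = fun y => (mol δ E y + ε * pert y) * (1 + 6 * ε)⁻¹ := by
    funext y; exact div_eq_mul_inv _ _
  rw [e1, h.fderiv]
  simp; ring

theorem coreFun_approx (hE : MeasurableSet E) (hs : SymMono E) (hδ : 0 < δ) (hδ4 : δ ≤ 1 / 4)
    {ε : ℝ} (hε : 0 < ε) : CoreFun (approx δ ε E) where
  smooth := ((contDiff_mol hE hδ).add (contDiff_const.mul contDiff_pert)).div_const _
  periodic := fun x k => by
    simp only [approx, isPeriodicFun_mol hs.1 x k]
    congr 3
    refine Finset.sum_congr rfl fun i _ => ?_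
    congr 1
    rw [Pi.add_apply, show 2 * π * (x i + (k i : ℝ)) = 2 * π * x i + (k i : ℝ) * (2 * π) by ring,
      Real.cos_add_int_mul_two_pi]
  nonneg := fun x => div_nonneg
    (add_nonneg (mol_nonneg hδ x) (mul_nonneg hε.le (pert_bounds x).1)) (by linarith)
  le_one := fun x => by
    rw [approx, div_le_one (by linarith)]
    nlinarith [mol_le_one hE hδ x, (pert_bounds x).2]
  even := fun i x => by
    simp only [approx, mol_even hs i x]
    congr 3
    refine Finset.sum_congr rfl fun j _ => ?_
    by_cases hj : j = i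
    · subst hj; simp
    · simp [hj]
  deriv_neg := fun i x h0 h1 => by
    rw [fderiv_approx hE hδ, fderiv_pert]
    refine div_neg_of_neg_of_pos ?_ (by linarith)
    have := mol_deriv_nonpos hE hs hδ hδ4 i x h0 h1
    have hsin : 0 < Real.sin (2 * π * x i) :=
      Real.sin_pos_of_pos_of_lt_pi (by positivity) (by nlinarith [Real.pi_pos])
    have : 0 < ε * (2 * π * Real.sin (2 * π * x i)) := by positivity
    linarith

theorem len_eq_norm (u : V3) : len u = ‖WithLp.toLp 2 u‖ := by
  rw [EuclideanSpace.norm_eq]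
  simp [len]

theorem gradLen_approx_le (hE : MeasurableSet E) (hδ : 0 < δ) {ε : ℝ} (hε : 0 < ε) (x : V3) :
    gradLen (approx δ ε E) x ≤ gradLen (mol δ E) x + 6 * π * ε := by
  set u : V3 := fun i => fderiv ℝ (mol δ E) x (e i)
  set w : V3 := fun i => fderiv ℝ pert x (e i)
  have hz : (fun i => fderiv ℝ (approx δ ε E) x (e i)) = (1 + 6 * ε)⁻¹ • (u + ε • w) := by
    funext i; simp [fderiv_approx hE hδ, u, w]; ring
  have hw : len w ≤ 6 * π := by
    refine Real.sqrt_le_iff.2 ⟨by positivity, ?_⟩
    have : ∀ i, w i ^ 2 ≤ (2 * π) ^ 2 := fun i => by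
      simp only [w, fderiv_pert, neg_sq, mul_pow]
      exact mul_le_of_le_one_right (by positivity) (Real.sin_sq_le_one _)
    refine le_trans (Finset.sum_le_sum fun i _ => this i) ?_
    simp; nlinarith [Real.pi_pos]
  calc gradLen (approx δ ε E) x = len ((1 + 6 * ε)⁻¹ • (u + ε • w)) := by rw [← hz]; rfl
    _ ≤ len (u + ε • w) := by
        rw [len_eq_norm, len_eq_norm, WithLp.toLp_smul, norm_smul]
        refine mul_le_of_le_one_left (norm_nonneg _) ?_
        rw [Real.norm_of_nonneg (by positivity), inv_le_one₀ (by linarith)]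
        linarith
    _ ≤ len u + ε * len w := by
        rw [len_eq_norm, len_eq_norm, len_eq_norm, WithLp.toLp_add, WithLp.toLp_smul]
        refine le_trans (norm_add_le _ _) ?_
        rw [norm_smul, Real.norm_of_nonneg hε.le]
    _ ≤ _ := by
        have h := mul_le_mul_of_nonneg_left hw hε.le
        have : len u = gradLen (mol δ E) x := rfl
        linarith

theorem continuous_gradLen_of {f : V3 → ℝ} (hf : ContDiff ℝ 1 f) : Continuous (gradLen f) :=
  Real.continuous_sqrt.comp (continuous_finsetSum _ fun _ _ =>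
    (((hf.continuous_fderiv one_ne_zero).clm_apply continuous_const)).pow 2)

open scoped Classical in
theorem tvol_level {f : V3 → ℝ} (hf : Continuous f) (hE : MeasurableSet E) {t : ℝ} (h0 : 0 < t)
    (h1 : t < 1) : |tvol {x | t < f x} - tvol E| * min t (1 - t)
      ≤ ∫ x in cube, |f x - E.indicator 1 x| := by
  set S := {x : V3 | t < f x}
  have hS : MeasurableSet S := measurableSet_lt measurable_const hf.measurable
  have hm0 : 0 < min t (1 - t) := lt_min h0 (by linarith)
  have hfin : ∀ s : Set V3, volume (s ∩ cube) ≠ ⊤ := fun s => ne_top_of_le_ne_top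
    (by rw [volume_cube_eq_one]; exact ENNReal.one_ne_top) (measure_mono inter_subset_right)
  have hI : ∀ A : Set V3, MeasurableSet A → ∫ x in cube, A.indicator (1 : V3 → ℝ) x = tvol A := by
    intro A hA
    rw [setIntegral_indicator hA, inter_comm]
    simp [tvol, Measure.real]
  have hiA : ∀ A : Set V3, MeasurableSet A → IntegrableOn (A.indicator (1 : V3 → ℝ)) cube := by
    intro A hA
    exact (Continuous.integrableOn_cube continuous_const).indicator hA
  rw [← hI S hS, ← hI E hE, ← integral_sub (hiA S hS) (hiA E hE)]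
  refine le_trans (mul_le_mul_of_nonneg_right (abs_integral_le_integral_abs) hm0.le) ?_
  rw [← integral_mul_const]
  refine setIntegral_mono_on (((hiA S hS).sub (hiA E hE)).abs.mul_const _)
    (((Continuous.integrableOn_cube hf).sub (hiA E hE)).abs) measurableSet_cube fun x _ => ?_
  by_cases hx : x ∈ S <;> by_cases he : x ∈ E <;> simp [hx, he]
  · have hx' : t < f x := hx
    exact Or.inl (hx'.le.trans (le_abs_self _))
  · have hx' : f x ≤ t := not_lt.1 hx
    refine Or.inr ?_
    linarith [neg_abs_le (f x - 1)]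

end Smooth

open Smooth in
/-- Approximation of a symmetric monotone set by core functions. -/
theorem exists_coreFun_approx {E : Set V3} (hE : MeasurableSet E) (hs : SymMono E) {M : ℝ}
    (hM : ∀ δ, 0 < δ → δ < 1 / 4 → ∫ x in cube, gradLen (Smooth.mol δ E) x ≤ M) :
    ∃ f : ℕ → V3 → ℝ, (∀ n, CoreFun (f n)) ∧
      (∀ n, ∫ x in cube, gradLen (f n) x ≤ M + 1 / (n + 1)) ∧
      Tendsto (fun n => ∫ x in cube, |f n x - E.indicator 1 x|) atTop (𝓝 0) ∧
      ∀ t ∈ Ioo (0 : ℝ) 1, Tendsto (fun n => tvol {x | t < f n x}) atTop (𝓝 (tvol E)) := by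
  set d : ℕ → ℝ := fun n => 1 / (5 * ((n : ℝ) + 1)) with hd
  set ε : ℕ → ℝ := fun n => 1 / (6 * π * ((n : ℝ) + 1)) with hεdef
  have hd0 : ∀ n, 0 < d n := fun n => by positivity
  have hd4 : ∀ n, d n < 1 / 4 := fun n => by
    rw [hd, div_lt_div_iff₀ (by positivity) (by norm_num)]
    nlinarith [(n : ℝ), (Nat.cast_nonneg n : (0 : ℝ) ≤ n)]
  have hε0 : ∀ n, 0 < ε n := fun n => by positivity
  have hone : volume.real cube = 1 := by simp [Measure.real, volume_cube_eq_one]
  refine ⟨fun n => approx (d n) (ε n) E,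
    fun n => coreFun_approx hE hs (hd0 n) (hd4 n).le (hε0 n), fun n => ?_, ?_⟩
  · calc ∫ x in cube, gradLen (approx (d n) (ε n) E) x
        ≤ ∫ x in cube, (gradLen (Smooth.mol (d n) E) x + 6 * π * ε n) :=
          setIntegral_mono_on
            (Continuous.integrableOn_cube (continuous_gradLen_of
              (coreFun_approx hE hs (hd0 n) (hd4 n).le (hε0 n)).smooth))
            (Continuous.integrableOn_cube ((continuous_gradLen_of (Smooth.contDiff_mol hE (hd0 n))).add
              continuous_const))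
            measurableSet_cube fun x _ => gradLen_approx_le hE (hd0 n) (hε0 n) x
      _ = (∫ x in cube, gradLen (Smooth.mol (d n) E) x) + 6 * π * ε n := by
          rw [integral_add (Continuous.integrableOn_cube (continuous_gradLen_of (Smooth.contDiff_mol hE (hd0 n))))
            (Continuous.integrableOn_cube continuous_const), setIntegral_const, hone, one_smul]
      _ ≤ M + 1 / (n + 1) := by
          have := hM _ (hd0 n) (hd4 n)
          have : 6 * π * ε n = 1 / ((n : ℝ) + 1) := by
            rw [hεdef]; field_simp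
          linarith
  have hL1 : Tendsto (fun n => ∫ x in cube, |approx (d n) (ε n) E x - E.indicator 1 x|) atTop
      (𝓝 0) := by
    have hlimd : Tendsto d atTop (𝓝 0) := by
      refine tendsto_const_nhds.div_atTop (Tendsto.const_mul_atTop (by norm_num) ?_)
      exact tendsto_atTop_add_const_right _ _ tendsto_natCast_atTop_atTop
    have hlimε : Tendsto ε atTop (𝓝 0) := by
      refine tendsto_const_nhds.div_atTop (Tendsto.const_mul_atTop (by positivity) ?_)
      exact tendsto_atTop_add_const_right _ _ tendsto_natCast_atTop_atTop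
    have h0 := tendsto_integral_of_dominated_convergence (μ := volume.restrict cube)
      (F := fun n x => |approx (d n) (ε n) E x - E.indicator 1 x|) (f := fun _ => 0) (fun _ => 1)
      (fun n => (((coreFun_approx hE hs (hd0 n) (hd4 n).le (hε0 n)).smooth.continuous
        |>.aestronglyMeasurable).sub ((measurable_const.indicator hE).aestronglyMeasurable)).norm)
      (Continuous.integrableOn_cube continuous_const) (fun n => Eventually.of_forall fun x => ?_) ?_
    · simpa using h0
    · rw [Real.norm_eq_abs, abs_abs, abs_le]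
      have a1 := (coreFun_approx hE hs (hd0 n) (hd4 n).le (hε0 n)).nonneg x
      have a2 := (coreFun_approx hE hs (hd0 n) (hd4 n).le (hε0 n)).le_one x
      by_cases hx : x ∈ E <;> simp [hx] <;> constructor <;> linarith
    · filter_upwards [ae_restrict_of_ae (mol_tendsto_ae hE hd0 hlimd)] with x hx
      have h1 : Tendsto (fun n => approx (d n) (ε n) E x) atTop (𝓝 (E.indicator 1 x)) := by
        have := (hx.add (hlimε.mul_const (pert x))).div
          ((tendsto_const_nhds (x := (1 : ℝ))).add (hlimε.const_mul 6)) (by norm_num)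
        simp only [mul_zero, zero_mul, add_zero, div_one] at this
        exact this
      simpa using (h1.sub_const (E.indicator 1 x)).abs
  refine ⟨hL1, fun t ht => ?_⟩
  rw [tendsto_iff_norm_sub_tendsto_zero]
  have hm0 : 0 < min t (1 - t) := lt_min ht.1 (by linarith [ht.2])
  refine squeeze_zero (fun n => norm_nonneg _) (fun n => ?_)
    (by simpa using hL1.div_const (min t (1 - t)))
  rw [Real.norm_eq_abs, le_div_iff₀ hm0]
  exact tvol_level (coreFun_approx hE hs (hd0 n) (hd4 n).le (hε0 n)).smooth.continuous hE ht.1 ht.2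

/-- Approximation of a symmetric monotone set of finite perimeter by core functions. -/
theorem exists_coreFun_approx_perimeter {E : Set V3} (hE : MeasurableSet E) (hs : SymMono E)
    {M : ℝ} (hM : perimeter E ≤ ENNReal.ofReal M) (hM0 : 0 ≤ M) :
    ∃ f : ℕ → V3 → ℝ, (∀ n, CoreFun (f n)) ∧
      (∀ n, ∫ x in cube, gradLen (f n) x ≤ M + 1 / (n + 1)) ∧
      Tendsto (fun n => ∫ x in cube, |f n x - E.indicator 1 x|) atTop (𝓝 0) ∧
      ∀ t ∈ Ioo (0 : ℝ) 1, Tendsto (fun n => tvol {x | t < f n x}) atTop (𝓝 (tvol E)) :=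
  exists_coreFun_approx hE hs fun _ hδ _ => (ENNReal.ofReal_le_ofReal_iff hM0).1
    ((ofReal_integral_gradLen_conv_le hE hs.1 Smooth.contDiff_ker3
      (Smooth.hasCompactSupport_ker3 hδ) (Smooth.ker3_nonneg hδ)
      (Smooth.integral_ker3 hδ)).trans hM)

end

end Vale.P232
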