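import Mathlib
import Vale.Agent.P232.Defs
import Vale.Agent.P232.Coord

/-!
P232, module E: balls, tubes and slabs give `profile V ≤ J V`.
-/

open MeasureTheory Real Set Filter Topology

namespace Vale.P232

noncomputable section

namespace Upper

theorem e_apply (i j : Fin 3) : e i j = if j = i then 1 else 0 := by
  simp [e, Pi.single_apply]

theorem cube_eq : cube = Set.univ.pi fun _ : Fin 3 => Ico (0 : ℝ) 1 := rfl

theorem cube_ae_eq_Icc : (cube : Set V3) =ᵐ[volume] Icc (0 : V3) 1 := by
  rw [volume_pi]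
  exact Measure.univ_pi_Ico_ae_eq_Icc

theorem volume_cube : volume cube = 1 := by
  rw [measure_congr cube_ae_eq_Icc, Real.volume_Icc_pi]
  simp

theorem cube_subset_Icc : cube ⊆ Icc (0 : V3) 1 := fun x hx =>
  ⟨fun i => (hx i (mem_univ _)).1, fun i => (hx i (mem_univ _)).2.le⟩

theorem integrableOn_cube {f : V3 → ℝ} (hf : Continuous f) : IntegrableOn f cube :=
  (hf.continuousOn.integrableOn_compact isCompact_Icc).mono_set cube_subset_Icc

/-- A partial derivative integrates to zero over the cube if the two opposite faces agree. -/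
theorem integral_cube_partial {F : V3 → ℝ} (hF : ContDiff ℝ 1 F) (i : Fin 3)
    (hface : ∀ x : V3, F (Function.update x i 1) = F (Function.update x i 0)) :
    ∫ x in cube, fderiv ℝ F x (e i) = 0 := by
  have hd : Continuous fun x => fderiv ℝ F x (e i) :=
    (hF.continuous_fderiv one_ne_zero).clm_apply continuous_const
  set f : Fin 3 → V3 → ℝ := fun j x => if j = i then F x else 0
  set f' : Fin 3 → V3 → V3 →L[ℝ] ℝ := fun j x => if j = i then fderiv ℝ F x else 0
  have hsum : ∀ x, ∑ j : Fin 3, f' j x (e j) = fderiv ℝ F x (e i) := by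
    intro x
    rw [Finset.sum_eq_single i (fun j _ hj => by simp [f', hj])
      (fun h => absurd (Finset.mem_univ _) h)]
    simp [f']
  have key := integral_divergence_of_hasFDerivAt_off_countable' (0 : V3) 1 (fun _ => zero_le_one)
    f f' ∅ countable_empty ?_ ?_ ?_
  rotate_left
  · intro j
    by_cases hj : j = i <;> simp only [f, hj, if_true, if_false]
    · exact hF.continuous.continuousOn
    · exact continuousOn_const
  · intro x _ j
    by_cases hj : j = i <;> simp only [f, f', hj, if_true, if_false]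
    · exact (hF.differentiable one_ne_zero x).hasFDerivAt
    · exact hasFDerivAt_const _ _
  · have : IntegrableOn (fun x => fderiv ℝ F x (e i)) (Icc (0 : V3) 1) :=
      hd.continuousOn.integrableOn_compact isCompact_Icc
    convert this using 2 with x
    exact hsum x
  rw [setIntegral_congr_set cube_ae_eq_Icc]
  have hfun : (fun x : V3 => ∑ j, f' j x (e j)) = fun x => fderiv ℝ F x (e i) := funext hsum
  simp only [e] at hfun ⊢
  rw [hfun] at key
  rw [key]
  refine Finset.sum_eq_zero fun j _ => ?_
  by_cases hj : j = i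
  · subst hj
    simp only [f, if_true, Pi.one_apply, Pi.zero_apply]
    rw [sub_eq_zero]
    refine setIntegral_congr_fun measurableSet_Icc fun y _ => ?_
    have := hface (Fin.insertNth j 0 y)
    rw [Fin.update_insertNth, Fin.update_insertNth] at this
    exact this
  · simp [f, hj]

/-- Squared distance to the centre of the cube in the coordinates of `W`. -/
def qd (W : Finset (Fin 3)) (x : V3) : ℝ := ∑ i ∈ W, (x i - 1 / 2) ^ 2

/-- The smoothed indicator of `qd W < R²`. -/
def bump (W : Finset (Fin 3)) (R ε : ℝ) (x : V3) : ℝ :=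
  smoothTransition ((R ^ 2 - qd W x) / ε)

variable {W : Finset (Fin 3)} {R ε : ℝ}

theorem qd_nonneg (x : V3) : 0 ≤ qd W x := Finset.sum_nonneg fun _ _ => sq_nonneg _

theorem contDiff_qd : ContDiff ℝ 1 (qd W) := by
  unfold qd
  fun_prop

theorem continuous_qd : Continuous (qd W) := contDiff_qd.continuous

theorem contDiff_bump : ContDiff ℝ 1 (bump W R ε) :=
  (smoothTransition.contDiff (n := 1)).comp ((contDiff_const.sub contDiff_qd).div_const _)

theorem fderiv_qd_apply (x : V3) (i : Fin 3) :
    fderiv ℝ (qd W) x (e i) = if i ∈ W then 2 * (x i - 1 / 2) else 0 := by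
  have h : ∀ j : Fin 3, HasFDerivAt (fun y : V3 => (y j - 1 / 2) ^ 2)
      ((2 * (x j - 1 / 2)) • ContinuousLinearMap.proj (R := ℝ) (φ := fun _ : Fin 3 => ℝ) j) x := by
    intro j
    have := ((hasFDerivAt_apply (𝕜 := ℝ) j x).sub_const (1 / 2 : ℝ)).pow 2
    refine this.congr_fderiv ?_
    ext v
    simp
  have hs : HasFDerivAt (qd W) (∑ j ∈ W,
      (2 * (x j - 1 / 2)) • ContinuousLinearMap.proj (R := ℝ) (φ := fun _ : Fin 3 => ℝ) j) x :=
    HasFDerivAt.fun_sum fun j _ => h j
  rw [hs.fderiv]
  simp [e_apply]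

theorem fderiv_bump_apply (x : V3) (i : Fin 3) :
    fderiv ℝ (bump W R ε) x (e i) =
      -(deriv smoothTransition ((R ^ 2 - qd W x) / ε) / ε *
        (if i ∈ W then 2 * (x i - 1 / 2) else 0)) := by
  have hq : HasFDerivAt (qd W) (fderiv ℝ (qd W) x) x :=
    (contDiff_qd.differentiable one_ne_zero x).hasFDerivAt
  have h1 : HasDerivAt smoothTransition (deriv smoothTransition ((R ^ 2 - qd W x) / ε))
      ((R ^ 2 - qd W x) / ε) :=
    ((smoothTransition.contDiff (n := 1)).differentiable one_ne_zero _).hasDerivAt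
  have h2 := h1.comp_hasFDerivAt x ((hq.const_sub (R ^ 2)).mul_const ε⁻¹)
  have : bump W R ε = smoothTransition ∘ fun y => (R ^ 2 - qd W y) * ε⁻¹ := by
    funext y; simp [bump, div_eq_mul_inv]
  rw [this, show ((R ^ 2 - qd W x) / ε) = (R ^ 2 - qd W x) * ε⁻¹ from div_eq_mul_inv _ _] at *
  rw [h2.fderiv]
  simp [fderiv_qd_apply]
  ring

theorem deriv_st_nonneg (t : ℝ) : 0 ≤ deriv smoothTransition t :=
  smoothTransition.monotone.deriv_nonneg

theorem deriv_st_of_neg {t : ℝ} (h : t < 0) : deriv smoothTransition t = 0 := by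
  have : smoothTransition =ᶠ[𝓝 t] fun _ => (0 : ℝ) := by
    filter_upwards [gt_mem_nhds h] with s hs using smoothTransition.zero_of_nonpos hs.le
  rw [this.deriv_eq, deriv_const]

theorem deriv_st_of_one_lt {t : ℝ} (h : 1 < t) : deriv smoothTransition t = 0 := by
  have : smoothTransition =ᶠ[𝓝 t] fun _ => (1 : ℝ) := by
    filter_upwards [lt_mem_nhds h] with s hs using smoothTransition.one_of_one_le hs.le
  rw [this.deriv_eq, deriv_const]

theorem bump_face (hR : 0 < R) (hR2 : R ≤ 1 / 2) (hε : 0 < ε) {i : Fin 3} (hi : i ∈ W)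
    (x : V3) (s : ℝ) (hs : s = 0 ∨ s = 1) : bump W R ε (Function.update x i s) = 0 := by
  refine smoothTransition.zero_of_nonpos (div_nonpos_of_nonpos_of_nonneg ?_ hε.le)
  have : (1 / 4 : ℝ) ≤ qd W (Function.update x i s) := by
    refine le_trans (le_of_eq ?_)
      (Finset.single_le_sum (fun j _ => sq_nonneg (Function.update x i s j - 1 / 2)) hi)
    rcases hs with rfl | rfl <;> simp <;> norm_num
  nlinarith

theorem bump_indep {i : Fin 3} (hi : i ∉ W) (x : V3) (s : ℝ) :
    bump W R ε (Function.update x i s) = bump W R ε x := by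
  unfold bump qd
  congr 3
  refine Finset.sum_congr rfl fun j hj => ?_
  rw [Function.update_of_ne (fun h => hi (by rwa [← h]))]

theorem periodic_face {X : V3 → V3} (hX : IsPeriodicFun X) (i : Fin 3) (x : V3) :
    X (Function.update x i 1) = X (Function.update x i 0) := by
  have h := hX (Function.update x i 0) (Pi.single i 1)
  rw [← h]
  congr 1
  funext j
  by_cases hj : j = i
  · subst hj; simp
  · simp [hj]

theorem contDiff_coord {X : V3 → V3} (hX : ContDiff ℝ 1 X) (i : Fin 3) :
    ContDiff ℝ 1 fun x => X x i :=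
  (contDiff_apply ℝ ℝ i).comp hX

theorem fderiv_coord {X : V3 → V3} (hX : ContDiff ℝ 1 X) (i : Fin 3) (x v : V3) :
    fderiv ℝ (fun y => X y i) x v = fderiv ℝ X x v i := by
  rw [(hasFDerivAt_pi'.1 (hX.differentiable one_ne_zero x).hasFDerivAt i).fderiv]
  simp

theorem continuous_div3 {X : V3 → V3} (hX : ContDiff ℝ 1 X) : Continuous (div3 X) := by
  unfold div3
  refine continuous_finsetSum _ fun i _ => ?_
  exact (continuous_apply i).comp ((hX.continuous_fderiv one_ne_zero).clm_apply continuous_const)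

theorem ibp {φ u : V3 → ℝ} (hφ : ContDiff ℝ 1 φ) (hu : ContDiff ℝ 1 u) (i : Fin 3)
    (hface : ∀ x : V3, φ (Function.update x i 1) * u (Function.update x i 1)
      = φ (Function.update x i 0) * u (Function.update x i 0)) :
    ∫ x in cube, φ x * fderiv ℝ u x (e i) = -∫ x in cube, u x * fderiv ℝ φ x (e i) := by
  have h := integral_cube_partial (F := fun x => φ x * u x) (hφ.mul hu) i hface
  have hd : ∀ x, fderiv ℝ (fun x => φ x * u x) x (e i)
      = φ x * fderiv ℝ u x (e i) + u x * fderiv ℝ φ x (e i) := by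
    intro x
    rw [((hφ.differentiable one_ne_zero x).hasFDerivAt.fun_mul
      (hu.differentiable one_ne_zero x).hasFDerivAt).fderiv]
    simp
  rw [setIntegral_congr_fun measurableSet_cube (fun x _ => hd x), integral_add] at h
  · linarith
  · exact integrableOn_cube (hφ.continuous.mul
      ((hu.continuous_fderiv one_ne_zero).clm_apply continuous_const))
  · exact integrableOn_cube (hu.continuous.mul
      ((hφ.continuous_fderiv one_ne_zero).clm_apply continuous_const))

/-- The key inequality for the smoothed sets. -/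
theorem bump_div_le {X : V3 → V3} (hX : IsTestField X) (hR : 0 < R) (hR2 : R ≤ 1 / 2)
    (hε : 0 < ε) (hεR : ε < R ^ 2) :
    ∫ x in cube, bump W R ε x * div3 X x
      ≤ W.card / Real.sqrt (R ^ 2 - ε) * ∫ x in cube, bump W R ε x := by
  obtain ⟨hX1, hX2, hX3⟩ := hX
  set φ := bump W R ε with hφdef
  have hφ : ContDiff ℝ 1 φ := contDiff_bump
  have hφc : ∀ i, Continuous fun x => fderiv ℝ φ x (e i) := fun i =>
    (hφ.continuous_fderiv one_ne_zero).clm_apply continuous_const
  have h1 : ∫ x in cube, φ x * div3 X x = ∫ x in cube, -∑ i, X x i * fderiv ℝ φ x (e i) := by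
    unfold div3
    simp only [Finset.mul_sum]
    rw [integral_finsetSum _ fun i _ => ?_, integral_neg, integral_finsetSum _ fun i _ => ?_,
      ← Finset.sum_neg_distrib]
    · refine Finset.sum_congr rfl fun i _ => ?_
      have := ibp hφ (contDiff_coord hX1 i) i fun x => by
        rw [periodic_face hX2 i x]
        by_cases hi : i ∈ W
        · simp [hφdef, bump_face hR hR2 hε hi x 1 (Or.inr rfl),
            bump_face hR hR2 hε hi x 0 (Or.inl rfl)]
        · simp [hφdef, bump_indep hi]
      simpa [fderiv_coord hX1] using this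
    · exact integrableOn_cube (((continuous_apply i).comp hX1.continuous).mul (hφc i))
    · exact integrableOn_cube (hφ.continuous.mul ((continuous_apply i).comp
        ((hX1.continuous_fderiv one_ne_zero).clm_apply continuous_const)))
  have h2 : (W.card : ℝ) * ∫ x in cube, φ x
      = ∫ x in cube, -∑ i ∈ W, (x i - 1 / 2) * fderiv ℝ φ x (e i) := by
    rw [integral_neg, integral_finsetSum _ fun i _ => ?_, ← Finset.sum_neg_distrib]
    · rw [← nsmul_eq_mul, ← Finset.sum_const]
      refine Finset.sum_congr rfl fun i hi => ?_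
      have := ibp (u := fun x => x i - 1 / 2) hφ (by fun_prop) i fun x => by
        simp [hφdef, bump_face hR hR2 hε hi x 1 (Or.inr rfl),
          bump_face hR hR2 hε hi x 0 (Or.inl rfl)]
      have hd : ∀ x : V3, fderiv ℝ (fun x : V3 => x i - 1 / 2) x (e i) = 1 := by
        intro x
        rw [((hasFDerivAt_apply (𝕜 := ℝ) i x).sub_const (1 / 2 : ℝ)).fderiv]
        simp [e_apply]
      simp only [hd, mul_one] at this
      exact this
    · exact integrableOn_cube (((continuous_apply i).sub continuous_const).mul (hφc i))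
  have hK : 0 < Real.sqrt (R ^ 2 - ε) := Real.sqrt_pos.2 (by linarith)
  rw [div_mul_eq_mul_div, le_div_iff₀ hK, h1, h2, ← integral_mul_const]
  refine setIntegral_mono_on ?_ ?_ measurableSet_cube fun x _ => ?_
  · exact integrableOn_cube (((continuous_finsetSum _ fun i _ =>
      ((continuous_apply i).comp hX1.continuous).mul (hφc i)).neg).mul continuous_const)
  · exact integrableOn_cube (continuous_finsetSum _ fun i _ =>
      ((continuous_apply i).sub continuous_const).mul (hφc i)).neg
  simp only [hφdef, fderiv_bump_apply]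
  set c := deriv smoothTransition ((R ^ 2 - qd W x) / ε) / ε with hc
  have hc0 : 0 ≤ c := div_nonneg (deriv_st_nonneg _) hε.le
  have e1 : -∑ i, X x i * -(c * if i ∈ W then 2 * (x i - 1 / 2) else 0)
      = 2 * c * ∑ i ∈ W, X x i * (x i - 1 / 2) := by
    rw [← Finset.sum_neg_distrib, Finset.mul_sum, ← Finset.sum_filter_add_sum_filter_not
      Finset.univ (· ∈ W), Finset.filter_univ_mem]
    rw [Finset.sum_eq_zero (s := Finset.univ.filter (· ∉ W))
      (fun i hi => by simp [(Finset.mem_filter.1 hi).2]), add_zero]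
    exact Finset.sum_congr rfl fun i hi => by simp [hi]; ring
  have e2 : -∑ i ∈ W, (x i - 1 / 2) * -(c * if i ∈ W then 2 * (x i - 1 / 2) else 0)
      = 2 * c * qd W x := by
    rw [← Finset.sum_neg_distrib, qd, Finset.mul_sum]
    exact Finset.sum_congr rfl fun i hi => by simp [hi]; ring
  rw [e1, e2]
  rcases hc0.eq_or_lt with h0 | h0
  · simp [← h0]
  have hq : R ^ 2 - ε ≤ qd W x := by
    by_contra hlt
    refine h0.ne' ?_
    rw [hc, deriv_st_of_one_lt, zero_div]
    rw [one_lt_div hε]; linarith [not_le.1 hlt]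
  have hcs : ∑ i ∈ W, X x i * (x i - 1 / 2) ≤ Real.sqrt (qd W x) := by
    refine le_trans (Real.le_sqrt_of_sq_le
      (Finset.sum_mul_sq_le_sq_mul_sq W (fun i => X x i) fun i => x i - 1 / 2)) ?_
    refine Real.sqrt_le_sqrt ?_
    refine mul_le_of_le_one_left (qd_nonneg x) (le_trans ?_ (hX3 x))
    exact Finset.sum_le_univ_sum_of_nonneg fun i => sq_nonneg _
  have h3 : Real.sqrt (R ^ 2 - ε) * Real.sqrt (qd W x) ≤ qd W x := by
    calc _ ≤ Real.sqrt (qd W x) * Real.sqrt (qd W x) :=
          mul_le_mul_of_nonneg_right (Real.sqrt_le_sqrt hq) (Real.sqrt_nonneg _)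
      _ = qd W x := Real.mul_self_sqrt (qd_nonneg x)
  calc 2 * c * (∑ i ∈ W, X x i * (x i - 1 / 2)) * Real.sqrt (R ^ 2 - ε)
      ≤ 2 * c * Real.sqrt (qd W x) * Real.sqrt (R ^ 2 - ε) :=
        mul_le_mul_of_nonneg_right (mul_le_mul_of_nonneg_left hcs (by positivity))
          (Real.sqrt_nonneg _)
    _ ≤ 2 * c * qd W x := by
        rw [mul_assoc]
        exact mul_le_mul_of_nonneg_left (by linarith) (by positivity)

/-- The periodic set with cross-section `qd W < R²` in each cell. -/
def shape (W : Finset (Fin 3)) (R : ℝ) : Set V3 :=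
  {x | qd W (fun i => Int.fract (x i)) < R ^ 2}

theorem measurableSet_shape : MeasurableSet (shape W R) :=
  measurableSet_lt (continuous_qd.measurable.comp
    (measurable_pi_lambda _ fun i => measurable_fract.comp (measurable_pi_apply i)))
    measurable_const

theorem isPeriodic_shape : IsPeriodic (shape W R) := by
  intro x k
  simp [shape, Int.fract_add_intCast]

theorem shape_inter_cube : shape W R ∩ cube = {x | qd W x < R ^ 2} ∩ cube := by
  ext x
  simp only [shape, mem_inter_iff, mem_ofPred_eq, and_congr_left_iff]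
  intro hx
  have : (fun i => Int.fract (x i)) = x :=
    funext fun i => Int.fract_eq_self.2 (hx i (mem_univ _))
  rw [this]

theorem perimeter_shape_le (hR : 0 < R) (hR2 : R ≤ 1 / 2) :
    perimeter (shape W R) ≤ ENNReal.ofReal (W.card * tvol (shape W R) / R) := by
  refine iSup_le fun X => iSup_le fun hX => ENNReal.ofReal_le_ofReal ?_
  set S := {x : V3 | qd W x < R ^ 2} with hSdef
  have hSm : MeasurableSet S := measurableSet_lt continuous_qd.measurable measurable_const
  set η : ℕ → ℝ := fun n => R ^ 2 / (n + 2) with hη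
  have hη0 : ∀ n, 0 < η n := fun n => by positivity
  have hηR : ∀ n, η n < R ^ 2 := fun n => by
    rw [hη, div_lt_iff₀ (by positivity)]
    nlinarith [pow_pos hR 2]
  have hηlim : Tendsto η atTop (𝓝 0) :=
    tendsto_const_nhds.div_atTop
      (tendsto_atTop_add_const_right _ _ tendsto_natCast_atTop_atTop)
  have hpt : ∀ x, Tendsto (fun n => bump W R (η n) x) atTop (𝓝 (S.indicator 1 x)) := by
    intro x
    by_cases hx : qd W x < R ^ 2
    · rw [indicator_of_mem (by exact hx)]
      refine tendsto_const_nhds.congr' ?_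
      filter_upwards [hηlim.eventually (gt_mem_nhds (sub_pos.2 hx))] with n hn
      show (1 : ℝ) = smoothTransition ((R ^ 2 - qd W x) / η n)
      rw [smoothTransition.one_of_one_le]
      · rw [le_div_iff₀ (hη0 n)]; linarith
    · rw [indicator_of_notMem (by exact hx)]
      refine tendsto_const_nhds.congr' (Eventually.of_forall fun n => ?_)
      show (0 : ℝ) = smoothTransition ((R ^ 2 - qd W x) / η n)
      rw [smoothTransition.zero_of_nonpos]
      exact div_nonpos_of_nonpos_of_nonneg (by linarith [not_lt.1 hx]) (hη0 n).le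
  have hlim : ∀ {g : V3 → ℝ}, Continuous g →
      Tendsto (fun n => ∫ x in cube, bump W R (η n) x * g x) atTop
        (𝓝 (∫ x in shape W R ∩ cube, g x)) := by
    intro g hg
    have hI : ∫ x in shape W R ∩ cube, g x = ∫ x in cube, S.indicator 1 x * g x := by
      rw [shape_inter_cube, inter_comm, ← setIntegral_indicator hSm]
      refine setIntegral_congr_fun measurableSet_cube fun x _ => ?_
      by_cases hx : x ∈ S
      · simp [indicator_of_mem hx]
      · simp [indicator_of_notMem hx]
    rw [hI]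
    refine tendsto_integral_of_dominated_convergence (fun x => |g x|)
      (fun n => ((contDiff_bump.continuous).mul hg).aestronglyMeasurable)
      (integrableOn_cube hg.abs) (fun n => Eventually.of_forall fun x => ?_)
      (Eventually.of_forall fun x => (hpt x).mul_const _)
    rw [Real.norm_eq_abs, abs_mul, abs_of_nonneg (show 0 ≤ bump W R (η n) x from
      smoothTransition.nonneg _)]
    exact mul_le_of_le_one_left (abs_nonneg _) (smoothTransition.le_one _)
  have h1 := hlim (continuous_div3 hX.1)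
  have h2 := hlim (continuous_const (y := (1 : ℝ)))
  simp only [mul_one, setIntegral_const, smul_eq_mul] at h2
  rw [show (volume.real (shape W R ∩ cube)) = tvol (shape W R) from rfl] at h2
  have h3 : Tendsto (fun n => (W.card : ℝ) / Real.sqrt (R ^ 2 - η n)) atTop
      (𝓝 ((W.card : ℝ) / R)) := by
    refine tendsto_const_nhds.div ?_ hR.ne'
    have := ((tendsto_const_nhds (x := R ^ 2)).sub hηlim).sqrt
    rwa [sub_zero, Real.sqrt_sq hR.le] at this
  have h4 := h3.mul h2
  rw [← mul_div_right_comm] at h4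
  exact le_of_tendsto_of_tendsto' h1 h4 fun n => bump_div_le hX hR hR2 (hη0 n) (hηR n)

theorem integral_div3_cube {X : V3 → V3} (hX : ContDiff ℝ 1 X) (hP : IsPeriodicFun X) :
    ∫ x in cube, div3 X x = 0 := by
  unfold div3
  rw [integral_finsetSum _ fun i _ => ?_]
  · refine Finset.sum_eq_zero fun i _ => ?_
    simp only [← fderiv_coord hX i]
    exact integral_cube_partial (contDiff_coord hX i) i fun x => by rw [periodic_face hP]
  · exact integrableOn_cube ((continuous_apply i).comp
      ((hX.continuous_fderiv one_ne_zero).clm_apply continuous_const))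

theorem perimeter_compl_le {E : Set V3} (hE : MeasurableSet E) :
    perimeter Eᶜ ≤ perimeter E := by
  refine iSup_le fun X => iSup_le fun hX => ?_
  refine le_iSup_of_le (fun x => -X x) (le_iSup_of_le
    ⟨hX.1.neg, fun x k => by simp [hX.2.1 x k], fun x => by simpa using hX.2.2 x⟩ ?_)
  refine ENNReal.ofReal_le_ofReal (le_of_eq ?_)
  have hd : ∀ x, div3 (fun x => -X x) x = -div3 X x := by
    intro x
    simp [div3, fderiv_fun_neg]
  simp only [hd, integral_neg]
  have h := integral_inter_add_sdiff (f := div3 X) (s := cube) (t := E) hE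
    (integrableOn_cube (continuous_div3 hX.1))
  rw [integral_div3_cube hX.1 hX.2.1, inter_comm cube E, sdiff_eq, inter_comm cube Eᶜ] at h
  linarith

theorem perimeter_compl {E : Set V3} (hE : MeasurableSet E) : perimeter Eᶜ = perimeter E :=
  le_antisymm (perimeter_compl_le hE) (by simpa using perimeter_compl_le hE.compl)

theorem tvol_compl {E : Set V3} (hE : MeasurableSet E) : tvol Eᶜ = 1 - tvol E := by
  have h : volume (cube ∩ E) + volume (cube \ E) = 1 := by
    rw [measure_inter_add_sdiff _ hE, volume_cube]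
  have hf : ∀ s : Set V3, s ⊆ cube → volume s ≠ ⊤ := fun s hs =>
    ne_top_of_le_ne_top (by rw [volume_cube]; exact ENNReal.one_ne_top) (measure_mono hs)
  have := congrArg ENNReal.toReal h
  rw [ENNReal.toReal_add (hf _ inter_subset_left) (hf _ sdiff_subset)] at this
  rw [tvol, tvol, inter_comm E, inter_comm Eᶜ, ← sdiff_eq]
  simp at this ⊢
  linarith

theorem isPeriodic_compl {E : Set V3} (hE : IsPeriodic E) : IsPeriodic Eᶜ :=
  fun x k => not_congr (hE x k)

theorem tvol_ball (hR : 0 < R) (hR2 : R ≤ 1 / 2) :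
    tvol (shape Finset.univ R) = 4 / 3 * π * R ^ 3 := by
  have hsub : {x : V3 | qd Finset.univ x < R ^ 2} ⊆ cube := by
    intro x hx i _
    have h : (x i - 1 / 2) ^ 2 < R ^ 2 := lt_of_le_of_lt
      (Finset.single_le_sum (f := fun j => (x j - 1 / 2) ^ 2) (fun j _ => sq_nonneg _)
        (Finset.mem_univ i)) hx
    have := abs_lt_of_sq_lt_sq' h hR.le
    constructor <;> linarith
  rw [tvol, shape_inter_cube, inter_eq_left.2 hsub]
  have hset : {x : V3 | qd Finset.univ x < R ^ 2} = (fun x : V3 => x + fun _ => -(1 / 2 : ℝ)) ⁻¹'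
      {y : V3 | (∑ i, |y i| ^ (2 : ℝ)) ^ (1 / (2 : ℝ)) < R} := by
    ext x
    simp only [qd, mem_ofPred_eq, mem_preimage, Pi.add_apply, Real.rpow_two, sq_abs,
      ← Real.sqrt_eq_rpow, Real.sqrt_lt' hR, ← sub_eq_add_neg]
  rw [hset, measure_preimage_add_right,
    volume_sum_rpow_lt (ι := Fin 3) (p := (2 : ℝ)) (by norm_num) R]
  have g1 : Real.Gamma (1 / 2 + 1) = Real.sqrt π / 2 := by
    rw [Real.Gamma_add_one (by norm_num), Real.Gamma_one_half_eq]; ring
  have g2 : Real.Gamma (3 / 2 + 1) = 3 * Real.sqrt π / 4 := by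
    rw [Real.Gamma_add_one (by norm_num), show (3 / 2 : ℝ) = 1 / 2 + 1 by norm_num, g1]; ring
  rw [Fintype.card_fin, show ((3 : ℕ) : ℝ) / 2 + 1 = 3 / 2 + 1 by norm_num, g1, g2,
    ← ENNReal.ofReal_pow hR.le, ← ENNReal.ofReal_mul (by positivity),
    ENNReal.toReal_ofReal (by positivity)]
  field_simp
  rw [Real.sq_sqrt pi_pos.le]

theorem tvol_slab (hR : 0 < R) (hR2 : R ≤ 1 / 2) : tvol (shape {0} R) = 2 * R := by
  have hset : {x : V3 | qd {0} x < R ^ 2} ∩ cube = Set.univ.pi fun i : Fin 3 =>
      if i = 0 then Ioo (1 / 2 - R) (1 / 2 + R) else Ico (0 : ℝ) 1 := by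
    ext x
    simp only [qd, Finset.sum_singleton, mem_inter_iff, mem_ofPred_eq, cube_eq, Set.mem_pi,
      mem_univ, forall_true_left]
    constructor
    · rintro ⟨h, hx⟩ i
      split_ifs with hi
      · subst hi
        have := abs_lt_of_sq_lt_sq' h hR.le
        constructor <;> linarith
      · exact hx i
    · intro hx
      have h0 := hx 0
      rw [if_pos rfl] at h0
      refine ⟨?_, fun i => ?_⟩
      · exact sq_lt_sq' (by linarith [h0.1]) (by linarith [h0.2])
      · by_cases hi : i = 0
        · subst hi; constructor <;> linarith [h0.1, h0.2]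
        · simpa [hi] using hx i
  rw [tvol, shape_inter_cube, hset, volume_pi_pi, Fin.prod_univ_three]
  rw [if_pos rfl, if_neg (by decide), if_neg (by decide), Real.volume_Ioo, Real.volume_Ico]
  simp only [sub_zero, ENNReal.ofReal_one, mul_one]
  rw [ENNReal.toReal_ofReal (by linarith)]
  ring

theorem tvol_tube (hR : 0 < R) (hR2 : R ≤ 1 / 2) : tvol (shape {1, 2} R) = π * R ^ 2 := by
  have hmp := volume_preserving_piFinSuccAbove (fun _ : Fin 3 => ℝ) 0
  set D : Set (Fin 2 → ℝ) :=
    (fun y : Fin 2 → ℝ => y + fun _ => -(1 / 2 : ℝ)) ⁻¹'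
      {y | (∑ i, |y i| ^ (2 : ℝ)) ^ (1 / (2 : ℝ)) < R} with hD
  have hDm : MeasurableSet D := by
    refine measurableSet_lt ?_ measurable_const |>.preimage (measurable_id.add_const _)
    fun_prop
  have hset : {x : V3 | qd {1, 2} x < R ^ 2} ∩ cube =
      (MeasurableEquiv.piFinSuccAbove (fun _ : Fin 3 => ℝ) 0) ⁻¹' (Ico (0 : ℝ) 1 ×ˢ D) := by
    ext x
    simp only [qd, mem_inter_iff, mem_ofPred_eq, cube_eq, Set.mem_pi, mem_univ, forall_true_left,
      mem_preimage, mem_prod, hD, Fin.sum_univ_two, Pi.add_apply, Real.rpow_two, sq_abs,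
      ← Real.sqrt_eq_rpow, Real.sqrt_lt' hR, ← sub_eq_add_neg,
      Finset.sum_insert (show (1 : Fin 3) ∉ ({2} : Finset (Fin 3)) by decide),
      Finset.sum_singleton, MeasurableEquiv.piFinSuccAbove_apply, Fin.zero_succAbove,
      Fin.forall_fin_succ, Fin.insertNthEquiv_symm_apply, Fin.removeNth]
    simp only [Fin.succ_zero_eq_one, Fin.succ_one_eq_two, IsEmpty.forall_iff, and_true]
    constructor
    · rintro ⟨h, h0, -, -⟩
      exact ⟨h0, h⟩
    · rintro ⟨h0, h⟩
      have a1 := abs_lt_of_sq_lt_sq' (lt_of_le_of_lt (le_add_of_nonneg_right (sq_nonneg _)) h)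
        hR.le
      have a2 := abs_lt_of_sq_lt_sq' (lt_of_le_of_lt (le_add_of_nonneg_left (sq_nonneg _)) h)
        hR.le
      exact ⟨h, h0, ⟨by linarith, by linarith⟩, ⟨by linarith, by linarith⟩⟩
  rw [tvol, shape_inter_cube, hset,
    hmp.measure_preimage ((measurableSet_Ico.prod hDm).nullMeasurableSet), Measure.volume_eq_prod,
    Measure.prod_prod, Real.volume_Ico, hD, measure_preimage_add_right,
    volume_sum_rpow_lt (ι := Fin 2) (p := (2 : ℝ)) (by norm_num) R]
  have g1 : Real.Gamma (1 / 2 + 1) = Real.sqrt π / 2 := by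
    rw [Real.Gamma_add_one (by norm_num), Real.Gamma_one_half_eq]; ring
  have g2 : Real.Gamma (1 + 1) = 1 := by norm_num [Real.Gamma_two]
  rw [Fintype.card_fin, show ((2 : ℕ) : ℝ) / 2 + 1 = 1 + 1 by norm_num, g1, g2,
    ← ENNReal.ofReal_pow hR.le, sub_zero, ENNReal.ofReal_one, one_mul,
    ← ENNReal.ofReal_mul (by positivity), ENNReal.toReal_ofReal (by positivity)]
  field_simp
  rw [Real.sq_sqrt pi_pos.le]

theorem exists_ball {v : ℝ} (h0 : 0 < v) (h1 : v ≤ 1 / 2) : ∃ E, MeasurableSet E ∧ IsPeriodic E ∧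
    tvol E = v ∧ perimeter E ≤ ENNReal.ofReal (ballP v) := by
  set R : ℝ := (3 * v / (4 * π)) ^ (1 / 3 : ℝ) with hRdef
  have hR : 0 < R := by positivity
  have hR3 : R ^ 3 = 3 * v / (4 * π) := by
    rw [hRdef, ← Real.rpow_natCast _ 3, ← Real.rpow_mul (by positivity)]
    norm_num
  have hR2 : R ≤ 1 / 2 := by
    refine le_of_pow_le_pow_left₀ (n := 3) (by norm_num) (by norm_num) ?_
    rw [hR3, div_le_iff₀ (by positivity)]
    nlinarith [Real.pi_gt_three]
  have hvol : tvol (shape Finset.univ R) = v := by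
    rw [tvol_ball hR hR2, hR3]; field_simp
  refine ⟨_, measurableSet_shape, isPeriodic_shape, hvol, (perimeter_shape_le hR hR2).trans
    (ENNReal.ofReal_le_ofReal (le_of_eq ?_))⟩
  rw [hvol, Finset.card_univ, Fintype.card_fin]
  refine (pow_left_inj₀ (n := 3) (by positivity) (by unfold ballP; positivity) (by norm_num)).1 ?_
  have e1 : ((36 * π) ^ (1 / 3 : ℝ)) ^ 3 = 36 * π := by
    rw [← Real.rpow_natCast _ 3, ← Real.rpow_mul (by positivity)]
    norm_num
  have e2 : (v ^ (2 / 3 : ℝ)) ^ 3 = v ^ 2 := by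
    rw [← Real.rpow_natCast _ 3, ← Real.rpow_mul h0.le, ← Real.rpow_natCast _ 2]
    norm_num
  rw [div_pow, hR3, ballP, mul_pow ((36 * π) ^ (1 / 3 : ℝ)), e1, e2]
  field_simp
  ring

theorem exists_tube {v : ℝ} (h0 : 0 < v) (h1 : v ≤ 1 / 2) : ∃ E, MeasurableSet E ∧ IsPeriodic E ∧
    tvol E = v ∧ perimeter E ≤ ENNReal.ofReal (tubeP v) := by
  set R : ℝ := Real.sqrt (v / π) with hRdef
  have hR : 0 < R := by positivity
  have hRsq : R ^ 2 = v / π := Real.sq_sqrt (by positivity)
  have hR2 : R ≤ 1 / 2 := by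
    refine le_of_pow_le_pow_left₀ (n := 2) (by norm_num) (by norm_num) ?_
    rw [hRsq, div_le_iff₀ pi_pos]
    nlinarith [Real.pi_gt_three]
  have hvol : tvol (shape {1, 2} R) = v := by
    rw [tvol_tube hR hR2, hRsq]; field_simp
  refine ⟨_, measurableSet_shape, isPeriodic_shape, hvol, (perimeter_shape_le hR hR2).trans
    (ENNReal.ofReal_le_ofReal (le_of_eq ?_))⟩
  rw [hvol, Finset.card_pair (by decide), tubeP,
    show π * v = (π * R) ^ 2 by rw [mul_pow, hRsq]; field_simp,
    Real.sqrt_sq (by positivity)]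
  rw [div_eq_iff hR.ne', show (2 * (π * R)) * R = 2 * π * R ^ 2 by ring, hRsq]
  field_simp
  norm_num

theorem exists_slab {v : ℝ} (h0 : 0 < v) (h1 : v ≤ 1) : ∃ E, MeasurableSet E ∧ IsPeriodic E ∧
    tvol E = v ∧ perimeter E ≤ ENNReal.ofReal 2 := by
  have hR : 0 < v / 2 := by linarith
  have hR2 : v / 2 ≤ 1 / 2 := by linarith
  have hvol : tvol (shape {0} (v / 2)) = v := by rw [tvol_slab hR hR2]; ring
  refine ⟨_, measurableSet_shape, isPeriodic_shape, hvol, (perimeter_shape_le hR hR2).trans
    (ENNReal.ofReal_le_ofReal (le_of_eq ?_))⟩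
  rw [hvol, Finset.card_singleton]
  field_simp
  norm_num

end Upper

open Upper in
/-- The upper bound for the profile. -/
theorem profile_le_J {V : ℝ} (h0 : 0 < V) (h1 : V < 1) : profile V ≤ ENNReal.ofReal (J V) := by
  have hv0 : 0 < min V (1 - V) := lt_min h0 (by linarith)
  have hv1 : min V (1 - V) ≤ 1 / 2 := by
    rcases le_total V (1 / 2) with h | h
    · exact le_trans (min_le_left _ _) h
    · exact le_trans (min_le_right _ _) (by linarith)
  have hgo : ∀ M : ℝ, (∃ E, MeasurableSet E ∧ IsPeriodic E ∧ tvol E = min V (1 - V) ∧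
      perimeter E ≤ ENNReal.ofReal M) → profile V ≤ ENNReal.ofReal M := by
    rintro M ⟨E, hm, hp, hv, hP⟩
    rcases le_total V (1 - V) with h | h
    · rw [min_eq_left h] at hv
      exact iInf_le_of_le E (iInf_le_of_le hm (iInf_le_of_le hp (iInf_le_of_le hv hP)))
    · rw [min_eq_right h] at hv
      exact iInf_le_of_le Eᶜ (iInf_le_of_le hm.compl (iInf_le_of_le (isPeriodic_compl hp)
        (iInf_le_of_le (by rw [tvol_compl hm, hv]; ring) (by rwa [perimeter_compl hm]))))
  unfold J candJ
  rcases min_choice (min (ballP (min V (1 - V))) (tubeP (min V (1 - V)))) 2 with h | h <;> rw [h]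
  · rcases min_choice (ballP (min V (1 - V))) (tubeP (min V (1 - V))) with h' | h' <;> rw [h']
    · exact hgo _ (exists_ball hv0 hv1)
    · exact hgo _ (exists_tube hv0 hv1)
  · exact hgo _ (exists_slab hv0 (by linarith))

end

end Vale.P232
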