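import Vale.Agent.P232.Symm
import Vale.Agent.P232.Graph
import Vale.Agent.P232.HeatConcave
import Vale.Agent.P232.Upper
import Vale.Agent.P232.Smooth

/-!
P232: from the bound on level sets of core functions to the profile.
-/

open MeasureTheory Set Filter Topology
open scoped ENNReal

namespace Vale.P232

noncomputable section

/-- The statement of the core: almost every level set of a core function of volume below `1/π`
has at least the area of the best competitor. -/
def CoreBound : Prop :=
  ∀ f : V3 → ℝ, CoreFun f → ∀ᵐ t ∂(volume.restrict (Ioo (0 : ℝ) 1)),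
    tvol {x | t < f x} < 1 / Real.pi →
      ENNReal.ofReal (candJ (tvol {x | t < f x})) ≤ Qz f t

/-- Approximation of a set by core functions without increase of perimeter. -/
def HasCoreApprox (E : Set V3) : Prop :=
  ∀ M : ℝ, perimeter E ≤ ENNReal.ofReal M → 0 ≤ M →
    ∃ (f : ℕ → V3 → ℝ) (ε : ℕ → ℝ), (∀ n, CoreFun (f n)) ∧ Tendsto ε atTop (𝓝 0) ∧
      (∀ n, ∫ x in cube, gradLen (f n) x ≤ M + ε n) ∧
      ∀ᵐ t ∂(volume.restrict (Ioo (0 : ℝ) 1)),
        Tendsto (fun n => tvol {x | t < f n x}) atTop (𝓝 (tvol E))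

theorem continuous_candJ : Continuous candJ := by
  unfold candJ ballP tubeP
  refine ((continuous_const.mul (Real.continuous_rpow_const (by norm_num))).min ?_).min
    continuous_const
  fun_prop

theorem measurable_tvol_superlevel {f : V3 → ℝ} :
    Measurable fun t : ℝ => tvol {x | t < f x} :=
  Antitone.measurable fun s t hst => by
    refine ENNReal.toReal_mono ?_ (measure_mono fun x hx => ⟨hst.trans_lt hx.1, hx.2⟩)
    exact ne_top_of_le_ne_top (by simp [volume_cube_eq_one]) (measure_mono inter_subset_right)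

theorem lintegral_Qz_le {f : V3 → ℝ} (hf : CoreFun f) {M : ℝ}
    (h : ∫ x in cube, gradLen f x ≤ M) :
    ∫⁻ t in Ioo (0 : ℝ) 1, Qz f t ≤ ENNReal.ofReal M := by
  calc ∫⁻ t in Ioo (0 : ℝ) 1, Qz f t ≤ ∫⁻ t in univ, Qz f t := lintegral_mono_set (subset_univ _)
    _ = ∫⁻ p in cube, (univ : Set ℝ).indicator (fun _ => ENNReal.ofReal (gradLen f p)) (f p) :=
        (hf.coarea MeasurableSet.univ).symm
    _ = ENNReal.ofReal (∫ p in cube, gradLen f p) := by
        rw [ofReal_integral_eq_lintegral_ofReal (Continuous.integrableOn_cube hf.continuous_gradLen)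
          (Eventually.of_forall fun p => Real.sqrt_nonneg _)]
        simp
    _ ≤ _ := ENNReal.ofReal_le_ofReal h

/-- Fatou: the core bound passes to the limit of the level sets. -/
theorem candJ_le_perimeter (hcore : CoreBound) {E : Set V3} (happ : HasCoreApprox E)
    (hV : tvol E < 1 / Real.pi) : ENNReal.ofReal (candJ (tvol E)) ≤ perimeter E := by
  by_cases htop : perimeter E = ⊤
  · simp [htop]
  obtain ⟨f, ε, hf, hε, hM, hvol⟩ :=
    happ _ (ENNReal.ofReal_toReal htop).ge ENNReal.toReal_nonneg
  set g : ℕ → ℝ → ℝ≥0∞ := fun n t => if tvol {x | t < f n x} < 1 / Real.pi then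
    ENNReal.ofReal (candJ (tvol {x | t < f n x})) else 0
  have hg : ∀ n, Measurable (g n) := fun n =>
    Measurable.ite (measurable_tvol_superlevel measurableSet_Iio)
      (continuous_candJ.measurable.comp measurable_tvol_superlevel).ennreal_ofReal measurable_const
  have hle : ∀ n, ∫⁻ t in Ioo (0 : ℝ) 1, g n t
      ≤ ENNReal.ofReal ((perimeter E).toReal + ε n) := fun n => by
    refine (lintegral_mono_ae ?_).trans (lintegral_Qz_le (hf n) (hM n))
    filter_upwards [hcore (f n) (hf n)] with t ht
    simp only [g]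
    split_ifs with h
    · exact ht h
    · exact zero_le
  have hlim : ∀ᵐ t ∂(volume.restrict (Ioo (0 : ℝ) 1)),
      ENNReal.ofReal (candJ (tvol E)) ≤ liminf (fun n => g n t) atTop := by
    filter_upwards [hvol] with t ht
    refine le_of_eq (Tendsto.liminf_eq ?_).symm
    refine Tendsto.congr' ?_ ((ENNReal.continuous_ofReal.tendsto _).comp
      ((continuous_candJ.tendsto _).comp ht))
    filter_upwards [ht.eventually_lt_const hV] with n hn
    simp only [g, if_pos hn, Function.comp_apply]
  calc ENNReal.ofReal (candJ (tvol E))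
      = ∫⁻ _t in Ioo (0 : ℝ) 1, ENNReal.ofReal (candJ (tvol E)) := by simp
    _ ≤ ∫⁻ t in Ioo (0 : ℝ) 1, liminf (fun n => g n t) atTop := lintegral_mono_ae hlim
    _ ≤ liminf (fun n => ∫⁻ t in Ioo (0 : ℝ) 1, g n t) atTop := lintegral_liminf_le hg
    _ ≤ liminf (fun n => ENNReal.ofReal ((perimeter E).toReal + ε n)) atTop :=
        liminf_le_liminf (Eventually.of_forall hle)
    _ = perimeter E := by
        have h0 : Tendsto (fun n => ENNReal.ofReal ((perimeter E).toReal + ε n)) atTop
            (𝓝 (ENNReal.ofReal ((perimeter E).toReal + 0))) :=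
          (ENNReal.continuous_ofReal.tendsto _).comp (hε.const_add _)
        rw [h0.liminf_eq, add_zero, ENNReal.ofReal_toReal htop]

theorem candJ_le_two (v : ℝ) : candJ v ≤ 2 := min_le_right _ _

theorem candJ_tube_range {a : ℝ} (h1 : 3 / 10 ≤ a) (h2 : a < 1 / Real.pi) :
    candJ a = 2 * Real.sqrt (Real.pi * a) := by
  have hπ := Real.pi_pos
  have ha : 0 ≤ a := by linarith
  have hs : Real.sqrt (Real.pi * a) ≤ 1 := by
    rw [Real.sqrt_le_one]
    rw [lt_div_iff₀ hπ] at h2
    linarith
  have hball : tubeP a ≤ ballP a := by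
    refine le_of_pow_le_pow_left₀ (by norm_num : 6 ≠ 0)
      (mul_nonneg (Real.rpow_nonneg (by positivity) _) (Real.rpow_nonneg ha _)) ?_
    have e1 : tubeP a ^ 6 = 64 * (Real.pi * a) ^ 3 := by
      rw [tubeP, mul_pow, show Real.sqrt (Real.pi * a) ^ 6 = (Real.sqrt (Real.pi * a) ^ 2) ^ 3 by
        ring, Real.sq_sqrt (by positivity)]
      norm_num
    have e2 : ballP a ^ 6 = (36 * Real.pi) ^ 2 * a ^ 4 := by
      rw [ballP, mul_pow, ← Real.rpow_natCast ((36 * Real.pi) ^ (1 / 3 : ℝ)) 6,
        ← Real.rpow_natCast (a ^ (2 / 3 : ℝ)) 6, ← Real.rpow_mul (by positivity),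
        ← Real.rpow_mul ha]
      norm_num
    rw [e1, e2]
    have : 64 * Real.pi ≤ 1296 * a := by linarith [Real.pi_lt_d2]
    nlinarith [mul_le_mul_of_nonneg_left this
      (by positivity : (0 : ℝ) ≤ Real.pi ^ 2 * a ^ 3)]
  rw [candJ, min_eq_right hball, tubeP, min_eq_left (by linarith)]

/-- Symmetric monotone sets are approximated by core functions. -/
theorem hasCoreApprox {E : Set V3} (hE : MeasurableSet E) (hs : SymMono E) : HasCoreApprox E := by
  intro M hM hM0
  obtain ⟨f, hf, hle, -, hvol⟩ := exists_coreFun_approx_perimeter hE hs hM hM0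
  refine ⟨f, fun n => 1 / ((n : ℝ) + 1), hf, tendsto_one_div_add_atTop_nhds_zero_nat, hle, ?_⟩
  filter_upwards [ae_restrict_mem measurableSet_Ioo] with t ht using hvol t ht

/-- The profile, from the core bound. -/
theorem profile_eq_of_core (hcore : CoreBound) :
    ∀ V ∈ Ioo (0 : ℝ) 1, profile V = ENNReal.ofReal (J V) := by
  have hπ := Real.pi_pos
  have hhalf : 1 / Real.pi < 1 / 2 :=
    one_div_lt_one_div_of_lt two_pos (by linarith [Real.pi_gt_three])
  have low : ∀ V, V < 1 / Real.pi → ENNReal.ofReal (candJ V) ≤ profile V := fun V h1 =>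
    le_profile_of_symMono fun E hm hs hv => by
      rw [← hv]; exact candJ_le_perimeter hcore (hasCoreApprox hm hs) (hv.trans_lt h1)
  have slab := two_le_profile_slab_range fun a ha1 ha2 => by
    rw [← candJ_tube_range ha1 ha2]; exact low a ha2
  rintro V ⟨h0, h1⟩
  refine le_antisymm (profile_le_J h0 h1) ?_
  rcases lt_or_ge V (1 / Real.pi) with h | h
  · rw [J, min_eq_left (by linarith)]
    exact low V h
  rcases le_or_gt V (1 - 1 / Real.pi) with h' | h'
  · exact (ENNReal.ofReal_le_ofReal (candJ_le_two _)).trans (slab V ⟨h, h'⟩)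
  · rw [J, min_eq_right (by linarith), profile_symm V]
    exact low (1 - V) (by linarith)

end

end Vale.P232
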