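import Vale.Agent.P232.Reduce
import Vale.Agent.P232.Cases

/-!
P232: the profile from the planar and scalar bounds.
-/

open MeasureTheory Set

namespace Vale.P232

noncomputable section

/-- The profile, from the planar and the scalar bounds. -/
theorem profile_eq_of_bounds (hp : PlanarBounds) (hs : ScalarBounds) :
    ∀ V ∈ Ioo (0 : ℝ) 1, profile V = ENNReal.ofReal (J V) :=
  profile_eq_of_core fun _ hf => ae_restrict_of_ae (core_bound hf hp hs)

end

end Vale.P232
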