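import Vale.Agent.P232.RigidFlux
import Vale.Agent.P232.Coord

/-!
P232: along a subsequence the slices of approximating levels converge.
-/

open MeasureTheory Real Set Filter Topology
open scoped ENNReal

namespace Vale.P232

noncomputable section

/-- The fibre whose length is `hgt`. -/
def hgtSet (E : Set V3) (x z : ℝ) : Set ℝ := {y | y ∈ Ioo (0:ℝ) (1/2) ∧ pt x y z ∈ E}

lemma hgt_eq (E : Set V3) (x z : ℝ) : hgt E x z = (volume (hgtSet E x z)).toReal := rfl

lemma hgtSet_ne_top (E : Set V3) (x z : ℝ) : volume (hgtSet E x z) ≠ ⊤ :=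
  ne_top_of_le_ne_top (by simp [Real.volume_Ioo]) (measure_mono (fun _ h => h.1 :
    hgtSet E x z ⊆ Ioo (0:ℝ) (1/2)))

lemma hgt_mem_Icc (E : Set V3) (x z : ℝ) : hgt E x z ∈ Icc (0:ℝ) (1/2) := by
  refine ⟨ENNReal.toReal_nonneg, ?_⟩
  have h := ENNReal.toReal_mono (by simp [Real.volume_Ioo])
    (measure_mono (μ := volume) (fun _ h => h.1 : hgtSet E x z ⊆ Ioo (0:ℝ) (1/2)))
  rw [Real.volume_Ioo, sub_zero, ENNReal.toReal_ofReal (by norm_num)] at h
  exact h

lemma yr_eq_hgt (f : V3 → ℝ) (t x z : ℝ) : yr f t x z = hgt {p | t < f p} x z := by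
  unfold yr root hgt
  congr 1
  refine measure_congr ?_
  have h1 : {s : ℝ | s ∈ Icc (0:ℝ) (1/2) ∧ t < f (pt x s z)} =
      Icc (0:ℝ) (1/2) ∩ {s | t < f (pt x s z)} := rfl
  have h2 : {y : ℝ | y ∈ Ioo (0:ℝ) (1/2) ∧ pt x y z ∈ {p | t < f p}} =
      Ioo (0:ℝ) (1/2) ∩ {s | t < f (pt x s z)} := rfl
  rw [h1, h2]
  exact Ioo_ae_eq_Icc.symm.inter (Filter.EventuallyEq.refl _ _)

lemma abs_hgt_sub_le (A B : Set V3) (x z : ℝ) :
    |hgt A x z - hgt B x z| ≤ hgt (symmDiff A B) x z := by
  have key : ∀ {X Y : Set V3}, hgt X x z ≤ hgt Y x z + hgt (symmDiff X Y) x z := by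
    intro X Y
    simp only [hgt_eq]
    rw [← ENNReal.toReal_add (hgtSet_ne_top _ _ _) (hgtSet_ne_top _ _ _)]
    refine ENNReal.toReal_mono (ENNReal.add_ne_top.2 ⟨hgtSet_ne_top _ _ _, hgtSet_ne_top _ _ _⟩)
      ((measure_mono fun y hy => ?_).trans (measure_union_le _ _))
    by_cases h : pt x y z ∈ Y
    · exact Or.inl ⟨hy.1, h⟩
    · exact Or.inr ⟨hy.1, Or.inl ⟨hy.2, h⟩⟩
  rw [abs_sub_le_iff]
  constructor
  · linarith [key (X := A) (Y := B)]
  · have := key (X := B) (Y := A)
    rw [symmDiff_comm B A] at this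
    linarith

lemma measurable_hgtVol {E : Set V3} (hE : MeasurableSet E) :
    Measurable fun q : ℝ × ℝ => volume (hgtSet E q.2 q.1) := by
  have hS : MeasurableSet {r : (ℝ × ℝ) × ℝ | r.2 ∈ Ioo (0:ℝ) (1/2) ∧ pt r.1.2 r.2 r.1.1 ∈ E} :=
    (measurable_snd measurableSet_Ioo).inter
      ((measurable_pt.comp (measurable_fst.snd.prodMk (measurable_snd.prodMk measurable_fst.fst))) hE)
  exact measurable_measure_prodMk_left hS

lemma measurable_hgt {E : Set V3} (hE : MeasurableSet E) :
    Measurable fun q : ℝ × ℝ => hgt E q.2 q.1 :=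
  (measurable_hgtVol hE).ennreal_toReal

/-- The fibres over the quarter square fit in the cube. -/
lemma lintegral_hgt_le {E : Set V3} (hE : MeasurableSet E) :
    ∫⁻ z in Ioo (0:ℝ) (1/2), ∫⁻ x in Ioo (0:ℝ) (1/2), volume (hgtSet E x z)
      ≤ volume (E ∩ cube) := by
  set G : V3 → ℝ≥0∞ := E.indicator 1 with hG
  have hGm : Measurable G := measurable_one.indicator hE
  have hsub : Ioo (0:ℝ) (1/2) ⊆ Ico (0:ℝ) 1 := fun x hx => ⟨hx.1.le, by linarith [hx.2]⟩
  have hv : volume (E ∩ cube) = ∫⁻ p in cube, G p := by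
    rw [hG, lintegral_indicator_one hE, Measure.restrict_apply hE]
  have hfib : ∀ x z, volume (hgtSet E x z) = ∫⁻ y in Ioo (0:ℝ) (1/2), G (pt x y z) := by
    intro x z
    have hs : MeasurableSet {y : ℝ | pt x y z ∈ E} := hE.preimage
      (measurable_pt.comp (measurable_const.prodMk (measurable_id.prodMk measurable_const)))
    rw [show (fun y => G (pt x y z)) = {y : ℝ | pt x y z ∈ E}.indicator 1 by
        funext y
        by_cases hy : pt x y z ∈ E
        · rw [hG, indicator_of_mem hy, indicator_of_mem (show y ∈ {y : ℝ | pt x y z ∈ E} from hy)]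
          rfl
        · rw [hG, indicator_of_notMem hy,
            indicator_of_notMem (show y ∉ {y : ℝ | pt x y z ∈ E} from hy)],
      lintegral_indicator_one hs, Measure.restrict_apply hs, inter_comm]
    rfl
  rw [hv, lintegral_cube hGm, lintegral_lintegral_swap
    (f := fun z x => volume (hgtSet E x z)) (measurable_hgtVol hE).aemeasurable]
  simp_rw [hfib]
  refine (lintegral_mono_set hsub).trans (lintegral_mono fun x => ?_)
  rw [lintegral_lintegral_swap (f := fun z y => G (pt x y z)) (hGm.comp (measurable_pt.comp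
    (measurable_const.prodMk (measurable_snd.prodMk measurable_fst)))).aemeasurable]
  exact (lintegral_mono_set hsub).trans (lintegral_mono fun y => lintegral_mono_set hsub)

/-- Along a subsequence the slices converge. -/
theorem exists_sliceConv {E : Set V3} (hE : MeasurableSet E) (S : LevelSeq E) :
    ∃ (φ : ℕ → ℕ) (hφ : StrictMono φ), SliceConv (S.sub hφ) := by
  obtain ⟨φ, hφ, hsmall⟩ : ∃ φ : ℕ → ℕ, StrictMono φ ∧ ∀ n,
      tvol (symmDiff {p | S.t (φ n) < S.f (φ n) p} E) ≤ (1/2:ℝ) ^ n :=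
    extraction_forall_of_eventually' fun n =>
      eventually_atTop.1 (S.close.eventually (ge_mem_nhds (show (0:ℝ) < (1/2) ^ n by positivity)))
  refine ⟨φ, hφ, ?_⟩
  set μI := (volume : Measure ℝ).restrict (Ioo (0:ℝ) (1/2)) with hμI
  set D : ℕ → Set V3 := fun n => symmDiff {p | S.t (φ n) < S.f (φ n) p} E with hD
  have hDm : ∀ n, MeasurableSet (D n) := fun n => (S.measurableSet_level _).symmDiff hE
  have hm : ∀ n, Measurable fun q : ℝ × ℝ => volume (hgtSet (D n) q.2 q.1) := fun n =>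
    measurable_hgtVol (hDm n)
  have htot : ∫⁻ z, ∫⁻ x, (∑' n, volume (hgtSet (D n) x z)) ∂μI ∂μI ≠ ⊤ := by
    have e : ∀ z, ∫⁻ x, (∑' n, volume (hgtSet (D n) x z)) ∂μI =
        ∑' n, ∫⁻ x, volume (hgtSet (D n) x z) ∂μI := fun z =>
      lintegral_tsum fun n => ((hm n).comp (measurable_const.prodMk measurable_id)).aemeasurable
    simp_rw [e]
    rw [lintegral_tsum fun n => (hm n).lintegral_prod_right'.aemeasurable]
    refine ne_top_of_le_ne_top (ENNReal.ofReal_ne_top (r := 2)) ?_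
    have hgeo : HasSum (fun n : ℕ => (1/2:ℝ) ^ n) 2 := by
      have := hasSum_geometric_of_lt_one (show (0:ℝ) ≤ 1/2 by norm_num) (by norm_num)
      norm_num at this ⊢
      exact this
    calc ∑' n, ∫⁻ z, ∫⁻ x, volume (hgtSet (D n) x z) ∂μI ∂μI
        ≤ ∑' n, ENNReal.ofReal ((1/2:ℝ) ^ n) := by
          refine ENNReal.tsum_le_tsum fun n => ?_
          refine (lintegral_hgt_le (hDm n)).trans ?_
          have hne : volume (D n ∩ cube) ≠ ⊤ :=
            ((measure_mono inter_subset_right).trans_lt (by simp [volume_cube_eq_one])).ne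
          rw [← ENNReal.ofReal_toReal hne]
          exact ENNReal.ofReal_le_ofReal (hsmall n)
      _ = ENNReal.ofReal 2 := by
          rw [← ENNReal.ofReal_tsum_of_nonneg (fun n => by positivity) hgeo.summable,
            hgeo.tsum_eq]
  have hgm : Measurable fun z => ∫⁻ x, (∑' n, volume (hgtSet (D n) x z)) ∂μI :=
    (Measurable.tsum hm).lintegral_prod_right'
  filter_upwards [ae_lt_top hgm htot] with z hz
  have hxm : Measurable fun x => ∑' n, volume (hgtSet (D n) x z) :=
    (Measurable.tsum hm).comp (measurable_const.prodMk measurable_id)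
  have hY : ∀ᵐ x ∂μI,
      Tendsto (fun n => yr (S.f (φ n)) (S.t (φ n)) x z) atTop (𝓝 (hgt E x z)) := by
    filter_upwards [ae_lt_top hxm hz.ne] with x hx
    have h0 := ENNReal.tendsto_atTop_zero_of_tsum_ne_top hx.ne
    have h0' : Tendsto (fun n => hgt (D n) x z) atTop (𝓝 0) := by
      have := (ENNReal.tendsto_toReal ENNReal.zero_ne_top).comp h0
      rw [ENNReal.toReal_zero] at this
      exact this
    refine tendsto_iff_norm_sub_tendsto_zero.2 (squeeze_zero (fun n => norm_nonneg _)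
      (fun n => ?_) h0')
    rw [Real.norm_eq_abs, yr_eq_hgt]
    exact abs_hgt_sub_le _ _ _ _
  refine ⟨?_, hY⟩
  have e : ∀ g : ℝ → ℝ, (∫ x in (0:ℝ)..(1/2), g x) = ∫ x, g x ∂μI := fun g => by
    rw [intervalIntegral.integral_of_le (by norm_num), hμI,
      setIntegral_congr_set Ioo_ae_eq_Ioc]
  simp only [sliceA, secA, e, LevelSeq.sub]
  refine Tendsto.const_mul 4 (tendsto_integral_of_dominated_convergence (fun _ => (1/2:ℝ))
    (fun n => ((S.core (φ n)).continuous_yr_fix _ z).aestronglyMeasurable) (integrable_const _)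
    (fun n => ae_of_all _ fun x => ?_) hY)
  rw [Real.norm_eq_abs, yr_eq_hgt, abs_of_nonneg (hgt_mem_Icc _ _ _).1]
  exact (hgt_mem_Icc _ _ _).2

end

end Vale.P232
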