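import Vale.Agent.P232.RigidDefs
import Vale.Agent.P232.HeatPeriodic

/-!
P232: levels near the slab corner converge to a centred slab.
-/

open MeasureTheory Real Set Filter Topology
open scoped ENNReal

namespace Vale.P232

noncomputable section

namespace RigidCorner

lemma cornerL_nonneg (a : ℝ) : 0 ≤ cornerL a :=
  le_min (by unfold discP; positivity) (le_min (by norm_num) (by unfold discP; positivity))

lemma cornerL_le_two (a : ℝ) : cornerL a ≤ 2 := (min_le_right _ _).trans (min_le_left _ _)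

lemma continuous_cornerL : Continuous cornerL := by
  unfold cornerL discP; fun_prop

lemma cornerL_eq_zero {a : ℝ} (h : cornerL a = 0) (h0 : 0 ≤ a) (h1 : a ≤ 1) : a = 0 ∨ a = 1 := by
  by_contra hc
  push Not at hc
  have ha : 0 < a := lt_of_le_of_ne h0 hc.1.symm
  have hb : 0 < 1 - a := by have := lt_of_le_of_ne h1 hc.2; linarith
  have : 0 < cornerL a := lt_min (by unfold discP; positivity)
    (lt_min two_pos (by unfold discP; positivity))
  linarith

/-- The slice bound with a constant weight. -/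
lemma const_weight {f : V3 → ℝ} (hf : CoreFun f) {t : ℝ} (h : CornerLevel hf t) {κ M : ℝ}
    (hκ : κ ∈ Icc (0:ℝ) 1) (hM : 0 ≤ M) (hQ : Qz f t ≤ ENNReal.ofReal M) :
    2 * κ * (∫ z in Ioo (0:ℝ) (1/2), cornerL (sliceA f t z))
      + 2 * √(1 - κ ^ 2) * (sliceA f t 0 - sliceA f t (1/2)) ≤ M := by
  refine le_of_forall_pos_le_add fun ε hε => ?_
  obtain ⟨a, b, ham, hbm, ha, hb, hab, hfl⟩ := h.flux ε hε
  set A := sliceA f t with hA
  have hAc : Continuous A := hf.continuous_sliceA t
  set ℓ := fun z => max (cornerL (A z) - ε) 0 with hℓ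
  have hlc : Continuous ℓ := ((continuous_cornerL.comp hAc).sub continuous_const).max continuous_const
  have hbnd := (hf.slice_bound t (c := fun _ => κ) (ℓ := ℓ) measurable_const (fun _ => hκ) ham hbm
    ha hb hab ((ae_restrict_mem measurableSet_Ioo).mono fun z hz => by
      rw [show ENNReal.ofReal (ℓ z) = ENNReal.ofReal (cornerL (A z) - ε) by
        rcases le_total (cornerL (A z) - ε) 0 with h | h
        · simp only [hℓ]; rw [max_eq_right h, ENNReal.ofReal_zero, ENNReal.ofReal_eq_zero.2 h]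
        · simp only [hℓ]; rw [max_eq_left h]]
      exact hfl z ⟨hz, hz⟩)).trans hQ
  have h10 : A (1/2) ≤ A 0 :=
    hf.antitone_sliceA t ⟨le_refl _, by norm_num⟩ ⟨by norm_num, le_refl _⟩ (by norm_num)
  have hil : IntegrableOn (fun z => κ * ℓ z) (Ioo (0:ℝ) (1/2)) :=
    ((continuous_const.mul hlc).integrableOn_Icc).mono_set Ioo_subset_Icc_self
  rw [← ofReal_integral_eq_lintegral_ofReal hil
    (ae_of_all _ fun z => mul_nonneg hκ.1 (le_max_right _ _)), setLIntegral_const,
    Real.volume_Ioc, ← ENNReal.ofReal_mul (Real.sqrt_nonneg _), ← ENNReal.ofReal_ofNat 2,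
    ← ENNReal.ofReal_mul zero_le_two, ← ENNReal.ofReal_mul zero_le_two,
    ← ENNReal.ofReal_add (mul_nonneg zero_le_two (integral_nonneg fun z =>
      mul_nonneg hκ.1 (le_max_right _ _))) (by positivity [sub_nonneg.2 h10]),
    ENNReal.ofReal_le_ofReal_iff hM, integral_const_mul] at hbnd
  have hic : IntegrableOn (fun z => cornerL (A z)) (Ioo (0:ℝ) (1/2)) :=
    ((continuous_cornerL.comp hAc).integrableOn_Icc).mono_set Ioo_subset_Icc_self
  have hmono : ∫ z in Ioo (0:ℝ) (1/2), (cornerL (A z) - ε) ≤ ∫ z in Ioo (0:ℝ) (1/2), ℓ z :=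
    integral_mono (hic.sub (integrableOn_const (by simp [Real.volume_Ioo])))
      (hlc.integrableOn_Icc.mono_set Ioo_subset_Icc_self) fun z => le_max_left _ _
  rw [integral_sub hic (integrableOn_const (by simp [Real.volume_Ioo])), setIntegral_const,
    Real.volume_real_Ioo_of_le (by norm_num), smul_eq_mul] at hmono
  have := mul_le_mul_of_nonneg_left hmono hκ.1
  have hκε : κ * ε ≤ ε := mul_le_of_le_one_left hε.le hκ.2
  linarith

/-- A periodic set that is null on the cube is null. -/
lemma null_of_null_cube {N : Set V3} (hp : IsPeriodic N) (h : volume (N ∩ cube) = 0) :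
    volume N = 0 := by
  have hsub : N ⊆ ⋃ k : Fin 3 → ℤ, (fun x => x + fun i => (k i : ℝ)) ⁻¹' (N ∩ cube) := by
    intro x hx
    refine mem_iUnion.2 ⟨fun i => -⌊x i⌋, (hp x _).2 hx, fun i _ => ?_⟩
    have h1 := Int.floor_le (x i)
    have h2 := Int.lt_floor_add_one (x i)
    simp only [mem_Ico, Pi.add_apply]
    push_cast
    constructor <;> linarith
  refine measure_mono_null hsub (measure_iUnion_null fun k => ?_)
  rw [measure_preimage_add_right]
  exact h

lemma abs_tvol_sub_le {A B : Set V3} : |tvol A - tvol B| ≤ tvol (symmDiff A B) := by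
  have fin : ∀ S : Set V3, volume (S ∩ cube) ≠ ⊤ := fun S =>
    ne_top_of_le_ne_top (by simp [volume_cube_eq_one]) (measure_mono inter_subset_right)
  have key : ∀ C D : Set V3, tvol C ≤ tvol D + tvol (symmDiff C D) := by
    intro C D
    unfold tvol
    rw [← ENNReal.toReal_add (fin _) (fin _)]
    refine ENNReal.toReal_mono (ENNReal.add_ne_top.2 ⟨fin _, fin _⟩)
      ((measure_mono ?_).trans (measure_union_le _ _))
    rintro x ⟨hx, hc⟩
    by_cases hd : x ∈ D
    · exact Or.inl ⟨hd, hc⟩
    · exact Or.inr ⟨Or.inl ⟨hx, hd⟩, hc⟩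
  have h1 := key A B
  have h2 := key B A
  rw [symmDiff_comm B A] at h2
  exact abs_le.2 ⟨by linarith, by linarith⟩

lemma symmMono_flip {E : Set V3} (hs : SymMono E) (i : Fin 3) {x : V3} (hx : x ∈ E) :
    Function.update x i (-x i) ∈ E := by
  set k : Fin 3 → ℤ := fun j => -round (x j) with hk
  set x' : V3 := x + fun j => (k j : ℝ) with hx'
  have hx'E : x' ∈ E := (hs.1 x k).2 hx
  have hb : ∀ j, |x' j| ≤ 1 / 2 := fun j => by
    simp only [hx', hk, Pi.add_apply]
    push_cast
    rw [← sub_eq_add_neg]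
    exact abs_sub_round (x j)
  have hy : Function.update x' i (-x' i) ∈ E := hs.2 x' _ hb (fun j => by
    rcases eq_or_ne j i with rfl | h
    · simp
    · simp [Function.update_of_ne h]) hx'E
  set k' : Fin 3 → ℤ := Function.update k i (-k i) with hk'
  have e : Function.update x' i (-x' i) = Function.update x i (-x i) + fun j => (k' j : ℝ) := by
    funext j
    rcases eq_or_ne j i with rfl | h
    · simp only [hx', hk', Function.update_self, Pi.add_apply]; push_cast; ring
    · simp [hx', hk', Function.update_of_ne h]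
  rw [e] at hy
  exact (hs.1 _ k').1 hy

lemma symmMono_flip_iff {E : Set V3} (hs : SymMono E) (i : Fin 3) (x : V3) :
    Function.update x i (-x i) ∈ E ↔ x ∈ E := by
  refine ⟨fun h => ?_, symmMono_flip hs i⟩
  have := symmMono_flip hs i h
  simpa using this

lemma dd_neg (x : ℝ) : Rearr.dd (-x) = Rearr.dd x := by
  refine le_antisymm ?_ ?_
  · refine (Rearr.dd_le_abs (-x) (-round x)).trans (le_of_eq ?_)
    unfold Rearr.dd
    push_cast
    rw [← abs_neg]
    congr 1
    ring
  · refine (Rearr.dd_le_abs x (-round (-x))).trans (le_of_eq ?_)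
    unfold Rearr.dd
    push_cast
    rw [← abs_neg]
    congr 1
    ring

lemma slab_flip_iff (R : ℝ) (i : Fin 3) (x : V3) :
    Function.update x i (-x i) ∈ shapeAt {2} 0 R ↔ x ∈ shapeAt {2} 0 R := by
  rcases eq_or_ne i 2 with rfl | h
  · simp [shapeAt, dd_neg]
  · simp [shapeAt, Function.update_of_ne (Ne.symm h)]

/-- A set all of whose octant heights are those of a slab is that slab. -/
lemma slab_of_hgt {E : Set V3} (hE : MeasurableSet E) (hs : SymMono E) {R : ℝ} (hR : 0 ≤ R)
    (h : ∀ᵐ z ∂(volume.restrict (Ioo (0:ℝ) (1/2))), ∀ᵐ x ∂(volume.restrict (Ioo (0:ℝ) (1/2))),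
      hgt E x z = if z < R then 1 / 2 else 0) :
    E =ᵐ[volume] shapeAt {2} 0 R := by
  set S := shapeAt {2} (0 : V3) R with hS
  have hSm : MeasurableSet S := measurableSet_shapeAt _ _ _
  set N := symmDiff E S with hN
  have hNm : MeasurableSet N := (hE.diff hSm).union (hSm.diff hE)
  have hNp : IsPeriodic N := fun x k => by
    simp only [hN, mem_symmDiff, hs.1 x k, hS, isPeriodic_shapeAt _ _ _ x k]
  suffices hnull : volume (N ∩ cube) = 0 from
    measure_symmDiff_eq_zero_iff.1 (null_of_null_cube hNp hnull)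
  set G : V3 → ℝ≥0∞ := N.indicator 1 with hG
  have hvol : volume (N ∩ cube) = ∫⁻ p in cube, G p := by
    rw [hG, lintegral_indicator_one hNm, Measure.restrict_apply hNm]
  have hper : IsPeriodicFun G := fun p k => by
    by_cases hp : p ∈ N
    · simp [hG, hp, (hNp p k).2 hp]
    · simp [hG, hp, mt (hNp p k).1 hp]
  have hev : ∀ (i : Fin 3) p, G (Function.update p i (-p i)) = G p := fun i p => by
    have hiff : Function.update p i (-p i) ∈ N ↔ p ∈ N := by
      simp only [hN, mem_symmDiff, symmMono_flip_iff hs, hS, slab_flip_iff]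
    by_cases hp : p ∈ N
    · simp [hG, hp, hiff.2 hp]
    · simp [hG, hp, mt hiff.1 hp]
  have hGm : Measurable G := measurable_one.indicator hNm
  rw [hvol, lintegral_cube_octant hGm hper hev]
  have hswap : ∀ x, ∫⁻ y in Ioo (0:ℝ) (1/2), ∫⁻ z in Ioo (0:ℝ) (1/2), G (pt x y z)
      = ∫⁻ z in Ioo (0:ℝ) (1/2), ∫⁻ y in Ioo (0:ℝ) (1/2), G (pt x y z) := fun x =>
    lintegral_lintegral_swap (f := fun y z => G (pt x y z))
      (hGm.comp (measurable_pt.comp (measurable_const.prodMk measurable_id))).aemeasurable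
  simp_rw [hswap]
  rw [lintegral_lintegral_swap (f := fun x z => ∫⁻ y in Ioo (0:ℝ) (1/2), G (pt x y z))]
  swap
  · exact (Measurable.lintegral_prod_right' (f := fun q : (ℝ × ℝ) × ℝ => G (pt q.1.1 q.2 q.1.2))
      (hGm.comp (measurable_pt.comp (f := fun q : (ℝ × ℝ) × ℝ => (q.1.1, q.2, q.1.2))
        (by fun_prop)))).aemeasurable
  have hz0 : ∀ᵐ z ∂(volume.restrict (Ioo (0:ℝ) (1/2))),
      ∫⁻ x in Ioo (0:ℝ) (1/2), ∫⁻ y in Ioo (0:ℝ) (1/2), G (pt x y z) = 0 := by
    filter_upwards [h, ae_restrict_mem measurableSet_Ioo] with z hz hzI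
    rw [← lintegral_zero (μ := volume.restrict (Ioo (0:ℝ) (1/2))) (α := ℝ)]
    refine lintegral_congr_ae ?_
    filter_upwards [hz] with x hx
    have hm : MeasurableSet {y : ℝ | pt x y z ∈ N} :=
      hNm.preimage (measurable_pt.comp (f := fun y : ℝ => (x, y, z)) (by fun_prop))
    have hmE : MeasurableSet {y : ℝ | pt x y z ∈ E} :=
      hE.preimage (measurable_pt.comp (f := fun y : ℝ => (x, y, z)) (by fun_prop))
    have hdd : Rearr.dd z = z := by
      rw [Rearr.dd_eq_min z hzI.1.le (by linarith [hzI.2]), min_eq_left (by linarith [hzI.2])]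
    have hSiff : ∀ y, pt x y z ∈ S ↔ z < R := fun y => by
      simp only [hS, shapeAt, mem_ofPred_eq, Finset.sum_singleton, pt, Pi.zero_apply, sub_zero,
        Matrix.cons_val, hdd]
      exact pow_lt_pow_iff_left₀ hzI.1.le hR two_ne_zero
    have hind : (fun y => G (pt x y z)) = {y | pt x y z ∈ N}.indicator 1 := rfl
    rw [hind, lintegral_indicator_one hm, Measure.restrict_apply hm]
    have hfin : volume {y | y ∈ Ioo (0:ℝ) (1/2) ∧ pt x y z ∈ E} ≠ ⊤ :=
      ne_top_of_le_ne_top (by simp [Real.volume_Ioo]) (measure_mono fun y hy => hy.1)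
    unfold hgt at hx
    split_ifs at hx with hzR
    · refine measure_mono_null (t := Ioo (0:ℝ) (1/2) \ {y | y ∈ Ioo (0:ℝ) (1/2) ∧ pt x y z ∈ E})
        (fun y hy => ⟨hy.2, fun hyE => ?_⟩) ?_
      · rcases hy.1 with hh | hh
        · exact hh.2 ((hSiff y).2 hzR)
        · exact hh.2 hyE.2
      · have hm' : MeasurableSet {y | y ∈ Ioo (0:ℝ) (1/2) ∧ pt x y z ∈ E} :=
          measurableSet_Ioo.inter hmE
        rw [measure_sdiff (fun y hy => hy.1) hm'.nullMeasurableSet hfin, Real.volume_Ioo,
          sub_zero, ← ENNReal.ofReal_toReal hfin, hx, tsub_self]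
    · refine measure_mono_null (t := {y | y ∈ Ioo (0:ℝ) (1/2) ∧ pt x y z ∈ E})
        (fun y hy => ⟨hy.2, ?_⟩) ?_
      · rcases hy.1 with hh | hh
        · exact hh.1
        · exact absurd ((hSiff y).1 hh.1) hzR
      · exact ((ENNReal.toReal_eq_zero_iff _).1 hx).resolve_right hfin
  rw [lintegral_congr_ae hz0, lintegral_zero, mul_zero]

end RigidCorner

open RigidCorner

/-- Corner levels converge to a centred slab. -/
theorem shape_of_corner {E : Set V3} (hE : MeasurableSet E) (hs : SymMono E)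
    (hv : tvol E ∈ Ioc (0:ℝ) (1 / π)) (S : LevelSeq E)
    (hd : ∀ n, CornerLevel (S.core n) (S.t n)) (hconv : SliceConv S) : IsCentredShape E := by
  set v := tvol E with hvdef
  set μ := volume.restrict (Ioo (0:ℝ) (1/2)) with hμ
  set A : ℕ → ℝ → ℝ := fun n => sliceA (S.f n) (S.t n) with hA
  set a : ℝ → ℝ := secA E with ha
  have hAc : ∀ n, Continuous (A n) := fun n => (S.core n).continuous_sliceA _
  have hA0 : ∀ n z, 0 ≤ A n z := fun n z => CoreFun.sliceA_nonneg _ _
  have hA1 : ∀ n z, A n z ≤ 1 := fun n z => (S.core n).sliceA_le_one _ _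
  have hlim : ∀ᵐ z ∂μ, Tendsto (fun n => A n z) atTop (𝓝 (a z)) := hconv.mono fun z hz => hz.1
  -- the level volumes
  have hvn : Tendsto (fun n => tvol {p | S.t n < S.f n p}) atTop (𝓝 v) := by
    rw [tendsto_iff_dist_tendsto_zero]
    refine squeeze_zero (fun n => dist_nonneg) (fun n => ?_) S.close
    rw [Real.dist_eq]; exact abs_tvol_sub_le
  have hvol : ∫ z, a z ∂μ = v / 2 := by
    have hT : Tendsto (fun n => ∫ z, A n z ∂μ) atTop (𝓝 (∫ z, a z ∂μ)) :=
      tendsto_integral_of_dominated_convergence (fun _ => 1)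
        (fun n => (hAc n).aestronglyMeasurable) (integrable_const 1)
        (fun n => ae_of_all _ fun z => by rw [Real.norm_eq_abs, abs_of_nonneg (hA0 n z)]; exact hA1 n z)
        hlim
    have he : ∀ n, ∫ z, A n z ∂μ = tvol {p | S.t n < S.f n p} / 2 := fun n => by
      rw [(S.core n).tvol_level, intervalIntegral.integral_of_le (by norm_num),
        setIntegral_congr_set Ioo_ae_eq_Ioc.symm]
      simp only [hμ, hA]
      ring
    simp_rw [he] at hT
    exact tendsto_nhds_unique hT (hvn.div_const 2)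
  -- the top and the bottom
  have hQ : ∀ ε > (0:ℝ), ∀ᶠ n in atTop, Qz (S.f n) (S.t n) ≤ ENNReal.ofReal (2 + ε) :=
    fun ε hε => (S.excess ε hε).mono fun n hn => hn.trans (ENNReal.ofReal_le_ofReal
      (by linarith [show candJ (tvol E) ≤ 2 from min_le_right _ _]))
  set X : ℕ → ℝ := fun n => √(1 - A n 0) + √(A n (1/2)) with hX
  have hX0 : Tendsto X atTop (𝓝 0) := by
    refine Metric.tendsto_nhds.2 fun δ hδ => (hQ (δ / 2000) (by positivity)).mono fun n hn => ?_
    have h := (ENNReal.ofReal_le_ofReal_iff (by positivity)).1 ((hd n).bound.trans hn)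
    have hXn : 0 ≤ X n := by positivity
    rw [Real.dist_eq, sub_zero, abs_of_nonneg hXn]
    simp only [hX, hA] at h ⊢
    linarith
  have hT1 : Tendsto (fun n => A n 0 - A n (1/2)) atTop (𝓝 1) := by
    have hsq : Tendsto (fun n => X n ^ 2) atTop (𝓝 0) := by simpa using hX0.pow 2
    have hl : Tendsto (fun n => 1 - X n ^ 2) atTop (𝓝 1) := by simpa using hsq.const_sub 1
    refine tendsto_of_tendsto_of_tendsto_of_le_of_le hl tendsto_const_nhds (fun n => ?_) (fun n => ?_)
    · have h1 := Real.sq_sqrt (show 0 ≤ 1 - A n 0 by linarith [hA1 n 0])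
      have h2 := Real.sq_sqrt (hA0 n (1/2))
      have h3 := mul_nonneg (Real.sqrt_nonneg (1 - A n 0)) (Real.sqrt_nonneg (A n (1/2)))
      simp only [hX]
      nlinarith
    · linarith [hA1 n 0, hA0 n (1/2)]
  -- the corner integral vanishes
  set I := ∫ z, cornerL (a z) ∂μ with hI
  have hIlim : Tendsto (fun n => ∫ z, cornerL (A n z) ∂μ) atTop (𝓝 I) :=
    tendsto_integral_of_dominated_convergence (fun _ => 2)
      (fun n => (continuous_cornerL.comp (hAc n)).aestronglyMeasurable) (integrable_const 2)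
      (fun n => ae_of_all _ fun z => by
        rw [Real.norm_eq_abs, abs_of_nonneg (cornerL_nonneg _)]; exact cornerL_le_two _)
      (hlim.mono fun z hz => (continuous_cornerL.tendsto _).comp hz)
  have hI0 : I ≤ 0 := by
    refine le_of_forall_pos_le_add fun κ hκ => ?_
    rw [zero_add]
    have main : ∀ k ∈ Ioc (0:ℝ) 1, I ≤ k := by
      intro k hk
      have hlim2 : Tendsto (fun n => 2 * k * (∫ z, cornerL (A n z) ∂μ)
          + 2 * √(1 - k ^ 2) * (A n 0 - A n (1/2))) atTop
          (𝓝 (2 * k * I + 2 * √(1 - k ^ 2) * 1)) :=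
        (hIlim.const_mul _).add (hT1.const_mul _)
      have hle : 2 * k * I + 2 * √(1 - k ^ 2) * 1 ≤ 2 := le_of_forall_pos_le_add fun ε hε =>
        le_of_tendsto hlim2 ((hQ ε hε).mono fun n hn =>
          const_weight (S.core n) (hd n) ⟨hk.1.le, hk.2⟩ (by positivity) hn)
      have h1 : 1 - k ^ 2 ≤ √(1 - k ^ 2) := Real.le_sqrt_of_sq_le (by
        nlinarith [sq_nonneg k, show k ^ 2 ≤ 1 by nlinarith [hk.1, hk.2]])
      exact le_of_mul_le_mul_left (a := k) (by nlinarith) hk.1
    rcases le_total κ 1 with h | h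
    · exact main κ ⟨hκ, h⟩
    · exact (main 1 ⟨one_pos, le_rfl⟩).trans h
  have haesm : AEStronglyMeasurable a μ :=
    aestronglyMeasurable_of_tendsto_ae atTop (fun n => (hAc n).aestronglyMeasurable) hlim
  have hic : Integrable (fun z => cornerL (a z)) μ :=
    Integrable.of_bound (continuous_cornerL.comp_aestronglyMeasurable haesm) 2
      (ae_of_all _ fun z => by
        rw [Real.norm_eq_abs, abs_of_nonneg (cornerL_nonneg _)]; exact cornerL_le_two _)
  have h01 : ∀ᵐ z ∂μ, a z = 0 ∨ a z = 1 := by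
    have hz := (integral_eq_zero_iff_of_nonneg_ae (ae_of_all _ fun z => cornerL_nonneg _) hic).1
      (le_antisymm hI0 (integral_nonneg fun z => cornerL_nonneg _))
    filter_upwards [hz, hlim] with z h1 h2
    exact cornerL_eq_zero h1 (ge_of_tendsto' h2 fun n => hA0 n z)
      (le_of_tendsto' h2 fun n => hA1 n z)
  -- monotonicity locates the jump
  have hia : Integrable a μ := Integrable.of_bound haesm 1 (hlim.mono fun z hz => by
    rw [Real.norm_eq_abs, abs_of_nonneg (ge_of_tendsto' hz fun n => hA0 n z)]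
    exact le_of_tendsto' hz fun n => hA1 n z)
  have hgood : ∀ᵐ z ∂μ, Tendsto (fun n => A n z) atTop (𝓝 (a z)) ∧ (a z = 0 ∨ a z = 1) ∧
      z ∈ Ioo (0:ℝ) (1/2) := by
    filter_upwards [hlim, h01, ae_restrict_mem measurableSet_Ioo] with z h1 h2 h3
    exact ⟨h1, h2, h3⟩
  have hiI : ∀ s, Integrable ((Iio s).indicator fun _ : ℝ => (1:ℝ)) μ := fun s =>
    (integrable_const 1).indicator measurableSet_Iio
  have hvals : ∀ s ∈ Ioo (0:ℝ) (1/2), ∫ z, (Iio s).indicator (fun _ : ℝ => (1:ℝ)) z ∂μ = s := by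
    intro s hs'
    rw [integral_indicator_const _ measurableSet_Iio, hμ, measureReal_restrict_apply measurableSet_Iio,
      show Iio s ∩ Ioo (0:ℝ) (1/2) = Ioo 0 s by
        ext y; simp only [mem_inter_iff, mem_Iio, mem_Ioo]
        constructor
        · rintro ⟨h1, h2, -⟩; exact ⟨h2, h1⟩
        · rintro ⟨h1, h2⟩; exact ⟨h2, h1, h2.trans hs'.2⟩,
      Real.volume_real_Ioo_of_le hs'.1.le, smul_eq_mul]
    ring
  have hstep : ∀ᵐ z ∂μ, z ≠ v / 2 → a z = if z < v / 2 then 1 else 0 := by
    filter_upwards [hgood] with z hzg hne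
    obtain ⟨hz1, hz2, hz3⟩ := hzg
    have hmono : ∀ᵐ w ∂μ, (w ≤ z → a z ≤ a w) ∧ (z ≤ w → a w ≤ a z) := by
      filter_upwards [hgood] with w hwg
      obtain ⟨hw1, -, hw3⟩ := hwg
      exact ⟨fun h => le_of_tendsto_of_tendsto' hz1 hw1 fun n =>
          (S.core n).antitone_sliceA _ (Ioo_subset_Icc_self hw3) (Ioo_subset_Icc_self hz3) h,
        fun h => le_of_tendsto_of_tendsto' hw1 hz1 fun n =>
          (S.core n).antitone_sliceA _ (Ioo_subset_Icc_self hz3) (Ioo_subset_Icc_self hw3) h⟩
    rcases hz2 with hz2 | hz2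
    · have hup : v / 2 ≤ z := by
        rw [← hvol, ← hvals z hz3]
        refine integral_mono_ae hia (hiI z) ?_
        filter_upwards [hgood, hmono] with w hwg hw
        obtain ⟨-, hw2, -⟩ := hwg
        simp only [indicator_apply, mem_Iio]
        split_ifs with hlt
        · rcases hw2 with h | h <;> rw [h] <;> norm_num
        · linarith [hw.2 (not_lt.1 hlt)]
      rw [if_neg (not_lt.2 hup), hz2]
    · have hdn : z ≤ v / 2 := by
        rw [← hvol, ← hvals z hz3]
        refine integral_mono_ae (hiI z) hia ?_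
        filter_upwards [hgood, hmono] with w hwg hw
        obtain ⟨-, hw2, -⟩ := hwg
        simp only [indicator_apply, mem_Iio]
        split_ifs with hlt
        · linarith [hw.1 hlt.le]
        · rcases hw2 with h | h <;> rw [h] <;> norm_num
      rw [if_pos (lt_of_le_of_ne hdn hne), hz2]
  have hne : ∀ᵐ z ∂μ, z ≠ v / 2 := Measure.ae_ne μ _
  have hh : ∀ᵐ z ∂μ, ∀ᵐ x ∂μ, hgt E x z = if z < v / 2 then 1 / 2 else 0 := by
    filter_upwards [hstep, hne, hconv] with z hz hz' hzc
    have hval := hz hz'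
    have hb : ∀ x, 0 ≤ hgt E x z ∧ hgt E x z ≤ 1 / 2 := fun x => by
      refine ⟨ENNReal.toReal_nonneg, ?_⟩
      refine (ENNReal.toReal_mono ENNReal.ofReal_ne_top (le_trans (measure_mono fun y hy => hy.1)
        (le_of_eq Real.volume_Ioo))).trans (le_of_eq ?_)
      norm_num
    have hm : AEStronglyMeasurable (fun x => hgt E x z) μ :=
      aestronglyMeasurable_of_tendsto_ae atTop
        (fun n => ((S.core n).continuous_yr_fix _ z).aestronglyMeasurable) hzc.2
    have hint : Integrable (fun x => hgt E x z) μ := Integrable.of_bound hm (1/2)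
      (ae_of_all _ fun x => by rw [Real.norm_eq_abs, abs_of_nonneg (hb x).1]; exact (hb x).2)
    have hsum : ∫ x, hgt E x z ∂μ = a z / 4 := by
      simp only [ha, secA]
      rw [intervalIntegral.integral_of_le (by norm_num), setIntegral_congr_set Ioo_ae_eq_Ioc.symm]
      ring
    rw [hval] at hsum
    split_ifs at hsum ⊢
    · have h0 : ∫ x, (1 / 2 - hgt E x z) ∂μ = 0 := by
        rw [integral_sub (integrable_const _) hint, hsum, integral_const, hμ,
          measureReal_restrict_apply MeasurableSet.univ, univ_inter,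
          Real.volume_real_Ioo_of_le (by norm_num), smul_eq_mul]
        norm_num
      filter_upwards [(integral_eq_zero_iff_of_nonneg_ae (ae_of_all _ fun x => sub_nonneg.2 (hb x).2)
        ((integrable_const _).sub hint)).1 h0] with x hx
      simp only [Pi.zero_apply] at hx
      linarith
    · filter_upwards [(integral_eq_zero_iff_of_nonneg_ae (ae_of_all _ fun x => (hb x).1) hint).1
        (by rw [hsum]; norm_num)] with x hx
      exact hx
  have hR : v / 2 ≤ 1 / 2 := by
    have : (1:ℝ) / π ≤ 1 := by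
      rw [div_le_one pi_pos]; linarith [pi_gt_three]
    linarith [hv.2]
  exact ⟨{2}, v / 2, Or.inr ⟨2, Or.inr rfl⟩, by linarith [hv.1], hR,
    slab_of_hgt hE hs (by linarith [hv.1]) hh⟩

end

end Vale.P232
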