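import Vale.Agent.P232.RigidDefs
import Vale.Agent.P232.ScalarDiscCert

/-!
P232, module D: the disc certificate with its exact value and its cases of equality.
-/

open MeasureTheory Real Set intervalIntegral

namespace Vale.P232

noncomputable section

/-- Strict tube inequality, small `s`. -/
lemma key_tube_small_lt {s t y : ℝ} (hs : 0 ≤ s) (hst : s ≤ t) (hy : y ≤ 1 / 4) (hy0 : 0 < y)
    (hyS : ((t - s) / 2) ^ 2 = y * (s + t) ^ 2) (hS : (707 : ℝ) / 1000 ≤ s + t) :
    2 * √π * ((s + t) ^ 2 / 4 - s * t) < 4 * Kint s t := by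
  have hK := Kint_lower_pair hs hst
  rw [hyS] at hK
  set S := s + t with hSdef
  have hS0 : 0 ≤ S := le_trans (by norm_num) hS
  have hS0' : 0 < S := lt_of_lt_of_le (by norm_num) hS
  have h0 : (866 : ℝ) / 1000 * S ≤ √(S ^ 2 - y * S ^ 2) :=
    Real.le_sqrt_of_sq_le (by nlinarith [mul_nonneg (sub_nonneg.2 hy) (sq_nonneg S)])
  have hsum : √S ≤ √t + √s := by
    rw [Real.sqrt_le_left (by positivity), hSdef, add_sq, sq_sqrt (hs.trans hst), sq_sqrt hs]
    nlinarith [mul_nonneg (sqrt_nonneg t) (sqrt_nonneg s)]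
  have h1 : (707 : ℝ) / 1000 * S ≤ √(S / 2) * (√t + √s) := by
    refine le_trans ?_ (mul_le_mul_of_nonneg_left hsum (sqrt_nonneg _))
    rw [← sqrt_mul (by linarith)]
    exact Real.le_sqrt_of_sq_le (by nlinarith)
  have hb : (12539 : ℝ) / 10000 * S ≤
      2 * √(S ^ 2 - y * S ^ 2) * (π / 4 - 1 / 3) + 2 * √(S / 2) * (√t + √s) / 3 := by
    have := mul_le_mul h0 pi_quarter (by norm_num) (sqrt_nonneg _)
    linarith
  have hyS0 : 0 ≤ y * S ^ 2 := hyS ▸ sq_nonneg _
  have := (mul_le_mul_of_nonneg_left hb hyS0).trans hK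
  have h4 : S ^ 2 / 4 - s * t = y * S ^ 2 := by rw [← hyS, hSdef]; ring
  rw [h4]
  have hc : 2 * √π < 4 * (12539 / 10000 * S) := by
    have := sqrtpi_lt; linarith
  have := mul_lt_mul_of_pos_left hc (mul_pos hy0 (pow_pos hS0' 2))
  linarith

/-- Strict ball inequality, small `s`. -/
lemma key_ball_small_lt {s t σ : ℝ} (hspos : 0 < s) (hst : s ≤ t) (es : s = σ * (s + t))
    (hσ : σ ≤ 1 / 25) (hS : s + t ≤ 707 / 1000) :
    4 / 3 * (s + t) ^ 3 < 4 * Kint s t + 2 * √π * (s * t) := by
  set S := s + t with hSdef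
  have hS0 : 0 < S := by rw [hSdef]; linarith
  have et : t = (1 - σ) * S := by linarith [es, hSdef]
  have hσpos : 0 < σ := by
    by_contra h
    push Not at h
    nlinarith
  have hK2 := Kint_lower_small hspos hst
  have hr : (1 - 3 * σ) * S ^ 3 ≤ √(t ^ 2 - s ^ 2) ^ 3 := by
    have he : t ^ 2 - s ^ 2 = (1 - 2 * σ) * S ^ 2 := by rw [es, et]; ring
    have hr1 : (1 - σ - σ ^ 2 * 2) * S ≤ √(t ^ 2 - s ^ 2) := by
      refine Real.le_sqrt_of_sq_le ?_
      rw [he, mul_pow]
      refine mul_le_mul_of_nonneg_right ?_ (sq_nonneg S)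
      nlinarith [mul_nonneg (sq_nonneg σ) hσpos.le, mul_nonneg (sq_nonneg σ) (sub_nonneg.2 hσ)]
    have h0 : 0 ≤ t ^ 2 - s ^ 2 := by nlinarith
    rw [show √(t ^ 2 - s ^ 2) ^ 3 = √(t ^ 2 - s ^ 2) ^ 2 * √(t ^ 2 - s ^ 2) by ring, sq_sqrt h0]
    rw [he] at hr1 ⊢
    refine le_trans ?_ (mul_le_mul_of_nonneg_left hr1 (by nlinarith))
    rw [show (1 - 2 * σ) * S ^ 2 * ((1 - σ - σ ^ 2 * 2) * S)
      = ((1 - 2 * σ) * (1 - σ - σ ^ 2 * 2)) * S ^ 3 by ring]
    refine mul_le_mul_of_nonneg_right ?_ (by positivity)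
    nlinarith [mul_nonneg (sq_nonneg σ) hσpos.le]
  have hlog : log (t / s) ≤ 736 / 1000 * √(1 / σ) := by
    have hx : t / s ≤ 1 / σ := by
      rw [es, et, one_div, mul_div_mul_right _ _ hS0.ne', div_le_iff₀ hσpos,
        inv_mul_cancel₀ hσpos.ne']
      linarith
    refine (log_le_log (div_pos (hspos.trans_le hst) hspos) hx).trans ?_
    have hy : 0 < √(1 / σ) := sqrt_pos.2 (by positivity)
    have h := Real.log_le_sub_one_of_pos (div_pos hy (exp_pos 1))
    rw [log_div hy.ne' (exp_pos 1).ne', log_exp, log_sqrt (by positivity)] at h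
    have he : 1 / exp 1 ≤ 368 / 1000 := by
      rw [div_le_iff₀ (exp_pos 1)]
      have := exp_one_gt_d9; norm_num at this ⊢; linarith
    have := mul_le_mul_of_nonneg_left he hy.le
    rw [show √(1 / σ) / exp 1 = √(1 / σ) * (1 / exp 1) by ring] at h
    linarith
  have hsq : σ * √(1 / σ) ≤ 1 / 5 := by
    have : σ * √(1 / σ) = √σ := by
      rw [one_div, sqrt_inv, ← div_eq_mul_inv, Real.div_sqrt]
    rw [this, Real.sqrt_le_left (by norm_num)]; linarith
  have hloss : s ^ 2 * t * log (t / s) ≤ 736 / 5000 * σ * S ^ 3 := by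
    refine (mul_le_mul_of_nonneg_left hlog (mul_nonneg (sq_nonneg s) (hspos.trans_le hst).le)).trans ?_
    rw [es, et, show (σ * S) ^ 2 * ((1 - σ) * S) * (736 / 1000 * √(1 / σ))
      = 736 / 1000 * ((1 - σ) * (σ * √(1 / σ))) * (σ * S ^ 3) by ring,
      show 736 / 5000 * σ * S ^ 3 = 736 / 1000 * (1 / 5) * (σ * S ^ 3) by ring]
    refine mul_le_mul_of_nonneg_right ?_ (by positivity)
    have h0 : 0 ≤ σ * √(1 / σ) := by positivity
    nlinarith [mul_nonneg hσpos.le h0]
  have h2 : 5 * (σ * (1 - σ)) * S ^ 3 ≤ 2 * √π * (s * t) := by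
    have h5 : 5 * S ≤ 2 * √π := by have := sqrtpi_gt; linarith
    rw [es, et, show 2 * √π * (σ * S * ((1 - σ) * S)) = 2 * √π * (σ * (1 - σ) * S ^ 2) by ring,
      show 5 * (σ * (1 - σ)) * S ^ 3 = 5 * S * (σ * (1 - σ) * S ^ 2) by ring]
    exact mul_le_mul_of_nonneg_right h5 (mul_nonneg (mul_nonneg hσpos.le (by linarith)) (sq_nonneg S))
  nlinarith [mul_nonneg (mul_nonneg hσpos.le (sub_nonneg.2 hσ)) (pow_nonneg hS0.le 3),
    mul_pos hσpos (pow_pos hS0 3)]

/-- The tube or the ball tangency inequality, with strictness off its equality case. -/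
lemma Kint_key_strict {s t : ℝ} (hs : 0 ≤ s) (hst : s ≤ t) (hS : 0 < s + t) :
    (2 * √π * ((s + t) ^ 2 / 4 - s * t) ≤ 4 * Kint s t ∧
      (s < t → 2 * √π * ((s + t) ^ 2 / 4 - s * t) < 4 * Kint s t)) ∨
    (4 / 3 * (s + t) ^ 3 ≤ 4 * Kint s t + 2 * √π * (s * t) ∧
      (0 < s → 4 / 3 * (s + t) ^ 3 < 4 * Kint s t + 2 * √π * (s * t))) := by
  obtain ⟨σ, es⟩ : ∃ σ, s = σ * (s + t) := ⟨s / (s + t), (div_mul_cancel₀ _ hS.ne').symm⟩
  have hσ0 : 0 ≤ σ := by
    by_contra h
    push Not at h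
    have := mul_neg_of_neg_of_pos h hS
    linarith
  have hσ1 : σ ≤ 1 / 2 := by
    by_contra h
    push Not at h
    have := mul_lt_mul_of_pos_right h hS
    linarith
  set S := s + t with hSdef
  have et : t = (1 - σ) * S := by linarith [es, hSdef]
  set y := (1 / 2 - σ) ^ 2 with hy
  have hy0 : 0 ≤ y := sq_nonneg _
  have hD : ((t - s) / 2) ^ 2 = y * S ^ 2 := by rw [hy, es, et]; ring
  by_cases hsmall : σ ≤ 1 / 25
  · by_cases hSbig : (707 : ℝ) / 1000 ≤ S
    · left
      refine ⟨key_tube_small hs hst (by rw [hy]; nlinarith) hD hSbig, fun h =>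
        key_tube_small_lt hs hst (by rw [hy]; nlinarith) ?_ hD hSbig⟩
      have : 0 < ((t - s) / 2) ^ 2 := pow_pos (by linarith) 2
      rw [hD] at this
      exact pos_of_mul_pos_left this (sq_nonneg _)
    · right
      push Not at hSbig
      rcases eq_or_lt_of_le hs with h | hspos
      · subst h
        refine ⟨?_, fun h => absurd h (lt_irrefl _)⟩
        have ht0 : 0 ≤ t := hs.trans hst
        have : Kint 0 t = t ^ 3 / 3 := by
          rw [Kint]
          have hint : EqOn (fun u => √((u ^ 2 - 0 ^ 2) * (t ^ 2 - u ^ 2)))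
              (fun u => u * √(t ^ 2 - u ^ 2)) (uIcc 0 t) := by
            intro u hu
            rw [uIcc_of_le hst] at hu
            simp [sqrt_mul (sq_nonneg u), Real.sqrt_sq hu.1]
          rw [intervalIntegral.integral_congr hint, integral_mul_sqrt_sub le_rfl ht0]
          simp [Real.sqrt_sq ht0]
        rw [this, hSdef]
        simp
        linarith
      · exact ⟨key_ball_small hspos hst es hsmall hSbig.le,
          fun _ => key_ball_small_lt hspos hst es hsmall hSbig.le⟩
  · push Not at hsmall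
    have hK := key_large_bracket hsmall.le hσ1 es hy hS
    have hy4 : y ≤ 2116 / 10000 := by rw [hy]; nlinarith
    by_cases hSbig : (6525 : ℝ) / 10000 ≤ S
    · left
      rw [show S ^ 2 / 4 - s * t = y * S ^ 2 by rw [← hD, hSdef]; ring]
      have hB : (13586 : ℝ) / 10000 ≤ 904 / 1000 * (1 - 53 / 100 * y)
          + 4713 / 10000 * (14142 / 10000 - 11081 / 10000 * y) := by linarith
      have h1 : 2 * √π < 4 * ((904 / 1000 * (1 - 53 / 100 * y)
          + 4713 / 10000 * (14142 / 10000 - 11081 / 10000 * y)) * S) := by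
        have := mul_le_mul hB hSbig (by norm_num) (by linarith)
        have := sqrtpi_lt; linarith
      have := mul_le_mul_of_nonneg_right h1.le (mul_nonneg hy0 (sq_nonneg S))
      refine ⟨by linarith, fun h => ?_⟩
      have hy1 : 0 < y * S ^ 2 := by rw [← hD]; exact pow_pos (by linarith) 2
      have := mul_lt_mul_of_pos_right h1 hy1
      linarith
    · right
      push Not at hSbig
      have hst2 : s * t = (1 / 4 - y) * S ^ 2 := by rw [hy, es, et]; ring
      have h2 : (5432 / 1000 : ℝ) * S ≤ 2 * √π := by have := sqrtpi_gt; linarith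
      have key : 4 / 3 < 4 * y * (904 / 1000 * (1 - 53 / 100 * y)
          + 4713 / 10000 * (14142 / 10000 - 11081 / 10000 * y)) + 5432 / 1000 * (1 / 4 - y) := by
        nlinarith [mul_nonneg hy0 (sub_nonneg.2 hy4)]
      rw [hst2]
      have := mul_le_mul_of_nonneg_left h2
        (mul_nonneg (by linarith : (0:ℝ) ≤ 1 / 4 - y) (sq_nonneg S))
      have hlt := mul_lt_mul_of_pos_right key (pow_pos hS 3)
      exact ⟨by linarith, fun _ => by linarith⟩

/-- The certificate achieves `discG`. -/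
theorem discG_cert {E T v : ℝ} (hE : 0 ≤ E) (hEv : E ≤ v) (hvT : v ≤ T) (hT : 0 < T) :
    ∃ (lam mu : ℝ) (c : ℝ → ℝ), Measurable c ∧ (∀ a, c a ∈ Icc (0:ℝ) 1) ∧
      (∀ a ∈ Icc E T, lam * a + mu ≤ c a * discP a) ∧
      discG E T v ≤ lam * v + mu + 2 * ∫ a in E..T, √(1 - c a ^ 2) := by
  have hET : E ≤ T := hEv.trans hvT
  set s := √E with hsdef
  set t := √T with htdef
  have hs : 0 ≤ s := sqrt_nonneg _
  have hst : s ≤ t := sqrt_le_sqrt hET
  have hsE : s ^ 2 = E := sq_sqrt hE
  have htT : t ^ 2 = T := sq_sqrt hT.le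
  have hS : 0 < s + t := add_pos_of_nonneg_of_pos hs (Real.sqrt_pos.2 hT)
  set S := s + t with hSdef
  set lam := 2 * √π / S with hlam
  set mu := lam * (s * t) with hmu
  have hcond : ∀ a ∈ Icc E T, 0 ≤ lam * a + mu ∧ lam * a + mu ≤ discP a := by
    intro a ha
    have ha0 : 0 ≤ a := hE.trans ha.1
    refine ⟨by positivity, ?_⟩
    have h1 : s ≤ √a := sqrt_le_sqrt ha.1
    have h2 : √a ≤ t := sqrt_le_sqrt ha.2
    have key : a + s * t ≤ √a * S := by
      nlinarith [mul_nonneg (sub_nonneg.2 h1) (sub_nonneg.2 h2), sq_sqrt ha0]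
    calc lam * a + mu = lam * (a + s * t) := by rw [hmu]; ring
      _ ≤ lam * (√a * S) := mul_le_mul_of_nonneg_left key (by positivity)
      _ = discP a := by
        rw [discP, sqrt_mul pi_pos.le, hlam]; field_simp
  refine ⟨lam, mu, discC lam mu, ?_, fun a => ?_, fun a ha => ?_, ?_⟩
  · have hd : Measurable discP := by unfold discP; fun_prop
    exact measurable_const.min (((measurable_const.mul measurable_id).add_const mu |>.max
      measurable_const).div hd)
  · exact ⟨le_min zero_le_one (div_nonneg (le_max_right _ _)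
      (by unfold discP; positivity)), min_le_left _ _⟩
  · obtain ⟨h1, h2⟩ := hcond a ha
    unfold discC
    rcases eq_or_lt_of_le (show 0 ≤ discP a by unfold discP; positivity) with h | h
    · rw [← h]; simp only [mul_zero]; linarith
    · rw [max_eq_left h1, min_eq_right ((div_le_one h).2 h2), div_mul_cancel₀ _ h.ne']
  · have hG : ∫ a in E..T, gS discP lam mu a = 2 / S * Kint s t := by
      have hsub : ∫ a in E..T, gS discP lam mu a
          = ∫ u in s..t, gS discP lam mu (u ^ 2) * (2 * u) := by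
        rw [← hsE, ← htT]
        refine (intervalIntegral.integral_comp_mul_deriv_of_deriv_nonneg (f := fun u : ℝ => u ^ 2)
          (f' := fun u => 2 * u) (g := gS discP lam mu) (by fun_prop)
          (fun u _ => by simpa using hasDerivAt_pow 2 u) fun u hu => ?_).symm
        rw [min_eq_left hst] at hu
        linarith [hu.1]
      rw [hsub, Kint, ← intervalIntegral.integral_const_mul]
      refine intervalIntegral.integral_congr fun u hu => ?_
      rw [uIcc_of_le hst] at hu
      have hu0 : 0 ≤ u := hs.trans hu.1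
      rcases eq_or_lt_of_le hu0 with h | hupos
      · subst h
        have : s = 0 := le_antisymm hu.1 hs
        simp [this]
      simp only [gS, discP]
      rw [max_eq_left (by positivity), sqrt_mul pi_pos.le, Real.sqrt_sq hu0]
      have e : (lam * u ^ 2 + mu) / (2 * (√π * u)) = (u ^ 2 + s * t) / (u * S) := by
        rw [hmu, hlam]
        have := (sqrt_pos.2 pi_pos).ne'
        field_simp
      rw [e]
      have hA : 0 ≤ (u ^ 2 - s ^ 2) * (t ^ 2 - u ^ 2) :=
        mul_nonneg (by nlinarith [hu.1]) (by nlinarith [hu.2])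
      have e2 : 1 - ((u ^ 2 + s * t) / (u * S)) ^ 2
          = (u ^ 2 - s ^ 2) * (t ^ 2 - u ^ 2) / (u * S) ^ 2 := by
        have hne : u * S ≠ 0 := (mul_pos hupos hS).ne'
        rw [div_pow, one_sub_div (pow_ne_zero 2 hne)]
        congr 1
        rw [hSdef]; ring
      rw [e2, sqrt_div hA, Real.sqrt_sq (by positivity)]
      field_simp
    have hc : ∫ a in E..T, √(1 - discC lam mu a ^ 2) = ∫ a in E..T, gS discP lam mu a := by
      refine intervalIntegral.integral_congr fun a ha => ?_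
      rw [uIcc_of_le hET] at ha
      obtain ⟨h1, h2⟩ := hcond a ha
      simp only [gS, discC]
      rw [min_eq_right]
      rcases eq_or_lt_of_le (show 0 ≤ discP a by unfold discP; positivity) with h | h
      · rw [← h]; simp
      · rw [max_eq_left h1]; exact (div_le_one h).2 h2
    rw [hc, hG, hmu, hlam]
    refine le_of_eq ?_
    simp only [discG, ← hsdef, ← htdef, ← hSdef]
    field_simp
    ring

lemma discG_mul {E T v : ℝ} (hT : 0 < T) :
    (√E + √T) * discG E T v
      = 2 * √π * (v + √E * √T) + 4 * Kint (√E) (√T) := by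
  have : 0 < √E + √T := add_pos_of_nonneg_of_pos (sqrt_nonneg _) (Real.sqrt_pos.2 hT)
  unfold discG
  field_simp

/-- The disc certificate gives at least the candidate. -/
theorem candJ_le_discG {E T v : ℝ} (hE : 0 ≤ E) (hEv : E ≤ v) (hvT : v ≤ T) (hT : 0 < T) :
    candJ v ≤ discG E T v := by
  have hv : 0 ≤ v := hE.trans hEv
  have hS : 0 < √E + √T := add_pos_of_nonneg_of_pos (sqrt_nonneg _) (Real.sqrt_pos.2 hT)
  refine le_of_mul_le_mul_left ?_ hS
  rw [discG_mul hT]
  rcases Kint_key (sqrt_nonneg E) (sqrt_le_sqrt (hEv.trans hvT)) hS with h | h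
  · refine le_trans (mul_le_mul_of_nonneg_left
      ((min_le_left _ _).trans (min_le_right _ _)) hS.le) ?_
    refine (tubeP_tangent hv).trans ?_
    linarith
  · refine le_trans (mul_le_mul_of_nonneg_left
      ((min_le_left _ _).trans (min_le_left _ _)) hS.le) ?_
    refine (ballP_tangent hv hS).trans ?_
    linarith

lemma Rball_pos {v : ℝ} (hv : 0 < v) : 0 < Rball v := by
  unfold Rball; positivity

lemma Rball_cube {v : ℝ} (hv : 0 ≤ v) : 4 * π * Rball v ^ 3 = 3 * v := by
  unfold Rball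
  rw [← Real.rpow_natCast, ← Real.rpow_mul (by positivity)]
  norm_num
  field_simp

lemma ballP_eq_Rball {v : ℝ} (hv : 0 ≤ v) : ballP v = 4 * π * Rball v ^ 2 := by
  refine (pow_left_inj₀ (by unfold ballP; positivity) (by positivity) three_ne_zero).1 ?_
  have h := Rball_cube hv
  have h36 : ((36 * π) ^ (1 / 3 : ℝ)) ^ 3 = 36 * π := by
    rw [← Real.rpow_natCast, ← Real.rpow_mul (by positivity)]
    norm_num
  have hv3 : (v ^ (2 / 3 : ℝ)) ^ 3 = v ^ 2 := by
    rw [← Real.rpow_natCast, ← Real.rpow_mul hv]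
    norm_num
  simp only [ballP]
  rw [mul_pow, h36, hv3]
  linear_combination (-4 * π * (4 * π * Rball v ^ 3 + 3 * v)) * h

/-- Where the ball is the candidate it has radius at most `1/3`. -/
lemma Rball_le {v : ℝ} (hv : 0 < v) (h : candJ v = ballP v) :
    Rball v ≤ 1 / 3 ∧ Tball v ≤ 9 / 25 := by
  have hR := Rball_pos hv
  have hc := Rball_cube hv.le
  have hle : ballP v ≤ tubeP v := h ▸ ((min_le_left _ _).trans (min_le_right _ _))
  rw [ballP_eq_Rball hv.le] at hle
  have h3 : Rball v ≤ 1 / 3 := by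
    have hb : 0 ≤ 4 * π * Rball v ^ 2 := by positivity
    have hsq : (4 * π * Rball v ^ 2) ^ 2 ≤ tubeP v ^ 2 := pow_le_pow_left₀ hb hle 2
    simp only [tubeP, mul_pow, Real.sq_sqrt (mul_nonneg pi_pos.le hv.le)] at hsq
    by_contra hc'
    push Not at hc'
    have hpos : 0 < π ^ 2 * Rball v ^ 3 := by positivity
    have := mul_lt_mul_of_pos_left hc' hpos
    generalize Rball v = R at *
    rw [show v = 4 * π * R ^ 3 / 3 by linarith] at hsq
    linarith
  refine ⟨h3, ?_⟩
  unfold Tball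
  have := pow_le_pow_left₀ hR.le h3 2
  have := pi_lt_d2
  nlinarith [pi_pos]

/-- Equality only for the tube and for the ball. -/
theorem discG_eq_candJ {E T v : ℝ} (hE : 0 ≤ E) (hEv : E ≤ v) (hvT : v ≤ T) (hT : 0 < T)
    (hv : 0 < v) (h : discG E T v ≤ candJ v) :
    (E = v ∧ T = v ∧ candJ v = tubeP v) ∨ (E = 0 ∧ T = Tball v ∧ candJ v = ballP v) := by
  set s := √E with hsdef
  set t := √T with htdef
  have hs : 0 ≤ s := sqrt_nonneg _
  have hst : s ≤ t := sqrt_le_sqrt (hEv.trans hvT)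
  have hsE : s ^ 2 = E := sq_sqrt hE
  have htT : t ^ 2 = T := sq_sqrt hT.le
  have hS : 0 < s + t := add_pos_of_nonneg_of_pos hs (Real.sqrt_pos.2 hT)
  have hm := discG_mul (E := E) (v := v) hT
  rw [← hsdef, ← htdef] at hm
  have hle := mul_le_mul_of_nonneg_left h hS.le
  have hb : (s + t) * candJ v ≤ (s + t) * ballP v :=
    mul_le_mul_of_nonneg_left ((min_le_left _ _).trans (min_le_left _ _)) hS.le
  have ht : (s + t) * candJ v ≤ (s + t) * tubeP v :=
    mul_le_mul_of_nonneg_left ((min_le_left _ _).trans (min_le_right _ _)) hS.le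
  rcases Kint_key_strict hs hst hS with ⟨h1, h2⟩ | ⟨h1, h2⟩
  · left
    have htan := tubeP_tangent (S := s + t) hv.le
    have heq : s = t := by
      rcases eq_or_lt_of_le hst with e | e
      · exact e
      · have := h2 e; linarith
    have hET : E = T := by rw [← hsE, ← htT, heq]
    refine ⟨by linarith, by linarith,
      le_antisymm ((min_le_left _ _).trans (min_le_right _ _)) (le_of_mul_le_mul_left ?_ hS)⟩
    linarith
  · right
    have htan := ballP_tangent hv.le hS
    have hs0 : s = 0 := by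
      rcases eq_or_lt_of_le hs with e | e
      · exact e.symm
      · have := h2 e; linarith
    have hcb : candJ v = ballP v :=
      le_antisymm ((min_le_left _ _).trans (min_le_left _ _))
        (le_of_mul_le_mul_left (by linarith) hS)
    refine ⟨by rw [← hsE, hs0]; norm_num, ?_, hcb⟩
    have key : 2 * √π * v + 4 / 3 * (s + t) ^ 3 ≤ (s + t) * ballP v := by linarith
    rw [hs0, zero_add, ballP_eq_Rball hv.le] at key
    have hp : √π ^ 2 = π := sq_sqrt pi_pos.le
    have hp0 : 0 < √π := Real.sqrt_pos.2 pi_pos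
    obtain ⟨r, hr, hrt⟩ : ∃ r, 0 < r ∧ t = √π * r :=
      ⟨t / √π, div_pos (Real.sqrt_pos.2 hT) hp0, by field_simp⟩
    set R := Rball v with hRdef
    have hR : 0 < R := Rball_pos hv
    have hc := Rball_cube hv.le
    rw [← hRdef] at hc
    rw [hrt, show v = 4 * π * R ^ 3 / 3 by linarith] at key
    have e3 : (√π * r) ^ 3 = π * √π * r ^ 3 := by linear_combination (√π * r ^ 3) * hp
    rw [e3] at key
    have k2 : r ^ 3 - 3 * r * R ^ 2 + 2 * R ^ 3 ≤ 0 := by
      refine le_of_mul_le_mul_left ?_ (mul_pos pi_pos hp0)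
      linarith
    have k3 : (r - R) ^ 2 ≤ 0 := by
      refine nonpos_of_mul_nonpos_left ?_ (show 0 < r + 2 * R by linarith)
      linarith
    have hrR : r = R := by
      have := pow_eq_zero_iff two_ne_zero |>.1 (le_antisymm k3 (sq_nonneg _))
      linarith
    rw [← htT, hrt, hrR, mul_pow, hp]
    rfl

lemma continuous_Kint : Continuous fun p : ℝ × ℝ => Kint p.1 p.2 := by
  have hg : ∀ p : ℝ × ℝ, Continuous fun u => √((u ^ 2 - p.1 ^ 2) * (p.2 ^ 2 - u ^ 2)) :=
    fun p => by fun_prop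
  have e : (fun p : ℝ × ℝ => Kint p.1 p.2) = fun p =>
      (∫ u in (0:ℝ)..p.2, √((u ^ 2 - p.1 ^ 2) * (p.2 ^ 2 - u ^ 2)))
        - ∫ u in (0:ℝ)..p.1, √((u ^ 2 - p.1 ^ 2) * (p.2 ^ 2 - u ^ 2)) := by
    funext p
    rw [intervalIntegral.integral_interval_sub_left ((hg p).intervalIntegrable _ _)
      ((hg p).intervalIntegrable _ _)]
    rfl
  rw [e]
  refine Continuous.sub ?_ ?_
  · exact intervalIntegral.continuous_parametric_intervalIntegral_of_continuous
      (f := fun (p : ℝ × ℝ) u => √((u ^ 2 - p.1 ^ 2) * (p.2 ^ 2 - u ^ 2))) (by fun_prop)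
      continuous_snd
  · exact intervalIntegral.continuous_parametric_intervalIntegral_of_continuous
      (f := fun (p : ℝ × ℝ) u => √((u ^ 2 - p.1 ^ 2) * (p.2 ^ 2 - u ^ 2))) (by fun_prop)
      continuous_fst

/-- `discG` is continuous. -/
theorem continuousAt_discG {E T v : ℝ} (_hE : 0 ≤ E) (hT : 0 < T) :
    ContinuousAt (fun p : ℝ × ℝ × ℝ => discG p.1 p.2.1 p.2.2) (E, T, v) := by
  have hS : √E + √T ≠ 0 :=
    (add_pos_of_nonneg_of_pos (sqrt_nonneg _) (Real.sqrt_pos.2 hT)).ne'
  have hK : Continuous fun p : ℝ × ℝ × ℝ => Kint (√p.1) (√p.2.1) :=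
    continuous_Kint.comp (f := fun p : ℝ × ℝ × ℝ => (√p.1, √p.2.1)) (by fun_prop)
  unfold discG
  refine ContinuousAt.div ?_ (by fun_prop) hS
  exact ((continuous_const.mul (by fun_prop : Continuous fun p : ℝ × ℝ × ℝ =>
    p.2.2 + √p.1 * √p.2.1)).add (continuous_const.mul hK)).continuousAt

end

end Vale.P232
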