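import Vale.Agent.P232.RigidFlux
import Vale.Agent.P232.ScalarDiscStrict

/-!
P232, module Q1: the slice areas of a minimiser reached through disc levels are those of a tube
or of a ball.

In the ball case every continuous slope weight `c` gives `Φ c ≤ J`, with equality at
`c0 a = √(a/T)`; the first variation at `c0` says that the slice areas are distributed as those of
the ball, and two antitone profiles with the same distribution agree almost everywhere.
-/

open MeasureTheory Real Set Filter Topology intervalIntegral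
open scoped ENNReal

namespace Vale.P232

noncomputable section


/-- A continuous function of an almost everywhere bounded function is integrable. -/
lemma integrable_comp_of_bdd {g A : ℝ → ℝ} (hg : Continuous g) {a b : ℝ}
    (hAm : AEStronglyMeasurable A ((volume.restrict (Ioo (0:ℝ) (1/2))) : Measure ℝ)) (hA : ∀ᵐ z ∂((volume.restrict (Ioo (0:ℝ) (1/2))) : Measure ℝ), A z ∈ Icc a b) :
    Integrable (fun z => g (A z)) ((volume.restrict (Ioo (0:ℝ) (1/2))) : Measure ℝ) := by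
  obtain ⟨C, hC⟩ := isCompact_Icc.exists_bound_of_continuousOn (hg.continuousOn (s := Icc a b))
  exact Integrable.of_bound (hg.comp_aestronglyMeasurable hAm) C (hA.mono fun z hz => hC _ hz)

/-- Two antitone profiles with the same distribution agree almost everywhere. -/
lemma ae_eq_of_integral_comp {A B : ℝ → ℝ} {G : Set ℝ} (hG : ∀ᵐ z ∂((volume.restrict (Ioo (0:ℝ) (1/2))) : Measure ℝ), z ∈ G)
    (hA : AntitoneOn A G) (hAm : AEStronglyMeasurable A ((volume.restrict (Ioo (0:ℝ) (1/2))) : Measure ℝ)) {M : ℝ}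
    (hAb : ∀ᵐ z ∂((volume.restrict (Ioo (0:ℝ) (1/2))) : Measure ℝ), A z ∈ Icc (0:ℝ) M) (hB : Continuous B)
    (hBanti : AntitoneOn B (Icc 0 (1/2)))
    (h : ∀ g : ℝ → ℝ, Continuous g → ∫ z, g (A z) ∂((volume.restrict (Ioo (0:ℝ) (1/2))) : Measure ℝ) = ∫ z, g (B z) ∂((volume.restrict (Ioo (0:ℝ) (1/2))) : Measure ℝ)) :
    ∀ᵐ z ∂((volume.restrict (Ioo (0:ℝ) (1/2))) : Measure ℝ), A z = B z := by
  -- comparison with indicators
  have hlow : ∀ {F : ℝ → ℝ} {w : ℝ}, w ∈ Icc (0:ℝ) (1/2) → Integrable F ((volume.restrict (Ioo (0:ℝ) (1/2))) : Measure ℝ) → (∀ y, 0 ≤ F y) →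
      (∀ᵐ y ∂((volume.restrict (Ioo (0:ℝ) (1/2))) : Measure ℝ), y < w → F y = 1) → w ≤ ∫ y, F y ∂((volume.restrict (Ioo (0:ℝ) (1/2))) : Measure ℝ) := by
    intro F w hw hF hF0 hF1
    have h1 : ∫ y, (Iio w).indicator (fun _ => (1:ℝ)) y ∂((volume.restrict (Ioo (0:ℝ) (1/2))) : Measure ℝ) ≤ ∫ y, F y ∂((volume.restrict (Ioo (0:ℝ) (1/2))) : Measure ℝ) := by
      refine integral_mono_ae ((integrable_const 1).indicator measurableSet_Iio) hF ?_
      filter_upwards [hF1] with y hy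
      by_cases hyw : y < w
      · simp [hyw, hy hyw]
      · simp [hyw, hF0 y]
    rw [setIntegral_indicator measurableSet_Iio, Ioo_inter_Iio, min_eq_right hw.2, setIntegral_const,
      Real.volume_real_Ioo_of_le hw.1, smul_eq_mul, mul_one, sub_zero] at h1
    exact h1
  have hupp : ∀ {F : ℝ → ℝ} {w : ℝ}, w ∈ Icc (0:ℝ) (1/2) → Integrable F ((volume.restrict (Ioo (0:ℝ) (1/2))) : Measure ℝ) → (∀ y, F y ≤ 1) →
      (∀ᵐ y ∂((volume.restrict (Ioo (0:ℝ) (1/2))) : Measure ℝ), w < y → F y ≤ 0) → ∫ y, F y ∂((volume.restrict (Ioo (0:ℝ) (1/2))) : Measure ℝ) ≤ w := by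
    intro F w hw hF hF0 hF1
    have h1 : ∫ y, F y ∂((volume.restrict (Ioo (0:ℝ) (1/2))) : Measure ℝ) ≤ ∫ y, (Iic w).indicator (fun _ => (1:ℝ)) y ∂((volume.restrict (Ioo (0:ℝ) (1/2))) : Measure ℝ) := by
      refine integral_mono_ae hF ((integrable_const 1).indicator measurableSet_Iic) ?_
      filter_upwards [hF1] with y hy
      by_cases hyw : w < y
      · simp [not_le.2 hyw, hy hyw]
      · simp [not_lt.1 hyw, hF0 y]
    refine h1.trans (le_of_eq ?_)
    have hae : (Ioo (0:ℝ) (1/2) ∩ Iic w : Set ℝ) =ᵐ[volume] (Ioo 0 w : Set ℝ) := by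
      rw [← min_eq_right hw.2, ← Ioo_inter_Iio, min_eq_right hw.2]
      exact (ae_eq_refl _).inter Iio_ae_eq_Iic.symm
    rw [setIntegral_indicator measurableSet_Iic, setIntegral_congr_set hae, setIntegral_const,
      Real.volume_real_Ioo_of_le hw.1, smul_eq_mul, mul_one, sub_zero]
  have hBint : ∀ {g : ℝ → ℝ}, Continuous g → Integrable (fun z => g (B z)) ((volume.restrict (Ioo (0:ℝ) (1/2))) : Measure ℝ) := fun hg =>
    (hg.comp hB).continuousOn.integrableOn_Icc.mono_set Ioo_subset_Icc_self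
  filter_upwards [hG, ae_restrict_mem measurableSet_Ioo] with z hzG hz
  have hz' : z ∈ Icc (0:ℝ) (1/2) := Ioo_subset_Icc_self hz
  rcases lt_trichotomy (A z) (B z) with hlt | heq | hgt
  · -- `A z < B z`
    exfalso
    obtain ⟨q, hq1, hq2⟩ := exists_between hlt
    obtain ⟨p, hp1, hp2⟩ := exists_between hq2
    set g := fun x : ℝ => max 0 (min 1 ((x - q) / (p - q))) with hg
    have hgc : Continuous g := by fun_prop
    have hev : ∀ᶠ w in 𝓝[>] z, p < B w :=
      (hB.continuousAt.eventually (lt_mem_nhds hp2)).filter_mono nhdsWithin_le_nhds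
    obtain ⟨w, hw1, hw2⟩ := (hev.and (Ioo_mem_nhdsGT hz.2)).exists
    have hle : ∫ y, g (A y) ∂((volume.restrict (Ioo (0:ℝ) (1/2))) : Measure ℝ) ≤ z := by
      refine hupp hz' (integrable_comp_of_bdd hgc hAm hAb)
        (fun y => max_le zero_le_one (min_le_left _ _)) ?_
      filter_upwards [hG] with y hyG hzy
      refine max_le le_rfl (min_le_of_right_le (div_nonpos_of_nonpos_of_nonneg ?_ ?_))
      · linarith [hA hzG hyG hzy.le]
      · linarith
    have hge : w ≤ ∫ y, g (B y) ∂((volume.restrict (Ioo (0:ℝ) (1/2))) : Measure ℝ) := by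
      refine hlow ⟨hz'.1.trans hw2.1.le, hw2.2.le⟩ (hBint hgc) (fun y => le_max_left _ _) ?_
      filter_upwards [ae_restrict_mem measurableSet_Ioo] with y hy hyw
      have hBy : p < B y := hw1.trans_le
        (hBanti ⟨hy.1.le, hy.2.le⟩ ⟨hz'.1.trans hw2.1.le, hw2.2.le⟩ hyw.le)
      have : 1 ≤ (B y - q) / (p - q) := by rw [le_div_iff₀ (by linarith)]; linarith
      simp [hg, min_eq_left this]
    rw [h g hgc] at hle
    linarith [hw2.1]
  · exact heq
  · -- `B z < A z`
    exfalso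
    obtain ⟨q, hq1, hq2⟩ := exists_between hgt
    obtain ⟨p, hp1, hp2⟩ := exists_between hq2
    set g := fun x : ℝ => max 0 (min 1 ((x - q) / (p - q))) with hg
    have hgc : Continuous g := by fun_prop
    have hev : ∀ᶠ w in 𝓝[<] z, B w < q :=
      (hB.continuousAt.eventually (gt_mem_nhds hq1)).filter_mono nhdsWithin_le_nhds
    obtain ⟨w, hw1, hw2⟩ := (hev.and (Ioo_mem_nhdsLT hz.1)).exists
    have hge : z ≤ ∫ y, g (A y) ∂((volume.restrict (Ioo (0:ℝ) (1/2))) : Measure ℝ) := by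
      refine hlow hz' (integrable_comp_of_bdd hgc hAm hAb) (fun y => le_max_left _ _) ?_
      filter_upwards [hG] with y hyG hyz
      have hAy : p < A y := hp2.trans_le (hA hyG hzG hyz.le)
      have : 1 ≤ (A y - q) / (p - q) := by rw [le_div_iff₀ (by linarith)]; linarith
      simp [hg, min_eq_left this]
    have hle : ∫ y, g (B y) ∂((volume.restrict (Ioo (0:ℝ) (1/2))) : Measure ℝ) ≤ w := by
      refine hupp ⟨hw2.1.le, hw2.2.le.trans hz'.2⟩ (hBint hgc)
        (fun y => max_le zero_le_one (min_le_left _ _)) ?_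
      filter_upwards [ae_restrict_mem measurableSet_Ioo] with y hy hwy
      have hBy : B y ≤ B w :=
        hBanti ⟨hw2.1.le, hw2.2.le.trans hz'.2⟩ ⟨hy.1.le, hy.2.le⟩ hwy.le
      exact max_le le_rfl
        (min_le_of_right_le (div_nonpos_of_nonpos_of_nonneg (by linarith) (by linarith)))
    rw [h g hgc] at hge
    linarith [hw2.2]

/-- Equal integrals on test functions supported inside `(0,T)`, and equal means, give equal
integrals of every continuous function, for functions with values in `[0,T]`. -/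
lemma integral_comp_eq_of_interior {A B : ℝ → ℝ} {T : ℝ} (hT : 0 < T)
    (hAm : AEStronglyMeasurable A ((volume.restrict (Ioo (0:ℝ) (1/2))) : Measure ℝ)) (hBm : AEStronglyMeasurable B ((volume.restrict (Ioo (0:ℝ) (1/2))) : Measure ℝ))
    (hA : ∀ᵐ z ∂((volume.restrict (Ioo (0:ℝ) (1/2))) : Measure ℝ), A z ∈ Icc (0:ℝ) T) (hB : ∀ᵐ z ∂((volume.restrict (Ioo (0:ℝ) (1/2))) : Measure ℝ), B z ∈ Icc (0:ℝ) T)
    (hmean : ∫ z, A z ∂((volume.restrict (Ioo (0:ℝ) (1/2))) : Measure ℝ) = ∫ z, B z ∂((volume.restrict (Ioo (0:ℝ) (1/2))) : Measure ℝ))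
    (h : ∀ ζ : ℝ → ℝ, Continuous ζ → ∀ p q : ℝ, 0 < p → q < T → (∀ a, a ∉ Icc p q → ζ a = 0) →
      ∫ z, ζ (A z) ∂((volume.restrict (Ioo (0:ℝ) (1/2))) : Measure ℝ) = ∫ z, ζ (B z) ∂((volume.restrict (Ioo (0:ℝ) (1/2))) : Measure ℝ))
    (g : ℝ → ℝ) (hg : Continuous g) : ∫ z, g (A z) ∂((volume.restrict (Ioo (0:ℝ) (1/2))) : Measure ℝ) = ∫ z, g (B z) ∂((volume.restrict (Ioo (0:ℝ) (1/2))) : Measure ℝ) := by
  set k := (g T - g 0) / T with hk
  set cl := fun a : ℝ => max 0 (min T a) with hcl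
  set H := fun a : ℝ => g (cl a) - (g 0 + k * cl a) with hH
  have hclc : Continuous cl := by fun_prop
  have hHc : Continuous H := (hg.comp hclc).sub (continuous_const.add (continuous_const.mul hclc))
  have hH0 : ∀ a, a ≤ 0 → H a = 0 := fun a ha => by
    simp [hH, hcl, max_eq_left ((min_le_right T a).trans ha)]
  have hHT : ∀ a, T ≤ a → H a = 0 := fun a ha => by
    simp only [hH, hcl, min_eq_left ha, max_eq_right hT.le, hk]
    field_simp
    ring
  have hsplit : ∀ F : ℝ → ℝ, AEStronglyMeasurable F ((volume.restrict (Ioo (0:ℝ) (1/2))) : Measure ℝ) → (∀ᵐ z ∂((volume.restrict (Ioo (0:ℝ) (1/2))) : Measure ℝ), F z ∈ Icc (0:ℝ) T) →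
      ∫ z, g (F z) ∂((volume.restrict (Ioo (0:ℝ) (1/2))) : Measure ℝ) = ∫ z, H (F z) ∂((volume.restrict (Ioo (0:ℝ) (1/2))) : Measure ℝ) + g 0 / 2 + k * ∫ z, F z ∂((volume.restrict (Ioo (0:ℝ) (1/2))) : Measure ℝ) := by
    intro F hFm hF
    have hFi : Integrable F ((volume.restrict (Ioo (0:ℝ) (1/2))) : Measure ℝ) := integrable_comp_of_bdd (g := fun x => x) continuous_id hFm hF
    have hHi : Integrable (fun z => H (F z)) ((volume.restrict (Ioo (0:ℝ) (1/2))) : Measure ℝ) := integrable_comp_of_bdd hHc hFm hF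
    have hlin : Integrable (fun z => g 0 + k * F z) ((volume.restrict (Ioo (0:ℝ) (1/2))) : Measure ℝ) :=
      (integrable_const _).add (hFi.const_mul k)
    rw [MeasureTheory.integral_congr_ae (g := fun z => H (F z) + (g 0 + k * F z)) (hF.mono fun z hz => by
      simp only [hH, hcl, min_eq_right hz.2, max_eq_right hz.1]; ring),
      integral_add hHi hlin, integral_add (integrable_const _) (hFi.const_mul k),
      MeasureTheory.integral_const_mul, setIntegral_const, Real.volume_real_Ioo_of_le (by norm_num),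
      smul_eq_mul]
    ring
  rw [hsplit A hAm hA, hsplit B hBm hB, hmean]
  congr 2
  refine eq_of_forall_dist_le fun ε hε => ?_
  -- soft threshold
  set ζ := fun a : ℝ => max (H a - ε) 0 - max (-H a - ε) 0 with hζ
  have hζc : Continuous ζ := by fun_prop
  have hclose : ∀ a, |H a - ζ a| ≤ ε := fun a => by
    simp only [hζ, abs_le]
    rcases le_total (H a - ε) 0 with h1 | h1 <;> rcases le_total (-H a - ε) 0 with h2 | h2 <;>
      simp only [max_eq_left, max_eq_right, h1, h2] <;> constructor <;> linarith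
  obtain ⟨ρ, hρ, hρH⟩ : ∃ ρ > 0, ∀ a, (a < ρ ∨ T - ρ < a) → |H a| ≤ ε := by
    obtain ⟨r1, hr1, h1⟩ := Metric.continuousAt_iff.1 (hHc.continuousAt (x := 0)) ε hε
    obtain ⟨r2, hr2, h2⟩ := Metric.continuousAt_iff.1 (hHc.continuousAt (x := T)) ε hε
    refine ⟨min r1 r2, lt_min hr1 hr2, fun a ha => ?_⟩
    rcases ha with ha | ha
    · rcases le_or_gt a 0 with h0 | h0
      · simp [hH0 a h0, hε.le]
      · have := h1 (x := a) (by
          rw [Real.dist_eq, sub_zero, abs_of_pos h0]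
          exact ha.trans_le (min_le_left _ _))
        rw [Real.dist_eq, hH0 0 le_rfl, sub_zero] at this
        exact this.le
    · rcases le_or_gt T a with hTa | hTa
      · simp [hHT a hTa, hε.le]
      · have := h2 (x := a) (by
          rw [Real.dist_eq, abs_of_neg (by linarith)]
          linarith [min_le_right r1 r2])
        rw [Real.dist_eq, hHT T le_rfl, sub_zero] at this
        exact this.le
  have hζ0 : ∀ a, a ∉ Icc ρ (T - ρ) → ζ a = 0 := fun a ha => by
    have hb := abs_le.1 (hρH a (by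
      by_contra h'
      push Not at h'
      exact ha ⟨h'.1, h'.2⟩))
    simp only [hζ]
    rw [max_eq_right (by linarith), max_eq_right (by linarith), sub_zero]
  have heq := h ζ hζc ρ (T - ρ) hρ (by linarith) hζ0
  have hdiff : ∀ F : ℝ → ℝ, AEStronglyMeasurable F ((volume.restrict (Ioo (0:ℝ) (1/2))) : Measure ℝ) → (∀ᵐ z ∂((volume.restrict (Ioo (0:ℝ) (1/2))) : Measure ℝ), F z ∈ Icc (0:ℝ) T) →
      |∫ z, H (F z) ∂((volume.restrict (Ioo (0:ℝ) (1/2))) : Measure ℝ) - ∫ z, ζ (F z) ∂((volume.restrict (Ioo (0:ℝ) (1/2))) : Measure ℝ)| ≤ ε / 2 := by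
    intro F hFm hF
    rw [← integral_sub (integrable_comp_of_bdd hHc hFm hF) (integrable_comp_of_bdd hζc hFm hF),
      ← Real.norm_eq_abs]
    refine (norm_integral_le_of_norm_le_const (C := ε) (ae_of_all _ fun z => ?_)).trans (le_of_eq ?_)
    · rw [Real.norm_eq_abs]; exact hclose _
    · rw [measureReal_restrict_apply_univ, Real.volume_real_Ioo_of_le (by norm_num)]
      ring
  have eA := abs_le.1 (hdiff A hAm hA)
  have eB := abs_le.1 (hdiff B hBm hB)
  rw [Real.dist_eq, abs_le]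
  constructor <;> linarith

/-- Slice areas of the centred ball of radius `R`. -/
def ballA (R z : ℝ) : ℝ := max 0 (π * (R ^ 2 - z ^ 2))

lemma continuous_ballA (R : ℝ) : Continuous (ballA R) := by
  unfold ballA; fun_prop

lemma antitoneOn_ballA (R : ℝ) : AntitoneOn (ballA R) (Icc 0 (1/2)) := fun a ha b _ hab =>
  max_le_max le_rfl (mul_le_mul_of_nonneg_left
    (by linarith [pow_le_pow_left₀ ha.1 hab 2]) pi_pos.le)

lemma ballA_mem {R : ℝ} (z : ℝ) : ballA R z ∈ Icc (0:ℝ) (π * R ^ 2) :=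
  ⟨le_max_left _ _, max_le (by positivity)
    (mul_le_mul_of_nonneg_left (by linarith [sq_nonneg z]) pi_pos.le)⟩

lemma integral_comp_ballA_split {R : ℝ} (hR : 0 < R) (hR2 : R ≤ 1/2) {ζ : ℝ → ℝ}
    (hζ : Continuous ζ) (h0 : ζ 0 = 0) :
    ∫ z, ζ (ballA R z) ∂((volume.restrict (Ioo (0:ℝ) (1/2))) : Measure ℝ) = ∫ z in (0:ℝ)..R, ζ (π * (R ^ 2 - z ^ 2)) := by
  have hc : Continuous fun z => ζ (ballA R z) := hζ.comp (continuous_ballA R)
  have e1 : ∫ z in R..(1/2), ζ (ballA R z) = 0 := by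
    rw [integral_congr (g := fun _ => (0:ℝ)) (fun z hz => ?_)]
    · simp
    · rw [uIcc_of_le hR2] at hz
      show ζ (ballA R z) = 0
      rw [ballA, max_eq_left (mul_nonpos_of_nonneg_of_nonpos pi_pos.le
        (by nlinarith [hz.1])), h0]
  rw [← integral_Ioc_eq_integral_Ioo, ← intervalIntegral.integral_of_le (by norm_num),
    ← integral_add_adjacent_intervals (hc.intervalIntegrable 0 R) (hc.intervalIntegrable R (1/2)),
    e1, add_zero]
  refine integral_congr fun z hz => ?_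
  rw [uIcc_of_le hR.le] at hz
  show ζ (ballA R z) = _
  rw [ballA, max_eq_right (mul_nonneg pi_pos.le (by nlinarith [hz.1, hz.2]))]

lemma integral_ballA {R : ℝ} (hR : 0 < R) (hR2 : R ≤ 1/2) :
    ∫ z, ballA R z ∂((volume.restrict (Ioo (0:ℝ) (1/2))) : Measure ℝ) = 2 * π * R ^ 3 / 3 := by
  refine (integral_comp_ballA_split hR hR2 continuous_id rfl).trans ?_
  simp only [id]
  rw [intervalIntegral.integral_const_mul, intervalIntegral.integral_sub intervalIntegrable_const
    ((continuous_pow 2).intervalIntegrable _ _), intervalIntegral.integral_const, integral_pow,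
    smul_eq_mul]
  ring

lemma integral_sqrt_one_sub_div {T : ℝ} (hT : 0 < T) :
    ∫ a in (0:ℝ)..T, √(1 - a / T) = 2 * T / 3 := by
  have h := intervalIntegral.integral_comp_mul_deriv (a := (0:ℝ)) (b := 1)
    (f := fun w => T * (1 - w ^ 2)) (f' := fun w => -(2 * T * w)) (g := fun a => √(1 - a / T))
    (fun w _ => (((hasDerivAt_pow 2 w).const_sub 1).const_mul T).congr_deriv (by simp; ring))
    (by fun_prop) (by fun_prop)
  have e : ∀ w ∈ uIcc (0:ℝ) 1,
      ((fun a => √(1 - a / T)) ∘ fun w => T * (1 - w ^ 2)) w * -(2 * T * w) =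
        -(2 * T) * w ^ 2 := fun w hw => by
    rw [uIcc_of_le zero_le_one] at hw
    simp only [Function.comp, mul_div_cancel_left₀ _ hT.ne', sub_sub_cancel, Real.sqrt_sq hw.1]
    ring
  rw [integral_congr e, intervalIntegral.integral_const_mul, integral_pow] at h
  simp only [one_pow, sub_self, mul_zero, zero_pow two_ne_zero, sub_zero, mul_one] at h
  rw [integral_symm 0 T] at h
  norm_num at h
  linarith

/-- Density of the slice areas of the ball. -/
lemma integral_comp_ballA {R : ℝ} (hR : 0 < R) (hR2 : R ≤ 1/2) {ζ : ℝ → ℝ} (hζ : Continuous ζ)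
    {p q : ℝ} (hp : 0 < p) (hq : q < π * R ^ 2) (hsupp : ∀ a, a ∉ Icc p q → ζ a = 0) :
    ∫ z, ζ (ballA R z) ∂((volume.restrict (Ioo (0:ℝ) (1/2))) : Measure ℝ) =
      ∫ a in (0:ℝ)..(π * R ^ 2), ζ a / (2 * √π * √(max (π * R ^ 2 - a) (π * R ^ 2 - q))) := by
  set T := π * R ^ 2 with hT
  set g := fun a => ζ a / (2 * √π * √(max (T - a) (T - q))) with hg
  have hden : ∀ a, 0 < 2 * √π * √(max (T - a) (T - q)) := fun a =>
    mul_pos (by positivity) (Real.sqrt_pos.2 (lt_max_of_lt_right (by linarith)))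
  have hgc : Continuous g := hζ.div (by fun_prop) fun a => (hden a).ne'
  have h := intervalIntegral.integral_comp_mul_deriv (a := (0:ℝ)) (b := R)
    (f := fun z => π * (R ^ 2 - z ^ 2)) (f' := fun z => -(2 * π * z)) (g := g)
    (fun z _ => (((hasDerivAt_pow 2 z).const_sub (R ^ 2)).const_mul π).congr_deriv (by simp; ring))
    (by fun_prop) hgc
  have e : ∀ z ∈ uIcc (0:ℝ) R, (g ∘ fun z => π * (R ^ 2 - z ^ 2)) z * -(2 * π * z) =
      -ζ (π * (R ^ 2 - z ^ 2)) := fun z hz => by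
    rw [uIcc_of_le hR.le] at hz
    simp only [Function.comp, hg]
    by_cases hmem : π * (R ^ 2 - z ^ 2) ∈ Icc p q
    · have hTa : T - π * (R ^ 2 - z ^ 2) = π * z ^ 2 := by rw [hT]; ring
      have hz0 : z ≠ 0 := by
        rintro rfl
        simp only [ne_eq, OfNat.ofNat_ne_zero, not_false_eq_true, zero_pow, sub_zero] at hmem
        linarith [hmem.2]
      rw [max_eq_left (by linarith [hmem.2]), hTa, Real.sqrt_mul pi_pos.le, Real.sqrt_sq hz.1]
      have hpi := Real.mul_self_sqrt pi_pos.le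
      field_simp
      linear_combination (ζ (π * (R ^ 2 - z ^ 2))) * hpi
    · simp [hsupp _ hmem]
  rw [integral_congr e, intervalIntegral.integral_neg] at h
  simp only [sub_self, mul_zero, zero_pow two_ne_zero, sub_zero] at h
  rw [← hT, integral_symm 0 T, neg_inj] at h
  rw [integral_comp_ballA_split hR hR2 hζ (hsupp 0 fun h' => by linarith [h'.1]), h]

/-- Second order expansion of the vertical density from below. -/
lemma sqrt_perturb {c s σ d : ℝ} (hc : c ∈ Icc (0:ℝ) 1) (hσ : 0 < σ) (hσs : σ ≤ s)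
    (hs2 : s ^ 2 = 1 - c ^ 2) (hd1 : |d| ≤ c) (hd2 : |d| ≤ σ ^ 2 / 3) :
    c + d ∈ Icc (0:ℝ) 1 ∧ s - c * d / s - 2 * d ^ 2 / σ ^ 3 ≤ √(1 - (c + d) ^ 2) := by
  have hs0 : 0 < s := hσ.trans_le hσs
  have hd3 : |d| ≤ s ^ 2 / 3 := by linarith [pow_le_pow_left₀ hσ.le hσs 2]
  have hd4 : |d| ≤ 1 := hd1.trans hc.2
  obtain ⟨hd1l, hd1u⟩ := abs_le.1 hd1
  have hcd : c * d ≤ s ^ 2 / 3 := by
    refine (le_abs_self _).trans ?_
    rw [abs_mul, abs_of_nonneg hc.1]
    exact (mul_le_of_le_one_left (abs_nonneg d) hc.2).trans hd3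
  have hdd : d ^ 2 ≤ s ^ 2 / 3 := by
    rw [← sq_abs, sq]
    exact (mul_le_of_le_one_left (abs_nonneg d) hd4).trans hd3
  have hnn : 0 ≤ c + d := by linarith
  have hle : (c + d) ^ 2 ≤ 1 := by rw [add_sq]; linarith
  refine ⟨⟨hnn, (sq_le_one_iff₀ hnn).1 hle⟩, ?_⟩
  set r := √(1 - (c + d) ^ 2) with hr
  have hr0 : 0 ≤ r := Real.sqrt_nonneg _
  have hr2 : r ^ 2 = 1 - (c + d) ^ 2 := Real.sq_sqrt (by linarith)
  set P := s - c * d / s with hP
  have hPs : s / 2 ≤ P := by
    have : c * d / s ≤ s / 2 := by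
      rw [div_le_iff₀ hs0]
      linarith [show s / 2 * s = s ^ 2 / 2 by ring, sq_nonneg s]
    rw [hP]; linarith
  have hPr : P ^ 2 - r ^ 2 = d ^ 2 / s ^ 2 := by
    rw [hr2, hP]
    field_simp
    linear_combination (s ^ 2 + d ^ 2) * hs2
  have hcube : σ ^ 3 ≤ s ^ 3 := pow_le_pow_left₀ hσ.le hσs 3
  have hgap : P - r ≤ 2 * d ^ 2 / s ^ 3 := by
    rcases le_total P r with hle | hle
    · have : 0 ≤ 2 * d ^ 2 / s ^ 3 := by positivity
      linarith
    · have h1 : (P - r) * (s / 2) ≤ (P - r) * (P + r) :=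
        mul_le_mul_of_nonneg_left (by linarith) (by linarith)
      have h2 : (P - r) * (P + r) = P ^ 2 - r ^ 2 := by ring
      rw [h2, hPr, le_div_iff₀ (pow_pos hs0 2)] at h1
      rw [le_div_iff₀ (pow_pos hs0 3)]
      linarith [show (P - r) * (s / 2) * s ^ 2 = (P - r) * s ^ 3 / 2 by ring]
  have : 2 * d ^ 2 / s ^ 3 ≤ 2 * d ^ 2 / σ ^ 3 :=
    div_le_div_of_nonneg_left (by positivity) (pow_pos hσ 3) hcube
  linarith

/-- The slope weight of the ball of equatorial area `T`. -/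
def ballC (T a : ℝ) : ℝ := min 1 √(a / T)

lemma ballC_mem (T a : ℝ) : ballC T a ∈ Icc (0:ℝ) 1 :=
  ⟨le_min zero_le_one (Real.sqrt_nonneg _), min_le_left _ _⟩

lemma continuous_ballC (T : ℝ) : Continuous (ballC T) := by
  unfold ballC; fun_prop

lemma ballC_eq {T a : ℝ} (hT : 0 < T) (ha : a ≤ T) : ballC T a = √(a / T) :=
  min_eq_right (Real.sqrt_le_one.2 ((div_le_one hT).2 ha))

lemma integral_sqrt_one_sub_ballC {T : ℝ} (hT : 0 < T) :
    ∫ a in (0:ℝ)..T, √(1 - ballC T a ^ 2) = 2 * T / 3 := by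
  rw [← integral_sqrt_one_sub_div hT]
  refine integral_congr fun a ha => ?_
  rw [uIcc_of_le hT.le] at ha
  show √(1 - ballC T a ^ 2) = √(1 - a / T)
  rw [ballC_eq hT ha.2, Real.sq_sqrt (div_nonneg ha.1 hT.le)]

/-- Curved part of a perturbed slope. -/
lemma integral_curved {A : ℝ → ℝ} {T : ℝ} (hT : 0 < T) (hAm : AEStronglyMeasurable A ((volume.restrict (Ioo (0:ℝ) (1/2))) : Measure ℝ))
    (hA : ∀ᵐ z ∂((volume.restrict (Ioo (0:ℝ) (1/2))) : Measure ℝ), A z ∈ Icc (0:ℝ) T) {η ζ : ℝ → ℝ} (hζ : Continuous ζ)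
    (hηζ : ∀ a, η a * discP a = ζ a) (ε : ℝ) :
    ∫ z, (ballC T (A z) + ε * η (A z)) * discP (A z) ∂((volume.restrict (Ioo (0:ℝ) (1/2))) : Measure ℝ) =
      2 * √π / √T * ∫ z, A z ∂((volume.restrict (Ioo (0:ℝ) (1/2))) : Measure ℝ) + ε * ∫ z, ζ (A z) ∂((volume.restrict (Ioo (0:ℝ) (1/2))) : Measure ℝ) := by
  rw [MeasureTheory.integral_congr_ae (g := fun z => 2 * √π / √T * A z + ε * ζ (A z)) (hA.mono fun z hz => ?_),
    integral_add ((integrable_comp_of_bdd (g := fun x => x) continuous_id hAm hA).const_mul _)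
      ((integrable_comp_of_bdd hζ hAm hA).const_mul _),
    MeasureTheory.integral_const_mul, MeasureTheory.integral_const_mul]
  show (ballC T (A z) + ε * η (A z)) * discP (A z) = 2 * √π / √T * A z + ε * ζ (A z)
  rw [add_mul, mul_assoc ε, hηζ, ballC_eq hT hz.2, discP, Real.sqrt_mul pi_pos.le,
    Real.sqrt_div' _ hT.le]
  have : 0 < √T := Real.sqrt_pos.2 hT
  have h := Real.mul_self_sqrt hz.1
  field_simp
  linear_combination (2 * √π) * h

/-- A linear function with a quadratic upper bound near zero vanishes. -/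
lemma eq_zero_of_quadratic {D C r : ℝ} (hr : 0 < r) (hC : 0 ≤ C)
    (h : ∀ ε : ℝ, |ε| ≤ r → ε * D ≤ C * ε ^ 2) : D = 0 := by
  by_contra hD
  have hpos : 0 < |D| := abs_pos.2 hD
  set u := min r (|D| / (2 * (C + 1))) with hu
  have hu0 : 0 < u := lt_min hr (by positivity)
  have hu2 : u * (2 * (C + 1)) ≤ |D| := by
    rw [← le_div_iff₀ (by linarith)]; exact min_le_right _ _
  rcases lt_or_gt_of_ne hD with hlt | hgt
  · have := h (-u) (by rw [abs_neg, abs_of_pos hu0]; exact min_le_left _ _)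
    rw [abs_of_neg hlt] at hu2
    nlinarith
  · have := h u (by rw [abs_of_pos hu0]; exact min_le_left _ _)
    rw [abs_of_pos hgt] at hu2
    nlinarith

/-- On the support, the first variation of the flat part is the density. -/
lemma ballC_variation {T a p q ε z : ℝ} (hp : 0 < p) (hq : q < T) (ha : a ∈ Icc p q) :
    ballC T a * (ε * (z / (2 * √(π * max a p)))) / √(1 - ballC T a ^ 2) =
      ε * (z / (2 * √π * √(max (T - a) (T - q)))) := by
  have ha0 : 0 < a := hp.trans_le ha.1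
  have hT : 0 < T := ha0.trans_le (ha.2.trans hq.le)
  rw [ballC_eq hT (ha.2.trans hq.le), Real.sq_sqrt (div_nonneg ha0.le hT.le), max_eq_left ha.1,
    max_eq_left (by linarith [ha.2]), Real.sqrt_mul pi_pos.le,
    show 1 - a / T = (T - a) / T by field_simp, Real.sqrt_div' _ hT.le, Real.sqrt_div' _ hT.le]
  have : 0 < √(T - a) := Real.sqrt_pos.2 (by linarith [ha.2])
  have : 0 < √a := Real.sqrt_pos.2 ha0
  have : 0 < √T := Real.sqrt_pos.2 hT
  have : 0 < √π := Real.sqrt_pos.2 pi_pos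
  field_simp

/-- First variation at the slope of the ball. -/
lemma density_of_extremal {A : ℝ → ℝ} {T : ℝ} (hT : 0 < T) (hAm : AEStronglyMeasurable A ((volume.restrict (Ioo (0:ℝ) (1/2))) : Measure ℝ))
    (hA : ∀ᵐ z ∂((volume.restrict (Ioo (0:ℝ) (1/2))) : Measure ℝ), A z ∈ Icc (0:ℝ) T) {J : ℝ}
    (hJ : J = 4 * √π / √T * ∫ z, A z ∂((volume.restrict (Ioo (0:ℝ) (1/2))) : Measure ℝ) + 4 * T / 3)
    (hmax : ∀ c : ℝ → ℝ, Continuous c → (∀ a, c a ∈ Icc (0:ℝ) 1) →
      2 * ∫ z, c (A z) * discP (A z) ∂((volume.restrict (Ioo (0:ℝ) (1/2))) : Measure ℝ) + 2 * ∫ a in (0:ℝ)..T, √(1 - c a ^ 2) ≤ J)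
    {ζ : ℝ → ℝ} (hζ : Continuous ζ) {p q : ℝ} (hp : 0 < p) (hq : q < T)
    (hsupp : ∀ a, a ∉ Icc p q → ζ a = 0) :
    ∫ z, ζ (A z) ∂((volume.restrict (Ioo (0:ℝ) (1/2))) : Measure ℝ) =
      ∫ a in (0:ℝ)..T, ζ a / (2 * √π * √(max (T - a) (T - q))) := by
  rcases lt_or_ge q p with hqp | hpq
  · simp [show ∀ a, ζ a = 0 from fun a => hsupp a (by simp [Icc_eq_empty (not_le.2 hqp)])]
  set η := fun a : ℝ => ζ a / (2 * √(π * max a p)) with hη
  set g := fun a => ζ a / (2 * √π * √(max (T - a) (T - q))) with hg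
  have hηc : Continuous η := hζ.div (by fun_prop) fun a =>
    (mul_pos two_pos (Real.sqrt_pos.2 (mul_pos pi_pos (lt_max_of_lt_right hp)))).ne'
  have hgc : Continuous g := hζ.div (by fun_prop) fun a =>
    (mul_pos (by positivity) (Real.sqrt_pos.2 (lt_max_of_lt_right (by linarith)))).ne'
  have hη0 : ∀ a, a ∉ Icc p q → η a = 0 := fun a ha => by simp [hη, hsupp a ha]
  have hηζ : ∀ a, η a * discP a = ζ a := fun a => by
    by_cases ha : a ∈ Icc p q
    · simp only [hη, discP]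
      rw [max_eq_left ha.1]
      exact div_mul_cancel₀ _ (mul_pos two_pos
        (Real.sqrt_pos.2 (mul_pos pi_pos (hp.trans_le ha.1)))).ne'
    · simp [hη0 a ha, hsupp a ha]
  obtain ⟨K, hK⟩ := isCompact_Icc.exists_bound_of_continuousOn (hηc.continuousOn (s := Icc p q))
  have hK0 : 0 ≤ K := (norm_nonneg _).trans (hK p ⟨le_rfl, hpq⟩)
  have hKη : ∀ a, |η a| ≤ K := fun a => by
    by_cases ha : a ∈ Icc p q
    · exact hK a ha
    · simp [hη0 a ha, hK0]
  set σ := √(1 - q / T) with hσ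
  have hqT : q / T < 1 := (div_lt_one hT).2 hq
  have hσ0 : 0 < σ := Real.sqrt_pos.2 (by linarith)
  set m := min √(p / T) (σ ^ 2 / 3) with hm
  have hm0 : 0 < m := lt_min (Real.sqrt_pos.2 (div_pos hp hT)) (by positivity)
  set C := 2 * K ^ 2 / σ ^ 3 with hC
  refine sub_eq_zero.1 (eq_zero_of_quadratic (C := C * T) (r := m / (K + 1))
    (div_pos hm0 (by linarith)) (by positivity) fun ε hε => ?_)
  rw [le_div_iff₀ (by linarith)] at hε
  have hd : ∀ a, |ε * η a| ≤ m := fun a => by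
    rw [abs_mul]
    exact (mul_le_mul_of_nonneg_left ((hKη a).trans (by linarith)) (abs_nonneg ε)).trans hε
  set c := fun a => ballC T a + ε * η a with hc
  have hcc : Continuous c := (continuous_ballC T).add (continuous_const.mul hηc)
  have hpert : ∀ a, c a ∈ Icc (0:ℝ) 1 ∧
      √(1 - ballC T a ^ 2) - ε * g a - C * ε ^ 2 ≤ √(1 - c a ^ 2) := by
    intro a
    by_cases ha : a ∈ Icc p q
    · have ha0 : 0 ≤ a / T := div_nonneg (hp.le.trans ha.1) hT.le
      have e := ballC_eq hT (ha.2.trans hq.le)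
      have hpc : √(p / T) ≤ ballC T a :=
        e ▸ Real.sqrt_le_sqrt (div_le_div_of_nonneg_right ha.1 hT.le)
      have hσs : σ ≤ √(1 - ballC T a ^ 2) := by
        rw [e, Real.sq_sqrt ha0]
        exact Real.sqrt_le_sqrt (by linarith [div_le_div_of_nonneg_right ha.2 hT.le])
      obtain ⟨h1, h2⟩ := sqrt_perturb (ballC_mem T a) hσ0 hσs
        (Real.sq_sqrt (by linarith [(sq_le_one_iff₀ (ballC_mem T a).1).2 (ballC_mem T a).2]))
        ((hd a).trans ((min_le_left _ _).trans hpc)) ((hd a).trans (min_le_right _ _))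
      refine ⟨h1, ?_⟩
      have h3 : 2 * (ε * η a) ^ 2 / σ ^ 3 ≤ C * ε ^ 2 := by
        rw [hC, mul_pow, div_mul_eq_mul_div]
        refine div_le_div_of_nonneg_right ?_ (by positivity)
        have : η a ^ 2 ≤ K ^ 2 := sq_abs (η a) ▸ pow_le_pow_left₀ (abs_nonneg _) (hKη a) 2
        nlinarith [sq_nonneg ε]
      have h4 : ballC T a * (ε * η a) / √(1 - ballC T a ^ 2) = ε * g a :=
        ballC_variation hp hq ha
      rw [h4] at h2
      simp only [hc]
      linarith
    · have e : c a = ballC T a := by simp [hc, hη0 a ha]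
      refine ⟨e ▸ ballC_mem T a, ?_⟩
      rw [e, show g a = 0 by simp [hg, hsupp a ha]]
      have : 0 ≤ C * ε ^ 2 := by positivity
      linarith
  have hineq := hmax c hcc fun a => (hpert a).1
  have hsc : Continuous fun a => √(1 - ballC T a ^ 2) :=
    (continuous_const.sub ((continuous_ballC T).pow 2)).sqrt
  have hlow : Continuous fun a => √(1 - ballC T a ^ 2) - ε * g a - C * ε ^ 2 :=
    (hsc.sub (continuous_const.mul hgc)).sub continuous_const
  have e3 := intervalIntegral.integral_mono_on (μ := volume) hT.le (hlow.intervalIntegrable _ _)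
    (Continuous.intervalIntegrable (u := fun a => √(1 - c a ^ 2))
      ((continuous_const.sub (hcc.pow 2)).sqrt) _ _) fun a _ => (hpert a).2
  rw [intervalIntegral.integral_sub ((hsc.intervalIntegrable _ _).sub
      ((hgc.intervalIntegrable _ _).const_mul ε)) intervalIntegrable_const,
    intervalIntegral.integral_sub (hsc.intervalIntegrable _ _)
      ((hgc.intervalIntegrable _ _).const_mul ε),
    intervalIntegral.integral_const_mul, intervalIntegral.integral_const, sub_zero, smul_eq_mul,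
    integral_sqrt_one_sub_ballC hT] at e3
  rw [hc, integral_curved hT hAm hA hζ hηζ ε, hJ] at hineq
  simp only [hc] at e3
  have hdiv : 4 * √π / √T = 2 * (2 * √π / √T) := by ring
  rw [hdiv] at hineq
  linarith

lemma candJ_nonneg_rigid {v : ℝ} (hv : 0 ≤ v) : 0 ≤ candJ v :=
  le_min (le_min (by unfold ballP; positivity) (by unfold tubeP; positivity)) zero_le_two

/-- The limit of an inequality `F uₙ ≤ M + ε`. -/
lemma limit_le_of_eventually {u : ℕ → ℝ} {l M : ℝ} (h : Tendsto u atTop (𝓝 l))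
    (hM : ∀ ε > (0:ℝ), ∀ᶠ n in atTop, u n ≤ M + ε) : l ≤ M :=
  le_of_forall_pos_le_add fun ε hε => le_of_tendsto h (hM ε hε)

/-- The disc certificate at one level. -/
lemma discG_le_of_discLevel {f : V3 → ℝ} {hf : CoreFun f} {t M : ℝ} (hd : DiscLevel hf t)
    (hM : 0 ≤ M) (hQ : Qz f t ≤ ENNReal.ofReal M) (hpos : 0 < tvol {p | t < f p})
    (hr : tvol {p | t < f p} ∈ Icc (sliceA f t (1/2)) (sliceA f t 0)) :
    discG (sliceA f t (1/2)) (sliceA f t 0) (tvol {p | t < f p}) ≤ M := by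
  obtain ⟨lam, mu, c, hcm, hc, hlam, hval⟩ :=
    discG_cert (CoreFun.sliceA_nonneg t _) hr.1 hr.2 (hpos.trans_le hr.2)
  have hdiscm : Measurable discP := by unfold discP; fun_prop
  have hb := (hf.cert_bound t (m := 0) (h := 0) (lam := lam) (mu := mu) ⟨le_rfl, by norm_num⟩
    hcm hc (hdiscm.comp (hf.continuous_sliceA t).measurable) hd.flux
    ((ae_restrict_mem measurableSet_Ioo).mono fun z hz => by
      simp only [add_zero, ite_self]
      exact hlam _ ⟨hf.antitone_sliceA _ ⟨hz.1.le, hz.2.le⟩ ⟨by norm_num, le_rfl⟩ hz.2.le,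
        hf.antitone_sliceA _ ⟨le_rfl, by norm_num⟩ ⟨hz.1.le, hz.2.le⟩ hz.1.le⟩)).trans hQ
  rw [ENNReal.ofReal_le_ofReal_iff hM] at hb
  simp only [mul_zero, add_zero] at hb
  exact hval.trans hb

/-- An extremal antitone profile is the profile of the ball. -/
lemma ballA_of_extremal {A : ℝ → ℝ} {G : Set ℝ} {R J : ℝ} (hR : 0 < R) (hR2 : R ≤ 1/2)
    (hG : ∀ᵐ z ∂((volume.restrict (Ioo (0:ℝ) (1/2))) : Measure ℝ), z ∈ G) (hanti : AntitoneOn A G) (hAm : AEStronglyMeasurable A ((volume.restrict (Ioo (0:ℝ) (1/2))) : Measure ℝ))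
    (hA : ∀ᵐ z ∂((volume.restrict (Ioo (0:ℝ) (1/2))) : Measure ℝ), A z ∈ Icc (0:ℝ) (π * R ^ 2))
    (hmean : ∫ z, A z ∂((volume.restrict (Ioo (0:ℝ) (1/2))) : Measure ℝ) = 2 * π * R ^ 3 / 3) (hJ : J = 4 * π * R ^ 2)
    (hmax : ∀ c : ℝ → ℝ, Continuous c → (∀ a, c a ∈ Icc (0:ℝ) 1) →
      2 * ∫ z, c (A z) * discP (A z) ∂((volume.restrict (Ioo (0:ℝ) (1/2))) : Measure ℝ) +
        2 * ∫ a in (0:ℝ)..(π * R ^ 2), √(1 - c a ^ 2) ≤ J) :
    ∀ᵐ z ∂((volume.restrict (Ioo (0:ℝ) (1/2))) : Measure ℝ), A z = ballA R z := by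
  have hT : 0 < π * R ^ 2 := by positivity
  have hJeq : J = 4 * √π / √(π * R ^ 2) * ∫ z, A z ∂((volume.restrict (Ioo (0:ℝ) (1/2))) : Measure ℝ) + 4 * (π * R ^ 2) / 3 := by
    rw [hJ, hmean, Real.sqrt_mul pi_pos.le, Real.sqrt_sq hR.le]
    have : 0 < √π := Real.sqrt_pos.2 pi_pos
    field_simp
    ring
  refine ae_eq_of_integral_comp hG hanti hAm hA (continuous_ballA R) (antitoneOn_ballA R)
    (integral_comp_eq_of_interior hT hAm (continuous_ballA R).aestronglyMeasurable hA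
      (ae_of_all _ fun z => ballA_mem z) (by rw [hmean, integral_ballA hR hR2])
      fun ζ hζ p q hp hq hsupp => ?_)
  rw [density_of_extremal hT hAm hA hJeq hmax hζ hp hq hsupp,
    integral_comp_ballA hR hR2 hζ hp hq hsupp]

/-- Q1: the slice areas of a minimiser reached through disc levels. -/
theorem profile_of_disc {E : Set V3} (hE : MeasurableSet E) (_hs : SymMono E)
    (hv : tvol E ∈ Ioc (0:ℝ) (1/π)) (S : LevelSeq E)
    (hd : ∀ n, DiscLevel (S.core n) (S.t n)) (hconv : SliceConv S) :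
    TubeProfile E ∨ BallProfile E := by
  set v := tvol E with hvd
  set A0 := secA E with hA0
  set A := fun n => sliceA (S.f n) (S.t n) with hA
  -- a subsequence along which both ends of the range converge
  obtain ⟨⟨Es, Ts⟩, -, φ, hφ, hlim⟩ := (isCompact_Icc.prod isCompact_Icc).tendsto_subseq
    (x := fun n => (A n (1/2), A n 0))
    (fun n => ⟨sliceA_mem_Icc (S.core n) _ _, sliceA_mem_Icc (S.core n) _ _⟩)
  rw [Prod.tendsto_iff] at hlim
  obtain ⟨hEs, hTs⟩ := hlim
  simp only [Function.comp] at hEs hTs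
  have hconv' : ∀ᵐ z ∂((volume.restrict (Ioo (0:ℝ) (1/2))) : Measure ℝ), Tendsto (fun n => A (φ n) z) atTop (𝓝 (A0 z)) :=
    hconv.mono fun z hz => hz.1.comp hφ.tendsto_atTop
  have hrange : ∀ n, ∀ z ∈ Icc (0:ℝ) (1/2), A n z ∈ Icc (A n (1/2)) (A n 0) := fun n z hz =>
    ⟨(S.core n).antitone_sliceA _ hz ⟨by norm_num, le_rfl⟩ hz.2,
      (S.core n).antitone_sliceA _ ⟨le_rfl, by norm_num⟩ hz hz.1⟩
  have hAc : ∀ n, Continuous (A n) := fun n => (S.core n).continuous_sliceA _
  have hA0m : AEStronglyMeasurable A0 ((volume.restrict (Ioo (0:ℝ) (1/2))) : Measure ℝ) :=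
    aestronglyMeasurable_of_tendsto_ae atTop (fun n => (hAc (φ n)).aestronglyMeasurable) hconv'
  have hA0r : ∀ᵐ z ∂((volume.restrict (Ioo (0:ℝ) (1/2))) : Measure ℝ), A0 z ∈ Icc Es Ts := by
    filter_upwards [hconv', ae_restrict_mem measurableSet_Ioo] with z hz hzm
    exact ⟨le_of_tendsto_of_tendsto' hEs hz fun n => (hrange (φ n) z (Ioo_subset_Icc_self hzm)).1,
      le_of_tendsto_of_tendsto' hz hTs fun n => (hrange (φ n) z (Ioo_subset_Icc_self hzm)).2⟩
  have hlimint : ∀ g : ℝ → ℝ, Continuous g →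
      Tendsto (fun n => ∫ z, g (A (φ n) z) ∂((volume.restrict (Ioo (0:ℝ) (1/2))) : Measure ℝ)) atTop (𝓝 (∫ z, g (A0 z) ∂((volume.restrict (Ioo (0:ℝ) (1/2))) : Measure ℝ))) := by
    intro g hg
    obtain ⟨C, hC⟩ := isCompact_Icc.exists_bound_of_continuousOn
      (hg.continuousOn (s := Icc (0:ℝ) 1))
    exact MeasureTheory.tendsto_integral_of_dominated_convergence (fun _ => C)
      (fun n => (hg.comp (hAc (φ n))).aestronglyMeasurable) (integrable_const C)
      (fun n => ae_of_all _ fun z => hC _ (sliceA_mem_Icc (S.core _) _ z))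
      (hconv'.mono fun z hz => (hg.tendsto _).comp hz)
  have hvol : ∀ n, tvol {p | S.t n < S.f n p} = 2 * ∫ z, A n z ∂((volume.restrict (Ioo (0:ℝ) (1/2))) : Measure ℝ) := fun n => by
    rw [(S.core n).tvol_level, intervalIntegral.integral_of_le (by norm_num),
      integral_Ioc_eq_integral_Ioo]
  have hv_lim : Tendsto (fun n => tvol {p | S.t (φ n) < S.f (φ n) p}) atTop (𝓝 v) :=
    (S.tendsto_tvol hE).comp hφ.tendsto_atTop
  have hvA0 : v = 2 * ∫ z, A0 z ∂((volume.restrict (Ioo (0:ℝ) (1/2))) : Measure ℝ) := by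
    refine tendsto_nhds_unique hv_lim ?_
    simp only [hvol]
    exact (hlimint id continuous_id).const_mul 2
  -- the range of the level volumes
  have hvr : ∀ n, tvol {p | S.t n < S.f n p} ∈ Icc (A n (1/2)) (A n 0) := by
    intro n
    have hi : Integrable (A n) ((volume.restrict (Ioo (0:ℝ) (1/2))) : Measure ℝ) :=
      (hAc n).continuousOn.integrableOn_Icc.mono_set Ioo_subset_Icc_self
    have h1 := integral_mono_ae (integrable_const (A n (1/2))) hi
      ((ae_restrict_mem measurableSet_Ioo).mono fun z hz => (hrange n z (Ioo_subset_Icc_self hz)).1)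
    have h2 := integral_mono_ae hi (integrable_const (A n 0))
      ((ae_restrict_mem measurableSet_Ioo).mono fun z hz => (hrange n z (Ioo_subset_Icc_self hz)).2)
    rw [setIntegral_const, Real.volume_real_Ioo_of_le (by norm_num), smul_eq_mul] at h1 h2
    rw [hvol n]
    constructor <;> linarith
  have hEs0 : 0 ≤ Es := ge_of_tendsto' hEs fun n => (sliceA_mem_Icc (S.core _) _ _).1
  have hEsv : Es ≤ v := le_of_tendsto_of_tendsto' hEs hv_lim fun n => (hvr (φ n)).1
  have hvTs : v ≤ Ts := le_of_tendsto_of_tendsto' hv_lim hTs fun n => (hvr (φ n)).2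
  have hTs0 : 0 < Ts := hv.1.trans_le hvTs
  have hcand : 0 ≤ candJ v := candJ_nonneg_rigid hv.1.le
  have hexc : ∀ ε > (0:ℝ),
      ∀ᶠ n in atTop, Qz (S.f (φ n)) (S.t (φ n)) ≤ ENNReal.ofReal (candJ v + ε) :=
    fun ε hε => hφ.tendsto_atTop.eventually (S.excess ε hε)
  -- the scalar certificate survives the limit
  have hG : discG Es Ts v ≤ candJ v := by
    have hlimG := Tendsto.comp (g := fun p : ℝ × ℝ × ℝ => discG p.1 p.2.1 p.2.2)
      (f := fun n => (A (φ n) (1/2), A (φ n) 0, tvol {p | S.t (φ n) < S.f (φ n) p}))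
      (continuousAt_discG (v := v) hEs0 hTs0).tendsto
      (hEs.prodMk_nhds (hTs.prodMk_nhds hv_lim))
    refine limit_le_of_eventually hlimG fun ε hε => (hexc ε hε).mono fun n hn => ?_
    exact discG_le_of_discLevel (hd (φ n)) (by linarith) hn (S.vol (φ n)).1 (hvr (φ n))
  rcases discG_eq_candJ hEs0 hEsv hvTs hTs0 hv.1 hG with ⟨hE1, hT1, hJ⟩ | ⟨hE1, hT1, hJ⟩
  · refine Or.inl ⟨hJ, hA0r.mono fun z hz => ?_⟩
    exact le_antisymm (hz.2.trans hT1.le) (hE1.symm.le.trans hz.1)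
  refine Or.inr ⟨hJ, ?_⟩
  have hR0 := Rball_pos hv.1
  have hR3 := Rball_cube hv.1.le
  have hRP := ballP_eq_Rball hv.1.le
  set R := Rball v with hR
  have hTR : Ts = π * R ^ 2 := hT1
  have hR2 : R ≤ 1/2 := by
    have hT0 : Ts ≤ T0 := le_of_tendsto' hTs fun n => (hd (φ n)).le_T0
    rw [hTR, T0, T0Y, le_div_iff₀ (by positivity)] at hT0
    nlinarith [pi_gt_three, mul_le_mul pi_gt_three.le pi_gt_three.le (by norm_num) pi_pos.le]
  have hA0' : ∀ᵐ z ∂((volume.restrict (Ioo (0:ℝ) (1/2))) : Measure ℝ), A0 z ∈ Icc (0:ℝ) Ts :=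
    hA0r.mono fun z hz => ⟨hEs0.trans hz.1, hz.2⟩
  have hmeanA : ∫ z, A0 z ∂((volume.restrict (Ioo (0:ℝ) (1/2))) : Measure ℝ) = 2 * π * R ^ 3 / 3 := by linarith
  set G := {z | z ∈ Ioo (0:ℝ) (1/2) ∧ Tendsto (fun n => A (φ n) z) atTop (𝓝 (A0 z))} with hGdef
  have hanti : AntitoneOn A0 G := fun a ha b hb hab =>
    le_of_tendsto_of_tendsto' hb.2 ha.2 fun n =>
      (S.core (φ n)).antitone_sliceA _ (Ioo_subset_Icc_self ha.1) (Ioo_subset_Icc_self hb.1) hab
  refine ballA_of_extremal (G := G) (J := candJ v) hR0 hR2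
    (by filter_upwards [hconv', ae_restrict_mem measurableSet_Ioo] with z h1 h2 using ⟨h2, h1⟩)
    hanti hA0m (hTR ▸ hA0') hmeanA (hJ.trans hRP) (fun c hcc hc => ?_)
  -- the bound for every continuous slope
  rw [← hTR]
  have hdc : Continuous discP := by unfold discP; fun_prop
  have hsc : Continuous fun a => √(1 - c a ^ 2) := by fun_prop
  have hprim : Continuous fun x => ∫ a in (0:ℝ)..x, √(1 - c a ^ 2) :=
    continuous_primitive (fun a b => hsc.intervalIntegrable a b) 0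
  have hflat : Tendsto (fun n => ∫ a in (A (φ n) (1/2))..(A (φ n) 0), √(1 - c a ^ 2)) atTop
      (𝓝 (∫ a in (0:ℝ)..Ts, √(1 - c a ^ 2))) := by
    have h := ((hprim.tendsto Ts).comp hTs).sub ((hprim.tendsto Es).comp hEs)
    rw [hE1] at h
    simp only [intervalIntegral.integral_same, sub_zero, Function.comp] at h
    exact h.congr fun n =>
      integral_interval_sub_left (hsc.intervalIntegrable _ _) (hsc.intervalIntegrable _ _)
  refine limit_le_of_eventually
    (((hlimint (fun a => c a * discP a) (hcc.mul hdc)).const_mul 2).add (hflat.const_mul 2))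
    fun ε hε => (hexc ε hε).mono fun n hn => ?_
  exact (S.core (φ n)).flux_bound_real (S.t (φ n)) hcc.measurable hc
    ((hdc.comp (hAc (φ n))).continuousOn.integrableOn_Icc.mono_set Ioo_subset_Icc_self)
    (hd (φ n)).flux (by linarith) hn

end

end Vale.P232
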