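import Vale.Agent.P232.RigidDefs
import Vale.Agent.P232.Smooth

/-!
P232: a symmetric monotone set is determined by its heights over the quarter squares.
-/

open MeasureTheory Set Filter Topology
open scoped ENNReal

namespace Vale.P232

noncomputable section

variable {E F : Set V3}

theorem abs_pt_le {x y z : ℝ} (hx : x ∈ Icc (0:ℝ) (1/2)) (hy : y ∈ Icc (0:ℝ) (1/2))
    (hz : z ∈ Icc (0:ℝ) (1/2)) (i : Fin 3) : |pt x y z i| ≤ 1 / 2 := by
  fin_cases i <;> simp [pt, abs_of_nonneg, hx.1, hy.1, hz.1]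
  · simpa [one_div] using hx.2
  · simpa [one_div] using hy.2
  · simpa [one_div] using hz.2

/-- On the octant a symmetric monotone set is a down set. -/
theorem SymMono.pt_mem (hs : SymMono E) {x y z x' y' z' : ℝ}
    (hx : x ∈ Icc (0:ℝ) (1/2)) (hy : y ∈ Icc (0:ℝ) (1/2)) (hz : z ∈ Icc (0:ℝ) (1/2))
    (hx' : x' ∈ Icc 0 x) (hy' : y' ∈ Icc 0 y) (hz' : z' ∈ Icc 0 z) (h : pt x y z ∈ E) :
    pt x' y' z' ∈ E := by
  refine hs.2 _ _ (abs_pt_le hx hy hz) (fun i => ?_) h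
  fin_cases i <;>
    simp [pt, abs_of_nonneg, hx.1, hy.1, hz.1, hx'.1, hy'.1, hz'.1, hx'.2, hy'.2, hz'.2]

/-- The fibre over `(x,z)`. -/
def fib2 (E : Set V3) (x z : ℝ) : Set ℝ := {y | y ∈ Ioo (0:ℝ) (1/2) ∧ pt x y z ∈ E}

theorem hgt_eq_fib2 (E : Set V3) (x z : ℝ) : hgt E x z = (volume (fib2 E x z)).toReal := rfl

theorem measurableSet_fib2 (hE : MeasurableSet E) (x z : ℝ) : MeasurableSet (fib2 E x z) :=
  measurableSet_Ioo.inter ((measurable_pt.comp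
    (measurable_const.prodMk (measurable_id.prodMk measurable_const))) hE)

theorem volume_fib2_ne_top (E : Set V3) (x z : ℝ) : volume (fib2 E x z) ≠ ⊤ :=
  ne_top_of_le_ne_top measure_Ioo_lt_top.ne (measure_mono fun _ h => h.1)

theorem hgt_mem (E : Set V3) (x z : ℝ) : hgt E x z ∈ Icc (0:ℝ) (1/2) := by
  refine ⟨ENNReal.toReal_nonneg, ?_⟩
  refine le_trans (ENNReal.toReal_mono measure_Ioo_lt_top.ne
    (measure_mono (t := Ioo (0:ℝ) (1/2)) fun _ h => h.1)) ?_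
  simp

theorem fib2_total (hsE : SymMono E) (hsF : SymMono F) {x z : ℝ} (hx : x ∈ Icc (0:ℝ) (1/2))
    (hz : z ∈ Icc (0:ℝ) (1/2)) : fib2 E x z ⊆ fib2 F x z ∨ fib2 F x z ⊆ fib2 E x z := by
  by_contra h
  simp only [not_or, not_subset] at h
  obtain ⟨⟨a, haE, haF⟩, b, hbF, hbE⟩ := h
  rcases le_total a b with hab | hab
  · exact haF ⟨haE.1, hsF.pt_mem hx (Ioo_subset_Icc_self hbF.1) hz ⟨hx.1, le_rfl⟩
      ⟨haE.1.1.le, hab⟩ ⟨hz.1, le_rfl⟩ hbF.2⟩
  · exact hbE ⟨hbF.1, hsE.pt_mem hx (Ioo_subset_Icc_self haE.1) hz ⟨hx.1, le_rfl⟩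
      ⟨hbF.1.1.le, hab⟩ ⟨hz.1, le_rfl⟩ haE.2⟩

theorem hgt_antitone_z (hs : SymMono E) {x z z' : ℝ} (hx : x ∈ Icc (0:ℝ) (1/2))
    (hz' : 0 ≤ z') (hzz : z' ≤ z) (hz : z ≤ 1/2) : hgt E x z ≤ hgt E x z' :=
  ENNReal.toReal_mono (volume_fib2_ne_top E x z') (measure_mono fun _ hy =>
    ⟨hy.1, hs.pt_mem hx (Ioo_subset_Icc_self hy.1) ⟨hz'.trans hzz, hz⟩ ⟨hx.1, le_rfl⟩
      ⟨hy.1.1.le, le_rfl⟩ ⟨hz', hzz⟩ hy.2⟩)

theorem fib2_symmDiff_null (hE : MeasurableSet E) (hF : MeasurableSet F) (hsE : SymMono E)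
    (hsF : SymMono F) {x z : ℝ} (hx : x ∈ Icc (0:ℝ) (1/2)) (hz : z ∈ Icc (0:ℝ) (1/2))
    (h : hgt E x z = hgt F x z) : volume (symmDiff (fib2 E x z) (fib2 F x z)) = 0 := by
  have hv : volume (fib2 E x z) = volume (fib2 F x z) :=
    (ENNReal.toReal_eq_toReal_iff' (volume_fib2_ne_top E x z) (volume_fib2_ne_top F x z)).1 h
  have key : ∀ {A B : Set ℝ}, MeasurableSet A → A ⊆ B → volume A = volume B → volume A ≠ ⊤ →
      volume (symmDiff A B) = 0 := by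
    intro A B hA hAB he hne
    rw [symmDiff_of_le hAB]
    show volume (B \ A) = 0
    rw [measure_sdiff hAB hA.nullMeasurableSet hne, he, tsub_self]
  rcases fib2_total hsE hsF hx hz with hsub | hsub
  · exact key (measurableSet_fib2 hE x z) hsub hv (volume_fib2_ne_top E x z)
  · rw [symmDiff_comm]
    exact key (measurableSet_fib2 hF x z) hsub hv.symm (volume_fib2_ne_top F x z)

theorem volume_eq_zero_of_periodic {G : Set V3} (hp : IsPeriodic G)
    (h : volume (G ∩ cube) = 0) : volume G = 0 := by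
  have hsub : G ⊆ ⋃ k : Fin 3 → ℤ, (fun x : V3 => x + fun i => (k i : ℝ)) ⁻¹' (G ∩ cube) := by
    intro x hx
    refine mem_iUnion.2 ⟨fun i => -⌊x i⌋, (hp x _).2 hx, fun i _ => ?_⟩
    simp only [Pi.add_apply, mem_Ico, Int.cast_neg]
    constructor <;> linarith [Int.floor_le (x i), Int.lt_floor_add_one (x i)]
  refine measure_mono_null hsub (measure_iUnion_null fun k => ?_)
  rw [measure_preimage_add_right, h]

/-- Two symmetric monotone sets with the same heights agree up to a null set. -/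
theorem ae_eq_of_hgt (hE : MeasurableSet E) (hF : MeasurableSet F) (hsE : SymMono E)
    (hsF : SymMono F)
    (h : ∀ᵐ z ∂(volume.restrict (Ioo (0:ℝ) (1/2))),
      ∀ᵐ x ∂(volume.restrict (Ioo (0:ℝ) (1/2))), hgt E x z = hgt F x z) :
    E =ᵐ[volume] F := by
  rw [← measure_symmDiff_eq_zero_iff]
  set G := symmDiff E F with hG
  have hGm : MeasurableSet G := hE.symmDiff hF
  refine volume_eq_zero_of_periodic (fun x k => ?_) ?_
  · simp only [hG, Set.mem_symmDiff, hsE.1 x k, hsF.1 x k]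
  set g : V3 → ℝ≥0∞ := G.indicator 1 with hg
  have hgm : Measurable g := measurable_one.indicator hGm
  have hcongr : ∀ u w : V3, (u ∈ G ↔ w ∈ G) → g u = g w := fun u w he => by
    by_cases hw : w ∈ G
    · simp [hg, indicator_of_mem hw, indicator_of_mem (he.2 hw)]
    · simp [hg, indicator_of_notMem hw, indicator_of_notMem (mt he.1 hw)]
  have hev : ∀ (i : Fin 3) x, g (Function.update x i (-x i)) = g x := fun i x => hcongr _ _ (by
    simp only [hG, Set.mem_symmDiff, Smooth.symMono_even hsE i x, Smooth.symMono_even hsF i x])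
  have hper : IsPeriodicFun g := fun x k => hcongr _ _ (by
    simp only [hG, Set.mem_symmDiff, hsE.1 x k, hsF.1 x k])
  have hv : volume (G ∩ cube) = ∫⁻ x in cube, g x := by
    rw [hg, lintegral_indicator_one hGm, Measure.restrict_apply hGm]
  rw [hv, lintegral_cube_octant hgm hper hev]
  set μ := volume.restrict (Ioo (0:ℝ) (1/2)) with hμ
  have hm : Measurable fun q : ℝ × ℝ × ℝ => g (pt q.1 q.2.1 q.2.2) := hgm.comp measurable_pt
  have e1 : ∀ x, ∫⁻ y, ∫⁻ z, g (pt x y z) ∂μ ∂μ = ∫⁻ z, ∫⁻ y, g (pt x y z) ∂μ ∂μ := fun x =>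
    lintegral_lintegral_swap (hm.comp (measurable_const.prodMk measurable_id)).aemeasurable
  have hm2 : Measurable fun q : ℝ × ℝ => ∫⁻ y, g (pt q.1 y q.2) ∂μ :=
    (hm.comp (measurable_fst.fst.prodMk (measurable_snd.prodMk measurable_fst.snd))).lintegral_prod_right'
  simp_rw [e1]
  rw [lintegral_lintegral_swap (f := fun x z => ∫⁻ y, g (pt x y z) ∂μ) hm2.aemeasurable]
  refine mul_eq_zero.2 (Or.inr (lintegral_eq_zero_of_ae_eq_zero ?_))
  filter_upwards [h, ae_restrict_mem measurableSet_Ioo] with z hz hzI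
  refine lintegral_eq_zero_of_ae_eq_zero ?_
  filter_upwards [hz, ae_restrict_mem measurableSet_Ioo] with x hx hxI
  have hfib : ∫⁻ y, g (pt x y z) ∂μ = volume (symmDiff (fib2 E x z) (fib2 F x z)) := by
    have hmy : MeasurableSet ((fun y => pt x y z) ⁻¹' G) :=
      (measurable_pt.comp (measurable_const.prodMk (measurable_id.prodMk measurable_const))) hGm
    have : (fun y => g (pt x y z)) = ((fun y => pt x y z) ⁻¹' G).indicator 1 := by
      funext y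
      by_cases hy : pt x y z ∈ G
      · simp [hg, indicator_of_mem hy, indicator_of_mem (show y ∈ (fun y => pt x y z) ⁻¹' G from hy)]
      · simp [hg, indicator_of_notMem hy,
          indicator_of_notMem (show y ∉ (fun y => pt x y z) ⁻¹' G from hy)]
    rw [this, lintegral_indicator_one hmy, hμ, Measure.restrict_apply hmy]
    congr 1
    ext y
    simp only [mem_inter_iff, mem_preimage, hG, Set.mem_symmDiff, fib2, mem_ofPred_eq]
    tauto
  simp only [Pi.zero_apply, hfib]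
  exact fib2_symmDiff_null hE hF hsE hsF (Ioo_subset_Icc_self hxI) (Ioo_subset_Icc_self hzI) hx

theorem dd_le_dd {a b : ℝ} (ha : |a| ≤ 1/2) (h : |b| ≤ |a|) : Rearr.dd b ≤ Rearr.dd a := by
  rw [Steiner.dd_eq_abs ha, Steiner.dd_eq_abs (h.trans ha)]
  exact h

theorem symMono_shapeAt (W : Finset (Fin 3)) (R : ℝ) : SymMono (shapeAt W 0 R) := by
  refine ⟨isPeriodic_shapeAt W 0 R, fun x y hx hy h => ?_⟩
  simp only [shapeAt, mem_ofPred_eq] at h ⊢
  refine lt_of_le_of_lt ?_ h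
  refine Finset.sum_le_sum fun i _ => ?_
  simp only [Pi.zero_apply, sub_zero]
  exact pow_le_pow_left₀ (Rearr.dd_nonneg _) (dd_le_dd (hx i) (hy i)) 2

theorem hgt_of_fib {x z r : ℝ} (hr : r ∈ Icc (0:ℝ) (1/2))
    (h : ∀ y ∈ Ioo (0:ℝ) (1/2), pt x y z ∈ E ↔ y < r) : hgt E x z = r := by
  have e : fib2 E x z = Ioo 0 r := by
    ext y
    simp only [fib2, mem_ofPred_eq, mem_Ioo]
    exact ⟨fun hy => ⟨hy.1.1, (h y hy.1).1 hy.2⟩,
      fun hy => ⟨⟨hy.1, hy.2.trans_le hr.2⟩, (h y ⟨hy.1, hy.2.trans_le hr.2⟩).2 hy.2⟩⟩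
  rw [hgt_eq_fib2, e, Real.volume_Ioo, sub_zero, ENNReal.toReal_ofReal hr.1]

theorem pt_mem_shapeAt {W : Finset (Fin 3)} {R x y z : ℝ} (hx : x ∈ Icc (0:ℝ) (1/2))
    (hy : y ∈ Icc (0:ℝ) (1/2)) (hz : z ∈ Icc (0:ℝ) (1/2)) :
    pt x y z ∈ shapeAt W 0 R ↔ ∑ i ∈ W, pt x y z i ^ 2 < R ^ 2 := by
  have h : ∀ i, Rearr.dd (pt x y z i - (0 : V3) i) ^ 2 = pt x y z i ^ 2 := fun i => by
    rw [Pi.zero_apply, sub_zero, Steiner.dd_eq_abs (abs_pt_le hx hy hz i), sq_abs]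
  simp only [shapeAt, mem_ofPred_eq, h]

theorem sqrt_mem_half {R u : ℝ} (hR0 : 0 ≤ R) (hR : R ≤ 1/2) (hu : 0 ≤ u) :
    √(R ^ 2 - u) ∈ Icc (0:ℝ) (1/2) :=
  ⟨Real.sqrt_nonneg _, ((Real.sqrt_le_sqrt (by linarith)).trans_eq (Real.sqrt_sq hR0)).trans hR⟩

theorem hgt_ball {R x z : ℝ} (hR0 : 0 ≤ R) (hR : R ≤ 1/2) (hx : x ∈ Icc (0:ℝ) (1/2))
    (hz : z ∈ Icc (0:ℝ) (1/2)) :
    hgt (shapeAt Finset.univ 0 R) x z = √(R ^ 2 - z ^ 2 - x ^ 2) := by
  have e : R ^ 2 - z ^ 2 - x ^ 2 = R ^ 2 - (z ^ 2 + x ^ 2) := by ring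
  rw [e]
  refine hgt_of_fib (sqrt_mem_half hR0 hR (by positivity)) fun y hy => ?_
  rw [pt_mem_shapeAt hx (Ioo_subset_Icc_self hy) hz, Real.lt_sqrt hy.1.le, Fin.sum_univ_three]
  simp [pt]
  constructor <;> intro h <;> linarith

theorem hgt_tubeZ {R x z : ℝ} (hR0 : 0 ≤ R) (hR : R ≤ 1/2) (hx : x ∈ Icc (0:ℝ) (1/2))
    (hz : z ∈ Icc (0:ℝ) (1/2)) :
    hgt (shapeAt {2}ᶜ 0 R) x z = √(R ^ 2 - x ^ 2) := by
  refine hgt_of_fib (sqrt_mem_half hR0 hR (sq_nonneg x)) fun y hy => ?_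
  rw [pt_mem_shapeAt hx (Ioo_subset_Icc_self hy) hz, Real.lt_sqrt hy.1.le,
    show ({2}ᶜ : Finset (Fin 3)) = {0, 1} by decide, Finset.sum_pair (by decide)]
  simp [pt]
  constructor <;> intro h <;> linarith

theorem hgt_slabY {R x z : ℝ} (hR0 : 0 ≤ R) (hR : R ≤ 1/2) (hx : x ∈ Icc (0:ℝ) (1/2))
    (hz : z ∈ Icc (0:ℝ) (1/2)) : hgt (shapeAt {1} 0 R) x z = R := by
  refine hgt_of_fib ⟨hR0, hR⟩ fun y hy => ?_
  rw [pt_mem_shapeAt hx (Ioo_subset_Icc_self hy) hz, Finset.sum_singleton]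
  simp only [pt, Matrix.cons_val_one, Matrix.cons_val_zero]
  exact sq_lt_sq₀ hy.1.le hR0

theorem hgt_slabX {R x z : ℝ} (hR0 : 0 ≤ R) (hx : x ∈ Icc (0:ℝ) (1/2))
    (hz : z ∈ Icc (0:ℝ) (1/2)) :
    hgt (shapeAt {0} 0 R) x z = if x < R then 1/2 else 0 := by
  refine hgt_of_fib (by split_ifs <;> constructor <;> norm_num) fun y hy => ?_
  rw [pt_mem_shapeAt hx (Ioo_subset_Icc_self hy) hz, Finset.sum_singleton]
  simp only [pt, Matrix.cons_val_zero]
  rw [sq_lt_sq₀ hx.1 hR0]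
  split_ifs with h
  · simp only [h, true_iff]; exact hy.2
  · simp only [h, false_iff, not_lt]; exact hy.1.le

theorem hgt_slabZ {R x z : ℝ} (hR0 : 0 ≤ R) (hx : x ∈ Icc (0:ℝ) (1/2))
    (hz : z ∈ Icc (0:ℝ) (1/2)) :
    hgt (shapeAt {2} 0 R) x z = if z < R then 1/2 else 0 := by
  refine hgt_of_fib (by split_ifs <;> constructor <;> norm_num) fun y hy => ?_
  rw [pt_mem_shapeAt hx (Ioo_subset_Icc_self hy) hz, Finset.sum_singleton]
  simp only [pt, Matrix.cons_val]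
  rw [sq_lt_sq₀ hz.1 hR0]
  split_ifs with h
  · simp only [h, true_iff]; exact hy.2
  · simp only [h, false_iff, not_lt]; exact hy.1.le

/-- Reconstruction of a centred shape from the heights. -/
theorem shape_of_hgt {W : Finset (Fin 3)} {R : ℝ}
    (hE : MeasurableSet E) (hs : SymMono E)
    (h : ∀ᵐ z ∂(volume.restrict (Ioo (0:ℝ) (1/2))),
      ∀ᵐ x ∂(volume.restrict (Ioo (0:ℝ) (1/2))), hgt E x z = hgt (shapeAt W 0 R) x z) :
    E =ᵐ[volume] shapeAt W 0 R :=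
  ae_eq_of_hgt hE (measurableSet_shapeAt W 0 R) hs (symMono_shapeAt W R) h

end

end Vale.P232
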