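import Vale.Agent.P232.RigidShapeSlice
import Vale.Agent.P232.RigidRecon

/-!
P232: approximations by disc levels force a centred ball, tube or slab.
-/

open MeasureTheory Real Set Filter Topology
open scoped ENNReal

namespace Vale.P232

noncomputable section

variable {E : Set V3}

theorem exists_of_ae_Ioo {P : ℝ → Prop} {a b : ℝ} (hab : a < b) (ha : 0 ≤ a) (hb : b ≤ 1/2)
    (h : ∀ᵐ z ∂(volume.restrict (Ioo (0:ℝ) (1/2))), P z) : ∃ z ∈ Ioo a b, P z := by
  have h' : ∀ᵐ z ∂(volume.restrict (Ioo a b)), P z :=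
    ae_restrict_of_ae_restrict_of_subset (Ioo_subset_Ioo ha hb) h
  have : (ae (volume.restrict (Ioo a b))).NeBot := by
    rw [ae_neBot, ne_eq, Measure.restrict_eq_zero, Real.volume_Ioo, ENNReal.ofReal_eq_zero]
    linarith
  obtain ⟨z, hz1, hz2⟩ := (h'.and (ae_restrict_mem measurableSet_Ioo)).exists
  exact ⟨z, hz2, hz1⟩

theorem secA_nonneg (E : Set V3) (z : ℝ) : 0 ≤ secA E z :=
  mul_nonneg (by norm_num)
    (intervalIntegral.integral_nonneg (by norm_num) fun x _ => (hgt_mem_Icc E x z).1)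

/-- Good slices exist where the weight is positive. -/
theorem exists_goodSlice (S : LevelSeq E) (hd : ∀ n, DiscLevel (S.core n) (S.t n))
    (hconv : SliceConv S) {c : ℝ → ℝ} (hcc : Continuous c) (hc : ∀ a, c a ∈ Icc (0:ℝ) 1)
    (hlow : ∀ ε > (0:ℝ), ∀ᶠ n in atTop, candJ (tvol E) - ε ≤ mainPart c (S.f n) (S.t n)) :
    ∃ R : ℕ → ℝ, ∀ᵐ z ∂(volume.restrict (Ioo (0:ℝ) (1/2))),
      0 < c (secA E z) → ∃ σ, GoodSlice S R σ z (secA E z) := by
  obtain ⟨R, hR, hRtop, hex⟩ := exists_excess_zero S hd hcc.measurable hc hlow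
  refine ⟨R, ?_⟩
  filter_upwards [hex, hconv, ae_restrict_mem measurableSet_Ioo] with z hz hcv hzI hpos
  obtain ⟨σ, hσ, hlim⟩ := hz
  refine ⟨σ, hzI, hσ.tendsto_atTop, hR, hRtop, hcv.1, rfl, hcv.2, ?_⟩
  have hcl : Tendsto (fun k => c (sliceA (S.f (σ k)) (S.t (σ k)) z)) atTop (𝓝 (c (secA E z))) :=
    (hcc.tendsto _).comp (hcv.1.comp hσ.tendsto_atTop)
  have h := hlim.div hcl hpos.ne'
  rw [zero_div] at h
  refine h.congr' ?_
  filter_upwards [hcl.eventually_const_lt hpos] with k hk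
  simp only [Pi.div_apply]
  field_simp

theorem tendsto_integral_slice {S : LevelSeq E} (hconv : SliceConv S) {F : ℝ → ℝ}
    (hF : Continuous F) :
    Tendsto (fun n => ∫ z in Ioo (0:ℝ) (1/2), F (sliceA (S.f n) (S.t n) z)) atTop
      (𝓝 (∫ z in Ioo (0:ℝ) (1/2), F (secA E z))) := by
  obtain ⟨C, hC⟩ := (isCompact_Icc (a := (0:ℝ)) (b := 1)).exists_bound_of_continuousOn hF.continuousOn
  refine tendsto_integral_of_dominated_convergence (fun _ => C)
    (fun n => (hF.comp ((S.core n).continuous_sliceA (S.t n))).aestronglyMeasurable)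
    (integrable_const _) (fun n => ae_of_all _ fun z => hC _ (sliceA_mem_Icc (S.core n) _ z)) ?_
  filter_upwards [hconv] with z hz
  exact (hF.tendsto _).comp hz.1

theorem integral_sqrt_unit : ∫ u in (0:ℝ)..1, √(1 - u) = 2 / 3 := by
  rw [intervalIntegral.integral_comp_sub_left (fun u => √u) 1]
  simp only [sub_self, sub_zero, Real.sqrt_eq_rpow]
  rw [integral_rpow (Or.inl (by norm_num))]
  norm_num

theorem ball_radius {v : ℝ} (h0 : 0 < v) (hJ : candJ v = ballP v) :
    0 < Rball v ∧ v = 4 * π * Rball v ^ 3 / 3 ∧ ballP v = 4 * π * Rball v ^ 2 ∧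
      Rball v ≤ 1/3 := by
  have hπ := pi_pos
  have hR0 : 0 < Rball v := Real.rpow_pos_of_pos (by positivity) _
  have h3 : v = 4 * π * Rball v ^ 3 / 3 := by
    have : Rball v ^ 3 = 3 * v / (4 * π) := by
      unfold Rball; rw [← Real.rpow_natCast, ← Real.rpow_mul (by positivity)]; norm_num
    rw [this]; field_simp
  have hb : ballP v = 4 * π * Rball v ^ 2 := by
    refine (pow_left_inj₀ ?_ (by positivity) three_ne_zero).1 ?_
    · unfold ballP; positivity
    · unfold ballP
      rw [mul_pow, ← Real.rpow_natCast ((36 * π) ^ (1 / 3 : ℝ)) 3,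
        ← Real.rpow_natCast (v ^ (2 / 3 : ℝ)) 3, ← Real.rpow_mul (by positivity),
        ← Real.rpow_mul h0.le]
      norm_num
      generalize Rball v = r at *
      subst h3
      ring
  refine ⟨hR0, h3, hb, ?_⟩
  have hle : ballP v ≤ tubeP v := hJ ▸ (min_le_left _ _).trans (min_le_right _ _)
  rw [hb] at hle
  have h2 := pow_le_pow_left₀ (by positivity) hle 2
  unfold tubeP at h2
  rw [mul_pow 2 (√_) 2, Real.sq_sqrt (by positivity)] at h2
  generalize Rball v = r at *
  subst h3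
  have h4 : 16 * π ^ 2 * r ^ 3 * r ≤ 16 * π ^ 2 * r ^ 3 * (1/3) := by linarith
  exact le_of_mul_le_mul_left h4 (by positivity)

/-- The ball case. -/
theorem shape_of_ball (hE : MeasurableSet E) (hs : SymMono E)
    (hv : tvol E ∈ Ioc (0:ℝ) (1/π)) (S : LevelSeq E) (hd : ∀ n, DiscLevel (S.core n) (S.t n))
    (hconv : SliceConv S) (hA : BallProfile E) : IsCentredShape E := by
  obtain ⟨hJ, hprof⟩ := hA
  obtain ⟨hR0, hv3, hbP, hR3⟩ := ball_radius hv.1 hJ
  set r := Rball (tvol E) with hr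
  set T := π * r ^ 2 with hT
  have hT0 : 0 < T := by positivity
  have hπ := pi_pos
  set c : ℝ → ℝ := fun a => √(min 1 (max 0 (a / T))) with hcdef
  have hcc : Continuous c := by fun_prop
  have hc : ∀ a, c a ∈ Icc (0:ℝ) 1 := fun a =>
    ⟨Real.sqrt_nonneg _, by rw [Real.sqrt_le_one]; exact min_le_left _ _⟩
  set g : ℝ → ℝ := fun s => √(1 - c s ^ 2) with hgdef
  have hgc : Continuous g := by fun_prop
  set F : ℝ → ℝ := fun u => ∫ s in (0:ℝ)..u, g s with hFdef
  have hFc : Continuous F := intervalIntegral.continuous_primitive (fun a b => hgc.intervalIntegrable a b) 0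
  have hFmono : Monotone F := fun u w huw => by
    have := intervalIntegral.integral_add_adjacent_intervals (μ := volume)
      (hgc.intervalIntegrable 0 u) (hgc.intervalIntegrable u w)
    have := intervalIntegral.integral_nonneg (μ := volume) huw fun s _ => Real.sqrt_nonneg (1 - c s ^ 2)
    simp only [F, g] at *
    linarith
  have hFT : F T = 2 / 3 * T := by
    have e : F T = ∫ s in (0:ℝ)..T, √(1 - s / T) := by
      refine intervalIntegral.integral_congr fun s hs => ?_
      rw [uIcc_of_le hT0.le] at hs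
      have h1 : 0 ≤ s / T := div_nonneg hs.1 hT0.le
      have h2 : s / T ≤ 1 := (div_le_one hT0).2 hs.2
      simp only [g, c, max_eq_right h1, min_eq_right h2, Real.sq_sqrt h1]
    rw [e, intervalIntegral.integral_comp_div (fun u => √(1 - u)) hT0.ne', zero_div,
      div_self hT0.ne', integral_sqrt_unit, smul_eq_mul]
    ring
  have hAball : ∀ᵐ z ∂(volume.restrict (Ioo (0:ℝ) (1/2))),
      secA E z = max 0 (π * (r ^ 2 - z ^ 2)) := hprof
  -- the first part of the main term
  have hfirst : Tendsto (fun n => ∫ z in Ioo (0:ℝ) (1/2),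
      c (sliceA (S.f n) (S.t n) z) * discP (sliceA (S.f n) (S.t n) z)) atTop
      (𝓝 (4 * π * r ^ 2 / 3)) := by
    have hcd : Continuous fun a => c a * discP a := by unfold discP; fun_prop
    have h := tendsto_integral_slice hconv hcd
    have e : ∫ z in Ioo (0:ℝ) (1/2), c (secA E z) * discP (secA E z)
        = 2 / r * ∫ z in Ioo (0:ℝ) (1/2), secA E z := by
      rw [← integral_const_mul]
      refine integral_congr_ae (hAball.mono fun z hz => ?_)
      simp only
      rw [hz]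
      set a := max 0 (π * (r ^ 2 - z ^ 2))
      have ha : 0 ≤ a := le_max_left _ _
      have haT : a ≤ T := max_le hT0.le (by rw [hT]; nlinarith [sq_nonneg z])
      have h1 : 0 ≤ a / T := div_nonneg ha hT0.le
      simp only [c, max_eq_right h1, min_eq_right ((div_le_one hT0).2 haT), discP]
      have e2 : √(a / T) * √(π * a) = a / r := by
        rw [← Real.sqrt_mul h1, show a / T * (π * a) = (a / r) ^ 2 by rw [hT]; field_simp,
          Real.sqrt_sq (div_nonneg ha hR0.le)]
      calc √(a / T) * (2 * √(π * a)) = 2 * (√(a / T) * √(π * a)) := by ring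
        _ = 2 / r * a := by rw [e2]; ring
    have hint : ∫ z in Ioo (0:ℝ) (1/2), secA E z = tvol E / 2 := by
      have h1 := tendsto_integral_slice hconv continuous_id
      refine tendsto_nhds_unique h1 (((S.tendsto_tvol hE).div_const 2).congr fun n => ?_)
      rw [(S.core n).tvol_level, intervalIntegral.integral_of_le (by norm_num),
        setIntegral_congr_set Ioo_ae_eq_Ioc.symm]
      simp only [id_eq]
      ring
    rw [e, hint] at h
    convert h using 2
    rw [hv3]
    field_simp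
  -- the flat part
  have hflat : ∀ ε > (0:ℝ), ∀ᶠ n in atTop,
      2 / 3 * T - ε ≤ ∫ s in (sliceA (S.f n) (S.t n) (1/2))..(sliceA (S.f n) (S.t n) 0), g s := by
    intro ε hε
    have hc0 : Tendsto (fun z : ℝ => F (max 0 (π * (r ^ 2 - z ^ 2)))) (𝓝 0) (𝓝 (2 / 3 * T)) := by
      have hcont : Continuous fun z : ℝ => F (max 0 (π * (r ^ 2 - z ^ 2))) := hFc.comp (by fun_prop)
      have := hcont.tendsto 0
      simpa [← hT, max_eq_right hT0.le, hFT] using this
    obtain ⟨η, hη, hηF⟩ := Metric.eventually_nhds_iff.1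
      (hc0.eventually_const_lt (show 2 / 3 * T - ε / 3 < 2 / 3 * T by linarith))
    obtain ⟨z1, hz1, hz1a, hz1c⟩ := exists_of_ae_Ioo (lt_min hη (by norm_num : (0:ℝ) < 1/2)) le_rfl
      (min_le_right _ _) (hAball.and hconv)
    obtain ⟨z2, hz2, hz2a, hz2c⟩ := exists_of_ae_Ioo (show r < 1/2 by linarith) hR0.le le_rfl
      (hAball.and hconv)
    have hF1 : 2 / 3 * T - ε / 3 < F (secA E z1) := by
      rw [hz1a]
      refine hηF ?_
      rw [Real.dist_eq, sub_zero, abs_of_pos hz1.1]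
      exact hz1.2.trans_le (min_le_left _ _)
    have hA2 : secA E z2 = 0 := by
      rw [hz2a, max_eq_left]
      exact mul_nonpos_of_nonneg_of_nonpos hπ.le (by nlinarith [hz2.1])
    have l1 : Tendsto (fun n => F (sliceA (S.f n) (S.t n) z1)) atTop (𝓝 (F (secA E z1))) :=
      (hFc.tendsto _).comp hz1c.1
    have l2 : Tendsto (fun n => F (sliceA (S.f n) (S.t n) z2)) atTop (𝓝 0) := by
      have := (hFc.tendsto _).comp hz2c.1
      rwa [hA2, show F 0 = 0 from intervalIntegral.integral_same] at this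
    filter_upwards [l1.eventually_const_lt hF1, l2.eventually_lt_const (show (0:ℝ) < ε / 3 by linarith)]
      with n h1 h2
    have z1I : z1 ∈ Icc (0:ℝ) (1/2) := ⟨hz1.1.le, (hz1.2.trans_le (min_le_right _ _)).le⟩
    have z2I : z2 ∈ Icc (0:ℝ) (1/2) := ⟨by linarith [hz2.1], hz2.2.le⟩
    have m1 := hFmono ((S.core n).sliceA_mem (S.t n) z1I).2
    have m2 := hFmono ((S.core n).sliceA_mem (S.t n) z2I).1
    rw [← intervalIntegral.integral_interval_sub_left (hgc.intervalIntegrable 0 _)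
      (hgc.intervalIntegrable 0 _)]
    simp only [F] at m1 m2 h1 h2 ⊢
    linarith
  have hlow : ∀ ε > (0:ℝ), ∀ᶠ n in atTop,
      candJ (tvol E) - ε ≤ mainPart c (S.f n) (S.t n) := by
    intro ε hε
    filter_upwards [hfirst.eventually_const_lt
      (show 4 * π * r ^ 2 / 3 - ε / 4 < 4 * π * r ^ 2 / 3 by linarith),
      hflat (ε / 4) (by linarith)] with n h1 h2
    rw [hJ, hbP]
    simp only [mainPart]
    simp only [g] at h2
    linarith
  obtain ⟨R, hgood⟩ := exists_goodSlice S hd hconv hcc hc hlow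
  refine ⟨Finset.univ, r, Or.inl rfl, hR0, by linarith, shape_of_hgt hE hs ?_⟩
  have hnull : ∀ᵐ z ∂(volume.restrict (Ioo (0:ℝ) (1/2))), z ≠ √(r ^ 2 - 1 / π ^ 2) :=
    ae_restrict_of_ae (Measure.ae_ne volume _)
  filter_upwards [hgood, hAball, hnull, ae_restrict_mem measurableSet_Ioo] with z hz hza hzne hzI
  rcases lt_or_ge z r with hzr | hzr
  · have hpos : 0 < π * (r ^ 2 - z ^ 2) := mul_pos hπ (by nlinarith [hzI.1])
    rw [max_eq_right hpos.le] at hza
    have hcp : 0 < c (secA E z) :=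
      Real.sqrt_pos.2 (lt_min one_pos (lt_max_of_lt_right (by rw [hza]; positivity)))
    obtain ⟨σ, G⟩ := hz hcp
    rw [hza] at G
    have hAT : π * (r ^ 2 - z ^ 2) < T0 := by
      unfold T0 T0Y
      rw [lt_div_iff₀ (by positivity)]
      have h1 : r ^ 2 - z ^ 2 ≤ 1/9 := by nlinarith
      have h2 : π * π ≤ 10 := by nlinarith [Real.pi_lt_d4, Real.pi_pos]
      nlinarith
    have hne : π * (r ^ 2 - z ^ 2) ≠ 1 / π := fun h => by
      have h' : r ^ 2 - 1 / π ^ 2 = z ^ 2 := by
        rw [eq_div_iff hπ.ne'] at h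
        field_simp
        linarith
      exact hzne (by rw [h', Real.sqrt_sq hzI.1.le])
    filter_upwards [(G.disc hpos (G.eventually_none hd hAT hne)).2,
      ae_restrict_mem measurableSet_Ioo] with x hx hxI
    rw [hx, hgt_ball hR0.le (by linarith) (Ioo_subset_Icc_self hxI) (Ioo_subset_Icc_self hzI),
      show π * (r ^ 2 - z ^ 2) / π = r ^ 2 - z ^ 2 by field_simp]
  · have h0 : secA E z = 0 := by
      rw [hza, max_eq_left]
      exact mul_nonpos_of_nonneg_of_nonpos hπ.le (by nlinarith)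
    unfold secA at h0
    rw [intervalIntegral.integral_of_le (by norm_num), setIntegral_congr_set Ioo_ae_eq_Ioc.symm] at h0
    have h0' : ∫ x in Ioo (0:ℝ) (1/2), hgt E x z = 0 := by linarith
    filter_upwards [(integral_eq_zero_iff_of_nonneg (fun x => (hgt_mem_Icc E x z).1)
      (GoodSlice.integrableOn_hgt hE z)).1 h0', ae_restrict_mem measurableSet_Ioo] with x hx hxI
    rw [hgt_ball hR0.le (by linarith) (Ioo_subset_Icc_self hxI) (Ioo_subset_Icc_self hzI), hx,
      Pi.zero_apply, Real.sqrt_eq_zero'.2]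
    nlinarith [sq_nonneg x]

/-- The tube case, including the bands at volume `1/π`. -/
theorem shape_of_tube (hE : MeasurableSet E) (hs : SymMono E)
    (hv : tvol E ∈ Ioc (0:ℝ) (1/π)) (S : LevelSeq E) (hd : ∀ n, DiscLevel (S.core n) (S.t n))
    (hconv : SliceConv S) (hA : TubeProfile E) : IsCentredShape E := by
  obtain ⟨hJ, hprof⟩ := hA
  have hπ := Real.pi_gt_three
  set v := tvol E with hvdef
  have hfirst : Tendsto (fun n => ∫ z in Ioo (0:ℝ) (1/2),
      (fun _ : ℝ => (1:ℝ)) (sliceA (S.f n) (S.t n) z) * discP (sliceA (S.f n) (S.t n) z)) atTop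
      (𝓝 (tubeP v / 2)) := by
    have h := tendsto_integral_slice hconv (GoodSlice.continuous_discP)
    have e : ∫ z in Ioo (0:ℝ) (1/2), discP (secA E z) = tubeP v / 2 := by
      rw [integral_congr_ae (hprof.mono fun z hz => congrArg discP hz), setIntegral_const,
        Real.volume_real_Ioo_of_le (by norm_num), smul_eq_mul]
      unfold discP tubeP
      ring
    rw [e] at h
    simpa using h
  have hlow : ∀ ε > (0:ℝ), ∀ᶠ n in atTop,
      candJ v - ε ≤ mainPart (fun _ => 1) (S.f n) (S.t n) := by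
    intro ε hε
    filter_upwards [hfirst.eventually_const_lt
      (show tubeP v / 2 - ε / 2 < tubeP v / 2 by linarith)] with n h1
    rw [hJ]
    simp only [mainPart]
    simp
    simp at h1
    linarith
  obtain ⟨R, hgood⟩ := exists_goodSlice S hd hconv continuous_const
    (fun _ => ⟨zero_le_one, le_rfl⟩) hlow
  have hgood' : ∀ᵐ z ∂(volume.restrict (Ioo (0:ℝ) (1/2))),
      z ∈ Ioo (0:ℝ) (1/2) ∧ ∃ σ, GoodSlice S R σ z v := by
    filter_upwards [hgood, hprof, ae_restrict_mem measurableSet_Ioo] with z hz hzv hzI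
    obtain ⟨σ, G⟩ := hz one_pos
    rw [hzv] at G
    exact ⟨hzI, σ, G⟩
  have hvT : v < T0 := by
    refine lt_of_le_of_lt hv.2 ?_
    unfold T0 T0Y
    rw [div_lt_div_iff₀ pi_pos (by positivity)]
    linarith
  have hv4 : v / π ≤ 1/4 := by
    rw [div_le_iff₀ pi_pos]
    refine hv.2.trans ?_
    rw [div_le_iff₀ pi_pos]
    nlinarith
  have hrad : √(v / π) ≤ 1/2 := by
    rw [Real.sqrt_le_left (by norm_num)]; linarith
  have hcyl : ∀ {z x : ℝ}, x ∈ Icc (0:ℝ) (1/2) → z ∈ Icc (0:ℝ) (1/2) →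
      hgt (shapeAt {2}ᶜ 0 √(v / π)) x z = √(v / π - x ^ 2) := by
    intro z x hx hz
    rw [hgt_tubeZ (Real.sqrt_nonneg _) hrad hx hz, Real.sq_sqrt (div_nonneg hv.1.le pi_pos.le)]
  rcases lt_or_eq_of_le hv.2 with hlt | heq
  · refine ⟨{2}ᶜ, √(v / π), Or.inr ⟨2, Or.inl rfl⟩, Real.sqrt_pos.2 (div_pos hv.1 pi_pos), hrad,
      shape_of_hgt hE hs ?_⟩
    filter_upwards [hgood'] with z hz
    obtain ⟨hzI, σ, G⟩ := hz
    filter_upwards [(G.disc hv.1 (G.eventually_none hd hvT hlt.ne)).2,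
      ae_restrict_mem measurableSet_Ioo] with x hx hxI
    rw [hx, hcyl (Ioo_subset_Icc_self hxI) (Ioo_subset_Icc_self hzI)]
  -- volume `1/π`: all slices agree with one of them
  obtain ⟨z0, hz0, -, σ0, G0⟩ := exists_of_ae_Ioo (by norm_num : (0:ℝ) < 1/2) le_rfl le_rfl hgood'
  have hsame : ∀ᵐ z ∂(volume.restrict (Ioo (0:ℝ) (1/2))),
      ∀ᵐ x ∂(volume.restrict (Ioo (0:ℝ) (1/2))), hgt E x z = hgt E x z0 := by
    have key : ∀ {z w : ℝ}, z ∈ Ioo (0:ℝ) (1/2) → w ∈ Ioo (0:ℝ) (1/2) → w ≤ z →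
        ∫ x in Ioo (0:ℝ) (1/2), hgt E x z = ∫ x in Ioo (0:ℝ) (1/2), hgt E x w →
        ∀ᵐ x ∂(volume.restrict (Ioo (0:ℝ) (1/2))), hgt E x z = hgt E x w := by
      intro z w hz hw hwz heqI
      have hge : ∀ᵐ x ∂(volume.restrict (Ioo (0:ℝ) (1/2))), 0 ≤ hgt E x w - hgt E x z := by
        filter_upwards [ae_restrict_mem measurableSet_Ioo] with x hx
        exact sub_nonneg.2 (hgt_antitone_z hs (Ioo_subset_Icc_self hx) hw.1.le hwz hz.2.le)
      have hi := (GoodSlice.integrableOn_hgt hE w).sub (GoodSlice.integrableOn_hgt hE z)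
      have h0 : ∫ x in Ioo (0:ℝ) (1/2), (hgt E x w - hgt E x z) = 0 := by
        rw [integral_sub (GoodSlice.integrableOn_hgt hE w) (GoodSlice.integrableOn_hgt hE z), heqI,
          sub_self]
      filter_upwards [(integral_eq_zero_iff_of_nonneg_ae hge hi).1 h0] with x hx
      exact (sub_eq_zero.1 hx).symm
    filter_upwards [hgood'] with z hz
    obtain ⟨hzI, σ, G⟩ := hz
    have hI : ∫ x in Ioo (0:ℝ) (1/2), hgt E x z = ∫ x in Ioo (0:ℝ) (1/2), hgt E x z0 := by
      rw [G.integral_hgt, G0.integral_hgt]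
    rcases le_total z0 z with h | h
    · exact key hzI hz0 h hI
    · exact (key hz0 hzI h hI.symm).mono fun x hx => hx.symm
  have hw : 1 / (2 * π) ∈ Icc (0:ℝ) (1/2) := by
    refine ⟨by positivity, ?_⟩
    rw [div_le_div_iff₀ (by positivity) two_pos]
    linarith
  have hw0 : (0:ℝ) < 1 / (2 * π) := by positivity
  rcases G0.trichotomy hd hE heq hvT with h | h | h
  · refine ⟨{2}ᶜ, √(v / π), Or.inr ⟨2, Or.inl rfl⟩, Real.sqrt_pos.2 (div_pos hv.1 pi_pos), hrad,
      shape_of_hgt hE hs ?_⟩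
    filter_upwards [hsame, ae_restrict_mem measurableSet_Ioo] with z hz hzI
    filter_upwards [hz, h, ae_restrict_mem measurableSet_Ioo] with x hx hx0 hxI
    rw [hx, hx0, hcyl (Ioo_subset_Icc_self hxI) (Ioo_subset_Icc_self hzI)]
  · refine ⟨{1}, 1 / (2 * π), Or.inr ⟨1, Or.inr rfl⟩, hw0, hw.2, shape_of_hgt hE hs ?_⟩
    filter_upwards [hsame, ae_restrict_mem measurableSet_Ioo] with z hz hzI
    filter_upwards [hz, h, ae_restrict_mem measurableSet_Ioo] with x hx hx0 hxI
    rw [hx, hx0, hgt_slabY hw.1 hw.2 (Ioo_subset_Icc_self hxI) (Ioo_subset_Icc_self hzI)]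
  · refine ⟨{0}, 1 / (2 * π), Or.inr ⟨0, Or.inr rfl⟩, hw0, hw.2, shape_of_hgt hE hs ?_⟩
    filter_upwards [hsame, ae_restrict_mem measurableSet_Ioo] with z hz hzI
    filter_upwards [hz, h, ae_restrict_mem measurableSet_Ioo] with x hx hx0 hxI
    rw [hx, hx0, hgt_slabX hw.1 (Ioo_subset_Icc_self hxI) (Ioo_subset_Icc_self hzI)]

/-- Approximations by disc levels force a centred shape. -/
theorem shape_of_disc {E : Set V3} (hE : MeasurableSet E) (hs : SymMono E)
    (hv : tvol E ∈ Ioc (0:ℝ) (1/π)) (S : LevelSeq E) (hd : ∀ n, DiscLevel (S.core n) (S.t n))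
    (hconv : SliceConv S) (hA : TubeProfile E ∨ BallProfile E) : IsCentredShape E :=
  hA.elim (shape_of_tube hE hs hv S hd hconv) (shape_of_ball hE hs hv S hd hconv)

end

end Vale.P232
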