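import Vale.Agent.P232.RigidConv
import Vale.Agent.P232.LevelCases
import Vale.Agent.P232.Reduce

/-!
P232: classification of symmetric monotone minimisers, from the limit modules.
-/

open MeasureTheory Real Set Filter Topology
open scoped ENNReal

namespace Vale.P232

noncomputable section

/-- A set in permuted coordinates. -/
def permSet (σ : Equiv.Perm (Fin 3)) (E : Set V3) : Set V3 := permL σ ⁻¹' E

lemma measurableSet_permSet (σ : Equiv.Perm (Fin 3)) {E : Set V3} (hE : MeasurableSet E) :
    MeasurableSet (permSet σ E) :=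
  hE.preimage (permL σ).continuous.measurable

lemma tvol_permSet (σ : Equiv.Perm (Fin 3)) {E : Set V3} (hE : MeasurableSet E) :
    tvol (permSet σ E) = tvol E := by
  unfold tvol permSet
  congr 1
  rw [← (measurePreserving_permL σ).measure_preimage (hE.inter measurableSet_cube).nullMeasurableSet,
    preimage_inter, permL_preimage_cube]

lemma permSet_permSet (σ : Equiv.Perm (Fin 3)) (E : Set V3) :
    permSet σ.symm (permSet σ E) = E := by
  ext x
  have h : permL σ (permL σ.symm x) = x := by
    funext j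
    simp [permL_apply]
  simp [permSet, h]

lemma symMono_permSet (σ : Equiv.Perm (Fin 3)) {E : Set V3} (hs : SymMono E) :
    SymMono (permSet σ E) := by
  refine ⟨fun x k => ?_, fun x y hx hy hmem => ?_⟩
  · show permL σ (x + fun i => (k i : ℝ)) ∈ E ↔ permL σ x ∈ E
    have h : permL σ (x + fun i => (k i : ℝ)) = permL σ x + fun j => (k (σ.symm j) : ℝ) := by
      funext j
      simp [permL_apply]
    rw [h]
    exact hs.1 _ fun j => k (σ.symm j)
  · refine hs.2 (permL σ x) (permL σ y) (fun i => ?_) (fun i => ?_) hmem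
    · rw [permL_apply]; exact hx _
    · rw [permL_apply, permL_apply]; exact hy _

lemma permSet_shapeAt (σ : Equiv.Perm (Fin 3)) (W : Finset (Fin 3)) (R : ℝ) :
    permSet σ (shapeAt W 0 R) = shapeAt (W.map σ.symm.toEmbedding) 0 R := by
  ext x
  simp [permSet, shapeAt, permL_apply, Finset.sum_map]

lemma permSet_congr_ae (σ : Equiv.Perm (Fin 3)) {E F : Set V3} (h : E =ᵐ[volume] F) :
    permSet σ E =ᵐ[volume] permSet σ F :=
  (measurePreserving_permL σ).quasiMeasurePreserving.preimage_ae_eq h

lemma IsCentredShape.permSet (σ : Equiv.Perm (Fin 3)) {E : Set V3} (h : IsCentredShape E) :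
    IsCentredShape (permSet σ E) := by
  obtain ⟨W, R, hW, hR0, hR, hae⟩ := h
  refine ⟨W.map σ.symm.toEmbedding, R, ?_, hR0, hR, ?_⟩
  · rcases hW with rfl | ⟨i, rfl | rfl⟩
    · exact Or.inl (Finset.map_univ_equiv _)
    · refine Or.inr ⟨σ.symm i, Or.inl ?_⟩
      ext j
      simp [Equiv.eq_symm_apply]
    · exact Or.inr ⟨σ.symm i, Or.inr (Finset.map_singleton _ _)⟩
  · rw [← permSet_shapeAt]
    exact permSet_congr_ae σ hae

/-- Approximating levels in permuted coordinates. -/
def LevelSeq.perm {E : Set V3} (hE : MeasurableSet E) (S : LevelSeq E) (σ : Equiv.Perm (Fin 3))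
    (hQ : ∀ n, Qz (permFun σ (S.f n)) (S.t n) = Qz (S.f n) (S.t n)) :
    LevelSeq (permSet σ E) where
  f n := permFun σ (S.f n)
  t := S.t
  core n := (S.core n).perm σ
  mem := S.mem
  vol n := by
    rw [tvol_level_perm (S.core n) σ]
    exact S.vol n
  close := by
    refine S.close.congr fun n => ?_
    rw [← tvol_permSet σ ((S.measurableSet_level n).symmDiff hE)]
    rfl
  excess ε hε := by
    rw [tvol_permSet σ hE]
    filter_upwards [S.excess ε hε] with n hn
    rw [hQ n]
    exact hn

/-- Existence of approximating levels, as proved in `LevelSeqExist`. -/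
def SeqExistence : Prop :=
  ∀ {E : Set V3}, MeasurableSet E → SymMono E → 0 < tvol E → tvol E ≤ 1 / π →
    perimeter E ≤ ENNReal.ofReal (candJ (tvol E)) →
    ∀ G : (f : V3 → ℝ) → ℝ → Prop, (∀ f, CoreFun f → ∀ᵐ t, G f t) →
      ∃ S : LevelSeq E, ∀ n, G (S.f n) (S.t n)

/-- Shapes of limits of disc levels, as proved in `RigidProfile` and `RigidShape`. -/
def DiscShape : Prop :=
  ∀ {E : Set V3}, MeasurableSet E → SymMono E → tvol E ∈ Ioc (0:ℝ) (1 / π) → ∀ S : LevelSeq E,
    (∀ n, DiscLevel (S.core n) (S.t n)) → SliceConv S → IsCentredShape E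

/-- Shapes of limits of corner levels, as proved in `RigidCorner`. -/
def CornerShape : Prop :=
  ∀ {E : Set V3}, MeasurableSet E → SymMono E → tvol E ∈ Ioc (0:ℝ) (1 / π) → ∀ S : LevelSeq E,
    (∀ n, CornerLevel (S.core n) (S.t n)) → SliceConv S → IsCentredShape E

/-- A symmetric monotone minimiser of volume at most `1/π` is a centred ball, tube or slab. -/
theorem centredShape_of_minimal (hK : SeqExistence) (hD : DiscShape) (hC : CornerShape)
    {E : Set V3} (hE : MeasurableSet E) (hs : SymMono E) (hv : tvol E ∈ Ioc (0:ℝ) (1 / π))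
    (hP : perimeter E ≤ ENNReal.ofReal (candJ (tvol E))) : IsCentredShape E := by
  classical
  obtain ⟨S, hS⟩ := hK hE hs hv.1 hv.2 hP
    (fun f t => ∀ hf : CoreFun f, LevelCase hf t)
    (fun f hf => (levelCase_ae hf).mono fun t ht _ => ht)
  have hcand : Tendsto (fun n => candJ (tvol {p | S.t n < S.f n p})) atTop (𝓝 (candJ (tvol E))) :=
    (continuous_candJ.tendsto _).comp (S.tendsto_tvol hE)
  have hev : ∀ᶠ n in atTop, ∃ σ : Equiv.Perm (Fin 3),
      Qz (permFun σ (S.f n)) (S.t n) = Qz (S.f n) (S.t n) ∧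
        (DiscLevel ((S.core n).perm σ) (S.t n) ∨ CornerLevel ((S.core n).perm σ) (S.t n)) := by
    filter_upwards [S.excess (1 / 400000) (by norm_num),
      hcand.eventually (lt_mem_nhds (show candJ (tvol E) - 1 / 400000 < candJ (tvol E) by norm_num))]
      with n hn hn'
    refine ((hS n (S.core n)) (S.vol n)).resolve_right fun h => ?_
    have hlt : candJ (tvol E) + 1 / 400000 < candJ (tvol {p | S.t n < S.f n p}) + 1 / 100000 := by
      linarith
    have h0 : 0 ≤ candJ (tvol E) := by
      unfold candJ ballP tubeP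
      exact le_min (le_min (mul_nonneg (Real.rpow_nonneg (by positivity) _)
        (Real.rpow_nonneg hv.1.le _)) (by positivity)) (by norm_num)
    exact absurd (h.trans hn) (not_le.2 ((ENNReal.ofReal_lt_ofReal_iff (by linarith)).2 hlt))
  have hfreq : ∃ σ : Equiv.Perm (Fin 3), (∃ᶠ n in atTop,
      Qz (permFun σ (S.f n)) (S.t n) = Qz (S.f n) (S.t n) ∧
        DiscLevel ((S.core n).perm σ) (S.t n)) ∨ ∃ᶠ n in atTop,
      Qz (permFun σ (S.f n)) (S.t n) = Qz (S.f n) (S.t n) ∧
        CornerLevel ((S.core n).perm σ) (S.t n) := by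
    by_contra h
    push Not at h
    obtain ⟨n, hn1, hn2⟩ := (hev.and (eventually_all.2 fun σ => (h σ).1.and (h σ).2)).exists
    obtain ⟨σ, hQ, hd | hc⟩ := hn1
    · exact (hn2 σ).1 hQ hd
    · exact (hn2 σ).2 hQ hc
  obtain ⟨σ, hd | hc⟩ := hfreq
  · obtain ⟨φ, hφ, hd⟩ := extraction_of_frequently_atTop hd
    obtain ⟨ψ, hψ, hconv⟩ := exists_sliceConv (measurableSet_permSet σ hE)
      ((S.sub hφ).perm hE σ fun n => (hd n).1)
    have h := hD (measurableSet_permSet σ hE) (symMono_permSet σ hs)
      (by rwa [tvol_permSet σ hE]) _ (fun n => (hd (ψ n)).2) hconv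
    rw [← permSet_permSet σ E]
    exact h.permSet σ.symm
  · obtain ⟨φ, hφ, hc⟩ := extraction_of_frequently_atTop hc
    obtain ⟨ψ, hψ, hconv⟩ := exists_sliceConv (measurableSet_permSet σ hE)
      ((S.sub hφ).perm hE σ fun n => (hc n).1)
    have h := hC (measurableSet_permSet σ hE) (symMono_permSet σ hs)
      (by rwa [tvol_permSet σ hE]) _ (fun n => (hc (ψ n)).2) hconv
    rw [← permSet_permSet σ E]
    exact h.permSet σ.symm

end

end Vale.P232
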