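import Vale.Agent.P232.SteinerLiftBase

/-!
P232: periodic calibrations and periodised test functions for the lift through Steiner
symmetrisation.
-/

open MeasureTheory Set Filter Topology

namespace Vale.P232

open Rearr Real

noncomputable section

/-- Representative in `[-1/2,1/2)`. -/
def rep (t : ℝ) : ℝ := t - round t

theorem rep_sq (t : ℝ) : rep t ^ 2 = dd t ^ 2 := (sq_abs (t - round t)).symm

theorem rep_of_mem {t : ℝ} (h : t ∈ Ico (-(1/2) : ℝ) (1/2)) : rep t = t := by
  have : round t = 0 := by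
    rw [round_eq]
    exact Int.floor_eq_iff.2 ⟨by push_cast; linarith [h.1], by push_cast; linarith [h.2]⟩
  simp [rep, this]

theorem continuous_dd : Continuous dd :=
  LipschitzWith.continuous (K := 1) (LipschitzWith.of_dist_le_mul fun x y => by
    rw [Real.dist_eq, Real.dist_eq, NNReal.coe_one, one_mul]
    have h1 := dd_le_add x y
    have h2 := dd_le_add y x
    rw [abs_sub_comm] at h2
    exact abs_le.2 ⟨by linarith, by linarith⟩)

theorem rep_eventuallyEq {t : ℝ} (h : dd t < 1 / 2) :
    rep =ᶠ[𝓝 t] fun s => s - round t := by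
  have ha := abs_lt.1 h
  refine Filter.eventually_of_mem (Ioo_mem_nhds (a := (round t : ℝ) - 1/2) (b := (round t : ℝ) + 1/2)
    (by linarith) (by linarith)) fun s hs => ?_
  have : round s = round t := by
    rw [round_eq s]
    exact Int.floor_eq_iff.2 ⟨by linarith [hs.1], by linarith [hs.2]⟩
  simp [rep, this]

/-- Intermediate radius. -/
def R₁ (R : ℝ) : ℝ := (R + 1 / 2) / 2

/-- Positive denominator of the periodic coordinate. -/
def den (R c : ℝ) : ℝ :=
  1 + c + Real.smoothTransition ((Real.cos (2 * π * R₁ R) - c) / (1 + Real.cos (2 * π * R₁ R)))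

/-- A smooth periodic function equal to the coordinate near `[-R,R]`. -/
def Phi1 (R t : ℝ) : ℝ :=
  Real.arctan (Real.sin (2 * π * t) / den R (Real.cos (2 * π * t))) / π

variable {R : ℝ}

theorem R₁_mem (hR0 : 0 < R) (hR : R < 1 / 2) : R < R₁ R ∧ R₁ R < 1 / 2 := by
  unfold R₁; constructor <;> linarith

theorem one_add_cos_pos (hR0 : 0 < R) (hR : R < 1 / 2) : 0 < 1 + Real.cos (2 * π * R₁ R) := by
  obtain ⟨h1, h2⟩ := R₁_mem hR0 hR
  have : Real.cos π < Real.cos (2 * π * R₁ R) :=
    Real.cos_lt_cos_of_nonneg_of_le_pi (by have := (R₁_mem hR0 hR).1; nlinarith [Real.pi_pos]) le_rfl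
      (by nlinarith [Real.pi_pos])
  rw [Real.cos_pi] at this
  linarith

theorem den_pos (hR0 : 0 < R) (hR : R < 1 / 2) (t : ℝ) : 0 < den R (Real.cos t) := by
  have h0 := Real.smoothTransition.nonneg
    ((Real.cos (2 * π * R₁ R) - Real.cos t) / (1 + Real.cos (2 * π * R₁ R)))
  rcases (Real.neg_one_le_cos t).lt_or_eq with h | h
  · unfold den; linarith
  · unfold den
    rw [← h, Real.smoothTransition.one_of_one_le]
    · norm_num
    · rw [le_div_iff₀ (one_add_cos_pos hR0 hR)]; linarith

theorem contDiff_Phi1 (hR0 : 0 < R) (hR : R < 1 / 2) : ContDiff ℝ 1 (Phi1 R) := by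
  have hd : ContDiff ℝ 1 fun t => den R (Real.cos (2 * π * t)) := by
    unfold den
    exact (contDiff_const.add (Real.contDiff_cos.comp (contDiff_const.mul contDiff_id))).add
      (Real.smoothTransition.contDiff.comp
        ((contDiff_const.sub (Real.contDiff_cos.comp (contDiff_const.mul contDiff_id))).div_const _))
  exact (((Real.contDiff_sin.comp (contDiff_const.mul contDiff_id)).div hd
    fun t => (den_pos hR0 hR _).ne').arctan).div_const _

theorem Phi1_add_int (t : ℝ) (z : ℤ) : Phi1 R (t + z) = Phi1 R t := by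
  unfold Phi1
  rw [show 2 * π * (t + z) = 2 * π * t + z * (2 * π) by ring, Real.cos_add_int_mul_two_pi,
    Real.sin_add_int_mul_two_pi]

theorem Phi1_eq_rep (hR0 : 0 < R) (hR : R < 1 / 2) {t : ℝ} (ht : dd t < R₁ R) :
    Phi1 R t = rep t := by
  obtain ⟨h1, h2⟩ := R₁_mem hR0 hR
  set u := rep t with hu
  have hua : |u| < R₁ R := ht
  have hper : Phi1 R t = Phi1 R u := by
    rw [← Phi1_add_int (R := R) u (round t)]
    simp [u, rep]
  have hb := abs_lt.1 hua
  have hcos : Real.cos (2 * π * R₁ R) ≤ Real.cos (2 * π * u) := by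
    rw [← Real.cos_abs (2 * π * u), abs_mul, abs_of_pos Real.two_pi_pos]
    exact Real.cos_le_cos_of_nonneg_of_le_pi (by positivity) (by nlinarith [Real.pi_pos])
      (by nlinarith [Real.pi_pos])
  rw [hper]
  unfold Phi1 den
  rw [Real.smoothTransition.zero_of_nonpos
    (div_nonpos_of_nonpos_of_nonneg (by linarith) (one_add_cos_pos hR0 hR).le), add_zero]
  have hhalf : Real.sin (2 * π * u) / (1 + Real.cos (2 * π * u)) = Real.tan (π * u) := by
    rw [show 2 * π * u = 2 * (π * u) by ring, Real.sin_two_mul, Real.cos_two_mul, Real.tan_eq_sin_div_cos]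
    have hc : 0 < Real.cos (π * u) :=
      Real.cos_pos_of_mem_Ioo ⟨by nlinarith [Real.pi_pos], by nlinarith [Real.pi_pos]⟩
    field_simp
    ring
  rw [hhalf, Real.arctan_tan (by nlinarith [Real.pi_pos]) (by nlinarith [Real.pi_pos]),
    mul_div_cancel_left₀ _ Real.pi_ne_zero]

/-- Squared distance to the axis set in the coordinates of `S`. -/
def qS (S : Finset (Fin 3)) (x : V3) : ℝ := ∑ k ∈ S, dd (x k) ^ 2

theorem continuous_qS (S : Finset (Fin 3)) : Continuous (qS S) :=
  continuous_finsetSum _ fun k _ => (continuous_dd.comp (continuous_apply k)).pow 2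

theorem dd_lt_of_qS {S : Finset (Fin 3)} {x : V3} (hR0 : 0 ≤ R) (h : qS S x < R ^ 2) {k : Fin 3}
    (hk : k ∈ S) : dd (x k) < R := by
  have h1 : dd (x k) ^ 2 < R ^ 2 := lt_of_le_of_lt
    (Finset.single_le_sum (f := fun j => dd (x j) ^ 2) (fun j _ => sq_nonneg _) hk) h
  exact lt_of_pow_lt_pow_left₀ 2 hR0 h1

/-- Cut off. -/
def cut (R M p : ℝ) : ℝ := 1 - Real.smoothTransition ((p - R ^ 2) / (R ^ 2 * (M ^ 2 - 1)))

/-- The periodic horizontal calibration of radius `R` in the coordinates of `S`. -/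
def calA (S : Finset (Fin 3)) (R M : ℝ) (x : V3) : V3 := fun k =>
  if k ∈ S then cut R M (∑ j ∈ S, Phi1 R (x j) ^ 2) * Phi1 R (x k) / R else 0

variable {S : Finset (Fin 3)} {M : ℝ}

theorem contDiff_calA (hR0 : 0 < R) (hR : R < 1 / 2) : ContDiff ℝ 1 (calA S R M) := by
  refine contDiff_pi.2 fun k => ?_
  unfold calA
  have hP : ∀ j, ContDiff ℝ 1 fun x : V3 => Phi1 R (x j) := fun j =>
    (contDiff_Phi1 hR0 hR).comp (contDiff_apply ℝ ℝ j)
  by_cases hk : k ∈ S
  · simp only [hk, if_true]
    refine ((contDiff_const.sub (Real.smoothTransition.contDiff.comp ?_)).mul (hP k)).div_const _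
    exact ((ContDiff.sum fun j _ => (hP j).pow 2).sub contDiff_const).div_const _
  · simp only [hk, if_false]; exact contDiff_const

theorem periodic_calA : IsPeriodicFun (calA S R M) := fun x k => by
  funext j
  simp only [calA, Pi.add_apply, Phi1_add_int]

theorem calA_apply_of_notMem {k : Fin 3} (hk : k ∉ S) (x : V3) : calA S R M x k = 0 := by
  simp [calA, hk]

theorem calA_sq_le (hR0 : 0 < R) (hM : 1 < M) (x : V3) : ∑ k, calA S R M x k ^ 2 ≤ M ^ 2 := by
  set p := ∑ j ∈ S, Phi1 R (x j) ^ 2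
  have hsum : ∑ k, calA S R M x k ^ 2 = cut R M p ^ 2 * p / R ^ 2 := by
    rw [← Finset.sum_subset (Finset.subset_univ S) fun k _ hk => by
      simp [calA_apply_of_notMem hk]]
    rw [Finset.mul_sum, Finset.sum_div]
    refine Finset.sum_congr rfl fun k hk => ?_
    simp only [calA, hk, if_true, p]
    ring
  rw [hsum, div_le_iff₀ (by positivity)]
  have hM2 : 0 < M ^ 2 - 1 := by nlinarith
  rcases le_total p (R ^ 2 * M ^ 2) with h | h
  · have hc : cut R M p ^ 2 ≤ 1 := by
      have h0 := Real.smoothTransition.nonneg ((p - R ^ 2) / (R ^ 2 * (M ^ 2 - 1)))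
      have h1 := Real.smoothTransition.le_one ((p - R ^ 2) / (R ^ 2 * (M ^ 2 - 1)))
      unfold cut; nlinarith
    calc cut R M p ^ 2 * p ≤ 1 * p :=
          mul_le_mul_of_nonneg_right hc (Finset.sum_nonneg fun j _ => sq_nonneg _)
      _ ≤ M ^ 2 * R ^ 2 := by linarith
  · have : cut R M p = 0 := by
      rw [cut, Real.smoothTransition.one_of_one_le, sub_self]
      rw [le_div_iff₀ (by positivity)]; linarith
    rw [this]; simp; positivity

theorem calA_eventuallyEq (hR0 : 0 < R) (hR : R < 1 / 2) (hM : 1 < M) {x : V3}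
    (hx : qS S x < R ^ 2) :
    calA S R M =ᶠ[𝓝 x] fun z k => if k ∈ S then (z k - round (x k)) / R else 0 := by
  obtain ⟨h1, h2⟩ := R₁_mem hR0 hR
  have hopen : ∀ᶠ z in 𝓝 x, qS S z < R ^ 2 :=
    (isOpen_lt (continuous_qS S) continuous_const).mem_nhds hx
  have hrep : ∀ k ∈ S, ∀ᶠ z in 𝓝 x, rep (z k) = z k - round (x k) := fun k hk =>
    ((continuous_apply k).tendsto x).eventually
      (rep_eventuallyEq (by linarith [dd_lt_of_qS hR0.le hx hk]))
  filter_upwards [hopen, (Finset.eventually_all S).2 hrep] with z hz hr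
  have hP : ∀ k ∈ S, Phi1 R (z k) = rep (z k) := fun k hk =>
    Phi1_eq_rep hR0 hR ((dd_lt_of_qS hR0.le hz hk).trans h1)
  have hp : ∑ j ∈ S, Phi1 R (z j) ^ 2 = qS S z :=
    Finset.sum_congr rfl fun j hj => by rw [hP j hj, rep_sq]
  funext k
  by_cases hk : k ∈ S
  · simp only [calA, hk, if_true, hp, cut]
    rw [Real.smoothTransition.zero_of_nonpos
      (div_nonpos_of_nonpos_of_nonneg (by linarith)
        (mul_nonneg (sq_nonneg R) (by nlinarith))), sub_zero, one_mul, hP k hk,
      hr k hk]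
  · simp [calA, hk]

theorem calA_eq (hR0 : 0 < R) (hR : R < 1 / 2) (hM : 1 < M) {x : V3} (hx : qS S x < R ^ 2) :
    calA S R M x = fun k => if k ∈ S then rep (x k) / R else 0 := by
  rw [(calA_eventuallyEq hR0 hR hM hx).self_of_nhds]
  rfl

theorem div3_calA (hR0 : 0 < R) (hR : R < 1 / 2) (hM : 1 < M) {x : V3} (hx : qS S x < R ^ 2) :
    div3 (calA S R M) x = S.card / R := by
  unfold div3
  rw [(calA_eventuallyEq hR0 hR hM hx).fderiv_eq]
  have hd : ∀ k v, fderiv ℝ (fun (z : V3) (j : Fin 3) =>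
      if j ∈ S then (z j - round (x j)) / R else 0) x v k = if k ∈ S then v k / R else 0 := by
    intro k v
    have h : HasFDerivAt (fun (z : V3) (j : Fin 3) => if j ∈ S then (z j - round (x j)) / R else 0)
        (ContinuousLinearMap.pi fun j => if j ∈ S then
          (R⁻¹ : ℝ) • (ContinuousLinearMap.proj (R := ℝ) (φ := fun _ : Fin 3 => ℝ) j) else 0) x := by
      refine hasFDerivAt_pi.2 fun j => ?_
      by_cases hj : j ∈ S
      · simp only [hj, if_true, div_eq_inv_mul]
        exact ((hasFDerivAt_apply (𝕜 := ℝ) j x).sub_const _).const_mul _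
      · simp only [hj, if_false]
        exact hasFDerivAt_const _ _
    rw [h.fderiv, ContinuousLinearMap.pi_apply]
    by_cases hk : k ∈ S <;> simp [hk, div_eq_inv_mul]
  simp only [hd, e, Pi.single_eq_same]
  rw [Finset.sum_ite_mem, Finset.univ_inter, Finset.sum_const, nsmul_eq_mul]
  ring

/-- Coordinates off the axis `i`. -/
def hat (i : Fin 3) (x : V3) : Steiner.V2 := fun l => x (i.succAbove l)

/-- Periodisation of a function supported near `y₀`. -/
def perize (i : Fin 3) (y₀ : Steiner.V2) (g : Steiner.V2 → ℝ) (x : V3) : ℝ :=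
  g fun l => y₀ l + rep (x (i.succAbove l) - y₀ l)

theorem rep_add_int (t : ℝ) (z : ℤ) : rep (t + z) = rep t := by
  simp [rep, round_add_intCast]

theorem hat_insertNth (i : Fin 3) (y : Steiner.V2) (t : ℝ) : hat i (i.insertNth t y) = y := by
  funext l; simp [hat]

variable {i : Fin 3} {y₀ : Steiner.V2} {g : Steiner.V2 → ℝ} {η : ℝ}

theorem periodic_perize : IsPeriodicFun (perize i y₀ g) := fun x k => by
  simp only [perize, Pi.add_apply]
  congr 1
  funext l
  rw [show x (i.succAbove l) + (k (i.succAbove l) : ℝ) - y₀ l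
    = x (i.succAbove l) - y₀ l + (k (i.succAbove l) : ℝ) by ring, rep_add_int]

theorem perize_insertNth (y : Steiner.V2) (hy : ∀ l, y l - y₀ l ∈ Ico (-(1/2) : ℝ) (1/2))
    (t : ℝ) : perize i y₀ g (i.insertNth t y) = g y := by
  simp only [perize, Fin.insertNth_apply_succAbove]
  congr 1
  funext l
  rw [rep_of_mem (hy l)]; ring

theorem perize_eventuallyEq (hη : η < 1 / 2) (hg : tsupport g ⊆ Metric.closedBall y₀ η) (x : V3) :
    ∃ z : Steiner.V2, perize i y₀ g =ᶠ[𝓝 x] (fun w => g (hat i w - z)) ∨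
      perize i y₀ g =ᶠ[𝓝 x] 0 := by
  by_cases h : ∀ l, dd (x (i.succAbove l) - y₀ l) < 1 / 2
  · refine ⟨fun l => round (x (i.succAbove l) - y₀ l), Or.inl ?_⟩
    have : ∀ l, ∀ᶠ w in 𝓝 x, rep (w (i.succAbove l) - y₀ l)
        = w (i.succAbove l) - y₀ l - round (x (i.succAbove l) - y₀ l) := fun l =>
      (((continuous_apply (i.succAbove l)).sub continuous_const).tendsto x).eventually
        (rep_eventuallyEq (h l))
    filter_upwards [eventually_all.2 this] with w hw
    simp only [perize]
    congr 1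
    funext l
    rw [hw l]
    simp only [hat, Pi.sub_apply]
    ring
  · push Not at h
    obtain ⟨l, hl⟩ := h
    refine ⟨0, Or.inr ?_⟩
    have : ∀ᶠ w in 𝓝 x, η < dd (w (i.succAbove l) - y₀ l) :=
      ((continuous_dd.comp ((continuous_apply (i.succAbove l)).sub continuous_const)).tendsto x
        ).eventually (lt_mem_nhds (lt_of_lt_of_le hη hl))
    filter_upwards [this] with w hw
    show g _ = 0
    refine image_eq_zero_of_notMem_tsupport fun hmem => ?_
    have := (norm_le_pi_norm (_ : Steiner.V2) l).trans (mem_closedBall_iff_norm.1 (hg hmem))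
    simp only [Pi.sub_apply, add_sub_cancel_left, Real.norm_eq_abs] at this
    exact absurd hw (not_lt.2 (show dd (w (i.succAbove l) - y₀ l) ≤ η from this))

theorem contDiff_hat (i : Fin 3) : ContDiff ℝ 1 (hat i) :=
  contDiff_pi.2 fun l => contDiff_apply ℝ ℝ (i.succAbove l)

theorem contDiff_perize (hη : η < 1 / 2) (hg : ContDiff ℝ 1 g)
    (hgs : tsupport g ⊆ Metric.closedBall y₀ η) : ContDiff ℝ 1 (perize i y₀ g) := by
  refine contDiff_iff_contDiffAt.2 fun x => ?_
  obtain ⟨z, h | h⟩ := perize_eventuallyEq (i := i) hη hgs x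
  · exact ((hg.comp ((contDiff_hat i).sub contDiff_const)).contDiffAt).congr_of_eventuallyEq h
  · exact contDiffAt_const.congr_of_eventuallyEq h

theorem fderiv_perize (hg : ContDiff ℝ 1 g) (y : Steiner.V2)
    (hy : ∀ l, y l - y₀ l ∈ Ioo (-(1/2) : ℝ) (1/2)) (t : ℝ) (l : Fin 2) :
    fderiv ℝ (perize i y₀ g) (i.insertNth t y) (e (i.succAbove l))
      = fderiv ℝ g y (Pi.single l 1) := by
  have hev : perize i y₀ g =ᶠ[𝓝 (i.insertNth t y : V3)] fun w => g (hat i w) := by
    have : ∀ l, ∀ᶠ w : V3 in 𝓝 (i.insertNth t y : V3),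
        w (i.succAbove l) - y₀ l ∈ Ioo (-(1/2) : ℝ) (1/2) := fun l =>
      (((continuous_apply (i.succAbove l)).sub continuous_const).tendsto _).eventually
        (Ioo_mem_nhds (by simpa using (hy l).1) (by simpa using (hy l).2))
    filter_upwards [eventually_all.2 this] with w hw
    simp only [perize]
    congr 1
    funext l
    rw [rep_of_mem (Ioo_subset_Ico_self (hw l))]
    simp [hat]
  set L : V3 →L[ℝ] Steiner.V2 := ContinuousLinearMap.pi fun l =>
    ContinuousLinearMap.proj (R := ℝ) (φ := fun _ : Fin 3 => ℝ) (i.succAbove l)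
  have h1 : HasFDerivAt (fun w : V3 => g (hat i w))
      ((fderiv ℝ g y).comp L) (i.insertNth t y : V3) := by
    have hL : HasFDerivAt (hat i) L (i.insertNth t y : V3) := L.hasFDerivAt
    have := (hg.differentiable (by norm_num) (hat i (i.insertNth t y))).hasFDerivAt.comp _ hL
    rwa [hat_insertNth] at this
  rw [hev.fderiv_eq, h1.fderiv, ContinuousLinearMap.comp_apply]
  congr 1
  funext k
  rcases eq_or_ne k l with rfl | hk
  · simp [L, e]
  · simp [L, e, hk, (Fin.succAbove_right_injective (p := i)).ne hk]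

end

end Vale.P232
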