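import Vale.Agent.P232.ShapeFacts
import Vale.Agent.P232.SteinerLiftCal

/-!
P232: balls, tubes and slabs have at least the expected perimeter.
-/

open MeasureTheory Real Set Filter Topology
open scoped ENNReal

namespace Vale.P232

noncomputable section

/-- The calibrated lower bound. -/
theorem le_perimeter_shapeAt_zero (W : Finset (Fin 3)) {R : ℝ} (hR0 : 0 < R) (hR : R < 1 / 2) :
    ENNReal.ofReal (W.card * tvol (shapeAt W 0 R) / R) ≤ perimeter (shapeAt W 0 R) := by
  set a := (W.card : ℝ) * tvol (shapeAt W 0 R) / R with ha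
  have hsub : ∀ x ∈ shapeAt W 0 R, qS W x < R ^ 2 := fun x hx => by
    simpa [shapeAt, qS] using hx
  have key : ∀ M : ℝ, 1 < M → ENNReal.ofReal (a / M) ≤ perimeter (shapeAt W 0 R) := by
    intro M hM
    have hM0 : 0 < M := by linarith
    set X : V3 → V3 := fun x => M⁻¹ • calA W R M x with hX
    have hXt : IsTestField X := by
      refine ⟨(contDiff_calA hR0 hR).const_smul M⁻¹, fun x k => ?_, fun x => ?_⟩
      · simp only [hX]; rw [periodic_calA x k]
      · have h := calA_sq_le (S := W) hR0 hM x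
        simp only [hX, Pi.smul_apply, smul_eq_mul, mul_pow, ← Finset.mul_sum]
        rw [inv_pow, inv_mul_le_iff₀ (by positivity), mul_one]
        exact h
    refine le_trans (le_of_eq ?_) (le_iSup₂ (f := fun X (_ : IsTestField X) =>
      ENNReal.ofReal (∫ x in shapeAt W 0 R ∩ cube, div3 X x)) X hXt)
    have hdiv : ∀ x ∈ shapeAt W 0 R ∩ cube, div3 X x = M⁻¹ * (W.card / R) := fun x hx => by
      rw [← div3_calA (S := W) hR0 hR hM (hsub x hx.1)]
      have hd : DifferentiableAt ℝ (calA W R M) x :=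
        ((contDiff_calA hR0 hR).differentiable (by norm_num)).differentiableAt
      unfold div3
      rw [Finset.mul_sum]
      refine Finset.sum_congr rfl fun i _ => ?_
      simp only [hX]
      rw [fderiv_fun_const_smul hd]
      rfl
    rw [setIntegral_congr_fun ((measurableSet_shapeAt W 0 R).inter measurableSet_cube) hdiv,
      setIntegral_const, smul_eq_mul, ha, tvol, measureReal_def]
    congr 1
    field_simp
  have ht : Tendsto (fun M : ℝ => ENNReal.ofReal (a / M)) (𝓝[>] 1) (𝓝 (ENNReal.ofReal a)) := by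
    refine ENNReal.tendsto_ofReal (tendsto_nhdsWithin_of_tendsto_nhds ?_)
    have h1 : Continuous fun M : ℝ => M := continuous_id
    have h := (tendsto_const_nhds (x := a) (f := 𝓝 (1:ℝ))).div (h1.tendsto 1) one_ne_zero
    rw [div_one] at h
    exact h
  refine le_of_tendsto ht ?_
  filter_upwards [self_mem_nhdsWithin] with M hM using key M hM

/-- Translation invariance in the form used here. -/
theorem le_perimeter_shapeAt (W : Finset (Fin 3)) (c : V3) {R : ℝ} (hR0 : 0 < R) (hR : R < 1 / 2) :
    ENNReal.ofReal (W.card * tvol (shapeAt W c R) / R) ≤ perimeter (shapeAt W c R) := by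
  have h0 : shapeAt W 0 R = {x | x + c ∈ shapeAt W c R} := by
    ext x
    simp [shapeAt]
  have hv : tvol (shapeAt W c R) = tvol (shapeAt W 0 R) := by rw [tvol_shapeAt, tvol_shapeAt]
  rw [hv]
  refine (le_perimeter_shapeAt_zero W hR0 hR).trans ?_
  rw [h0]
  exact perimeter_shift (measurableSet_shapeAt W c R) (isPeriodic_shapeAt W c R) c

theorem le_perimeter_of_isBallSet {E : Set V3} (_hE : MeasurableSet E) (_hp : IsPeriodic E)
    (h : IsBallSet E) (hv : tvol E ≤ 1 / 2) :
    ENNReal.ofReal (ballP (tvol E)) ≤ perimeter E := by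
  obtain ⟨c, R, h0, h1, hae⟩ := h
  rw [tvol_congr_ae hae, tvol_shapeAt_univ h0 h1] at hv
  have hlt : R < 1 / 2 := by
    refine lt_of_le_of_ne h1 fun e => ?_
    subst e
    linarith [Real.pi_gt_three]
  rw [perimeter_congr_ae hae, tvol_congr_ae hae]
  refine le_trans (ENNReal.ofReal_le_ofReal (le_of_eq ?_)) (le_perimeter_shapeAt _ c h0 hlt)
  rw [tvol_shapeAt_univ h0 h1, ballP_ball h0, Finset.card_univ, Fintype.card_fin]
  field_simp
  norm_num

theorem le_perimeter_of_isTubeSet {E : Set V3} (_hE : MeasurableSet E) (_hp : IsPeriodic E)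
    (h : IsTubeSet E) (hv : tvol E ≤ 1 / 2) :
    ENNReal.ofReal (tubeP (tvol E)) ≤ perimeter E := by
  obtain ⟨i, c, R, h0, h1, hae⟩ := h
  rw [tvol_congr_ae hae, tvol_shapeAt_compl i h0 h1] at hv
  have hlt : R < 1 / 2 := by
    refine lt_of_le_of_ne h1 fun e => ?_
    subst e
    linarith [Real.pi_gt_three]
  rw [perimeter_congr_ae hae, tvol_congr_ae hae]
  refine le_trans (ENNReal.ofReal_le_ofReal (le_of_eq ?_)) (le_perimeter_shapeAt _ c h0 hlt)
  rw [tvol_shapeAt_compl i h0 h1, tubeP_tube h0, Finset.card_compl, Finset.card_singleton,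
    Fintype.card_fin]
  field_simp
  norm_num

theorem le_perimeter_of_isSlabSet {E : Set V3} (_hE : MeasurableSet E) (_hp : IsPeriodic E)
    (h : IsSlabSet E) : ENNReal.ofReal 2 ≤ perimeter E := by
  obtain ⟨i, c, R, h0, h1, hae⟩ := h
  rw [perimeter_congr_ae hae]
  refine le_trans (ENNReal.ofReal_le_ofReal (le_of_eq ?_)) (le_perimeter_shapeAt _ c h0 h1)
  rw [tvol_shapeAt_single i h0 h1.le, Finset.card_singleton]
  field_simp
  norm_num

end

end Vale.P232
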