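import Vale.Agent.P232.RigidMain
import Vale.Agent.P232.RigidSymm
import Vale.Agent.P232.RigidCorner
import Vale.Agent.P232.RigidShape
import Vale.Agent.P232.RigidProfile
import Vale.Agent.P232.LevelSeqExist2
import Vale.Agent.P232.DesymChain
import Vale.Agent.P232.ShapeLower

/-!
P232: all minimisers, with no hypothesis left.
-/

open MeasureTheory Real Set

namespace Vale.P232

noncomputable section

/-- Symmetric monotone minimisers of volume at most `1/π`. -/
theorem centredShape_of_symMono {F : Set V3} (hF : MeasurableSet F) (hs : SymMono F)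
    (hv : tvol F ∈ Ioc (0:ℝ) (1 / π)) (hP : perimeter F ≤ ENNReal.ofReal (candJ (tvol F))) :
    IsCentredShape F :=
  centredShape_of_minimal
    (fun hE hs h0 h1 hP G hG => exists_levelSeq hE hs h0 h1 hP G hG)
    (fun hE hs hv S hd hc => shape_of_disc hE hs hv S hd hc (profile_of_disc hE hs hv S hd hc))
    (fun hE hs hv S hd hc => shape_of_corner hE hs hv S hd hc) hF hs hv hP

theorem shapePerimeters : ShapePerimeters where
  ball_le := fun hF hp h => perimeter_of_isBallSet hF hp h
  tube_le := fun hF hp h => perimeter_of_isTubeSet hF hp h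
  slab_le := fun hF hp h => perimeter_of_isSlabSet hF hp h
  le_ball := fun hF hp h hv => le_perimeter_of_isBallSet hF hp h hv
  le_tube := fun hF hp h hv => le_perimeter_of_isTubeSet hF hp h hv
  le_slab := fun hF hp h => le_perimeter_of_isSlabSet hF hp h

/-- The minimisers at every volume. -/
theorem minimiser_iff_proved {V : ℝ} (hV : V ∈ Ioo (0:ℝ) 1) {E : Set V3} (hE : MeasurableSet E)
    (hp : IsPeriodic E) (hv : tvol E = V) :
    perimeter E = profile V ↔ ∃ F : Set V3, ((F = E ∧ V ≤ 1 / 2) ∨ (F = Eᶜ ∧ 1 / 2 ≤ V)) ∧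
      IsOptimalShape (min V (1 - V)) F :=
  minimiser_iff (fun hE hp hv hP => classify_of_symMono_chain
    (fun hF hs hv hP => centredShape_of_symMono hF hs hv hP) hE hp hv hP) shapePerimeters hV hE hp hv

end

end Vale.P232
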