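import Vale.Agent.P232.RigidDefs
import Vale.Agent.P232.HeatPeriodic

/-!
P232: shared facts for the limit modules of the classification of minimisers.
-/

open MeasureTheory Real Set Filter Topology
open scoped ENNReal

namespace Vale.P232

noncomputable section

namespace CoreFun

variable {f : V3 → ℝ}

/-- The slicing inequality with a flux bound, in real numbers. -/
theorem flux_bound_real (hf : CoreFun f) (t : ℝ) {c ℓ : ℝ → ℝ} (hcm : Measurable c)
    (hc : ∀ a, c a ∈ Icc (0:ℝ) 1)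
    (hli : IntegrableOn ℓ (Ioo (0:ℝ) (1/2))) (hfl : Flux hf t (Ioo (0:ℝ) (1/2)) ℓ)
    {M : ℝ} (hM : 0 ≤ M) (hQ : Qz f t ≤ ENNReal.ofReal M) :
    2 * (∫ z in Ioo (0:ℝ) (1/2), c (sliceA f t z) * ℓ z)
      + 2 * (∫ s in (sliceA f t (1/2))..(sliceA f t 0), √(1 - c s ^ 2)) ≤ M := by
  refine le_of_forall_pos_le_add fun ε hε => ?_
  obtain ⟨a, b, ham, hbm, ha, hb, hab, hfl'⟩ := hfl ε hε
  have hbnd := (hf.slice_bound t (ℓ := fun z => max (ℓ z - ε) 0) hcm hc ham hbm ha hb hab
    ((ae_restrict_mem measurableSet_Ioo).mono fun z hz => by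
      rw [show ENNReal.ofReal (max (ℓ z - ε) 0) = ENNReal.ofReal (ℓ z - ε) by
        rcases le_total (ℓ z - ε) 0 with h | h
        · rw [max_eq_right h, ENNReal.ofReal_zero, ENNReal.ofReal_eq_zero.2 h]
        · rw [max_eq_left h]]
      exact hfl' z ⟨hz, hz⟩)).trans hQ
  set A := sliceA f t with hA
  have h10 : A (1/2) ≤ A 0 :=
    hf.antitone_sliceA t ⟨le_refl _, by norm_num⟩ ⟨by norm_num, le_refl _⟩ (by norm_num)
  have hcA : Measurable fun z => c (A z) := hcm.comp (hf.continuous_sliceA t).measurable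
  have hconst : IntegrableOn (fun _ : ℝ => ε) (Ioo (0:ℝ) (1/2)) :=
    integrableOn_const (by simp [Real.volume_Ioo])
  have hmax : IntegrableOn (fun z => max (ℓ z - ε) 0) (Ioo (0:ℝ) (1/2)) :=
    (hli.sub hconst).sup (integrableOn_const (by simp [Real.volume_Ioo]))
  have hnorm : ∀ z, ‖c (A z)‖ ≤ 1 := fun z => by
    rw [Real.norm_eq_abs, abs_of_nonneg (hc _).1]; exact (hc _).2
  have hg : IntegrableOn (fun z => c (A z) * max (ℓ z - ε) 0) (Ioo (0:ℝ) (1/2)) :=
    hmax.bdd_mul hcA.aestronglyMeasurable (ae_of_all _ hnorm)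
  have hcl : IntegrableOn (fun z => c (A z) * ℓ z) (Ioo (0:ℝ) (1/2)) :=
    hli.bdd_mul hcA.aestronglyMeasurable (ae_of_all _ hnorm)
  have hsint : IntegrableOn (fun s => √(1 - c s ^ 2)) (Ioc (A (1/2)) (A 0)) := by
    refine Integrable.mono' (integrableOn_const (C := (1:ℝ)) (by simp [Real.volume_Ioc]))
      (((hcm.pow_const 2).const_sub 1).sqrt).aestronglyMeasurable
      (ae_of_all _ fun s => ?_)
    rw [Real.norm_eq_abs, abs_of_nonneg (Real.sqrt_nonneg _), Real.sqrt_le_one]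
    nlinarith [sq_nonneg (c s)]
  have e1 : ENNReal.ofReal (∫ z in Ioo (0:ℝ) (1/2), c (A z) * max (ℓ z - ε) 0) =
      ∫⁻ z in Ioo (0:ℝ) (1/2), ENNReal.ofReal (c (A z) * max (ℓ z - ε) 0) :=
    ofReal_integral_eq_lintegral_ofReal hg
      (ae_of_all _ fun z => mul_nonneg (hc _).1 (le_max_right _ _))
  have e2 : ENNReal.ofReal (∫ s in (A (1/2))..(A 0), √(1 - c s ^ 2)) =
      ∫⁻ s in Ioc (A (1/2)) (A 0), ENNReal.ofReal (√(1 - c s ^ 2)) := by
    rw [intervalIntegral.integral_of_le h10]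
    exact ofReal_integral_eq_lintegral_ofReal hsint (ae_of_all _ fun s => Real.sqrt_nonneg _)
  have n1 : 0 ≤ ∫ z in Ioo (0:ℝ) (1/2), c (A z) * max (ℓ z - ε) 0 :=
    integral_nonneg fun z => mul_nonneg (hc _).1 (le_max_right _ _)
  have n2 : 0 ≤ ∫ s in (A (1/2))..(A 0), √(1 - c s ^ 2) :=
    intervalIntegral.integral_nonneg h10 fun s _ => Real.sqrt_nonneg _
  rw [← e1, ← e2, ← ENNReal.ofReal_ofNat 2, ← ENNReal.ofReal_mul (by norm_num),
    ← ENNReal.ofReal_mul (by norm_num), ← ENNReal.ofReal_add (by positivity) (by positivity),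
    ENNReal.ofReal_le_ofReal_iff hM] at hbnd
  have hge : (∫ z in Ioo (0:ℝ) (1/2), c (A z) * ℓ z) - ε / 2 ≤
      ∫ z in Ioo (0:ℝ) (1/2), c (A z) * max (ℓ z - ε) 0 := by
    have h := integral_mono (μ := volume.restrict (Ioo (0:ℝ) (1/2))) (hcl.sub hconst) hg fun z => by
      simp only [Pi.sub_apply]
      have h1 := mul_le_mul_of_nonneg_left (le_max_left (ℓ z - ε) 0) (hc (A z)).1
      have h2 : c (A z) * ε ≤ ε := mul_le_of_le_one_left hε.le (hc _).2
      rw [mul_sub] at h1
      linarith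
    simp only [Pi.sub_apply] at h
    rw [integral_sub hcl hconst, setIntegral_const,
      Real.volume_real_Ioo_of_le (by norm_num)] at h
    simp only [smul_eq_mul] at h
    linarith
  linarith

end CoreFun

/-! ### Operations on level sequences -/

variable {E : Set V3}

/-- A subsequence. -/
def LevelSeq.sub (S : LevelSeq E) {φ : ℕ → ℕ} (hφ : StrictMono φ) : LevelSeq E where
  f n := S.f (φ n)
  t n := S.t (φ n)
  core n := S.core (φ n)
  mem n := S.mem (φ n)
  vol n := S.vol (φ n)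
  close := S.close.comp hφ.tendsto_atTop
  excess ε hε := hφ.tendsto_atTop.eventually (S.excess ε hε)

lemma abs_tvol_sub_le {A B : Set V3} (hA : MeasurableSet A) (hB : MeasurableSet B) :
    |tvol A - tvol B| ≤ tvol (symmDiff A B) := by
  have hne : ∀ X : Set V3, volume (X ∩ cube) ≠ ⊤ := fun X =>
    ((measure_mono inter_subset_right).trans_lt (by simp [volume_cube_eq_one])).ne
  have key : ∀ {X Y : Set V3}, tvol X ≤ tvol Y + tvol (symmDiff X Y) := by
    intro X Y
    unfold tvol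
    rw [← ENNReal.toReal_add (hne _) (hne _)]
    refine ENNReal.toReal_mono (ENNReal.add_ne_top.2 ⟨hne _, hne _⟩)
      ((measure_mono fun x hx => ?_).trans (measure_union_le _ _))
    by_cases hy : x ∈ Y
    · exact Or.inl ⟨hy, hx.2⟩
    · exact Or.inr ⟨Or.inl ⟨hx.1, hy⟩, hx.2⟩
  rw [abs_sub_le_iff]
  constructor
  · linarith [key (X := A) (Y := B)]
  · have := key (X := B) (Y := A)
    rw [symmDiff_comm B A] at this
    linarith

lemma LevelSeq.measurableSet_level (S : LevelSeq E) (n : ℕ) :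
    MeasurableSet {p | S.t n < S.f n p} :=
  measurableSet_lt measurable_const (S.core n).continuous.measurable

lemma LevelSeq.tendsto_tvol (S : LevelSeq E) (hE : MeasurableSet E) :
    Tendsto (fun n => tvol {p | S.t n < S.f n p}) atTop (𝓝 (tvol E)) := by
  refine tendsto_iff_norm_sub_tendsto_zero.2 (squeeze_zero (fun n => norm_nonneg _) (fun n => ?_)
    S.close)
  rw [Real.norm_eq_abs]
  exact abs_tvol_sub_le (S.measurableSet_level n) hE

lemma sliceA_mem_Icc {f : V3 → ℝ} (hf : CoreFun f) (t z : ℝ) : sliceA f t z ∈ Icc (0:ℝ) 1 :=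
  ⟨CoreFun.sliceA_nonneg t z, hf.sliceA_le_one t z⟩

end

end Vale.P232
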