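import Vale.Agent.P232.Heat

/-!
P232, slab range: functions with locally parallel gradients, and unimodal periodic functions.
-/

open MeasureTheory Set Filter Topology Metric

namespace Vale.P232.SlabUnique

noncomputable section

/-- The gradient. -/
def grad (f : V3 → ℝ) (x : V3) : V3 := fun i => fderiv ℝ f x (e i)

theorem fderiv_eq_sum_grad (f : V3 → ℝ) (x w : V3) : fderiv ℝ f x w = ∑ i, grad f x i * w i :=
  fderiv_apply_eq f x w

theorem gradLen_eq_grad (f : V3 → ℝ) (x : V3) :
    gradLen f x = Real.sqrt (∑ i, grad f x i ^ 2) := rfl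

theorem sum_sq_pos {u : V3} (hu : u ≠ 0) : 0 < ∑ i, u i ^ 2 := by
  rcases (Finset.sum_nonneg fun i (_ : i ∈ Finset.univ) => sq_nonneg (u i)).eq_or_lt with h | h
  · refine absurd (funext fun i => ?_) hu
    simpa using (Finset.sum_eq_zero_iff_of_nonneg fun i _ => sq_nonneg (u i)).1 h.symm i
      (Finset.mem_univ i)
  · exact h

/-- Equality in the triangle inequality forces parallel vectors. -/
theorem parallel_of_len_add {u v : V3} (hu : u ≠ 0)
    (h : Real.sqrt (∑ i, u i ^ 2) + Real.sqrt (∑ i, v i ^ 2) ≤ Real.sqrt (∑ i, (u i + v i) ^ 2)) :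
    ∃ c : ℝ, v = c • u := by
  have ha := sum_sq_pos hu
  have hb : 0 ≤ ∑ i, v i ^ 2 := Finset.sum_nonneg fun i _ => sq_nonneg _
  have hab : 0 ≤ ∑ i, (u i + v i) ^ 2 := Finset.sum_nonneg fun i _ => sq_nonneg _
  set a := ∑ i, u i ^ 2 with hadef
  set b := ∑ i, v i ^ 2 with hbdef
  set d := ∑ i, u i * v i with hddef
  have hexp : ∑ i, (u i + v i) ^ 2 = a + 2 * d + b := by
    simp only [a, b, d, Fin.sum_univ_three]; ring
  have h2 := pow_le_pow_left₀ (by positivity) h 2
  rw [add_sq, Real.sq_sqrt hab, Real.sq_sqrt ha.le, Real.sq_sqrt hb, hexp] at h2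
  have hd : Real.sqrt a * Real.sqrt b ≤ d := by linarith
  have hd2 : a * b ≤ d ^ 2 := by
    have := pow_le_pow_left₀ (by positivity) hd 2
    rwa [mul_pow, Real.sq_sqrt ha.le, Real.sq_sqrt hb] at this
  refine ⟨d / a, funext fun i => ?_⟩
  have h0 : ∑ j, (v j - d / a * u j) ^ 2 ≤ 0 := by
    have e : ∑ j, (v j - d / a * u j) ^ 2 = b - 2 * (d / a) * d + (d / a) ^ 2 * a := by
      simp only [a, b, d, Fin.sum_univ_three]; ring
    rw [e, show b - 2 * (d / a) * d + (d / a) ^ 2 * a = (a * b - d ^ 2) / a by field_simp; ring]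
    exact div_nonpos_of_nonpos_of_nonneg (by linarith) ha.le
  have := (Finset.single_le_sum (fun j _ => sq_nonneg (v j - d / a * u j))
    (Finset.mem_univ i)).trans h0
  have := pow_eq_zero_iff two_ne_zero |>.1 (le_antisymm this (sq_nonneg _))
  simp only [Pi.smul_apply, smul_eq_mul]
  linarith

section Plane

variable {f : V3 → ℝ}

theorem eq_of_dir_zero (hf : ContDiff ℝ 1 f) {y w : V3}
    (h : ∀ s ∈ Icc (0 : ℝ) 1, fderiv ℝ f (y + s • w) w = 0) : f (y + w) = f y := by
  have hd : ∀ s ∈ uIcc (0 : ℝ) 1, HasDerivAt (fun s => f (y + s • w)) ((fun _ => (0 : ℝ)) s) s := by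
    intro s hs
    have h1 : HasDerivAt (fun s : ℝ => y + s • w) w s := by
      simpa using ((hasDerivAt_id s).smul_const w).const_add y
    have h2 := (hf.differentiable one_ne_zero _).hasFDerivAt.comp_hasDerivAt s h1
    rw [h s (by rwa [uIcc_of_le zero_le_one] at hs)] at h2
    exact h2
  have := intervalIntegral.integral_eq_sub_of_hasDerivAt hd intervalIntegrable_const
  simp at this
  linarith

variable {δ : ℝ} (hpar : ∀ x y : V3, ‖y - x‖ < δ → grad f x ≠ 0 → ∃ c : ℝ, grad f y = c • grad f x)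

include hpar in
theorem grad_step (hf : ContDiff ℝ 1 f) {x w : V3} (hx : grad f x ≠ 0) (hw : ‖w‖ < δ / 2)
    (ho : ∑ i, grad f x i * w i = 0) : grad f (x + w) = grad f x := by
  have hev : (fun y => f (y + w)) =ᶠ[𝓝 x] f := by
    filter_upwards [ball_mem_nhds x (show 0 < δ / 2 by linarith [norm_nonneg w])] with y hy
    rw [mem_ball, dist_eq_norm] at hy
    refine eq_of_dir_zero hf fun s hs => ?_
    have hn : ‖y + s • w - x‖ < δ := by
      rw [show y + s • w - x = (y - x) + s • w by abel]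
      refine lt_of_le_of_lt (norm_add_le _ _) ?_
      rw [norm_smul, Real.norm_eq_abs, abs_of_nonneg hs.1]
      nlinarith [hs.2, norm_nonneg w]
    obtain ⟨c, hc⟩ := hpar x _ hn hx
    rw [fderiv_eq_sum_grad, hc]
    simp only [Pi.smul_apply, smul_eq_mul, mul_assoc, ← Finset.mul_sum, ho, mul_zero]
  have h := hev.fderiv_eq (𝕜 := ℝ)
  rw [fderiv_comp_add_right] at h
  funext i
  simp only [grad, h]

include hpar in
theorem grad_plane (hf : ContDiff ℝ 1 f) (hδ : 0 < δ) {x w : V3} (hx : grad f x ≠ 0)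
    (ho : ∑ i, grad f x i * w i = 0) : grad f (x + w) = grad f x := by
  obtain ⟨N, hN⟩ := exists_nat_gt (‖w‖ / (δ / 2))
  have hN0 : (0 : ℝ) < N := lt_of_le_of_lt (by positivity) hN
  set s : V3 := (1 / (N : ℝ)) • w
  have hs : ‖s‖ < δ / 2 := by
    rw [norm_smul, Real.norm_eq_abs, abs_of_pos (by positivity), div_mul_eq_mul_div, one_mul,
      div_lt_iff₀ hN0]
    rw [div_lt_iff₀ (by positivity)] at hN
    linarith
  have key : ∀ k : ℕ, grad f (x + (k : ℝ) • s) = grad f x := by
    intro k
    induction k with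
    | zero => simp
    | succ k ih =>
      have e : x + ((k + 1 : ℕ) : ℝ) • s = (x + (k : ℝ) • s) + s := by
        push_cast; rw [add_smul, one_smul, add_assoc]
      rw [e, grad_step hpar hf (by rw [ih]; exact hx) hs ?_, ih]
      rw [ih]
      simp only [s, Pi.smul_apply, smul_eq_mul, mul_left_comm _ (1 / (N : ℝ)), ← Finset.mul_sum, ho,
        mul_zero]
  have := key N
  rwa [smul_smul, mul_one_div, div_self hN0.ne', one_smul] at this

include hpar in
/-- All gradients are parallel to one vector. -/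
theorem grad_parallel (hf : ContDiff ℝ 1 f) (hδ : 0 < δ) {x1 : V3} (h1 : grad f x1 ≠ 0) (x : V3) :
    ∃ c : ℝ, grad f x = c • grad f x1 := by
  by_cases hx : grad f x = 0
  · exact ⟨0, by simp [hx]⟩
  set g := grad f x1 with hg
  set h := grad f x with hh
  set a := ∑ i, g i ^ 2 with ha
  have ha0 : 0 < a := sum_sq_pos h1
  set b := ∑ i, g i * h i with hb
  set w : V3 := h - (b / a) • g with hw
  by_cases hw0 : w = 0
  · exact ⟨b / a, by rw [hw, sub_eq_zero] at hw0; exact hw0⟩
  exfalso
  have hgw : ∑ i, g i * w i = 0 := by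
    have : ∑ i, g i * w i = b - b / a * a := by
      simp only [hw, a, b, Pi.sub_apply, Pi.smul_apply, smul_eq_mul, Fin.sum_univ_three]; ring
    rw [this, div_mul_cancel₀ _ ha0.ne', sub_self]
  have hhw : 0 < ∑ i, h i * w i := by
    have : ∑ i, h i * w i = ∑ i, w i ^ 2 + b / a * ∑ i, g i * w i := by
      simp only [hw, Pi.sub_apply, Pi.smul_apply, smul_eq_mul, Fin.sum_univ_three]; ring
    rw [this, hgw, mul_zero, add_zero]
    exact sum_sq_pos hw0
  set s := (∑ i, h i * (x i - x1 i)) / ∑ i, h i * w i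
  have e1 : grad f (x1 + s • w) = g := grad_plane hpar hf hδ h1 (by
    simp only [Pi.smul_apply, smul_eq_mul, mul_left_comm _ s, ← Finset.mul_sum]
    rw [show (∑ i, grad f x1 i * w i) = 0 from hgw, mul_zero])
  have e2 : grad f (x + (x1 + s • w - x)) = h := grad_plane hpar hf hδ hx (by
    have : ∑ i, h i * (x1 + s • w - x) i
        = s * (∑ i, h i * w i) - ∑ i, h i * (x i - x1 i) := by
      simp only [Pi.sub_apply, Pi.add_apply, Pi.smul_apply, smul_eq_mul, Fin.sum_univ_three]; ring
    show ∑ i, h i * (x1 + s • w - x) i = 0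
    rw [this, div_mul_cancel₀ _ hhw.ne', sub_self])
  rw [add_sub_cancel, e1] at e2
  have : ∑ i, h i * w i = 0 := by rw [← e2]; exact hgw
  linarith

include hpar in
theorem invariant_perp (hf : ContDiff ℝ 1 f) (hδ : 0 < δ) {x1 : V3} (h1 : grad f x1 ≠ 0) (x : V3)
    {w : V3} (ho : ∑ i, grad f x1 i * w i = 0) : f (x + w) = f x :=
  eq_of_dir_zero hf fun s _ => by
    obtain ⟨c, hc⟩ := grad_parallel hpar hf hδ h1 (x + s • w)
    rw [fderiv_eq_sum_grad, hc]
    simp only [Pi.smul_apply, smul_eq_mul, mul_assoc, ← Finset.mul_sum, ho, mul_zero]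

end Plane

section Line

variable {F F' : ℝ → ℝ}

theorem abs_sub_le_integral (hF : ∀ s, HasDerivAt F (F' s) s) (hc : Continuous F') {u v : ℝ}
    (huv : u ≤ v) : |F v - F u| ≤ ∫ s in u..v, |F' s| := by
  rw [← intervalIntegral.integral_eq_sub_of_hasDerivAt (fun s _ => hF s) (hc.intervalIntegrable _ _)]
  exact intervalIntegral.abs_integral_le_integral_abs huv

/-- A periodic function rises and falls over a period. -/
theorem two_mul_sub_le (hF : ∀ s, HasDerivAt F (F' s) s) (hc : Continuous F')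
    (hp : Function.Periodic F 1) (hp' : Function.Periodic F' 1) (a b : ℝ) :
    2 * (F a - F b) ≤ ∫ s in (0 : ℝ)..1, |F' s| := by
  set a' := b + Int.fract (a - b)
  have ha : F a' = F a := by
    have : a' = a - (⌊a - b⌋ : ℝ) * 1 := by simp only [a', Int.fract]; ring
    rw [this]
    exact hp.sub_int_mul_eq _
  have h0 : b ≤ a' := le_add_of_nonneg_right (Int.fract_nonneg _)
  have h1 : a' ≤ b + 1 := by linarith [Int.fract_lt_one (a - b)]
  have hper : Function.Periodic (fun s => |F' s|) 1 := fun s => by simp only [hp' s]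
  have e := hper.intervalIntegral_add_eq 0 b
  rw [zero_add] at e
  rw [e, ← intervalIntegral.integral_add_adjacent_intervals
    (b := a') (hc.abs.intervalIntegrable _ _) (hc.abs.intervalIntegrable _ _)]
  have i1 := abs_sub_le_integral hF hc h0
  have i2 := abs_sub_le_integral hF hc h1
  have i1' := le_abs_self (F a' - F b)
  have i2' := neg_abs_le (F (b + 1) - F a')
  rw [hp b] at i2 i2'
  linarith

/-- A periodic function with minimal variation exceeds `1/2` on one interval per period. -/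
theorem unimodal (hF : ∀ s, HasDerivAt F (F' s) s) (hc : Continuous F')
    (hp : Function.Periodic F 1) (hp' : Function.Periodic F' 1)
    {a b : ℝ} (ha : F a = 1) (hb : F b = 0) (hTV : ∫ s in (0 : ℝ)..1, |F' s| ≤ 2) :
    ∃ p q : ℝ, p ∈ Icc (0 : ℝ) 1 ∧ q ∈ Icc (0 : ℝ) 2 ∧
      (∀ (s : ℝ) (z : ℤ), p < s - z → s - z < q → 1 / 2 < F s) ∧
      (∀ s, 1 / 2 < F s → ∃ z : ℤ, p ≤ s - z ∧ s - z ≤ q) := by
  set a' := b + Int.fract (a - b)
  have ha' : F a' = 1 := by
    have : a' = a - (⌊a - b⌋ : ℝ) * 1 := by simp only [a', Int.fract]; ring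
    rw [this, hp.sub_int_mul_eq, ha]
  have h0 : b ≤ a' := le_add_of_nonneg_right (Int.fract_nonneg _)
  have h1 : a' ≤ b + 1 := by linarith [Int.fract_lt_one (a - b)]
  have hper : Function.Periodic (fun s => |F' s|) 1 := fun s => by simp only [hp' s]
  have e := hper.intervalIntegral_add_eq 0 b
  rw [zero_add] at e
  rw [e, ← intervalIntegral.integral_add_adjacent_intervals
    (b := a') (hc.abs.intervalIntegrable _ _) (hc.abs.intervalIntegrable _ _)] at hTV
  have i1 := abs_sub_le_integral hF hc h0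
  have i2 := abs_sub_le_integral hF hc h1
  rw [ha', hb] at i1
  rw [hp b, hb, ha'] at i2
  norm_num at i1 i2
  have k1 : ∫ s in b..a', |F' s| ≤ 1 := by linarith
  have k2 : ∫ s in a'..(b + 1), |F' s| ≤ 1 := by linarith
  have up : ∀ u v, b ≤ u → u ≤ v → v ≤ a' → F u ≤ F v := by
    intro u v hu huv hv
    have j1 := abs_sub_le_integral hF hc hu
    have j2 := abs_sub_le_integral hF hc huv
    have j3 := abs_sub_le_integral hF hc hv
    have e1 := intervalIntegral.integral_add_adjacent_intervals (a := b) (b := u) (c := v)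
      (μ := volume) (hc.abs.intervalIntegrable _ _) (hc.abs.intervalIntegrable _ _)
    have e2 := intervalIntegral.integral_add_adjacent_intervals (a := b) (b := v) (c := a')
      (μ := volume) (hc.abs.intervalIntegrable _ _) (hc.abs.intervalIntegrable _ _)
    rw [ha'] at j3
    rw [hb] at j1
    linarith [le_abs_self (F u - 0), neg_abs_le (F v - F u), le_abs_self (1 - F v)]
  have down : ∀ u v, a' ≤ u → u ≤ v → v ≤ b + 1 → F v ≤ F u := by
    intro u v hu huv hv
    have j1 := abs_sub_le_integral hF hc hu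
    have j2 := abs_sub_le_integral hF hc huv
    have j3 := abs_sub_le_integral hF hc hv
    have e1 := intervalIntegral.integral_add_adjacent_intervals (a := a') (b := u) (c := v)
      (μ := volume) (hc.abs.intervalIntegrable _ _) (hc.abs.intervalIntegrable _ _)
    have e2 := intervalIntegral.integral_add_adjacent_intervals (a := a') (b := v) (c := b + 1)
      (μ := volume) (hc.abs.intervalIntegrable _ _) (hc.abs.intervalIntegrable _ _)
    rw [ha'] at j1
    rw [hp b, hb] at j3
    linarith [neg_abs_le (F u - 1), le_abs_self (F v - F u), neg_abs_le (0 - F v)]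
  set A : Set ℝ := {s | s ∈ Icc b (b + 1) ∧ 1 / 2 < F s}
  have hAne : A.Nonempty := ⟨a', ⟨h0, h1⟩, by rw [ha']; norm_num⟩
  have hAb : BddBelow A := ⟨b, fun s hs => hs.1.1⟩
  have hAa : BddAbove A := ⟨b + 1, fun s hs => hs.1.2⟩
  have hin : ∀ s, sInf A < s → s < sSup A → 1 / 2 < F s := by
    intro s hs1 hs2
    obtain ⟨u, hu, hus⟩ := exists_lt_of_csInf_lt hAne hs1
    obtain ⟨v, hv, hsv⟩ := exists_lt_of_lt_csSup hAne hs2
    rcases le_total s a' with h | h
    · exact hu.2.trans_le (up u s hu.1.1 hus.le h)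
    · exact hv.2.trans_le (down s v h hsv.le hv.1.2)
  have hbp : b ≤ sInf A := le_csInf hAne fun s hs => hs.1.1
  have hqb : sSup A ≤ b + 1 := csSup_le hAne fun s hs => hs.1.2
  have hpq : sInf A ≤ sSup A := csInf_le_csSup hAne hAb hAa
  set m : ℤ := ⌊sInf A⌋
  have hm1 := Int.floor_le (sInf A)
  have hm2 := Int.lt_floor_add_one (sInf A)
  refine ⟨sInf A - m, sSup A - m, ⟨by linarith, by linarith⟩, ⟨by linarith, by linarith⟩,
    fun s z hs1 hs2 => ?_, fun s hs => ?_⟩
  · have : F s = F (s - z + m) := by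
      rw [show s - (z : ℝ) + m = s - ((z - m : ℤ) : ℝ) * 1 by push_cast; ring, hp.sub_int_mul_eq]
    rw [this]
    exact hin _ (by linarith) (by linarith)
  · set z0 : ℤ := ⌊s - b⌋
    have hA : s - z0 ∈ A := by
      refine ⟨⟨by linarith [Int.floor_le (s - b)], by linarith [Int.lt_floor_add_one (s - b)]⟩, ?_⟩
      rwa [show s - (z0 : ℝ) = s - (z0 : ℝ) * 1 by ring, hp.sub_int_mul_eq]
    refine ⟨z0 + m, ?_, ?_⟩
    · push_cast; linarith [csInf_le hAb hA]
    · push_cast; linarith [le_csSup hAa hA]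

end Line

end

end Vale.P232.SlabUnique
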