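import Vale.Agent.P232.SlabDensity
import Vale.Agent.P232.SlabGeom
import Vale.Agent.P232.Shapes

/-!
P232: in the open slab range the only minimisers are coordinate slabs.
-/

open MeasureTheory Set Filter Topology Metric
open scoped ENNReal

namespace Vale.P232.SlabUnique

noncomputable section

variable {E : Set V3}

theorem perBound_two (hP : perimeter E ≤ ENNReal.ofReal 2) : PerBound E 2 := fun X hX => by
  have h1 := le_trans (le_iSup₂ (f := fun X (_ : IsTestField X) =>
    ENNReal.ofReal (∫ x in E ∩ cube, div3 X x)) X hX) hP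
  exact (ENNReal.ofReal_le_ofReal_iff zero_le_two).1 h1

theorem tvol_mono {A B : Set V3} (h : A ⊆ B) : tvol A ≤ tvol B :=
  ENNReal.toReal_mono (ne_top_of_le_ne_top (by simp [volume_cube_eq_one])
    (measure_mono inter_subset_right)) (measure_mono (inter_subset_inter_left _ h))

theorem tvol_eq_of_ae {A B : Set V3} (h : A =ᵐ[volume] B) : tvol A = tvol B :=
  congrArg ENNReal.toReal (measure_congr (h.inter (EventuallyEq.refl _ cube)))

theorem shiftDiff_le_norm (hE : MeasurableSet E) (hp : IsPeriodic E)
    (hP : perimeter E ≤ ENNReal.ofReal 2) (h : V3) : shiftDiff E h ≤ 6 * ‖h‖ := by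
  refine le_of_tendsto' (tendsto_shift_mol hE h) fun n => ?_
  have hf : ContDiff ℝ 1 (mol n E) := contDiff_mol hE n
  refine (integral_shift_le hf (periodic_mol hp n) h).trans ?_
  calc ∫ x in cube, |fderiv ℝ (mol n E) x h| ≤ ∫ x in cube, gradLen (mol n E) x * (3 * ‖h‖) := by
        refine setIntegral_mono (Continuous.integrableOn_cube
          ((hf.continuous_fderiv one_ne_zero).clm_apply continuous_const).abs)
          (Continuous.integrableOn_cube ((continuous_gradLen hf).mul continuous_const)) fun x => ?_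
        rw [fderiv_apply_eq]
        refine (Finset.abs_sum_le_sum_abs _ _).trans ?_
        have hi : ∀ i, |fderiv ℝ (mol n E) x (e i) * h i| ≤ gradLen (mol n E) x * ‖h‖ := fun i => by
          rw [abs_mul]
          refine mul_le_mul (Real.abs_le_sqrt (Finset.single_le_sum
            (f := fun j => fderiv ℝ (mol n E) x (e j) ^ 2) (fun j _ => sq_nonneg _)
            (Finset.mem_univ i))) (norm_le_pi_norm h i) (abs_nonneg _) (Real.sqrt_nonneg _)
        refine (Finset.sum_le_sum fun i _ => hi i).trans (le_of_eq ?_)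
        simp; ring
    _ ≤ 2 * (3 * ‖h‖) := by
        rw [integral_mul_const]
        exact mul_le_mul_of_nonneg_right (integral_gradLen_mol_le hE hp (perBound_two hP) n)
          (by positivity)
    _ = 6 * ‖h‖ := by ring

theorem ind_compl (E : Set V3) (x : V3) : ind Eᶜ x = 1 - ind E x := by
  by_cases h : x ∈ E <;> simp [ind, h]

theorem conv_nonneg {k : V3 → ℝ} (hk : IsKernel k) (E : Set V3) (x : V3) : 0 ≤ conv k E x :=
  integral_nonneg fun t => mul_nonneg (hk.nonneg t) (ind_nonneg _ _)

theorem conv_compl {k : V3 → ℝ} (hk : IsKernel k) (hE : MeasurableSet E) (x : V3) :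
    conv k Eᶜ x = 1 - conv k E x := by
  simp only [conv_apply, ind_compl, mul_sub, mul_one]
  rw [integral_sub hk.integrable (integrable_conv hk hE x), hk.mass]

theorem conv_mem_Icc {k : V3 → ℝ} (hk : IsKernel k) (hE : MeasurableSet E) (x : V3) :
    conv k E x ∈ Icc (0 : ℝ) 1 :=
  ⟨conv_nonneg hk E x, by linarith [conv_compl hk hE x, conv_nonneg hk Eᶜ x]⟩

/-- Points where a narrow smoothing of `E` is positive lie mostly in `E`. -/
theorem excess_le (hprof : ProfileBound) (hE : MeasurableSet E) (hp : IsPeriodic E)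
    (hP : perimeter E ≤ ENNReal.ofReal 2) (hV1 : tvol E ≤ 1 - 1 / Real.pi) {δ : ℝ} (hδ : 0 < δ)
    (hδ4 : δ ≤ 1 / 4) (hδV : (δ / 96) ^ 3 ≤ tvol E - 1 / Real.pi) {k : V3 → ℝ} (hk : IsKernel k)
    (hsupp : ∀ t, δ ≤ ‖t‖ → k t = 0) :
    tvol ({x | 0 < conv k E x} \ E) ≤ 679477248 * δ := by
  set η := (δ / 96) ^ 3
  have hη : 0 < η := by positivity
  set Pset := {x | 0 < conv k E x}
  have hPm : MeasurableSet Pset :=
    measurableSet_lt measurable_const (contDiff_conv hk hE).continuous.measurable
  have hzero : ∀ x, mass E x (2 * δ) ≤ η → conv k E x = 0 := by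
    intro x hx
    have h0 := mass_eq_zero hprof hE hp hP hV1 hδ hδ4 hδV x hx
    rw [mass, setIntegral_eq_zero_iff_of_nonneg_ae (Eventually.of_forall fun _ => ind_nonneg _ _)
      (integrableOn_mass hE x δ)] at h0
    rw [conv_apply, ← integral_neg_eq_self (fun t => k t * ind E (x - t))]
    refine integral_eq_zero_of_ae ?_
    rw [Filter.EventuallyEq, ae_restrict_iff' measurableSet_ball] at h0
    filter_upwards [h0] with t ht
    simp only [Pi.zero_apply, sub_neg_eq_add]
    by_cases hb : t ∈ ball (0 : V3) δ
    · simp [show ind E (x + t) = 0 from ht hb]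
    · rw [mem_ball_zero_iff, not_lt] at hb
      simp [hsupp (-t) (by rwa [norm_neg])]
  have hpt : ∀ x, η * ind (Pset \ E) x ≤ (1 - ind E x) * mass E x (2 * δ) := by
    intro x
    by_cases hx : x ∈ Pset \ E
    · have h1 : η ≤ mass E x (2 * δ) := by
        by_contra hlt
        exact absurd (hzero x (not_le.1 hlt).le) (ne_of_gt hx.1)
      simpa [ind, hx, hx.2] using h1
    · rw [show ind (Pset \ E) x = 0 by simp [ind, hx], mul_zero]
      exact mul_nonneg (by linarith [ind_le_one E x]) (mass_nonneg _ _ _)
  haveI : IsFiniteMeasure ((volume : Measure V3).restrict (ball (0 : V3) (2 * δ))) :=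
    ⟨by simpa using measure_ball_lt_top⟩
  have hint : Integrable (Function.uncurry fun (x t : V3) => (1 - ind E x) * ind E (x + t))
      (((volume : Measure V3).restrict cube).prod
        ((volume : Measure V3).restrict (ball (0 : V3) (2 * δ)))) := by
    refine Integrable.of_bound ((measurable_const.sub ((measurable_ind hE).comp measurable_fst)).mul
      ((measurable_ind hE).comp (measurable_fst.add measurable_snd))).aestronglyMeasurable 1
      (Eventually.of_forall fun p => ?_)
    simp only [Function.uncurry, norm_mul, Real.norm_eq_abs]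
    refine mul_le_one₀ ?_ (abs_nonneg _) ?_
    · exact abs_le.2 ⟨by linarith [ind_le_one E p.1], by linarith [ind_nonneg E p.1]⟩
    · rw [abs_of_nonneg (ind_nonneg _ _)]; exact ind_le_one _ _
  have hsh : ∀ t, ∫ x in cube, (1 - ind E x) * ind E (x + t) ≤ shiftDiff E t := by
    intro t
    rw [shiftDiff_eq hE]
    refine integral_mono_of_nonneg (Eventually.of_forall fun x => mul_nonneg
      (by linarith [ind_le_one E x]) (ind_nonneg _ _)) (integrableOn_shift_ind hE t)
      (Eventually.of_forall fun x => ?_)
    by_cases h1 : x ∈ E <;> by_cases h2 : x + t ∈ E <;> simp [ind, h1, h2]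
  have hmain : η * tvol (Pset \ E) ≤ (4 * δ) ^ 3 * (12 * δ) := by
    rw [tvol_eq_integral (hPm.diff hE), ← integral_const_mul]
    calc ∫ x in cube, η * ind (Pset \ E) x
        ≤ ∫ x in cube, ∫ t in ball (0 : V3) (2 * δ), (1 - ind E x) * ind E (x + t) := by
          refine setIntegral_mono ((integrableOn_ind (hPm.diff hE)).const_mul η)
            hint.integral_prod_left fun x => (hpt x).trans_eq ?_
          rw [mass, ← integral_const_mul]
      _ = ∫ t in ball (0 : V3) (2 * δ), ∫ x in cube, (1 - ind E x) * ind E (x + t) :=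
          integral_integral_swap hint
      _ ≤ ∫ _t in ball (0 : V3) (2 * δ), 12 * δ := by
          refine setIntegral_mono_on hint.integral_prod_right (integrable_const _)
            measurableSet_ball fun t ht => ?_
          refine (hsh t).trans ((shiftDiff_le_norm hE hp hP t).trans ?_)
          rw [mem_ball_zero_iff] at ht
          linarith
      _ = (4 * δ) ^ 3 * (12 * δ) := by
          rw [setIntegral_const, smul_eq_mul, measureReal_def,
            Real.volume_pi_ball _ (by positivity), ENNReal.toReal_ofReal (by positivity),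
            Fintype.card_fin]
          ring
  have e : (4 * δ) ^ 3 * (12 * δ) = η * (679477248 * δ) := by simp only [η]; ring
  rw [e] at hmain
  exact le_of_mul_le_mul_left hmain hη

theorem tvol_level_le (hE : MeasurableSet E) {P : Set V3} (hP : MeasurableSet P) {S : Set V3}
    (hS : S ⊆ P) : tvol S ≤ tvol E + tvol (P \ E) := by
  refine (tvol_mono (show S ⊆ E ∪ (P \ E) from fun x hx => ?_)).trans ?_
  · by_cases h : x ∈ E
    · exact Or.inl h
    · exact Or.inr ⟨hS hx, h⟩
  · have := tvol_union_add_inter hE (hP.diff hE)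
    have h0 : 0 ≤ tvol (E ∩ (P \ E)) := ENNReal.toReal_nonneg
    linarith

/-- Standing hypotheses: a competitor of perimeter at most two and a small scale. -/
structure Hyp (E : Set V3) (δ : ℝ) : Prop where
  prof : ProfileBound
  meas : MeasurableSet E
  per : IsPeriodic E
  peri : perimeter E ≤ ENNReal.ofReal 2
  pos : 0 < δ
  le4 : δ ≤ 1 / 4
  lo : (δ / 96) ^ 3 + 679477248 * δ ≤ tvol E - 1 / Real.pi
  hi : (δ / 96) ^ 3 + 679477248 * δ ≤ 1 - 1 / Real.pi - tvol E

/-- The smoothed levels stay in the slab range. -/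
theorem Hyp.level_range {δ : ℝ} (H : Hyp E δ) {k : V3 → ℝ} (hk : IsKernel k)
    (hsupp : ∀ t, δ ≤ ‖t‖ → k t = 0) {t : ℝ} (ht : t ∈ Ioo (0 : ℝ) 1) :
    1 / Real.pi ≤ tvol {x | t < conv k E x} ∧
      tvol {x | t < conv k E x} ≤ 1 - 1 / Real.pi := by
  have hE := H.meas
  have hd3 : 0 ≤ (δ / 96) ^ 3 := by have := H.pos; positivity
  have hd : 0 ≤ 679477248 * δ := by have := H.pos; positivity
  have hpos : ∀ A : Set V3, MeasurableSet A → MeasurableSet {x | 0 < conv k A x} := fun A hA =>
    measurableSet_lt measurable_const (contDiff_conv hk hA).continuous.measurable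
  have hc : tvol Eᶜ = 1 - tvol E := tvol_compl_eq hE
  have e1 := excess_le H.prof hE H.per H.peri (by linarith [H.hi]) H.pos H.le4
    (by linarith [H.lo]) hk hsupp
  have e2 := excess_le H.prof hE.compl H.per.compl ((perimeter_compl_le_self hE).trans H.peri)
    (by linarith [H.lo]) H.pos H.le4 (by linarith [H.hi]) hk hsupp
  have hS : MeasurableSet {x | t < conv k E x} :=
    measurableSet_lt measurable_const (contDiff_conv hk hE).continuous.measurable
  have u1 := tvol_level_le hE (hpos E hE) (S := {x | t < conv k E x})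
    fun x hx => lt_trans ht.1 hx
  have u2 := tvol_level_le hE.compl (hpos Eᶜ hE.compl) (S := {x | t < conv k E x}ᶜ)
    fun x hx => by
      simp only [mem_compl_iff, mem_ofPred_eq, not_lt] at hx
      show 0 < conv k Eᶜ x
      rw [conv_compl hk hE]; linarith [ht.2]
  rw [tvol_compl_eq hS] at u2
  constructor <;> linarith [H.lo, H.hi]

/-- Smoothing at a small scale loses no perimeter at all. -/
theorem Hyp.tv_eq {δ : ℝ} (H : Hyp E δ) {k : V3 → ℝ} (hk : IsKernel k)
    (hsupp : ∀ t, δ ≤ ‖t‖ → k t = 0) : ∫ x in cube, gradLen (conv k E) x = 2 := by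
  refine le_antisymm (integral_gradLen_conv_le H.meas H.per (perBound_two H.peri) hk) ?_
  set f := conv k E
  have hf : ContDiff ℝ 1 f := (contDiff_conv hk H.meas).of_le (by norm_num)
  have hfp : IsPeriodicFun f := periodic_conv H.per k
  set S : ℝ → Set V3 := fun t => {x | t < f x}
  have hS : Layers S := ⟨measurableSet_lt measurable_fst (hf.continuous.measurable.comp measurable_snd),
    fun t x m => by simp only [S, mem_ofPred_eq, hfp x m]⟩
  have hT : Layers (fun _ : ℝ => (∅ : Set V3)) := ⟨by simp, fun _ _ _ => Iff.rfl⟩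
  have key : (2 : ℝ) + 0 ≤ ∫ x in cube, gradLen f x := by
    refine le_of_layers hS hT (fun t ht => ?_) (fun t _ => by simp) fun r hr => ?_
    · obtain ⟨h1, h2⟩ := H.level_range hk hsupp ht
      have hπ := Real.pi_gt_three
      have hpi : 0 < 1 / Real.pi := by positivity
      refine le_trans (le_of_eq (congrArg ENNReal.ofReal (J_eq_two h1 h2).symm))
        (J_le_perimeter H.prof (hS.measurableSet t) (hS.per t) ⟨?_, ?_⟩)
      · exact lt_of_lt_of_le hpi h1
      · exact lt_of_le_of_lt h2 (by linarith)
    · refine (hS.integral_Phi_le hT hr.1 (G := fun x y => |f y - f x|) (fun h => ?_)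
        (integrableOn_shift hf.continuous hfp r) fun x y => le_of_eq ?_).trans ?_
      · exact Continuous.integrableOn_cube
          ((hf.continuous.comp (continuous_id.add continuous_const)).sub hf.continuous).abs
      · refine Eq.trans (setIntegral_congr_fun measurableSet_Ioo fun t _ => ?_)
          (integral_layer (conv_mem_Icc hk H.meas x) (conv_mem_Icc hk H.meas y))
        simp only [jump, ind, S, f]
        by_cases h1 : t < conv k E x <;> by_cases h2 : t < conv k E y <;> simp [h1, h2]
      · rw [div_le_iff₀ (kappa_pos hr.1), mul_comm]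
        exact integral_ball_shift_le hf hfp r
  linarith

theorem eq_zero_of_integral_cube {g : V3 → ℝ} (hc : Continuous g) (hp : IsPeriodicFun g)
    (h0 : ∀ x, 0 ≤ g x) (hI : ∫ x in cube, g x = 0) (x : V3) : g x = 0 := by
  set c : V3 := fun _ => 1 / 2
  have h1 : ∫ y in cube, g (y + (x - c)) = 0 := by rw [integral_periodic_translate hp, hI]
  have hcc : Continuous fun y => g (y + (x - c)) := hc.comp (continuous_id.add continuous_const)
  rw [setIntegral_eq_zero_iff_of_nonneg_ae (Eventually.of_forall fun y => h0 _)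
    (Continuous.integrableOn_cube hcc)] at h1
  set U : Set V3 := ball c (1 / 4)
  have hU : U ⊆ cube := fun y hy i _ => by
    rw [mem_ball, dist_eq_norm] at hy
    have := (norm_le_pi_norm (y - c) i).trans_lt hy
    simp only [Pi.sub_apply, Real.norm_eq_abs, abs_lt, c] at this
    constructor <;> linarith [this.1, this.2]
  have h2 := Measure.eqOn_open_of_ae_eq (ae_restrict_of_ae_restrict_of_subset hU h1) isOpen_ball
    hcc.continuousOn continuousOn_const (mem_ball_self (show (0 : ℝ) < 1 / 4 by norm_num))
  simpa using h2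

theorem gradLen_half_add {f g : V3 → ℝ} {x : V3} (hf : DifferentiableAt ℝ f x)
    (hg : DifferentiableAt ℝ g x) :
    gradLen (fun y => (1 / 2) * (f y + g y)) x
      = (1 / 2) * Real.sqrt (∑ i, (grad f x i + grad g x i) ^ 2) := by
  have h : HasFDerivAt (fun y => (1 / 2 : ℝ) * (f y + g y))
      ((1 / 2 : ℝ) • (fderiv ℝ f x + fderiv ℝ g x)) x :=
    (hf.hasFDerivAt.add hg.hasFDerivAt).const_mul _
  have e : ∑ i, fderiv ℝ (fun y => (1 / 2 : ℝ) * (f y + g y)) x (Vale.P232.e i) ^ 2
      = (1 / 2) ^ 2 * ∑ i, (grad f x i + grad g x i) ^ 2 := by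
    rw [h.fderiv, Finset.mul_sum]
    refine Finset.sum_congr rfl fun i _ => ?_
    simp [grad]
    ring
  rw [gradLen, e, Real.sqrt_mul (sq_nonneg _), Real.sqrt_sq (by norm_num)]

theorem len_add_le (u v : V3) :
    Real.sqrt (∑ i, (u i + v i) ^ 2)
      ≤ Real.sqrt (∑ i, u i ^ 2) + Real.sqrt (∑ i, v i ^ 2) := by
  have := norm_add_le (WithLp.toLp 2 u) (WithLp.toLp 2 v)
  simpa [EuclideanSpace.norm_eq, ← WithLp.toLp_add, sq_abs] using this

/-- Nearby gradients of a smoothed minimiser are parallel. -/
theorem Hyp.grad_local {δ : ℝ} (H : Hyp E δ) {k : V3 → ℝ} (hk : IsKernel k)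
    (hsupp : ∀ t, δ / 2 ≤ ‖t‖ → k t = 0) (x y : V3) (hxy : ‖y - x‖ < δ / 2)
    (hx : grad (conv k E) x ≠ 0) : ∃ c : ℝ, grad (conv k E) y = c • grad (conv k E) x := by
  set a := x - y with ha
  have han : ‖a‖ < δ / 2 := by rw [ha, norm_sub_rev]; exact hxy
  set k2 : V3 → ℝ := fun t => k (t - a) with hk2def
  have hint2 : Integrable k2 := hk.integrable.comp_sub_right a
  set K : V3 → ℝ := fun t => (1 / 2) * (k t + k2 t)
  have hK : IsKernel K := by
    refine ⟨contDiff_const.mul (hk.contDiff.add (hk.contDiff.comp (contDiff_id.sub contDiff_const))),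
      (hk.compact.add (hk.compact.comp_homeomorph (Homeomorph.subRight a))).mul_left,
      fun t => mul_nonneg (by norm_num) (add_nonneg (hk.nonneg _) (hk.nonneg _)), ?_⟩
    simp only [K, integral_const_mul]
    rw [integral_add hk.integrable hint2, hk.mass, integral_sub_right_eq_self k a, hk.mass]
    norm_num
  have hKs : ∀ t, δ ≤ ‖t‖ → K t = 0 := fun t ht => by
    have : δ / 2 ≤ ‖t - a‖ := by linarith [norm_le_norm_sub_add t a]
    simp [K, k2, hsupp t (by linarith [H.pos]), hsupp _ this]
  set f := conv k E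
  have hf : ContDiff ℝ 1 f := (contDiff_conv hk H.meas).of_le (by norm_num)
  set g : V3 → ℝ := fun z => f (z + -a)
  have hg : ContDiff ℝ 1 g := hf.comp (contDiff_id.add contDiff_const)
  have hconv : conv K E = fun z => (1 / 2) * (f z + g z) := by
    funext z
    have i1 := integrable_conv hk H.meas z
    have i2 : Integrable fun t => k2 t * ind E (z - t) := by
      have := (integrable_conv hk H.meas (z + -a)).comp_sub_right a
      refine this.congr (Eventually.of_forall fun t => ?_)
      simp only [k2]
      rw [show z + -a - (t - a) = z - t by abel]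
    simp only [conv_apply, K, mul_assoc, add_mul, integral_const_mul, f, g]
    rw [integral_add i1 i2]
    congr 2
    rw [← integral_sub_right_eq_self (fun t => k t * ind E (z + -a - t)) a]
    congr 1
    funext t
    rw [show z + -a - (t - a) = z - t by abel]
  set s : V3 → ℝ := fun z => gradLen f z + gradLen g z
  have hT := H.tv_eq hK hKs
  have hTf := H.tv_eq hk fun t ht => hsupp t (by linarith [H.pos])
  rw [hconv] at hT
  have hfp : IsPeriodicFun f := periodic_conv H.per k
  have hgp : IsPeriodicFun g := fun z m => by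
    simp only [g]
    rw [show z + (fun i => (m i : ℝ)) + -a = z + -a + fun i => (m i : ℝ) by abel, hfp]
  have hpl : ∀ {u : V3 → ℝ}, IsPeriodicFun u → IsPeriodicFun (gradLen u) := fun hu z m => by
    simp only [gradLen, hu.periodic_fderiv z m]
  have hgl : ∀ z, gradLen g z = gradLen f (z + -a) := fun z => by
    simp only [gradLen, g, fderiv_comp_add_right]
  have hTg : ∫ z in cube, gradLen g z = 2 := by
    simp only [hgl]
    rw [integral_periodic_translate (hpl hfp), hTf]
  have hKc : ContDiff ℝ 1 fun z => (1 / 2 : ℝ) * (f z + g z) := contDiff_const.mul (hf.add hg)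
  set gap : V3 → ℝ := fun z => (1 / 2) * s z - gradLen (fun y => (1 / 2) * (f y + g y)) z
  have hgap : ∀ z, 0 ≤ gap z := fun z => by
    simp only [gap, s, gradLen_half_add (hf.differentiable one_ne_zero z)
      (hg.differentiable one_ne_zero z)]
    have := len_add_le (grad f z) (grad g z)
    rw [gradLen_eq_grad, gradLen_eq_grad]
    linarith
  have h0 := eq_zero_of_integral_cube (g := gap)
    ((continuous_const.mul ((continuous_gradLen hf).add (continuous_gradLen hg))).sub
      (continuous_gradLen hKc))
    (fun z m => by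
      have hKp : IsPeriodicFun fun y => (1 / 2 : ℝ) * (f y + g y) := fun y m => by
        simp only [hfp y m, hgp y m]
      simp only [gap, s, hpl hfp z m, hpl hgp z m, hpl hKp z m]) hgap (by
    have c1 : Continuous fun z => (1 / 2 : ℝ) * (gradLen f z + gradLen g z) :=
      continuous_const.mul ((continuous_gradLen hf).add (continuous_gradLen hg))
    simp only [gap, s]
    rw [integral_sub (Continuous.integrableOn_cube c1)
      (Continuous.integrableOn_cube (continuous_gradLen hKc)), integral_const_mul,
      integral_add (Continuous.integrableOn_cube (continuous_gradLen hf))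
        (Continuous.integrableOn_cube (continuous_gradLen hg)), hT, hTf, hTg]
    norm_num) x
  simp only [gap, s] at h0
  rw [gradLen_half_add (hf.differentiable one_ne_zero x) (hg.differentiable one_ne_zero x),
    gradLen_eq_grad f, gradLen_eq_grad g] at h0
  obtain ⟨c, hc⟩ := parallel_of_len_add hx (v := grad g x) (by linarith)
  refine ⟨c, ?_⟩
  rw [← hc]
  funext i
  simp only [grad, g, fderiv_comp_add_right]
  rw [ha, neg_sub, add_sub_cancel]

theorem integral_abs_deriv_line {f : V3 → ℝ} (hf : ContDiff ℝ 1 f) (hfp : IsPeriodicFun f)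
    (i : Fin 3) :
    ∫ x in cube, |grad f x i|
      = ∫ x in cube, ∫ t in (0 : ℝ)..1, |grad f (x + t • e i) i| := by
  have hc : Continuous fun x => |grad f x i| :=
    ((hf.continuous_fderiv one_ne_zero).clm_apply continuous_const).abs
  have hp : IsPeriodicFun fun x => |grad f x i| := fun x k => by
    simp only [grad, hfp.periodic_fderiv x k]
  obtain ⟨C, -, hC⟩ := hp.exists_bound hc
  haveI : IsFiniteMeasure (volume.restrict (uIoc (0 : ℝ) 1)) := ⟨by simp⟩
  have hint : Integrable (Function.uncurry fun (t : ℝ) x => |grad f (x + t • e i) i|)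
      ((volume.restrict (uIoc (0 : ℝ) 1)).prod ((volume : Measure V3).restrict cube)) :=
    Integrable.of_bound (hc.comp (by fun_prop)).aestronglyMeasurable C
      (Eventually.of_forall fun q => hC _)
  rw [← MeasureTheory.intervalIntegral_integral_swap hint]
  calc ∫ x in cube, |grad f x i| = ∫ t in (0 : ℝ)..1, ∫ x in cube, |grad f x i| := by simp
    _ = _ := intervalIntegral.integral_congr fun t _ =>
        (integral_periodic_translate (g := fun x => |grad f x i|) hp (t • e i)).symm

/-- At a small scale the smoothed set has one interval per period in a single axis. -/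
theorem Hyp.axis_profile {δ : ℝ} (H : Hyp E δ) {k : V3 → ℝ} (hk : IsKernel k)
    (hsupp : ∀ t, δ / 2 ≤ ‖t‖ → k t = 0) :
    ∃ (i : Fin 3) (p q : ℝ), p ∈ Icc (0 : ℝ) 1 ∧ q ∈ Icc (0 : ℝ) 2 ∧
      (∀ (x : V3) (z : ℤ), p < x i - z → x i - z < q → 1 / 2 < conv k E x) ∧
      (∀ x : V3, 1 / 2 < conv k E x → ∃ z : ℤ, p ≤ x i - z ∧ x i - z ≤ q) := by
  set f := conv k E
  have hf : ContDiff ℝ 1 f := (contDiff_conv hk H.meas).of_le (by norm_num)
  have hfp : IsPeriodicFun f := periodic_conv H.per k
  have hsupp' : ∀ t, δ ≤ ‖t‖ → k t = 0 := fun t ht => hsupp t (by linarith [H.pos])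
  have hTV := H.tv_eq hk hsupp'
  have hπ := Real.pi_gt_three
  have hpi : 0 < 1 / Real.pi := by positivity
  obtain ⟨xM, -, hxM⟩ := (isCompact_Icc : IsCompact (Icc (0 : V3) 1)).exists_isMaxOn
    ⟨0, left_mem_Icc.2 zero_le_one⟩ hf.continuous.continuousOn
  obtain ⟨xm, -, hxm⟩ := (isCompact_Icc : IsCompact (Icc (0 : V3) 1)).exists_isMinOn
    ⟨0, left_mem_Icc.2 zero_le_one⟩ hf.continuous.continuousOn
  have hM : f xM = 1 := by
    refine le_antisymm (conv_mem_Icc hk H.meas xM).2 (le_of_forall_lt fun t ht => ?_)
    rcases le_or_gt t 0 with h0 | h0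
    · have := (H.level_range hk hsupp' (t := 1 / 2) ⟨by norm_num, by norm_num⟩).1
      by_contra hle
      have he : {x | (1 / 2 : ℝ) < f x} ∩ cube = ∅ := eq_empty_of_forall_notMem fun y hy => by
        have h1 := hxM (show y ∈ Icc (0 : V3) 1 from
          ⟨fun j => (hy.2 j (mem_univ j)).1, fun j => (hy.2 j (mem_univ j)).2.le⟩)
        simp only [mem_ofPred_eq] at h1
        have h2 : (1 / 2 : ℝ) < f y := hy.1
        linarith [not_lt.1 hle]
      rw [tvol, he] at this
      simp at this
      linarith
    · have := (H.level_range hk hsupp' (t := t) ⟨h0, ht⟩).1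
      by_contra hle
      have he : {x | t < f x} ∩ cube = ∅ := eq_empty_of_forall_notMem fun y hy => by
        have h1 := hxM (show y ∈ Icc (0 : V3) 1 from
          ⟨fun j => (hy.2 j (mem_univ j)).1, fun j => (hy.2 j (mem_univ j)).2.le⟩)
        simp only [mem_ofPred_eq] at h1
        have h2 : t < f y := hy.1
        linarith [not_lt.1 hle]
      rw [tvol, he] at this
      simp at this
      linarith
  have hm : f xm = 0 := by
    refine le_antisymm (le_of_forall_gt_imp_ge_of_dense fun t ht => ?_) (conv_nonneg hk E xm)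
    rcases le_or_gt 1 t with h1 | h1
    · exact (conv_mem_Icc hk H.meas xm).2.trans h1
    have := (H.level_range hk hsupp' (t := t) ⟨ht, h1⟩).2
    by_contra hle
    have he : cube ⊆ {x | t < f x} := fun y hy => by
      have h2 := hxm (show y ∈ Icc (0 : V3) 1 from
        ⟨fun j => (hy j (mem_univ j)).1, fun j => (hy j (mem_univ j)).2.le⟩)
      simp only [mem_ofPred_eq] at h2 ⊢
      linarith [not_le.1 hle]
    rw [tvol, inter_eq_right.2 he, volume_cube_eq_one] at this
    simp at this
    linarith
  obtain ⟨x1, hx1⟩ : ∃ x1, grad f x1 ≠ 0 := by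
    by_contra hall
    push Not at hall
    have : ∀ x, gradLen f x = 0 := fun x => by simp [gradLen_eq_grad, hall x]
    rw [setIntegral_congr_fun measurableSet_cube (fun x _ => this x)] at hTV
    simp at hTV
  have hδ2 : 0 < δ / 2 := half_pos H.pos
  have hpar : ∀ x y : V3, ‖y - x‖ < δ / 2 → grad f x ≠ 0 → ∃ c : ℝ, grad f y = c • grad f x :=
    fun x y hxy hx => H.grad_local hk hsupp x y hxy hx
  set ν := grad f x1 with hν
  set L := Real.sqrt (∑ j, ν j ^ 2) with hL
  have hL0 : 0 < L := Real.sqrt_pos.2 (sum_sq_pos hx1)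
  have hline : ∀ j, ∫ x in cube, |grad f x j| = |ν j| / L * 2 := fun j => by
    rw [← hTV, ← integral_const_mul]
    refine setIntegral_congr_fun measurableSet_cube fun x _ => ?_
    obtain ⟨c, hc⟩ := grad_parallel hpar hf hδ2 hx1 x
    rw [gradLen_eq_grad, hc]
    simp only [Pi.smul_apply, smul_eq_mul, mul_pow, ← Finset.mul_sum]
    rw [Real.sqrt_mul (sq_nonneg c), Real.sqrt_sq_eq_abs, abs_mul, ← hν, ← hL]
    field_simp
  have hder : ∀ (x w : V3) (t : ℝ),
      HasDerivAt (fun s : ℝ => f (x + s • w)) (fderiv ℝ f (x + t • w) w) t := fun x w t => by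
    have h1 : HasDerivAt (fun s : ℝ => x + s • w) w t := by
      simpa using ((hasDerivAt_id t).smul_const w).const_add x
    exact (hf.differentiable one_ne_zero _).hasFDerivAt.comp_hasDerivAt t h1
  have hstep : ∀ (x : V3) (j : Fin 3) (t : ℝ), x + (t + 1) • e j = x + t • e j + e j :=
    fun x j t => by rw [add_smul, one_smul, add_assoc]
  have hone : ∀ j, ν j ≠ 0 → L ≤ |ν j| := by
    intro j hj
    have hlow : (2 : ℝ) ≤ ∫ x in cube, |grad f x j| := by
      rw [integral_abs_deriv_line hf hfp j]
      have hc : Continuous fun x => |grad f x j| :=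
        ((hf.continuous_fderiv one_ne_zero).clm_apply continuous_const).abs
      have hint : IntegrableOn (fun x => ∫ t in (0 : ℝ)..1, |grad f (x + t • e j) j|) cube :=
        Continuous.integrableOn_cube (intervalIntegral.continuous_parametric_intervalIntegral_of_continuous'
          (f := fun (x : V3) (t : ℝ) => |grad f (x + t • e j) j|)
          (hc.comp (f := fun q : V3 × ℝ => q.1 + q.2 • e j) (by fun_prop)) _ _)
      calc (2 : ℝ) = ∫ _x in cube, (2 : ℝ) := by simp [measureReal_def, volume_cube_eq_one]
        _ ≤ _ := setIntegral_mono (integrable_const _) hint fun x => by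
          have hcov : ∀ z : V3, ∃ s : ℝ, f (x + s • e j) = f z := fun z => by
            refine ⟨(∑ l, ν l * (z l - x l)) / ν j, ?_⟩
            set s := (∑ l, ν l * (z l - x l)) / ν j
            have ho : ∑ l, ν l * (x + s • e j - z) l = 0 := by
              have h3 : ∑ l, ν l * (x + s • e j - z) l
                  = s * ν j - ∑ l, ν l * (z l - x l) := by
                fin_cases j <;> simp [Fin.sum_univ_three, e] <;> ring
              rw [h3, div_mul_cancel₀ _ hj, sub_self]
            have := invariant_perp hpar hf hδ2 hx1 z ho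
            rwa [add_sub_cancel] at this
          obtain ⟨sa, hsa⟩ := hcov xM
          obtain ⟨sb, hsb⟩ := hcov xm
          have := two_mul_sub_le (F := fun s => f (x + s • e j))
            (F' := fun s => grad f (x + s • e j) j) (fun s => hder x (e j) s)
            (((hf.continuous_fderiv one_ne_zero).clm_apply continuous_const).comp (by fun_prop))
            (fun s => by simp only [hstep x j, hfp.add_e j])
            (fun s => by simp only [grad, hstep x j, (hfp.periodic_fderiv).add_e j]) sa sb
          rw [hsa, hsb, hM, hm] at this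
          linarith
    rw [hline, le_mul_iff_one_le_left two_pos, one_le_div hL0] at hlow
    exact hlow
  obtain ⟨i, hi⟩ : ∃ i, ν i ≠ 0 := Function.ne_iff.1 hx1
  have hoth : ∀ j, j ≠ i → ν j = 0 := by
    intro j hj
    by_contra hjne
    have h1 := pow_le_pow_left₀ hL0.le (hone i hi) 2
    rw [Real.sq_sqrt (sum_sq_pos hx1).le, sq_abs] at h1
    have h2 : ν i ^ 2 + ν j ^ 2 ≤ ∑ l, ν l ^ 2 := by
      have := Finset.sum_le_univ_sum_of_nonneg (s := {i, j}) (f := fun l => ν l ^ 2)
        fun l => sq_nonneg _
      rwa [Finset.sum_pair (Ne.symm hj)] at this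
    have : 0 < ν j ^ 2 := by positivity
    linarith
  have hfi : ∀ x : V3, f x = f ((x i) • e i) := fun x => by
    have ho : ∑ l, ν l * (x - (x i) • e i) l = 0 := by
      refine Finset.sum_eq_zero fun l _ => ?_
      by_cases hl : l = i
      · subst hl; simp [e]
      · simp [hoth l hl]
    have := invariant_perp hpar hf hδ2 hx1 ((x i) • e i) ho
    rwa [add_sub_cancel] at this
  set F : ℝ → ℝ := fun s => f (s • e i)
  set F' : ℝ → ℝ := fun s => fderiv ℝ f (s • e i) (e i)
  have hF : ∀ s, HasDerivAt F (F' s) s := fun s => by simpa [F, F'] using hder 0 (e i) s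
  have hF'c : Continuous F' :=
    ((hf.continuous_fderiv one_ne_zero).clm_apply continuous_const).comp (by fun_prop)
  have hFp : Function.Periodic F 1 := fun s => by
    simp only [F, add_smul, one_smul, hfp.add_e i]
  have hFp' : Function.Periodic F' 1 := fun s => by
    simp only [F', add_smul, one_smul, (hfp.periodic_fderiv).add_e i]
  have hint1 : ∫ s in (0 : ℝ)..1, |F' s| ≤ 2 := by
    have h1 : ∫ x in cube, |grad f x i| ≤ 2 := by
      rw [← hTV]
      exact setIntegral_mono (Continuous.integrableOn_cube
          ((hf.continuous_fderiv one_ne_zero).clm_apply continuous_const).abs)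
        (Continuous.integrableOn_cube (continuous_gradLen hf)) fun x =>
          Real.abs_le_sqrt (Finset.single_le_sum (f := fun l => fderiv ℝ f x (e l) ^ 2)
            (fun l _ => sq_nonneg _) (Finset.mem_univ i))
    rw [integral_abs_deriv_line hf hfp i] at h1
    have h2 : ∀ x : V3, ∫ t in (0 : ℝ)..1, |grad f (x + t • e i) i| = ∫ s in (0 : ℝ)..1, |F' s| := by
      intro x
      have e1 : ∀ t, grad f (x + t • e i) i = F' (x i + t) := fun t => by
        have hd1 := hder x (e i) t
        have hd2 : HasDerivAt (fun s : ℝ => f (x + s • e i)) (F' (x i + t)) t := by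
          have e2 : (fun s : ℝ => f (x + s • e i)) = fun s => F (x i + s) := by
            funext s
            rw [hfi (x + s • e i)]
            simp [F, e]
          rw [e2]
          exact (hF (x i + t)).comp_const_add (x i) t
        exact hd1.unique hd2
      simp only [e1]
      rw [intervalIntegral.integral_comp_add_left (fun s => |F' s|) (x i), add_zero]
      have hpa : Function.Periodic (fun s => |F' s|) 1 := fun s => by simp only [hFp' s]
      have := hpa.intervalIntegral_add_eq (x i) 0
      rwa [zero_add] at this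
    simp only [h2] at h1
    simpa [measureReal_def, volume_cube_eq_one] using h1
  obtain ⟨p, q, hp, hq, hin, hout⟩ := unimodal hF hF'c hFp hFp' (a := xM i) (b := xm i)
    (by rw [← hM, hfi xM]) (by rw [← hm, hfi xm]) hint1
  exact ⟨i, p, q, hp, hq, fun x z h1 h2 => by rw [hfi x]; exact hin _ z h1 h2,
    fun x hx => hout _ (by rwa [hfi x] at hx)⟩

theorem ae_coord_ne (i : Fin 3) (c : ℝ) : ∀ᵐ x : V3, x i ≠ c := by
  rw [ae_iff]
  simp only [ne_eq, not_not]
  rw [volume_pi]
  exact Measure.pi_hyperplane (fun _ => (volume : Measure ℝ)) i c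

/-- In the open slab range every minimiser is a coordinate slab. -/
theorem slab_of_minimal_aux (hprof : ProfileBound) (hE : MeasurableSet E) (hp : IsPeriodic E)
    (hv : tvol E ∈ Ioo (1 / Real.pi) (1 - 1 / Real.pi))
    (hP : perimeter E ≤ ENNReal.ofReal 2) : IsSlabSet E := by
  set m := min (tvol E - 1 / Real.pi) (1 - 1 / Real.pi - tvol E)
  have hm : 0 < m := lt_min (by linarith [hv.1]) (by linarith [hv.2])
  set δ := min (1 / 4) (m / (679477248 + 1))
  have hδ : 0 < δ := lt_min (by norm_num) (by positivity)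
  have hδm : (δ / 96) ^ 3 + 679477248 * δ ≤ m := by
    have h1 : δ * (679477248 + 1) ≤ m := by
      rw [← le_div_iff₀ (by norm_num : (0 : ℝ) < 679477248 + 1)]; exact min_le_right _ _
    have h4 : δ ≤ 1 / 4 := min_le_left _ _
    have h2 : (δ / 96) ^ 3 ≤ δ / 96 := pow_le_of_le_one (by positivity) (by linarith) three_ne_zero
    linarith
  have H : Hyp E δ := ⟨hprof, hE, hp, hP, hδ, min_le_left _ _, hδm.trans (min_le_left _ _),
    hδm.trans (min_le_right _ _)⟩
  obtain ⟨N, hN⟩ := exists_nat_gt (2 / δ)
  have hsupp : ∀ n : ℕ, ∀ t, δ / 2 ≤ ‖t‖ → rho (N + n) t = 0 := fun n t ht => by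
    refine rho_eq_zero (le_trans ?_ ht)
    rw [div_lt_iff₀ hδ] at hN
    rw [div_le_div_iff₀ (by positivity) two_pos]
    push_cast
    nlinarith [n.cast_nonneg (α := ℝ)]
  choose I P Q hP' hQ' hin hout using fun n => H.axis_profile (isKernel_rho (N + n)) (hsupp n)
  obtain ⟨⟨i, p, q⟩, -, φ, hφ, hlim⟩ :=
    (isCompact_univ.prod ((isCompact_Icc (a := (0 : ℝ)) (b := 1)).prod
      (isCompact_Icc (a := (0 : ℝ)) (b := 2)))).tendsto_subseq
      (x := fun n => (I n, P n, Q n)) fun n => ⟨mem_univ _, hP' n, hQ' n⟩
  rw [nhds_prod_eq, nhds_prod_eq, tendsto_prod_iff', tendsto_prod_iff', nhds_discrete] at hlim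
  obtain ⟨hI, hPl, hQl⟩ := hlim
  simp only [Function.comp_def, tendsto_pure] at hI hPl hQl
  have hcast : Tendsto (fun n : ℕ => N + φ n) atTop atTop :=
    tendsto_atTop_mono (fun n => Nat.le_add_left (φ n) N) hφ.tendsto_atTop
  set A : Set V3 := {x | ∃ z : ℤ, p < x i - z ∧ x i - z < q}
  have hae : E =ᵐ[volume] A := by
    have hne : ∀ᵐ x : V3, ∀ z : ℤ, x i - z ≠ p ∧ x i - z ≠ q := by
      rw [ae_all_iff]
      intro z
      filter_upwards [ae_coord_ne i (p + z), ae_coord_ne i (q + z)] with x h1 h2
      exact ⟨fun h => h1 (by linarith), fun h => h2 (by linarith)⟩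
    refine Filter.eventuallyEq_set.2 ?_
    filter_upwards [tendsto_mol hE, hne] with x hx hz
    have hxl := hx.comp hcast
    constructor
    · intro hxE
      by_contra hA
      have hfin : ∀ᶠ n in atTop, ∀ z ∈ Finset.Icc (⌊x i⌋ - 3) (⌊x i⌋ + 3),
          ¬ (P (φ n) ≤ x i - z ∧ x i - z ≤ Q (φ n)) := by
        rw [Finset.eventually_all]
        intro z _
        rcases lt_trichotomy (x i - z) p with h | h | h
        · filter_upwards [hPl.eventually_const_lt h] with n hn using fun h' => by linarith [h'.1]
        · exact absurd h (hz z).1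
        · rcases lt_trichotomy (x i - z) q with h' | h' | h'
          · exact absurd ⟨z, h, h'⟩ hA
          · exact absurd h' (hz z).2
          · filter_upwards [hQl.eventually_lt_const h'] with n hn using fun h'' => by linarith [h''.2]
      have h1 : ind E x = 1 := by simp [ind, hxE]
      rw [h1] at hxl
      obtain ⟨n, hn1, hn2, hn3⟩ :=
        ((hxl.eventually_const_lt (show (1 / 2 : ℝ) < 1 by norm_num)).and (hI.and hfin)).exists
      obtain ⟨z, hz1, hz2⟩ := hout (φ n) x hn1
      rw [hn2] at hz1 hz2
      refine hn3 z (Finset.mem_Icc.2 ⟨?_, ?_⟩) ⟨hz1, hz2⟩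
      · have : (⌊x i⌋ : ℝ) - 3 ≤ z := by
          linarith [Int.floor_le (x i), (hQ' (φ n)).2]
        exact_mod_cast this
      · have : (z : ℝ) ≤ ⌊x i⌋ + 3 := by
          linarith [Int.lt_floor_add_one (x i), (hP' (φ n)).1]
        exact_mod_cast this
    · rintro ⟨z, hz1, hz2⟩
      by_contra hxE
      have h1 : ind E x = 0 := by simp [ind, hxE]
      rw [h1] at hxl
      obtain ⟨n, hn1, hn2, hn3, hn4⟩ :=
        ((hxl.eventually_lt_const (show (0 : ℝ) < 1 / 2 by norm_num)).and (hI.and
          ((hPl.eventually_lt_const hz1).and (hQl.eventually_const_lt hz2)))).exists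
      have := hin (φ n) x z (by rw [hn2]; exact hn3) (by rw [hn2]; exact hn4)
      have hn1' : mol (N + φ n) E x < 1 / 2 := hn1
      simp only [mol] at hn1'
      linarith
  have hvol := tvol_eq_of_ae hae
  have hπ := Real.pi_gt_three
  have hpi : 0 < 1 / Real.pi := by positivity
  have hpq : p < q := by
    by_contra hle
    have hA : A = ∅ := eq_empty_of_forall_notMem fun x hx => by
      obtain ⟨z, h1, h2⟩ := hx; linarith [not_lt.1 hle]
    rw [hA] at hvol
    simp [tvol] at hvol
    have := hv.1
    rw [tvol, hvol] at this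
    simp at this
    linarith
  have hlt : q < p + 1 := by
    by_contra hge
    have hA : A =ᵐ[volume] (univ : Set V3) := by
      have hne : ∀ᵐ x : V3, ∀ z : ℤ, x i - z ≠ p := by
        rw [ae_all_iff]
        intro z
        filter_upwards [ae_coord_ne i (p + z)] with x h1
        exact fun h => h1 (by linarith)
      refine Filter.eventuallyEq_set.2 ?_
      filter_upwards [hne] with x hx
      simp only [mem_univ, iff_true]
      refine ⟨⌊x i - p⌋, lt_of_le_of_ne (by linarith [Int.floor_le (x i - p)]) (Ne.symm (hx _)), ?_⟩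
      linarith [Int.lt_floor_add_one (x i - p), not_lt.1 hge]
    rw [tvol_eq_of_ae hA] at hvol
    simp [tvol, volume_cube_eq_one] at hvol
    have := hv.2
    rw [tvol] at this
    linarith
  refine ⟨i, fun _ => (p + q) / 2, (q - p) / 2, by linarith, by linarith, hae.trans ?_⟩
  refine EventuallyEq.of_eq ?_
  ext x
  show (∃ z : ℤ, p < x i - z ∧ x i - z < q) ↔
    ∑ l ∈ ({i} : Finset (Fin 3)), Rearr.dd (x l - (p + q) / 2) ^ 2 < ((q - p) / 2) ^ 2
  simp only [Finset.sum_singleton]
  rw [sq_lt_sq₀ (Rearr.dd_nonneg _) (by linarith)]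
  constructor
  · rintro ⟨z, h1, h2⟩
    refine lt_of_le_of_lt (Rearr.dd_le_abs _ z) ?_
    rw [abs_lt]; constructor <;> linarith
  · intro h
    refine ⟨round (x i - (p + q) / 2), ?_, ?_⟩ <;>
      · unfold Rearr.dd at h; rw [abs_lt] at h; linarith [h.1, h.2]

end

end Vale.P232.SlabUnique

namespace Vale.P232

/-- In the open slab range every minimiser is a coordinate slab. -/
theorem slab_of_minimal (hprof : ∀ V ∈ Ioo (0 : ℝ) 1, profile V = ENNReal.ofReal (J V))
    {E : Set V3} (hE : MeasurableSet E) (hp : IsPeriodic E)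
    (hv : tvol E ∈ Ioo (1 / Real.pi) (1 - 1 / Real.pi))
    (hP : perimeter E ≤ ENNReal.ofReal 2) : IsSlabSet E :=
  SlabUnique.slab_of_minimal_aux (fun V hV => (hprof V hV).ge) hE hp hv hP

end Vale.P232
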