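import Vale.Agent.P232.ScalarInst
import Vale.Agent.P232.SlabUnique

/-!
P232: all minimisers, from the classification for volumes at most `1/π`, the slab range and the
perimeters of the shapes.
-/

open MeasureTheory Real Set
open scoped ENNReal

namespace Vale.P232

noncomputable section

/-- The shape `F` has the least perimeter among balls, tubes and slabs of its volume. -/
def IsOptimalShape (v : ℝ) (F : Set V3) : Prop :=
  (IsBallSet F ∧ ballP v = candJ v) ∨ (IsTubeSet F ∧ tubeP v = candJ v) ∨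
    (IsSlabSet F ∧ 2 = candJ v)

/-- Perimeters of the three shapes. -/
structure ShapePerimeters : Prop where
  ball_le : ∀ {F : Set V3}, MeasurableSet F → IsPeriodic F → IsBallSet F →
    perimeter F ≤ ENNReal.ofReal (ballP (tvol F))
  tube_le : ∀ {F : Set V3}, MeasurableSet F → IsPeriodic F → IsTubeSet F →
    perimeter F ≤ ENNReal.ofReal (tubeP (tvol F))
  slab_le : ∀ {F : Set V3}, MeasurableSet F → IsPeriodic F → IsSlabSet F →
    perimeter F ≤ ENNReal.ofReal 2
  le_ball : ∀ {F : Set V3}, MeasurableSet F → IsPeriodic F → IsBallSet F → tvol F ≤ 1 / 2 →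
    ENNReal.ofReal (ballP (tvol F)) ≤ perimeter F
  le_tube : ∀ {F : Set V3}, MeasurableSet F → IsPeriodic F → IsTubeSet F → tvol F ≤ 1 / 2 →
    ENNReal.ofReal (tubeP (tvol F)) ≤ perimeter F
  le_slab : ∀ {F : Set V3}, MeasurableSet F → IsPeriodic F → IsSlabSet F →
    ENNReal.ofReal 2 ≤ perimeter F

/-- The classification for volumes at most `1/π`. -/
def SmallClass : Prop :=
  ∀ {E : Set V3}, MeasurableSet E → IsPeriodic E → tvol E ∈ Ioc (0:ℝ) (1 / π) →
    perimeter E ≤ ENNReal.ofReal (candJ (tvol E)) → IsBallSet E ∨ IsTubeSet E ∨ IsSlabSet E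

lemma candJ_nonneg {v : ℝ} (hv : 0 ≤ v) : 0 ≤ candJ v := by
  unfold candJ ballP tubeP
  exact le_min (le_min (mul_nonneg (Real.rpow_nonneg (by positivity) _) (Real.rpow_nonneg hv _))
    (by positivity)) (by norm_num)

/-- For volume at most one half the minimisers are exactly the optimal shapes. -/
theorem minimiser_iff_half (hsmall : SmallClass) (hsp : ShapePerimeters) {F : Set V3}
    (hF : MeasurableSet F) (hp : IsPeriodic F) (h0 : 0 < tvol F) (hhalf : tvol F ≤ 1 / 2) :
    perimeter F = profile (tvol F) ↔ IsOptimalShape (tvol F) F := by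
  have hJ : profile (tvol F) = ENNReal.ofReal (candJ (tvol F)) := by
    rw [profile_eq_J _ ⟨h0, by linarith⟩, J, min_eq_left (by linarith)]
  have hJle : ∀ {M : ℝ}, ENNReal.ofReal M ≤ ENNReal.ofReal (candJ (tvol F)) → M ≤ candJ (tvol F) :=
    fun h => (ENNReal.ofReal_le_ofReal_iff (candJ_nonneg h0.le)).1 h
  have hinv : (1:ℝ) / π ≤ 1 / 2 := inv_pi_le_half
  constructor
  · intro h
    rw [hJ] at h
    have hcases : IsBallSet F ∨ IsTubeSet F ∨ IsSlabSet F := by
      rcases le_or_gt (tvol F) (1 / π) with hle | hgt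
      · exact hsmall hF hp ⟨h0, hle⟩ h.le
      · refine Or.inr (Or.inr (slab_of_minimal profile_eq_J hF hp ⟨hgt, ?_⟩
          (h.le.trans (ENNReal.ofReal_le_ofReal (min_le_right _ _)))))
        have : 1 / π < 1 / 2 := one_div_lt_one_div_of_lt two_pos (by linarith [Real.pi_gt_three])
        linarith
    rcases hcases with hb | ht | hs
    · refine Or.inl ⟨hb, le_antisymm (hJle ((hsp.le_ball hF hp hb hhalf).trans h.le)) ?_⟩
      exact (min_le_left _ _).trans (min_le_left _ _)
    · refine Or.inr (Or.inl ⟨ht, le_antisymm (hJle ((hsp.le_tube hF hp ht hhalf).trans h.le)) ?_⟩)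
      exact (min_le_left _ _).trans (min_le_right _ _)
    · exact Or.inr (Or.inr ⟨hs, le_antisymm (hJle ((hsp.le_slab hF hp hs).trans h.le))
        (min_le_right _ _)⟩)
  · intro h
    refine le_antisymm ?_ (iInf_le_of_le F (iInf_le_of_le hF (iInf_le_of_le hp
      (iInf_le_of_le rfl le_rfl))))
    rw [hJ]
    rcases h with ⟨hb, he⟩ | ⟨ht, he⟩ | ⟨hs, he⟩
    · exact (hsp.ball_le hF hp hb).trans (by rw [he])
    · exact (hsp.tube_le hF hp ht).trans (by rw [he])
    · exact (hsp.slab_le hF hp hs).trans (by rw [he])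

/-- All minimisers, at every volume. -/
theorem minimiser_iff (hsmall : SmallClass) (hsp : ShapePerimeters) {V : ℝ}
    (hV : V ∈ Ioo (0:ℝ) 1) {E : Set V3} (hE : MeasurableSet E) (hp : IsPeriodic E)
    (hv : tvol E = V) :
    perimeter E = profile V ↔ ∃ F : Set V3, ((F = E ∧ V ≤ 1 / 2) ∨ (F = Eᶜ ∧ 1 / 2 ≤ V)) ∧
      IsOptimalShape (min V (1 - V)) F := by
  have hc : tvol Eᶜ = 1 - V := by rw [Upper.tvol_compl hE, hv]
  have hpc := Upper.isPeriodic_compl hp
  have hPc : perimeter Eᶜ = perimeter E := Upper.perimeter_compl hE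
  constructor
  · intro h
    rcases le_total V (1 / 2) with hle | hge
    · refine ⟨E, Or.inl ⟨rfl, hle⟩, ?_⟩
      rw [min_eq_left (by linarith), ← hv]
      exact (minimiser_iff_half hsmall hsp hE hp (hv.symm ▸ hV.1) (hv.symm ▸ hle)).1 (hv.symm ▸ h)
    · refine ⟨Eᶜ, Or.inr ⟨rfl, hge⟩, ?_⟩
      rw [min_eq_right (by linarith), ← hc]
      refine (minimiser_iff_half hsmall hsp hE.compl hpc (by rw [hc]; linarith [hV.2])
        (by rw [hc]; linarith)).1 ?_
      rw [hPc, hc, ← profile_symm]
      exact h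
  · rintro ⟨F, ⟨rfl, hle⟩ | ⟨rfl, hge⟩, hF⟩
    · rw [min_eq_left (by linarith), ← hv] at hF
      have := (minimiser_iff_half hsmall hsp hE hp (hv.symm ▸ hV.1) (hv.symm ▸ hle)).2 hF
      rwa [hv] at this
    · rw [min_eq_right (by linarith), ← hc] at hF
      have := (minimiser_iff_half hsmall hsp hE.compl hpc (by rw [hc]; linarith [hV.2])
        (by rw [hc]; linarith)).2 hF
      rwa [hPc, hc, ← profile_symm] at this

end

end Vale.P232
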