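import Vale.Agent.P232.ScalarDefs

/-!
P232, module D: rational lower bounds for `CR R = ∫₀^{1/2} √(1-x²/R²)` at the five values of `R`
used by the checker (`frTab`).
-/

open MeasureTheory Real Set

namespace Vale.P232

noncomputable section

/-- Third order lower bound of `√(1-t)` on `[0,9/16]`. -/
theorem taylor_sqrt_one_sub {t : ℝ} (h0 : 0 ≤ t) (h1 : t ≤ 9 / 16) :
    1 - t / 2 - t ^ 2 / 8 - t ^ 3 / 10 ≤ √(1 - t) := by
  apply Real.le_sqrt_of_sq_le
  have h2 : t ^ 2 ≤ (9 / 16) ^ 2 := by nlinarith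
  have h3 : t ^ 3 ≤ (9 / 16) ^ 3 := pow_le_pow_left₀ h0 h1 3
  have hfac : 0 ≤ 3 / 40 - 37 / 320 * t - 1 / 40 * t ^ 2 - 1 / 100 * t ^ 3 := by linarith
  nlinarith [mul_nonneg (pow_nonneg h0 3) hfac]

/-- Lower bound of `CR R` for `R ≥ 2/3`. -/
theorem CR_ge {R : ℝ} (hR : 2 / 3 ≤ R) :
    1 / 2 - 1 / (48 * R ^ 2) - 1 / (1280 * R ^ 4) - 1 / (8960 * R ^ 6) ≤ CR R := by
  have hR0 : 0 < R := by linarith
  unfold CR
  calc 1 / 2 - 1 / (48 * R ^ 2) - 1 / (1280 * R ^ 4) - 1 / (8960 * R ^ 6)
      = ∫ x in (0 : ℝ)..1 / 2,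
          (1 - (1 / (2 * R ^ 2)) * x ^ 2 - (1 / (8 * R ^ 4)) * x ^ 4
            - (1 / (10 * R ^ 6)) * x ^ 6) := by
        rw [intervalIntegral.integral_sub, intervalIntegral.integral_sub,
          intervalIntegral.integral_sub, intervalIntegral.integral_const_mul,
          intervalIntegral.integral_const_mul, intervalIntegral.integral_const_mul,
          intervalIntegral.integral_const, integral_pow, integral_pow, integral_pow]
        · norm_num
          field_simp
          ring
        all_goals exact Continuous.intervalIntegrable (by fun_prop) _ _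
    _ ≤ ∫ x in (0 : ℝ)..1 / 2, √(1 - (x / R) ^ 2) := by
        refine intervalIntegral.integral_mono_on (by norm_num)
          (Continuous.intervalIntegrable (by fun_prop) _ _)
          (Continuous.intervalIntegrable (by fun_prop) _ _) fun x hx => ?_
        have hq : (x / R) ^ 2 ≤ 9 / 16 := by
          have h1 : x / R ≤ 3 / 4 := by rw [div_le_iff₀ hR0]; linarith [hx.2]
          have h2 : 0 ≤ x / R := div_nonneg hx.1 hR0.le
          nlinarith
        refine le_trans (le_of_eq ?_) (taylor_sqrt_one_sub (sq_nonneg _) hq)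
        field_simp

theorem CR_integral_quarter : ∫ x in (0 : ℝ)..1, √(1 - x ^ 2) = π / 4 := by
  have hc : Continuous fun x : ℝ => √(1 - x ^ 2) := by fun_prop
  have h := intervalIntegral.integral_comp_neg (a := (0 : ℝ)) (b := 1)
    (fun x : ℝ => √(1 - x ^ 2))
  simp only [neg_sq, neg_zero] at h
  have h2 := intervalIntegral.integral_add_adjacent_intervals (hc.intervalIntegrable (-1) 0)
    (hc.intervalIntegrable (μ := volume) 0 1)
  have h3 := integral_sqrt_one_sub_sq
  linarith

theorem CR_half : CR (1 / 2) = π / 8 := by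
  unfold CR
  have h := intervalIntegral.integral_comp_mul_left (a := (0 : ℝ)) (b := 1 / 2)
    (f := fun x : ℝ => √(1 - x ^ 2)) (c := 2) (by norm_num)
  norm_num at h
  rw [CR_integral_quarter] at h
  have e : (fun x : ℝ => √(1 - (x / (1 / 2)) ^ 2)) = fun x : ℝ => √(1 - (2 * x) ^ 2) := by
    funext x; ring_nf
  rw [e]
  norm_num
  linarith

/-- The table of lower bounds used by `Chk.frTab`. -/
theorem CR_table : 1568 / 1000 ≤ 4 * CR (1 / 2) ∧ 17915 / 10000 ≤ 4 * CR (2 / 3) ∧
    18772 / 10000 ≤ 4 * CR (17 / 20) ∧ 19398 / 10000 ≤ 4 * CR (6 / 5) ∧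
    19785 / 10000 ≤ 4 * CR 2 := by
  refine ⟨?_, ?_, ?_, ?_, ?_⟩
  · rw [CR_half]; linarith [Real.pi_gt_d2]
  · have h := CR_ge (R := 2 / 3) le_rfl
    norm_num at h ⊢
    linarith
  · have h := CR_ge (R := 17 / 20) (by norm_num)
    norm_num at h ⊢
    linarith
  · have h := CR_ge (R := 6 / 5) (by norm_num)
    norm_num at h ⊢
    linarith
  · have h := CR_ge (R := 2) (by norm_num)
    norm_num at h ⊢
    linarith

end

end Vale.P232
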