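import Vale.Agent.P232.RigidFlux
import Vale.Agent.P232.FluxLib
import Vale.Agent.P232.ScalarCR
import Vale.Agent.P232.PlanarLimit

/-!
P232: the sharpest planar bound at a disc level, and the pointwise vanishing of its excess.
-/

open MeasureTheory Real Set Filter Topology
open scoped ENNReal

namespace Vale.P232

noncomputable section

variable {f : V3 → ℝ}

/-- Thin wrapping slices beat the disc below `T0`. -/
theorem thin_gap {a : ℝ} (ha : 0 ≤ a) (h : a < T0) :
    discP a < 4 * arcC (4/5) + (a - 2 * h0) / (4/5) := by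
  have hk := half_mul_arcC_lower
  have hT : 0 < T0 := ha.trans_lt h
  have hdT := discP_T0
  unfold discP kap at hdT
  rw [Real.sqrt_mul pi_pos.le] at hdT
  unfold discP
  rw [Real.sqrt_mul pi_pos.le]
  have hsp : 0 < √π := Real.sqrt_pos.2 pi_pos
  have h1 : √a < √T0 := Real.sqrt_lt_sqrt ha h
  have hpi := Real.pi_gt_three
  have hsT : √π * √T0 = 11/10 := by linarith
  have h2 : √T0 + √a < 8/5 * √π := by
    have : √T0 ≤ 8/10 * √π := by
      refine le_of_mul_le_mul_left ?_ hsp
      rw [hsT, ← mul_assoc, mul_comm (√π) (8/10), mul_assoc, Real.mul_self_sqrt pi_pos.le]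
      linarith
    linarith
  have key : (T0 - a) / (4/5) < 2 * (√π * √T0) - 2 * (√π * √a) := by
    rw [div_lt_iff₀ (by norm_num : (0:ℝ) < 4/5)]
    have e : T0 - a = (√T0 - √a) * (√T0 + √a) := by
      ring_nf
      rw [Real.sq_sqrt hT.le, Real.sq_sqrt ha]
    rw [e]
    have := mul_lt_mul_of_pos_left h2 (sub_pos.2 h1)
    nlinarith
  have e2 : (a - 2 * h0) / (4/5) = (T0 - 2 * h0) / (4/5) - (T0 - a) / (4/5) := by ring
  linarith

theorem arcC_le_half (R : ℝ) : arcC R ≤ 1 / 2 := by
  unfold arcC CR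
  refine le_trans (intervalIntegral.integral_mono_on (g := fun _ => (1:ℝ)) (by norm_num)
    (Continuous.intervalIntegrable (by fun_prop) _ _) intervalIntegrable_const fun x _ => ?_)
    (by simp)
  rw [Real.sqrt_le_one]; nlinarith [sq_nonneg (x / R)]

theorem arcC_nonneg (R : ℝ) : 0 ≤ arcC R :=
  intervalIntegral.integral_nonneg (by norm_num) fun _ _ => Real.sqrt_nonneg _

/-- Wide arcs are almost straight. -/
theorem two_sub_arcC_le {R : ℝ} (hR : 1 ≤ R) : R * (2 - 4 * arcC R) ≤ 1 / R := by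
  have h := CR_ge (show (2:ℝ)/3 ≤ R by linarith)
  have h2 : 1 / (1280 * R ^ 4) ≤ 1 / (1280 * R ^ 2) :=
    one_div_le_one_div_of_le (by positivity)
      (mul_le_mul_of_nonneg_left (pow_le_pow_right₀ hR (by norm_num)) (by norm_num))
  have h3 : 1 / (8960 * R ^ 6) ≤ 1 / (8960 * R ^ 2) :=
    one_div_le_one_div_of_le (by positivity)
      (mul_le_mul_of_nonneg_left (pow_le_pow_right₀ hR (by norm_num)) (by norm_num))
  have h4 : 2 - 4 * arcC R ≤ 1 / R ^ 2 := by
    have e1 : 1 / (48 * R ^ 2) = 1 / R ^ 2 * (1/48) := by field_simp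
    have e2 : 1 / (1280 * R ^ 2) = 1 / R ^ 2 * (1/1280) := by field_simp
    have e3 : 1 / (8960 * R ^ 2) = 1 / R ^ 2 * (1/8960) := by field_simp
    have hp : (0:ℝ) ≤ 1 / R ^ 2 := by positivity
    unfold arcC
    linarith
  calc R * (2 - 4 * arcC R) ≤ R * (1 / R ^ 2) := mul_le_mul_of_nonneg_left h4 (by linarith)
    _ = 1 / R := by field_simp

/-- The exact flux of the disc field. -/
def exactF (hf : CoreFun f) (t δ z : ℝ) : ℝ :=
  (4 * (hf.quad t z).flux (fun x _ => discU δ (hf.quad t z).area (hf.quad t z).phi x)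
    (fun x _ => coF (discU δ (hf.quad t z).area (hf.quad t z).phi) x)).toReal

theorem flux_le_one (Q : Quad) {a b : ℝ → ℝ → ℝ} (ha : ∀ x y, a x y ≤ 1) (hb : ∀ x y, b x y ≤ 1) :
    Q.flux a b ≤ 1 := by
  have h : ∀ (u : ℝ → ℝ) (s : ℝ → ℝ), (∀ y, u y ≤ 1) →
      (∫⁻ y in Ioo (0:ℝ) (1/2), if s y ∈ Ioo (0:ℝ) (1/2) then ENNReal.ofReal (u y) else 0)
        ≤ ENNReal.ofReal (1/2) := by
    intro u s hu
    refine (lintegral_mono (g := fun _ => 1) fun y => ?_).trans ?_
    · split_ifs
      · exact ENNReal.ofReal_le_one.2 (hu y)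
      · exact zero_le
    · simp
  refine (add_le_add (h (fun y => a (Q.psi y) y) Q.psi fun y => ha _ _)
    (h (fun x => b x (Q.phi x)) Q.phi fun x => hb _ _)).trans (le_of_eq ?_)
  rw [← ENNReal.ofReal_add (by norm_num) (by norm_num)]
  norm_num

theorem exactFlux_le (hf : CoreFun f) (t δ z : ℝ) :
    4 * (hf.quad t z).flux (fun x _ => discU δ (hf.quad t z).area (hf.quad t z).phi x)
      (fun x _ => coF (discU δ (hf.quad t z).area (hf.quad t z).phi) x) ≤ 4 :=
  (mul_le_mul_right (flux_le_one _ (fun x _ => (discU_mem _ _ _ x).2) fun x _ => coF_le_one _ x)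
    4).trans_eq (mul_one 4)

theorem exactF_eq (hf : CoreFun f) (t δ z : ℝ) :
    ENNReal.ofReal (exactF hf t δ z) =
      4 * (hf.quad t z).flux (fun x _ => discU δ (hf.quad t z).area (hf.quad t z).phi x)
        (fun x _ => coF (discU δ (hf.quad t z).area (hf.quad t z).phi) x) :=
  ENNReal.ofReal_toReal (ne_top_of_le_ne_top (by norm_num) (exactFlux_le hf t δ z))

theorem exactF_mem (hf : CoreFun f) (t δ z : ℝ) : exactF hf t δ z ∈ Icc (0:ℝ) 4 := by
  refine ⟨ENNReal.toReal_nonneg, ?_⟩
  have := ENNReal.toReal_mono (by norm_num : (4:ℝ≥0∞) ≠ ⊤) (exactFlux_le hf t δ z)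
  simpa [exactF] using this

theorem measurable_exactF (hf : CoreFun f) (t : ℝ) {δ : ℝ} (hδ : 0 < δ) :
    Measurable (exactF hf t δ) := by
  have hu := FluxQ.measurable_disc (Qf := hf.quad t) (Flux.continuous_quad_phi hf t) hδ
  have hpsi := (Flux.continuous_quad_psi hf t).measurable
  have hphi := (Flux.continuous_quad_phi hf t).measurable
  have h1 : Measurable fun q : ℝ × ℝ => if (hf.quad t q.1).psi q.2 ∈ Ioo (0:ℝ) (1/2) then
      ENNReal.ofReal (discU δ (hf.quad t q.1).area (hf.quad t q.1).phi ((hf.quad t q.1).psi q.2))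
      else 0 :=
    Measurable.ite (hpsi measurableSet_Ioo) (hu.comp (hpsi.prodMk measurable_fst)).ennreal_ofReal
      measurable_const
  have h2 : Measurable fun q : ℝ × ℝ => if (hf.quad t q.1).phi q.2 ∈ Ioo (0:ℝ) (1/2) then
      ENNReal.ofReal (coF (discU δ (hf.quad t q.1).area (hf.quad t q.1).phi) q.2) else 0 :=
    Measurable.ite (hphi measurableSet_Ioo)
      ((((hu.comp (measurable_snd.prodMk measurable_fst)).pow_const 2).const_sub 1).sqrt).ennreal_ofReal
      measurable_const
  exact ((h1.lintegral_prod_right'.add h2.lintegral_prod_right').const_mul 4).ennreal_toReal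

/-- The sharpest bound of the kind needed for the rigidity of disc levels. -/
def fineL (hf : CoreFun f) (t R δ z : ℝ) : ℝ :=
  if yr f t (1/2) z = 0 then
    if xr f t (1/2) z = 0 then exactF hf t δ z
    else max (arcF (4/5) (sliceA f t z) (xr f t (1/2) z)) (arcF R (sliceA f t z) (xr f t (1/2) z))
  else
    if xr f t (1/2) z = 0 then
      max (arcF (4/5) (sliceA f t z) (yr f t (1/2) z)) (arcF R (sliceA f t z) (yr f t (1/2) z))
    else crossL (sliceA f t z) 0

/-- The fine bound or the disc. -/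
def fullL (hf : CoreFun f) (t R δ z : ℝ) : ℝ :=
  max (discP (sliceA f t z)) (fineL hf t R δ z)

theorem measurable_fineL (hf : CoreFun f) (t R : ℝ) {δ : ℝ} (hδ : 0 < δ) :
    Measurable (fineL hf t R δ) := by
  have hA := (hf.continuous_sliceA t).measurable
  have hX := (Flux.continuous_bX hf t).measurable
  have hY := (Flux.continuous_bY hf t).measurable
  have harc : ∀ (S : ℝ) {b : ℝ → ℝ}, Measurable b →
      Measurable fun z => arcF S (sliceA f t z) (b z) := fun S b hb =>
    measurable_const.max (measurable_const.add ((hA.sub (hb.const_mul 2)).div_const S))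
  exact Measurable.ite (hX (measurableSet_singleton 0))
    (Measurable.ite (hY (measurableSet_singleton 0)) (measurable_exactF hf t hδ)
      ((harc _ hY).max (harc _ hY)))
    (Measurable.ite (hY (measurableSet_singleton 0)) ((harc _ hX).max (harc _ hX))
      ((CoreFun.measurable_crossL 0).comp hA))

theorem discP_le_four {a : ℝ} (ha : a ≤ 1) : discP a ≤ 4 := by
  unfold discP
  have : √(π * a) ≤ 2 := by
    rw [Real.sqrt_le_left (by norm_num)]
    nlinarith [Real.pi_lt_d4, Real.pi_pos]
  linarith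

theorem arcF_mem {R a b : ℝ} (hR : 1/2 ≤ R) (ha : a ∈ Icc (0:ℝ) 1) (hb : b ∈ Icc (0:ℝ) (1/2)) :
    arcF R a b ∈ Icc (0:ℝ) 4 := by
  unfold arcF
  refine ⟨le_max_of_le_left (by norm_num), max_le (by norm_num) ?_⟩
  have h1 := arcC_le_half R
  have h2 : (a - 2 * b) / R ≤ 2 := by
    rw [div_le_iff₀ (by linarith)]; linarith [ha.2, hb.1]
  linarith

theorem crossL_zero_mem {a : ℝ} (ha : a ∈ Icc (0:ℝ) 1) : crossL a 0 ∈ Icc (0:ℝ) 4 := by
  refine ⟨le_trans ?_ (discP_one_sub_le_crossL ha.1 ha.2), ?_⟩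
  · unfold discP; positivity
  unfold crossL LCross
  have hpi := Real.pi_lt_d4
  split_ifs with h h'
  · rw [show (1:ℝ) / 2 - 0 = 1/2 by norm_num]
    linarith [ha.1]
  · exact absurd (by norm_num) h'
  · exact discP_le_four (by linarith [ha.1])

theorem fullL_mem (hf : CoreFun f) (t : ℝ) {R : ℝ} (hR : 1/2 ≤ R) (δ z : ℝ) :
    fullL hf t R δ z ∈ Icc (0:ℝ) 4 := by
  have hA := sliceA_mem_Icc hf t z
  refine ⟨le_max_of_le_left (by unfold discP; positivity), max_le (discP_le_four hA.2) ?_⟩
  have hX : yr f t (1/2) z ∈ Icc (0:ℝ) (1/2) := root_mem _ _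
  have hY : xr f t (1/2) z ∈ Icc (0:ℝ) (1/2) := root_mem _ _
  unfold fineL
  split_ifs
  · exact (exactF_mem hf t δ z).2
  · exact max_le (arcF_mem (by norm_num) hA hY).2 (arcF_mem hR hA hY).2
  · exact max_le (arcF_mem (by norm_num) hA hX).2 (arcF_mem hR hA hX).2
  · exact (crossL_zero_mem hA).2

theorem integrableOn_fullL (hf : CoreFun f) (t : ℝ) {R δ : ℝ} (hR : 1/2 ≤ R) (hδ : 0 < δ) :
    IntegrableOn (fullL hf t R δ) (Ioo (0:ℝ) (1/2)) := by
  have hd : Measurable fun z => discP (sliceA f t z) := by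
    unfold discP
    exact ((Real.continuous_sqrt.comp (continuous_const.mul (hf.continuous_sliceA t))).const_mul
      2).measurable
  refine Integrable.of_bound (hd.max (measurable_fineL hf t R hδ)).aestronglyMeasurable 4
    (ae_of_all _ fun z => ?_)
  rw [Real.norm_eq_abs, abs_of_nonneg (fullL_mem hf t hR δ z).1]
  exact (fullL_mem hf t hR δ z).2

theorem flux_fullL (hf : CoreFun f) {t : ℝ} (hd : DiscLevel hf t) {R δ : ℝ} (hR : 1/2 ≤ R)
    (hδ : 0 < δ) : Flux hf t (Ioo (0:ℝ) (1/2)) (fullL hf t R δ) := by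
  have hA := (hf.continuous_sliceA t).measurable
  have hdm : Measurable fun z => discP (sliceA f t z) := by
    unfold discP
    exact ((Real.continuous_sqrt.comp (continuous_const.mul (hf.continuous_sliceA t))).const_mul
      2).measurable
  have harc : ∀ (S : ℝ) {b : ℝ → ℝ}, Measurable b →
      Measurable fun z => arcF S (sliceA f t z) (b z) := fun S b hb =>
    measurable_const.max (measurable_const.add ((hA.sub (hb.const_mul 2)).div_const S))
  refine Flux.sup hdm (measurable_fineL hf t R hδ) hd.flux (hf.flux_cases t ?_ ?_ ?_ ?_)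
  · intro ε hε
    have hm := FluxQ.measurable_disc (Qf := hf.quad t) (Flux.continuous_quad_phi hf t) hδ
    have ha : Measurable fun q : ℝ × ℝ × ℝ =>
        discU δ (hf.quad t q.2.2).area (hf.quad t q.2.2).phi q.1 :=
      hm.comp (measurable_fst.prodMk measurable_snd.snd)
    refine ⟨fun x _ z => discU δ (hf.quad t z).area (hf.quad t z).phi x,
      fun x _ z => coF (discU δ (hf.quad t z).area (hf.quad t z).phi) x, ha,
      ((ha.pow_const 2).const_sub 1).sqrt, fun x _ z => (discU_mem _ _ _ _).1,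
      fun x _ z => coF_nonneg _ _, fun x _ z => (sq_add_coF_sq (discU_mem _ _ _ _)).le,
      fun z hz => ?_⟩
    refine (ENNReal.ofReal_le_ofReal ?_).trans (exactF_eq hf t δ z).le
    simp only [fineL, if_pos hz.1.1, if_pos hz.1.2]
    linarith
  · refine (Flux.sup (harc _ (Flux.continuous_bX hf t).measurable)
      (harc _ (Flux.continuous_bX hf t).measurable) (Flux.arcX hf t (by norm_num : (1:ℝ)/2 ≤ 4/5))
      (Flux.arcX hf t hR)).mono Subset.rfl fun z hz => ?_
    simp only [fineL, if_neg hz.1.1.ne', if_pos hz.1.2, le_refl]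
  · refine (Flux.sup (harc _ (Flux.continuous_bY hf t).measurable)
      (harc _ (Flux.continuous_bY hf t).measurable) (Flux.arcY hf t (by norm_num : (1:ℝ)/2 ≤ 4/5))
      (Flux.arcY hf t hR)).mono Subset.rfl fun z hz => ?_
    simp only [fineL, if_pos hz.1.1, if_neg hz.1.2.ne', le_refl]
  · refine (Flux.crossY hf t 0).mono (fun z hz => ⟨hz.1, hz.2, hz.2.le⟩) fun z hz => ?_
    simp only [fineL, if_neg hz.1.1.ne', if_neg hz.1.2.ne', le_refl]

/-- The main part of the slicing bound. -/
def mainPart (c : ℝ → ℝ) (f : V3 → ℝ) (t : ℝ) : ℝ :=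
  2 * (∫ z in Ioo (0:ℝ) (1/2), c (sliceA f t z) * discP (sliceA f t z))
    + 2 * (∫ s in (sliceA f t (1/2))..(sliceA f t 0), √(1 - c s ^ 2))

variable {E : Set V3}

/-- Where the main part is sharp, the excess of the fine bound vanishes pointwise along
subsequences. -/
theorem exists_excess_zero (S : LevelSeq E) (hd : ∀ n, DiscLevel (S.core n) (S.t n))
    {c : ℝ → ℝ} (hcm : Measurable c) (hc : ∀ a, c a ∈ Icc (0:ℝ) 1)
    (hlow : ∀ ε > (0:ℝ), ∀ᶠ n in atTop, candJ (tvol E) - ε ≤ mainPart c (S.f n) (S.t n)) :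
    ∃ R : ℕ → ℝ, (∀ n, 1/2 ≤ R n) ∧ Tendsto R atTop atTop ∧
      ∀ᵐ z ∂(volume.restrict (Ioo (0:ℝ) (1/2))), ∃ σ : ℕ → ℕ, StrictMono σ ∧
        Tendsto (fun k => (1 + R (σ k)) * (c (sliceA (S.f (σ k)) (S.t (σ k)) z) *
          (fullL (S.core (σ k)) (S.t (σ k)) (R (σ k)) (1 / ((σ k : ℝ) + 1)) z
            - discP (sliceA (S.f (σ k)) (S.t (σ k)) z)))) atTop (𝓝 0) := by
  set J := candJ (tvol E) with hJ
  set d : ℕ → ℝ := fun n =>
    max 0 ((Qz (S.f n) (S.t n)).toReal - mainPart c (S.f n) (S.t n)) / 2 with hddef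
  have hd0 : ∀ n, 0 ≤ d n := fun n => div_nonneg (le_max_left _ _) zero_le_two
  have hdlim : Tendsto d atTop (𝓝 0) := by
    refine tendsto_order.2 ⟨fun a ha => Eventually.of_forall fun n => ha.trans_le (hd0 n),
      fun a ha => ?_⟩
    filter_upwards [S.excess _ (half_pos ha), hlow _ (half_pos ha)] with n h1 h2
    have h3 := ENNReal.toReal_mono ENNReal.ofReal_ne_top h1
    have hJ0 : 0 ≤ J := by
      rw [hJ]; unfold candJ ballP tubeP
      refine le_min (le_min ?_ (by positivity)) (by norm_num)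
      have : 0 ≤ tvol E := ENNReal.toReal_nonneg
      positivity
    rw [ENNReal.toReal_ofReal (by linarith)] at h3
    simp only [d]
    rw [div_lt_iff₀ two_pos, max_lt_iff]
    constructor <;> linarith
  set e : ℕ → ℝ := fun n => d n + 1 / ((n:ℝ) + 1) with hedef
  have hepos : ∀ n, 0 < e n := fun n =>
    lt_add_of_nonneg_of_lt (hd0 n) (by positivity)
  have helim : Tendsto e atTop (𝓝 0) := by
    simpa [e] using hdlim.add (tendsto_one_div_add_atTop_nhds_zero_nat (𝕜 := ℝ))
  set R : ℕ → ℝ := fun n => max (1/2) (√(e n))⁻¹ with hRdef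
  have hR : ∀ n, 1/2 ≤ R n := fun n => le_max_left _ _
  have hRtop : Tendsto R atTop atTop := by
    refine tendsto_atTop_mono (fun n => le_max_right _ _) (Tendsto.inv_tendsto_nhdsGT_zero ?_)
    refine tendsto_nhdsWithin_iff.2 ⟨?_, Eventually.of_forall fun n => Real.sqrt_pos.2 (hepos n)⟩
    simpa using helim.sqrt
  refine ⟨R, hR, hRtop, ?_⟩
  set μ := volume.restrict (Ioo (0:ℝ) (1/2)) with hμ
  set w : ℕ → ℝ → ℝ := fun n z => (1 + R n) * (c (sliceA (S.f n) (S.t n) z) *
    (fullL (S.core n) (S.t n) (R n) (1 / ((n:ℝ) + 1)) z - discP (sliceA (S.f n) (S.t n) z)))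
    with hwdef
  have hw0 : ∀ n z, 0 ≤ w n z := fun n z => mul_nonneg (by linarith [hR n])
    (mul_nonneg (hc _).1 (sub_nonneg.2 (le_max_left _ _)))
  have hwm : ∀ n, Measurable (w n) := fun n => by
    have hA := ((S.core n).continuous_sliceA (S.t n)).measurable
    have hD : Measurable fun z => discP (sliceA (S.f n) (S.t n) z) := by
      unfold discP
      exact ((Real.continuous_sqrt.comp
        (continuous_const.mul ((S.core n).continuous_sliceA (S.t n)))).const_mul 2).measurable
    exact ((hcm.comp hA).mul (((hD.max (measurable_fineL (S.core n) (S.t n) (R n)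
      (by positivity))).sub hD))).const_mul (1 + R n)
  have hint : Tendsto (fun n => ∫⁻ z, ENNReal.ofReal (w n z) ∂μ) atTop (𝓝 0) := by
    have hbound : Tendsto (fun n => ENNReal.ofReal (d n + d n / 2 + √(e n))) atTop (𝓝 0) := by
      rw [← ENNReal.ofReal_zero]
      refine ENNReal.tendsto_ofReal ?_
      simpa using (hdlim.add (hdlim.div_const 2)).add helim.sqrt
    refine tendsto_of_tendsto_of_tendsto_of_le_of_le' tendsto_const_nhds hbound
      (Eventually.of_forall fun n => zero_le) ?_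
    filter_upwards [S.excess 1 one_pos] with n hn
    have hA := ((S.core n).continuous_sliceA (S.t n)).measurable
    set g := fun z => c (sliceA (S.f n) (S.t n) z) with hg
    have hgm : AEStronglyMeasurable g μ := (hcm.comp hA).aestronglyMeasurable
    have hgb : ∀ᵐ z ∂μ, ‖g z‖ ≤ 1 := ae_of_all _ fun z => by
      rw [Real.norm_eq_abs, abs_of_nonneg (hc _).1]; exact (hc _).2
    have i1 : Integrable (fun z => g z * fullL (S.core n) (S.t n) (R n) (1 / ((n:ℝ) + 1)) z) μ :=
      (integrableOn_fullL (S.core n) (S.t n) (hR n) (by positivity)).bdd_mul hgm hgb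
    have i2 : Integrable (fun z => g z * discP (sliceA (S.f n) (S.t n) z)) μ := by
      refine Integrable.bdd_mul ?_ hgm hgb
      refine Continuous.integrableOn_Icc (a := (0:ℝ)) (b := 1/2) ?_ |>.mono_set Ioo_subset_Icc_self
      unfold discP
      exact (Real.continuous_sqrt.comp
        (continuous_const.mul ((S.core n).continuous_sliceA (S.t n)))).const_mul 2
    have hI : ∫ z, w n z ∂μ ≤ (1 + R n) * d n := by
      have e1 : w n = fun z => (1 + R n) *
          (g z * fullL (S.core n) (S.t n) (R n) (1 / ((n:ℝ) + 1)) z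
            - g z * discP (sliceA (S.f n) (S.t n) z)) := by
        funext z; simp only [w, g]; ring
      rw [e1, integral_const_mul, integral_sub i1 i2]
      refine mul_le_mul_of_nonneg_left ?_ (by linarith [hR n])
      have hb := (S.core n).flux_bound_real (S.t n) hcm hc
        (integrableOn_fullL (S.core n) (S.t n) (hR n) (δ := 1 / ((n:ℝ) + 1)) (by positivity))
        (flux_fullL (S.core n) (hd n) (hR n) (by positivity)) ENNReal.toReal_nonneg
        (ENNReal.ofReal_toReal (ne_top_of_le_ne_top ENNReal.ofReal_ne_top hn)).ge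
      simp only [d, mainPart]
      rw [le_div_iff₀ two_pos]
      refine le_trans ?_ (le_max_right _ _)
      simp only [hμ, g]
      linarith
    have hiw : Integrable (w n) μ := by
      have e' : w n = fun z => (1 + R n) * (g z * fullL (S.core n) (S.t n) (R n) (1 / ((n:ℝ) + 1)) z
          - g z * discP (sliceA (S.f n) (S.t n) z)) := by
        funext z; simp only [w, g]; ring
      rw [e']
      exact (i1.sub i2).const_mul _
    rw [← ofReal_integral_eq_lintegral_ofReal hiw (ae_of_all _ (hw0 n))]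
    refine ENNReal.ofReal_le_ofReal (hI.trans ?_)
    have hs : (√(e n))⁻¹ * d n ≤ √(e n) := by
      rw [inv_mul_le_iff₀ (Real.sqrt_pos.2 (hepos n)), Real.mul_self_sqrt (hepos n).le]
      simp only [e]
      linarith [show (0:ℝ) ≤ 1 / ((n:ℝ) + 1) by positivity]
    have : R n * d n ≤ d n / 2 + √(e n) := by
      refine le_trans (mul_le_mul_of_nonneg_right (max_le_add_of_nonneg (by norm_num)
        (inv_nonneg.2 (Real.sqrt_nonneg _))) (hd0 n)) ?_
      rw [add_mul]
      linarith
    linarith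
  have hz : ∀ᵐ z ∂μ, liminf (fun n => ENNReal.ofReal (w n z)) atTop = 0 := by
    refine (lintegral_eq_zero_iff (Measurable.liminf fun n => (hwm n).ennreal_ofReal)).1 ?_
    refine le_antisymm ((lintegral_liminf_le fun n => (hwm n).ennreal_ofReal).trans ?_) zero_le
    rw [hint.liminf_eq]
  filter_upwards [hz] with z hz
  have hfreq : ∀ k : ℕ, ∃ᶠ n in atTop, w n z < 1 / ((k:ℝ) + 1) := fun k => by
    have hp : (0:ℝ) < 1 / ((k:ℝ) + 1) := by positivity
    refine (frequently_lt_of_liminf_lt (by isBoundedDefault)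
      (hz.trans_lt (ENNReal.ofReal_pos.2 hp))).mono fun n hn => ?_
    exact (ENNReal.ofReal_lt_ofReal_iff hp).1 hn
  obtain ⟨σ, hσ, hσw⟩ := extraction_forall_of_frequently hfreq
  refine ⟨σ, hσ, squeeze_zero (fun k => hw0 (σ k) z) (fun k => (hσw k).le) ?_⟩
  exact tendsto_one_div_add_atTop_nhds_zero_nat

end

end Vale.P232
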