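import Vale.Agent.P232.RigidShapeFlux
import Vale.Agent.P232.RigidConv

/-!
P232: slices of a minimiser at which the planar excess vanishes are discs or bands.
-/

open MeasureTheory Real Set Filter Topology
open scoped ENNReal

namespace Vale.P232

noncomputable section

variable {E : Set V3}

/-- A height at which the slices of the levels converge and, along `σ`, the planar excess
tends to zero. -/
structure GoodSlice (S : LevelSeq E) (R : ℕ → ℝ) (σ : ℕ → ℕ) (z A : ℝ) : Prop where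
  mem : z ∈ Ioo (0:ℝ) (1/2)
  top : Tendsto σ atTop atTop
  Rge : ∀ n, 1/2 ≤ R n
  Rtop : Tendsto R atTop atTop
  area : Tendsto (fun n => sliceA (S.f n) (S.t n) z) atTop (𝓝 A)
  areaE : secA E z = A
  hgt : ∀ᵐ x ∂(volume.restrict (Ioo (0:ℝ) (1/2))),
    Tendsto (fun n => yr (S.f n) (S.t n) x z) atTop (𝓝 (Vale.P232.hgt E x z))
  excess : Tendsto (fun k => (1 + R (σ k)) *
    (fullL (S.core (σ k)) (S.t (σ k)) (R (σ k)) (1 / ((σ k : ℝ) + 1)) z
      - discP (sliceA (S.f (σ k)) (S.t (σ k)) z))) atTop (𝓝 0)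

namespace GoodSlice

variable {S : LevelSeq E} {R : ℕ → ℝ} {σ : ℕ → ℕ} {z A : ℝ}

theorem comp (G : GoodSlice S R σ z A) {τ : ℕ → ℕ} (hτ : Tendsto τ atTop atTop) :
    GoodSlice S R (σ ∘ τ) z A where
  mem := G.mem
  top := G.top.comp hτ
  Rge := G.Rge
  Rtop := G.Rtop
  area := G.area
  areaE := G.areaE
  hgt := G.hgt
  excess := G.excess.comp hτ

theorem fine_le (G : GoodSlice S R σ z A) (k : ℕ) :
    fineL (S.core (σ k)) (S.t (σ k)) (R (σ k)) (1 / ((σ k : ℝ) + 1)) z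
      ≤ discP (sliceA (S.f (σ k)) (S.t (σ k)) z) + (1 + R (σ k)) *
        (fullL (S.core (σ k)) (S.t (σ k)) (R (σ k)) (1 / ((σ k : ℝ) + 1)) z
          - discP (sliceA (S.f (σ k)) (S.t (σ k)) z)) := by
  set D := discP (sliceA (S.f (σ k)) (S.t (σ k)) z)
  set F := fullL (S.core (σ k)) (S.t (σ k)) (R (σ k)) (1 / ((σ k : ℝ) + 1)) z
  have h1 : D ≤ F := le_max_left _ _
  have h2 : fineL (S.core (σ k)) (S.t (σ k)) (R (σ k)) (1 / ((σ k : ℝ) + 1)) z ≤ F :=
    le_max_right _ _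
  have h3 : 0 ≤ R (σ k) * (F - D) := mul_nonneg (by linarith [G.Rge (σ k)]) (by linarith)
  linarith

theorem continuous_discP : Continuous discP := by unfold discP; fun_prop

theorem tendsto_rhs (G : GoodSlice S R σ z A) :
    Tendsto (fun k => discP (sliceA (S.f (σ k)) (S.t (σ k)) z) + (1 + R (σ k)) *
        (fullL (S.core (σ k)) (S.t (σ k)) (R (σ k)) (1 / ((σ k : ℝ) + 1)) z
          - discP (sliceA (S.f (σ k)) (S.t (σ k)) z))) atTop (𝓝 (discP A)) := by
  simpa using ((continuous_discP.tendsto A).comp (G.area.comp G.top)).add G.excess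

theorem integrableOn_hgt (hE : MeasurableSet E) (z : ℝ) :
    IntegrableOn (fun x => Vale.P232.hgt E x z) (Ioo (0:ℝ) (1/2)) := by
  refine Integrable.of_bound ((measurable_hgt hE).comp
    (measurable_const.prodMk measurable_id)).aestronglyMeasurable (1/2) (ae_of_all _ fun x => ?_)
  simp only [Function.comp_apply, id_eq, Real.norm_eq_abs, abs_of_nonneg (hgt_mem_Icc E x z).1]
  exact (hgt_mem_Icc E x z).2

theorem integral_hgt (G : GoodSlice S R σ z A) :
    ∫ x in Ioo (0:ℝ) (1/2), Vale.P232.hgt E x z = A / 4 := by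
  have h := G.areaE
  unfold secA at h
  rw [intervalIntegral.integral_of_le (by norm_num), setIntegral_congr_set Ioo_ae_eq_Ioc.symm] at h
  linarith

theorem A_nonneg (G : GoodSlice S R σ z A) : 0 ≤ A :=
  ge_of_tendsto' G.area fun n => CoreFun.sliceA_nonneg _ _

theorem not_cross (G : GoodSlice S R σ z A) (hA : A < 1/2) :
    ∀ᶠ k in atTop, ¬ (0 < yr (S.f (σ k)) (S.t (σ k)) (1/2) z ∧
      0 < xr (S.f (σ k)) (S.t (σ k)) (1/2) z) := by
  have hlt : discP A < discP (1 - A) := by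
    unfold discP
    refine mul_lt_mul_of_pos_left (Real.sqrt_lt_sqrt (mul_nonneg pi_pos.le G.A_nonneg) ?_) two_pos
    exact mul_lt_mul_of_pos_left (by linarith) pi_pos
  have hl : Tendsto (fun k => discP (1 - sliceA (S.f (σ k)) (S.t (σ k)) z)) atTop
      (𝓝 (discP (1 - A))) :=
    (continuous_discP.tendsto _).comp ((G.area.comp G.top).const_sub 1)
  filter_upwards [G.tendsto_rhs.eventually_lt hl hlt] with k hk h
  have h1 := G.fine_le k
  have hmem := sliceA_mem_Icc (S.core (σ k)) (S.t (σ k)) z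
  have h2 := discP_one_sub_le_crossL (b := 0) hmem.1 hmem.2
  simp only [fineL, if_neg h.1.ne', if_neg h.2.ne'] at h1
  linarith

theorem single_X_bound (G : GoodSlice S R σ z A) {k : ℕ}
    (hX : 0 < yr (S.f (σ k)) (S.t (σ k)) (1/2) z) (hY : xr (S.f (σ k)) (S.t (σ k)) (1/2) z = 0) :
    max (arcF (4/5) (sliceA (S.f (σ k)) (S.t (σ k)) z) (yr (S.f (σ k)) (S.t (σ k)) (1/2) z))
      (arcF (R (σ k)) (sliceA (S.f (σ k)) (S.t (σ k)) z) (yr (S.f (σ k)) (S.t (σ k)) (1/2) z))
      ≤ fineL (S.core (σ k)) (S.t (σ k)) (R (σ k)) (1 / ((σ k : ℝ) + 1)) z := by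
  simp only [fineL, if_neg hX.ne', if_pos hY, le_refl]

theorem single_Y_bound (G : GoodSlice S R σ z A) {k : ℕ}
    (hX : yr (S.f (σ k)) (S.t (σ k)) (1/2) z = 0) (hY : 0 < xr (S.f (σ k)) (S.t (σ k)) (1/2) z) :
    max (arcF (4/5) (sliceA (S.f (σ k)) (S.t (σ k)) z) (xr (S.f (σ k)) (S.t (σ k)) (1/2) z))
      (arcF (R (σ k)) (sliceA (S.f (σ k)) (S.t (σ k)) z) (xr (S.f (σ k)) (S.t (σ k)) (1/2) z))
      ≤ fineL (S.core (σ k)) (S.t (σ k)) (R (σ k)) (1 / ((σ k : ℝ) + 1)) z := by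
  simp only [fineL, if_pos hX, if_neg hY.ne', le_refl]

/-- A wrapping slice cannot be larger than `1/π`. -/
theorem single_le (G : GoodSlice S R σ z A) (hd : ∀ n, DiscLevel (S.core n) (S.t n))
    (hA : A < T0) :
    ∀ᶠ k in atTop,
      ((0 < yr (S.f (σ k)) (S.t (σ k)) (1/2) z ∧ xr (S.f (σ k)) (S.t (σ k)) (1/2) z = 0) ∨
        (yr (S.f (σ k)) (S.t (σ k)) (1/2) z = 0 ∧ 0 < xr (S.f (σ k)) (S.t (σ k)) (1/2) z)) →
      sliceA (S.f (σ k)) (S.t (σ k)) z ≤ 1 / π := by
  have hl : Tendsto (fun k => 4 * arcC (4/5) + (sliceA (S.f (σ k)) (S.t (σ k)) z - 2 * h0) / (4/5))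
      atTop (𝓝 (4 * arcC (4/5) + (A - 2 * h0) / (4/5))) :=
    (((G.area.comp G.top).sub_const _).div_const _).const_add _
  filter_upwards [G.tendsto_rhs.eventually_lt hl (thin_gap G.A_nonneg hA)] with k hk hs
  by_contra hgt
  rw [not_le] at hgt
  have key : ∀ b, b ≤ h0 → arcF (4/5) (sliceA (S.f (σ k)) (S.t (σ k)) z) b
      ≤ fineL (S.core (σ k)) (S.t (σ k)) (R (σ k)) (1 / ((σ k : ℝ) + 1)) z → False := by
    intro b hb hle
    have h1 := arcF_anti (R := 4/5) (a := sliceA (S.f (σ k)) (S.t (σ k)) z) (by norm_num) hb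
    have h2 : 4 * arcC (4/5) + (sliceA (S.f (σ k)) (S.t (σ k)) z - 2 * h0) / (4/5)
        ≤ arcF (4/5) (sliceA (S.f (σ k)) (S.t (σ k)) z) h0 := le_max_right _ _
    have := G.fine_le k
    linarith
  rcases hs with ⟨hX, hY⟩ | ⟨hX, hY⟩
  · exact key _ ((hd (σ k)).thinX z G.mem hX hY hgt) ((le_max_left _ _).trans (G.single_X_bound hX hY))
  · exact key _ ((hd (σ k)).thinY z G.mem hY hX hgt) ((le_max_left _ _).trans (G.single_Y_bound hX hY))

/-- Away from area `1/π` the slices eventually do not wrap. -/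
theorem eventually_none (G : GoodSlice S R σ z A) (hd : ∀ n, DiscLevel (S.core n) (S.t n))
    (hA : A < T0) (hne : A ≠ 1 / π) :
    ∀ᶠ k in atTop, yr (S.f (σ k)) (S.t (σ k)) (1/2) z = 0 ∧
      xr (S.f (σ k)) (S.t (σ k)) (1/2) z = 0 := by
  have hns : ∀ᶠ k in atTop,
      ((0 < yr (S.f (σ k)) (S.t (σ k)) (1/2) z ∧ xr (S.f (σ k)) (S.t (σ k)) (1/2) z = 0) ∨
        (yr (S.f (σ k)) (S.t (σ k)) (1/2) z = 0 ∧ 0 < xr (S.f (σ k)) (S.t (σ k)) (1/2) z)) →
      False := by
    rcases lt_or_gt_of_ne hne with h | h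
    · have h2 : discP A < 2 := by
        rw [← discP_inv_pi]
        unfold discP
        exact mul_lt_mul_of_pos_left (Real.sqrt_lt_sqrt (mul_nonneg pi_pos.le G.A_nonneg)
          (mul_lt_mul_of_pos_left h pi_pos)) two_pos
      filter_upwards [G.tendsto_rhs.eventually_lt_const h2] with k hk hs
      have := G.fine_le k
      rcases hs with ⟨hX, hY⟩ | ⟨hX, hY⟩
      · have h3 := ((le_max_left 2 _).trans (le_max_left _ _)).trans (G.single_X_bound hX hY)
        linarith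
      · have h3 := ((le_max_left 2 _).trans (le_max_left _ _)).trans (G.single_Y_bound hX hY)
        linarith
    · filter_upwards [G.single_le hd hA, (G.area.comp G.top).eventually_const_lt h] with k h1 h2 hs
      exact absurd (h1 hs) (not_le.2 h2)
  filter_upwards [hns, G.not_cross (hA.trans T0_lt)] with k h1 h2
  rcases (show 0 ≤ yr (S.f (σ k)) (S.t (σ k)) (1/2) z from root_nonneg _ _).eq_or_lt with hX | hX <;>
    rcases (show 0 ≤ xr (S.f (σ k)) (S.t (σ k)) (1/2) z from root_nonneg _ _).eq_or_lt with hY | hY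
  · exact ⟨hX.symm, hY.symm⟩
  · exact (h1 (Or.inr ⟨hX.symm, hY⟩)).elim
  · exact (h1 (Or.inl ⟨hX, hY.symm⟩)).elim
  · exact absurd ⟨hX, hY⟩ h2

/-- Slices without wrapping tend to a disc. -/
theorem disc (G : GoodSlice S R σ z A) (hA : 0 < A)
    (hnone : ∀ᶠ k in atTop, yr (S.f (σ k)) (S.t (σ k)) (1/2) z = 0 ∧
      xr (S.f (σ k)) (S.t (σ k)) (1/2) z = 0) :
    A / π ≤ 1/4 ∧ ∀ᵐ x ∂(volume.restrict (Ioo (0:ℝ) (1/2))),
      Vale.P232.hgt E x z = √(A / π - x ^ 2) := by
  obtain ⟨N, hN⟩ := eventually_atTop.1 hnone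
  set τ : ℕ → ℕ := fun k => σ (k + N) with hτdef
  have hτ : Tendsto τ atTop atTop := G.top.comp (tendsto_add_atTop_nat N)
  set Q : ℕ → Quad := fun k => (S.core (τ k)).quad (S.t (τ k)) z
  have harea : Tendsto (fun k => (Q k).area) atTop (𝓝 (A / 4)) := by
    refine ((G.area.comp hτ).div_const 4).congr fun k => ?_
    simp only [Function.comp_apply, Q, (S.core (τ k)).sliceA_eq]
    ring
  have hrhs := G.tendsto_rhs.comp (tendsto_add_atTop_nat N)
  have hres := quad_disc_limit Q (δ := fun k => 1 / ((τ k : ℝ) + 1)) (fun k => by positivity)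
    ((tendsto_one_div_add_atTop_nhds_zero_nat (𝕜 := ℝ)).comp hτ)
    (fun k => (hN (k + N) (Nat.le_add_left N k)).1) (fun k => (hN (k + N) (Nat.le_add_left N k)).2)
    (φ := fun x => Vale.P232.hgt E x z) (q := A / 4) (by linarith)
    (G.hgt.mono fun x hx => hx.comp hτ) harea fun ε hε => by
      have h4 : discP A < 4 * (√(π * (A / 4)) + ε) := by
        rw [show A = 4 * (A / 4) by ring, discP_four, show 4 * (A / 4) / 4 = A / 4 by ring]
        linarith
      filter_upwards [hrhs.eventually_lt_const h4] with k hk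
      obtain ⟨h1, h2⟩ := hN (k + N) (Nat.le_add_left N k)
      have hle := G.fine_le (k + N)
      simp only [fineL, if_pos h1, if_pos h2] at hle
      have hex := exactF_eq (S.core (τ k)) (S.t (τ k)) (1 / ((τ k : ℝ) + 1)) z
      have hpos : 0 ≤ √(π * (A / 4)) + ε := by positivity
      have h5 : 4 * (Q k).flux
          (fun x _ => discU (1 / ((τ k : ℝ) + 1)) (Q k).area (Q k).phi x)
          (fun x _ => coF (discU (1 / ((τ k : ℝ) + 1)) (Q k).area (Q k).phi) x)
          ≤ 4 * ENNReal.ofReal (√(π * (A / 4)) + ε) := by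
        rw [← hex, ← ENNReal.ofReal_ofNat 4, ← ENNReal.ofReal_mul (by norm_num)]
        refine ENNReal.ofReal_le_ofReal ?_
        simp only [Function.comp_apply] at hk
        simp only [τ]
        linarith
      exact (ENNReal.mul_le_mul_iff_right (by norm_num) (by norm_num)).1 h5
  have e : 4 * (A / 4) / π = A / π := by ring
  rw [e] at hres
  exact hres

theorem wrap_limit (G : GoodSlice S R σ z A) (hAeq : A = 1 / π) {b : ℕ → ℝ}
    (hb : ∀ k, 2 * b k ≤ sliceA (S.f (σ k)) (S.t (σ k)) z)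
    (hle : ∀ᶠ k in atTop, sliceA (S.f (σ k)) (S.t (σ k)) z ≤ 1 / π ∧
      arcF (R (σ k)) (sliceA (S.f (σ k)) (S.t (σ k)) z) (b k)
        ≤ fineL (S.core (σ k)) (S.t (σ k)) (R (σ k)) (1 / ((σ k : ℝ) + 1)) z) :
    Tendsto b atTop (𝓝 (1 / (2 * π))) := by
  have hR := G.Rtop.comp G.top
  set X : ℕ → ℝ := fun k => (1 + R (σ k)) *
    (fullL (S.core (σ k)) (S.t (σ k)) (R (σ k)) (1 / ((σ k : ℝ) + 1)) z
      - discP (sliceA (S.f (σ k)) (S.t (σ k)) z))
  have hzero : Tendsto (fun k => sliceA (S.f (σ k)) (S.t (σ k)) z - 2 * b k) atTop (𝓝 0) := by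
    have hup : Tendsto (fun k => X k + 1 / R (σ k)) atTop (𝓝 0) := by
      have h1 : Tendsto (fun k => 1 / R (σ k)) atTop (𝓝 0) :=
        (tendsto_const_nhds (x := (1:ℝ))).div_atTop hR
      simpa [X] using G.excess.add h1
    refine tendsto_of_tendsto_of_tendsto_of_le_of_le' tendsto_const_nhds hup
      (Eventually.of_forall fun k => sub_nonneg.2 (hb k)) ?_
    filter_upwards [hle, hR.eventually_ge_atTop 1] with k hk hR1
    simp only [Function.comp_apply] at hR1
    set a := sliceA (S.f (σ k)) (S.t (σ k)) z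
    set r := R (σ k)
    have hr : 0 < r := by linarith
    have h1 : 4 * arcC r + (a - 2 * b k) / r
        ≤ fullL (S.core (σ k)) (S.t (σ k)) r (1 / ((σ k : ℝ) + 1)) z :=
      ((le_max_right _ _).trans hk.2).trans (le_max_right _ _)
    have h2 : discP a ≤ 2 := (discP_mono hk.1).trans_eq discP_inv_pi
    have h3 : r * (fullL (S.core (σ k)) (S.t (σ k)) r (1 / ((σ k : ℝ) + 1)) z - discP a) ≤ X k := by
      have : 0 ≤ fullL (S.core (σ k)) (S.t (σ k)) r (1 / ((σ k : ℝ) + 1)) z - discP a :=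
        sub_nonneg.2 (le_max_left _ _)
      simp only [X]
      linarith
    have h4 := two_sub_arcC_le hR1
    have h5 : a - 2 * b k = r * ((a - 2 * b k) / r) := by field_simp
    have h6 : r * ((a - 2 * b k) / r)
        ≤ r * ((fullL (S.core (σ k)) (S.t (σ k)) r (1 / ((σ k : ℝ) + 1)) z - discP a)
          + (2 - 4 * arcC r)) := mul_le_mul_of_nonneg_left (by linarith) hr.le
    rw [mul_add] at h6
    linarith
  have h := (((G.area.comp G.top).sub hzero).div_const 2)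
  rw [hAeq, sub_zero, div_div, mul_comm π 2] at h
  refine h.congr fun k => ?_
  simp only [Function.comp_apply]
  ring

/-- A band along the first axis. -/
theorem bandX (G : GoodSlice S R σ z A) (hd : ∀ n, DiscLevel (S.core n) (S.t n))
    (hE : MeasurableSet E) (hAeq : A = 1 / π) (hA : A < T0)
    (hs : ∀ k, 0 < yr (S.f (σ k)) (S.t (σ k)) (1/2) z ∧
      xr (S.f (σ k)) (S.t (σ k)) (1/2) z = 0) :
    ∀ᵐ x ∂(volume.restrict (Ioo (0:ℝ) (1/2))), Vale.P232.hgt E x z = 1 / (2 * π) := by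
  set w := 1 / (2 * π) with hw
  set b : ℕ → ℝ := fun k => yr (S.f (σ k)) (S.t (σ k)) (1/2) z
  have hphi : ∀ k, ∀ x ∈ Icc (0:ℝ) (1/2), b k ≤ yr (S.f (σ k)) (S.t (σ k)) x z := fun k x hx =>
    ((S.core (σ k)).quad (S.t (σ k)) z).anti_phi hx ⟨by norm_num, le_rfl⟩ hx.2
  have hb : ∀ k, 2 * b k ≤ sliceA (S.f (σ k)) (S.t (σ k)) z := by
    intro k
    have h := intervalIntegral.integral_mono_on (μ := volume) (a := (0:ℝ)) (b := 1/2) (by norm_num)
      (intervalIntegrable_const (c := b k))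
      (((S.core (σ k)).continuous_yr_fix (S.t (σ k)) z).intervalIntegrable _ _) (hphi k)
    rw [intervalIntegral.integral_const, smul_eq_mul] at h
    unfold sliceA
    linarith
  have hbl : Tendsto b atTop (𝓝 w) := G.wrap_limit hAeq hb (by
    filter_upwards [G.single_le hd hA] with k hk
    exact ⟨hk (Or.inl (hs k)), (le_max_right _ _).trans (G.single_X_bound (hs k).1 (hs k).2)⟩)
  have hge : ∀ᵐ x ∂(volume.restrict (Ioo (0:ℝ) (1/2))), 0 ≤ Vale.P232.hgt E x z - w := by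
    filter_upwards [G.hgt, ae_restrict_mem measurableSet_Ioo] with x hx hxI
    exact sub_nonneg.2 (le_of_tendsto_of_tendsto' hbl (hx.comp G.top) fun k =>
      hphi k x (Ioo_subset_Icc_self hxI))
  have hi : IntegrableOn (fun x => Vale.P232.hgt E x z - w) (Ioo (0:ℝ) (1/2)) :=
    (integrableOn_hgt hE z).sub (integrableOn_const (by simp))
  have h0 : ∫ x in Ioo (0:ℝ) (1/2), (Vale.P232.hgt E x z - w) = 0 := by
    rw [integral_sub (integrableOn_hgt hE z) (integrableOn_const (by simp)), G.integral_hgt,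
      setIntegral_const, Real.volume_real_Ioo_of_le (by norm_num), smul_eq_mul, hAeq, hw]
    ring
  filter_upwards [(integral_eq_zero_iff_of_nonneg_ae hge hi).1 h0] with x hx
  exact sub_eq_zero.1 hx

/-- A band along the second axis. -/
theorem bandY (G : GoodSlice S R σ z A) (hd : ∀ n, DiscLevel (S.core n) (S.t n))
    (hE : MeasurableSet E) (hAeq : A = 1 / π) (hA : A < T0)
    (hs : ∀ k, yr (S.f (σ k)) (S.t (σ k)) (1/2) z = 0 ∧
      0 < xr (S.f (σ k)) (S.t (σ k)) (1/2) z) :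
    ∀ᵐ x ∂(volume.restrict (Ioo (0:ℝ) (1/2))),
      Vale.P232.hgt E x z = if x < 1 / (2 * π) then 1/2 else 0 := by
  set w := 1 / (2 * π) with hw
  set b : ℕ → ℝ := fun k => xr (S.f (σ k)) (S.t (σ k)) (1/2) z
  have hphi : ∀ k, ∀ x ∈ Ioo (0:ℝ) (1/2), x ≤ b k → yr (S.f (σ k)) (S.t (σ k)) x z = 1/2 :=
    fun k x hx hxb => ((S.core (σ k)).quad (S.t (σ k)) z).phi_eq_half hx hxb
  have hb : ∀ k, 2 * b k ≤ sliceA (S.f (σ k)) (S.t (σ k)) z := by
    intro k
    have hbm : b k ∈ Icc (0:ℝ) (1/2) := root_mem _ _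
    have hc := (S.core (σ k)).continuous_yr_fix (S.t (σ k)) z
    unfold sliceA
    rw [← intervalIntegral.integral_add_adjacent_intervals (μ := volume)
      (hc.intervalIntegrable 0 (b k)) (hc.intervalIntegrable (b k) (1/2))]
    have h1 : ∫ x in (0:ℝ)..b k, yr (S.f (σ k)) (S.t (σ k)) x z = ∫ _x in (0:ℝ)..b k, (1/2:ℝ) :=
      intervalIntegral.integral_congr_Ioo_of_le hbm.1 fun x hx =>
        hphi k x ⟨hx.1, hx.2.trans_le hbm.2⟩ hx.2.le
    rw [h1, intervalIntegral.integral_const, smul_eq_mul]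
    have h2 : 0 ≤ ∫ x in b k..(1/2), yr (S.f (σ k)) (S.t (σ k)) x z :=
      intervalIntegral.integral_nonneg hbm.2 fun x _ => root_nonneg _ _
    linarith
  have hbl : Tendsto b atTop (𝓝 w) := G.wrap_limit hAeq hb (by
    filter_upwards [G.single_le hd hA] with k hk
    exact ⟨hk (Or.inr (hs k)), (le_max_right _ _).trans (G.single_Y_bound (hs k).1 (hs k).2)⟩)
  set g : ℝ → ℝ := fun x => if x < w then 1/2 else 0 with hg
  have hw2 : 0 ≤ w ∧ w ≤ 1/2 := by
    have := Real.pi_gt_three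
    refine ⟨by positivity, ?_⟩
    rw [hw, div_le_div_iff₀ (by positivity) two_pos]
    linarith
  have hgi : IntegrableOn g (Ioo (0:ℝ) (1/2)) := by
    refine Integrable.of_bound (Measurable.ite measurableSet_Iio measurable_const
      measurable_const).aestronglyMeasurable (1/2) (ae_of_all _ fun x => ?_)
    simp only [g]; split_ifs <;> norm_num
  have hge : ∀ᵐ x ∂(volume.restrict (Ioo (0:ℝ) (1/2))), 0 ≤ Vale.P232.hgt E x z - g x := by
    filter_upwards [G.hgt, ae_restrict_mem measurableSet_Ioo] with x hx hxI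
    simp only [g]
    split_ifs with h
    · refine sub_nonneg.2 (ge_of_tendsto (hx.comp G.top) ?_)
      filter_upwards [hbl.eventually_const_lt h] with k hk
      exact (hphi k x hxI hk.le).ge
    · linarith [(hgt_mem_Icc E x z).1]
  have hint : ∫ x in Ioo (0:ℝ) (1/2), g x = w / 2 := by
    have e : g = (Iio w).indicator fun _ => (1/2:ℝ) := by
      funext x; simp [g, indicator_apply]
    rw [e, setIntegral_indicator measurableSet_Iio, setIntegral_const, smul_eq_mul,
      show Ioo (0:ℝ) (1/2) ∩ Iio w = Ioo 0 w by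
        ext x; simp only [mem_inter_iff, mem_Iio, mem_Ioo]
        exact ⟨fun h => ⟨h.1.1, h.2⟩, fun h => ⟨⟨h.1, h.2.trans_le hw2.2⟩, h.2⟩⟩,
      Real.volume_real_Ioo_of_le hw2.1]
    ring
  have hi : IntegrableOn (fun x => Vale.P232.hgt E x z - g x) (Ioo (0:ℝ) (1/2)) :=
    (integrableOn_hgt hE z).sub hgi
  have h0 : ∫ x in Ioo (0:ℝ) (1/2), (Vale.P232.hgt E x z - g x) = 0 := by
    rw [integral_sub (integrableOn_hgt hE z) hgi, G.integral_hgt, hint, hAeq, hw]
    ring
  filter_upwards [(integral_eq_zero_iff_of_nonneg_ae hge hi).1 h0] with x hx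
  exact sub_eq_zero.1 hx

/-- The three possible slices at area `1/π`. -/
theorem trichotomy (G : GoodSlice S R σ z A) (hd : ∀ n, DiscLevel (S.core n) (S.t n))
    (hE : MeasurableSet E) (hAeq : A = 1 / π) (hA : A < T0) :
    (∀ᵐ x ∂(volume.restrict (Ioo (0:ℝ) (1/2))),
        Vale.P232.hgt E x z = √(A / π - x ^ 2)) ∨
      (∀ᵐ x ∂(volume.restrict (Ioo (0:ℝ) (1/2))), Vale.P232.hgt E x z = 1 / (2 * π)) ∨
      (∀ᵐ x ∂(volume.restrict (Ioo (0:ℝ) (1/2))),
        Vale.P232.hgt E x z = if x < 1 / (2 * π) then 1/2 else 0) := by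
  have hA0 : 0 < A := by rw [hAeq]; positivity
  have hall : ∀ᶠ k in atTop,
      (yr (S.f (σ k)) (S.t (σ k)) (1/2) z = 0 ∧ xr (S.f (σ k)) (S.t (σ k)) (1/2) z = 0) ∨
      (0 < yr (S.f (σ k)) (S.t (σ k)) (1/2) z ∧ xr (S.f (σ k)) (S.t (σ k)) (1/2) z = 0) ∨
      (yr (S.f (σ k)) (S.t (σ k)) (1/2) z = 0 ∧ 0 < xr (S.f (σ k)) (S.t (σ k)) (1/2) z) := by
    filter_upwards [G.not_cross (hA.trans T0_lt)] with k hk
    rcases (show 0 ≤ yr (S.f (σ k)) (S.t (σ k)) (1/2) z from root_nonneg _ _).eq_or_lt with hX | hX <;>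
      rcases (show 0 ≤ xr (S.f (σ k)) (S.t (σ k)) (1/2) z from root_nonneg _ _).eq_or_lt with hY | hY
    · exact Or.inl ⟨hX.symm, hY.symm⟩
    · exact Or.inr (Or.inr ⟨hX.symm, hY⟩)
    · exact Or.inr (Or.inl ⟨hX, hY.symm⟩)
    · exact absurd ⟨hX, hY⟩ hk
  rcases frequently_or_distrib.1 hall.frequently with h | h
  · obtain ⟨τ, hτ, hp⟩ := extraction_of_frequently_atTop h
    exact Or.inl ((G.comp hτ.tendsto_atTop).disc hA0 (Eventually.of_forall hp)).2
  rcases frequently_or_distrib.1 h with h | h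
  · obtain ⟨τ, hτ, hp⟩ := extraction_of_frequently_atTop h
    exact Or.inr (Or.inl ((G.comp hτ.tendsto_atTop).bandX hd hE hAeq hA hp))
  · obtain ⟨τ, hτ, hp⟩ := extraction_of_frequently_atTop h
    exact Or.inr (Or.inr ((G.comp hτ.tendsto_atTop).bandY hd hE hAeq hA hp))

end GoodSlice

end

end Vale.P232
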