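import Vale.Agent.P232.Defs

/-!
P232: level sets of strictly monotone functions as graphs.
-/

open MeasureTheory Set Filter Topology

namespace Vale.P232

noncomputable section

/-- Length of `{s ∈ [0,1/2] | t < F s}`. -/
def root (F : ℝ → ℝ) (t : ℝ) : ℝ := (volume {s | s ∈ Icc (0 : ℝ) (1/2) ∧ t < F s}).toReal

lemma root_set_measure_le (F : ℝ → ℝ) (t : ℝ) :
    volume {s | s ∈ Icc (0 : ℝ) (1/2) ∧ t < F s} ≤ ENNReal.ofReal (1/2) := by
  refine (measure_mono (fun s hs => hs.1)).trans ?_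
  rw [Real.volume_Icc]
  norm_num

lemma root_nonneg (F : ℝ → ℝ) (t : ℝ) : 0 ≤ root F t := ENNReal.toReal_nonneg

lemma root_le_half (F : ℝ → ℝ) (t : ℝ) : root F t ≤ 1/2 := by
  unfold root
  exact (ENNReal.toReal_mono ENNReal.ofReal_ne_top (root_set_measure_le F t)).trans_eq
    (ENNReal.toReal_ofReal (by norm_num))

lemma root_mem (F : ℝ → ℝ) (t : ℝ) : root F t ∈ Icc (0:ℝ) (1/2) :=
  ⟨root_nonneg F t, root_le_half F t⟩

lemma le_root {F : ℝ → ℝ} {t s : ℝ} (hF : AntitoneOn F (Icc 0 (1/2)))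
    (hs : s ∈ Icc (0:ℝ) (1/2)) (h : t < F s) : s ≤ root F t := by
  have hsub : Icc 0 s ⊆ {u | u ∈ Icc (0 : ℝ) (1/2) ∧ t < F u} := by
    intro u hu
    exact ⟨⟨hu.1, hu.2.trans hs.2⟩, h.trans_le (hF ⟨hu.1, hu.2.trans hs.2⟩ hs hu.2)⟩
  have := ENNReal.toReal_mono ((root_set_measure_le F t).trans_lt ENNReal.ofReal_lt_top).ne
    (measure_mono (μ := volume) hsub)
  rwa [Real.volume_Icc, sub_zero, ENNReal.toReal_ofReal hs.1] at this

lemma root_le {F : ℝ → ℝ} {t s : ℝ} (hF : AntitoneOn F (Icc 0 (1/2)))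
    (hs : s ∈ Icc (0:ℝ) (1/2)) (h : F s ≤ t) : root F t ≤ s := by
  have hsub : {u | u ∈ Icc (0 : ℝ) (1/2) ∧ t < F u} ⊆ Icc 0 s := by
    rintro u ⟨hu, hut⟩
    refine ⟨hu.1, ?_⟩
    by_contra hne
    have := hF hs hu (le_of_not_ge hne)
    linarith
  have := ENNReal.toReal_mono (by rw [Real.volume_Icc]; exact ENNReal.ofReal_ne_top)
    (measure_mono (μ := volume) hsub)
  rwa [Real.volume_Icc, sub_zero, ENNReal.toReal_ofReal hs.1] at this

section strict

variable {F : ℝ → ℝ} {t : ℝ}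

lemma lt_root_iff (hc : ContinuousOn F (Icc 0 (1/2))) (hF : StrictAntiOn F (Icc 0 (1/2)))
    {s : ℝ} (hs : s ∈ Ico (0:ℝ) (1/2)) : s < root F t ↔ t < F s := by
  have hs' : s ∈ Icc (0:ℝ) (1/2) := ⟨hs.1, hs.2.le⟩
  constructor
  · intro h
    by_contra hne
    have := root_le hF.antitoneOn hs' (not_lt.1 hne)
    linarith
  · intro h
    have hcs : ContinuousWithinAt F (Icc 0 (1/2)) s := hc s hs'
    have hev : ∀ᶠ u in 𝓝[Icc 0 (1/2)] s, t < F u := hcs.eventually (lt_mem_nhds h)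
    rw [eventually_nhdsWithin_iff, Metric.eventually_nhds_iff] at hev
    obtain ⟨δ, hδ, hev⟩ := hev
    set u := min (s + δ/2) (1/2) with hu
    have hsu : s < u := lt_min (by linarith) hs.2
    have humem : u ∈ Icc (0:ℝ) (1/2) := ⟨hs.1.trans hsu.le, min_le_right _ _⟩
    have hd : dist u s < δ := by
      rw [Real.dist_eq, abs_of_pos (sub_pos.2 hsu)]
      have : u ≤ s + δ/2 := min_le_left _ _
      linarith
    exact hsu.trans_le (le_root hF.antitoneOn humem (hev hd humem))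

lemma root_lt_iff (hc : ContinuousOn F (Icc 0 (1/2))) (hF : StrictAntiOn F (Icc 0 (1/2)))
    {s : ℝ} (hs : s ∈ Ioc (0:ℝ) (1/2)) : root F t < s ↔ F s < t := by
  have hs' : s ∈ Icc (0:ℝ) (1/2) := ⟨hs.1.le, hs.2⟩
  constructor
  · intro h
    by_contra hne
    rcases (not_lt.1 hne).lt_or_eq with h1 | h1
    · have := le_root hF.antitoneOn hs' h1
      linarith
    · obtain ⟨u, hu1, hu2⟩ := exists_between (max_lt h hs.1)
      have huI : u ∈ Icc (0:ℝ) (1/2) := ⟨(le_max_right _ _).trans hu1.le, hu2.le.trans hs.2⟩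
      have h3 : F s < F u := hF huI hs' hu2
      have := le_root hF.antitoneOn huI (h1 ▸ h3)
      have : root F t < u := (le_max_left _ _).trans_lt hu1
      linarith
  · intro h
    have hcs : ContinuousWithinAt F (Icc 0 (1/2)) s := hc s hs'
    have hev : ∀ᶠ u in 𝓝[Icc 0 (1/2)] s, F u < t := hcs.eventually (gt_mem_nhds h)
    rw [eventually_nhdsWithin_iff, Metric.eventually_nhds_iff] at hev
    obtain ⟨δ, hδ, hev⟩ := hev
    set u := max (s - δ/2) 0 with hu
    have hsu : u < s := max_lt (by linarith) hs.1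
    have humem : u ∈ Icc (0:ℝ) (1/2) := ⟨le_max_right _ _, hsu.le.trans hs.2⟩
    have hd : dist u s < δ := by
      rw [Real.dist_eq, abs_of_neg (sub_neg.2 hsu)]
      have : s - δ/2 ≤ u := le_max_left _ _
      linarith
    exact (root_le hF.antitoneOn humem (hev hd humem).le).trans_lt hsu

lemma apply_root (hc : ContinuousOn F (Icc 0 (1/2))) (hF : StrictAntiOn F (Icc 0 (1/2)))
    (h0 : 0 < root F t) (h1 : root F t < 1/2) : F (root F t) = t := by
  refine le_antisymm (not_lt.1 fun h => ?_) (not_lt.1 fun h => ?_)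
  · exact lt_irrefl _ ((lt_root_iff hc hF ⟨h0.le, h1⟩).2 h)
  · exact lt_irrefl _ ((root_lt_iff hc hF ⟨h0, h1.le⟩).2 h)

lemma root_eq_of_apply_eq (hc : ContinuousOn F (Icc 0 (1/2))) (hF : StrictAntiOn F (Icc 0 (1/2)))
    {s : ℝ} (hs : s ∈ Ioo (0:ℝ) (1/2)) (h : F s = t) : root F t = s := by
  refine le_antisymm (not_lt.1 fun h2 => ?_) (not_lt.1 fun h2 => ?_)
  · exact absurd ((lt_root_iff hc hF ⟨hs.1.le, hs.2⟩).1 h2) (by linarith [h.le])
  · exact absurd ((root_lt_iff hc hF ⟨hs.1, hs.2.le⟩).1 h2) (by linarith [h.ge])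

end strict

/-- Continuity of the root in parameters (including the level). -/
lemma continuousAt_root {X : Type*} [TopologicalSpace X] {F : X → ℝ → ℝ} {lev : X → ℝ} {p : X}
    (hc : Continuous (fun q : X × ℝ => F q.1 q.2)) (hlev : ContinuousAt lev p)
    (hF : ∀ q, StrictAntiOn (F q) (Icc 0 (1/2))) :
    ContinuousAt (fun q => root (F q) (lev q)) p := by
  have hcq : ∀ q, ContinuousOn (F q) (Icc 0 (1/2)) := fun q =>
    (hc.comp (Continuous.prodMk_right q)).continuousOn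
  have hsec : ∀ s, ContinuousAt (fun q => F q s) p := fun s =>
    (hc.comp (Continuous.prodMk_left s)).continuousAt
  refine tendsto_order.2 ⟨fun a ha => ?_, fun a ha => ?_⟩
  · rcases lt_or_ge a 0 with h0 | h0
    · exact Eventually.of_forall fun q => h0.trans_le (root_nonneg _ _)
    · have hamem : a ∈ Ico (0:ℝ) (1/2) := ⟨h0, ha.trans_le (root_le_half _ _)⟩
      have h := (lt_root_iff (hcq p) (hF p) hamem).1 ha
      filter_upwards [(hlev.eventually_lt (hsec a) h)] with q hq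
      exact (lt_root_iff (hcq q) (hF q) hamem).2 hq
  · rcases lt_or_ge (1/2 : ℝ) a with h0 | h0
    · exact Eventually.of_forall fun q => (root_le_half _ _).trans_lt h0
    · have hamem : a ∈ Ioc (0:ℝ) (1/2) := ⟨(root_nonneg _ _).trans_lt ha, h0⟩
      have h := (root_lt_iff (hcq p) (hF p) hamem).1 ha
      filter_upwards [((hsec a).eventually_lt hlev h)] with q hq
      exact (root_lt_iff (hcq q) (hF q) hamem).2 hq

lemma continuous_root {X : Type*} [TopologicalSpace X] {F : X → ℝ → ℝ} {lev : X → ℝ}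
    (hc : Continuous (fun q : X × ℝ => F q.1 q.2)) (hlev : Continuous lev)
    (hF : ∀ q, StrictAntiOn (F q) (Icc 0 (1/2))) :
    Continuous (fun q => root (F q) (lev q)) :=
  continuous_iff_continuousAt.2 fun _ => continuousAt_root hc hlev.continuousAt hF

/-- Derivative of the root with respect to one parameter. -/
lemma hasDerivAt_root {F : ℝ → ℝ → ℝ} {t r0 : ℝ} {Fr Fs : ℝ → ℝ → ℝ}
    (hc : Continuous (fun q : ℝ × ℝ => F q.1 q.2))
    (hF : ∀ q, StrictAntiOn (F q) (Icc 0 (1/2)))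
    (hr : ∀ r s, HasDerivAt (fun u => F u s) (Fr r s) r)
    (hs : ∀ r s, HasDerivAt (fun u => F r u) (Fs r s) s)
    (hFr : Continuous (fun q : ℝ × ℝ => Fr q.1 q.2))
    (hFs : Continuous (fun q : ℝ × ℝ => Fs q.1 q.2))
    (h0 : 0 < root (F r0) t) (h1 : root (F r0) t < 1/2)
    (hne : Fs r0 (root (F r0) t) ≠ 0) :
    HasDerivAt (fun r => root (F r) t)
      (- Fr r0 (root (F r0) t) / Fs r0 (root (F r0) t)) r0 := by
  set Z := fun r => root (F r) t with hZ
  have hZc : Continuous Z := continuous_root hc continuous_const hF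
  have hcq : ∀ q, ContinuousOn (F q) (Icc 0 (1/2)) := fun q =>
    (hc.comp (Continuous.prodMk_right q)).continuousOn
  have hmvt : ∀ (g g' : ℝ → ℝ), (∀ x, HasDerivAt g (g' x) x) → ∀ a b,
      ∃ ξ ∈ uIcc a b, g b - g a = g' ξ * (b - a) := by
    intro g g' hg a b
    rcases lt_trichotomy a b with h | h | h
    · obtain ⟨ξ, hξ, he⟩ := exists_hasDerivAt_eq_slope g g' h
        (fun x _ => (hg x).continuousAt.continuousWithinAt) (fun x _ => hg x)
      refine ⟨ξ, Ioo_subset_Icc_self.trans Icc_subset_uIcc hξ, ?_⟩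
      rw [he, div_mul_cancel₀]
      linarith [sub_pos.2 h]
    · subst h
      exact ⟨a, left_mem_uIcc, by ring⟩
    · obtain ⟨ξ, hξ, he⟩ := exists_hasDerivAt_eq_slope g g' h
        (fun x _ => (hg x).continuousAt.continuousWithinAt) (fun x _ => hg x)
      refine ⟨ξ, Ioo_subset_Icc_self.trans Icc_subset_uIcc' hξ, ?_⟩
      have : g' ξ * (a - b) = g a - g b := by rw [he, div_mul_cancel₀]; linarith [sub_pos.2 h]
      linear_combination this
  choose ξ hξ hξe using fun r => hmvt (fun u => F u (Z r)) (fun u => Fr u (Z r))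
    (fun x => hr x (Z r)) r0 r
  choose η hη hηe using fun r => hmvt (fun u => F r0 u) (fun u => Fs r0 u)
    (fun x => hs r0 x) (Z r0) (Z r)
  have hclose : ∀ (a : ℝ) (g h : ℝ → ℝ), Tendsto g (𝓝 r0) (𝓝 a) →
      (∀ r, h r ∈ uIcc a (g r)) → Tendsto h (𝓝 r0) (𝓝 a) := by
    intro a g h hg hh
    rw [tendsto_iff_dist_tendsto_zero] at hg ⊢
    refine squeeze_zero (fun r => dist_nonneg) (fun r => ?_) hg
    rw [Real.dist_eq, Real.dist_eq]
    exact abs_sub_left_of_mem_uIcc (hh r)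
  have hξt : Tendsto ξ (𝓝 r0) (𝓝 r0) := hclose r0 id ξ tendsto_id hξ
  have hηt : Tendsto η (𝓝 r0) (𝓝 (Z r0)) := hclose _ Z η hZc.continuousAt hη
  have hnum : Tendsto (fun r => Fr (ξ r) (Z r)) (𝓝 r0) (𝓝 (Fr r0 (Z r0))) :=
    (hFr.tendsto (r0, Z r0)).comp (hξt.prodMk_nhds hZc.continuousAt)
  have hden : Tendsto (fun r => Fs r0 (η r)) (𝓝 r0) (𝓝 (Fs r0 (Z r0))) :=
    (hFs.tendsto (r0, Z r0)).comp (tendsto_const_nhds.prodMk_nhds hηt)
  have hlim : Tendsto (fun r => - Fr (ξ r) (Z r) / Fs r0 (η r)) (𝓝 r0)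
      (𝓝 (- Fr r0 (Z r0) / Fs r0 (Z r0))) := hnum.neg.div hden hne
  have hint : ∀ᶠ r in 𝓝 r0, Z r ∈ Ioo (0:ℝ) (1/2) :=
    hZc.continuousAt.eventually_mem (Ioo_mem_nhds h0 h1)
  rw [hasDerivAt_iff_tendsto_slope]
  refine (hlim.mono_left nhdsWithin_le_nhds).congr' ?_
  filter_upwards [(hint.filter_mono nhdsWithin_le_nhds),
    (hden.eventually_ne hne).filter_mono nhdsWithin_le_nhds, self_mem_nhdsWithin]
    with r hr1 hr2 hr3
  have e1 : F r (Z r) = t := apply_root (hcq r) (hF r) hr1.1 hr1.2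
  have e2 : F r0 (Z r0) = t := apply_root (hcq r0) (hF r0) h0 h1
  have hd : r - r0 ≠ 0 := sub_ne_zero.2 hr3
  have key : Fr (ξ r) (Z r) * (r - r0) + Fs r0 (η r) * (Z r - Z r0) = 0 := by
    rw [← hξe r, ← hηe r, e1, e2]; ring
  rw [slope_def_field, div_eq_div_iff hr2 hd]
  linear_combination (-1 : ℝ) * key

end

end Vale.P232
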