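import Mathlib

/-!
P232, module D: kernel checkable certificates over integers (unit `10⁻⁶`) for the scalar
inequalities. Soundness is proved in `ScalarSound.lean`.
-/

namespace Vale.P232.Chk

/-- `10⁶`. -/
@[reducible] def U : ℕ := 1000000
/-- Lower bound for `π·10⁶`. -/
@[reducible] def PL : ℕ := 3141592
/-- Upper bound for `π·10⁶`. -/
@[reducible] def PU : ℕ := 3141593

/-- Node: position, `c`, lower bound `s` for `√(1-c²)`, lower bounds `d`, `e` for the disc
perimeters of areas `a` and `1-a`. -/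
structure Node where
  a : ℕ
  c : ℕ
  s : ℕ
  d : ℕ
  e : ℕ

/-- Segment data: lower bounds for the slice bound and for the phase bound at both ends, and
the chosen branches. -/
structure Seg where
  l0 : ℕ
  l1 : ℕ
  k0 : ℕ
  k1 : ℕ
  oF : ℕ
  oC : ℕ

/-- Box of `(v, E, T, b)`. -/
structure Box where
  v1 : ℕ
  v2 : ℕ
  E1 : ℕ
  E2 : ℕ
  T1 : ℕ
  T2 : ℕ
  b1 : ℕ
  b2 : ℕ

/-- Leaf certificate: affine weight, phase gain, tangent of the candidate profile, nodes. -/
structure Leaf where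
  lam : ℤ
  mu : ℤ
  m : ℤ
  kind : ℕ
  q : ℕ
  p : ℕ
  first : Node
  steps : List (Seg × Node)

/-- Certificate tree. -/
inductive Tree where
  | leaf : Leaf → Tree
  | empty : Tree
  | corner : Tree
  | splitV : ℕ → Tree → Tree → Tree
  | splitE : ℕ → Tree → Tree → Tree
  | splitT : ℕ → Tree → Tree → Tree
  | splitB : ℕ → Tree → Tree → Tree

def nodeOk (n : Node) : Bool :=
  Nat.ble n.a U && Nat.ble (n.c * n.c + n.s * n.s) (U * U) &&
  Nat.ble (n.d * n.d) (4 * PL * n.a) && Nat.ble (n.e * n.e) (4 * PL * (U - n.a))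

/-- `4·10⁶·CR R` lower bounds and `1/R = num/den`, for the five values of `R`. -/
def frTab : ℕ → ℕ × ℕ × ℕ
  | 1 => (1568000, 2, 1)
  | 2 => (1791500, 3, 2)
  | 3 => (1877200, 20, 17)
  | 4 => (1939800, 5, 6)
  | _ => (1978500, 1, 2)

/-- `x` is at most the chosen single wrap bound at area `a`. -/
def fOk (o a b2 x : ℕ) : Bool :=
  match o with
  | 0 => Nat.ble x (2 * U)
  | _ => let t := frTab o
         Nat.ble (x * t.2.2 + 2 * b2 * t.2.1) (t.1 * t.2.2 + a * t.2.1)

/-- Checks for the chosen cross section bound. -/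
def crOk (oC b1 : ℕ) (n0 n1 : Node) (x0 x1 : ℕ) : Bool :=
  match oC with
  | 0 => Nat.ble x0 n0.e && Nat.ble x1 n1.e
  | _ => let r := U / 2 - b1
         Nat.ble 1 r && Nat.ble (PU * r * r) (U * U * (U - n1.a)) &&
         Nat.ble (x0 * r * U) (PL * r * r + U * U * (U - n0.a)) &&
         Nat.ble (x1 * r * U) (PL * r * r + U * U * (U - n1.a)) &&
         Nat.ble x0 9900000 && Nat.ble x1 9900000

def discOk (n0 n1 : Node) (x0 x1 : ℕ) : Bool := Nat.ble x0 n0.d && Nat.ble x1 n1.d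

def cap22 (x0 x1 : ℕ) : Bool := Nat.ble x0 2200000 && Nat.ble x1 2200000

/-- The slice bound is valid on the segment. -/
def lOk (mode : ℕ) (B : Box) (g : Seg) (n0 n1 : Node) : Bool :=
  discOk n0 n1 g.l0 g.l1 &&
  (match mode with
   | 2 => fOk g.oF n0.a B.b2 g.l0 && fOk g.oF n1.a B.b2 g.l1 && crOk g.oC B.b1 n0 n1 g.l0 g.l1
   | _ => cap22 g.l0 g.l1)

/-- The phase bound is valid on the segment. -/
def kOk (mode : ℕ) (B : Box) (g : Seg) (n0 n1 : Node) : Bool :=
  match mode with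
  | 2 => crOk g.oC B.b1 n0 n1 g.k0 g.k1
  | _ => discOk n0 n1 g.k0 g.k1 && cap22 g.k0 g.k1 &&
      (match g.oC with
       | 0 => Nat.ble g.k0 1800000 && Nat.ble g.k1 1800000
       | _ => Nat.ble g.k0 n0.e && Nat.ble g.k1 n1.e)

/-- `U·φ(a)` in units `10⁻¹²`. -/
def phi (L : Leaf) (a : ℕ) : ℤ := L.lam * (a : ℤ) + L.mu * (U : ℤ)

/-- Bernstein test for `φ ≤ c·l` on a segment. -/
def bern (p0 p1 : ℤ) (c0 c1 l0 l1 : ℕ) : Bool :=
  decide (p0 ≤ ((c0 * l0 : ℕ) : ℤ)) && decide (p1 ≤ ((c1 * l1 : ℕ) : ℤ)) &&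
  decide (p0 + p1 ≤ ((c0 * l1 + c1 * l0 : ℕ) : ℤ))

/-- The segment needs no phase test: it lies left of all phase areas. -/
def skipPhase (mode : ℕ) (B : Box) (a1 : ℕ) (last : Bool) : Bool :=
  !last && (match mode with
    | 2 => Nat.ble a1 B.E1 || Nat.ble (9 * a1 + B.T2) (10 * B.v1)
    | _ => Nat.ble a1 B.E1)

def segOk (mode : ℕ) (B : Box) (L : Leaf) (n0 : Node) (g : Seg) (n1 : Node) (last : Bool) :
    Bool :=
  Nat.ble (n0.a + 1) n1.a && lOk mode B g n0 n1 &&
  bern (phi L n0.a) (phi L n1.a) n0.c n1.c g.l0 g.l1 &&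
  (match mode with
   | 0 => true
   | _ => skipPhase mode B n1.a last ||
      (kOk mode B g n0 n1 &&
       bern (phi L n0.a + L.m * (U : ℤ)) (phi L n1.a + L.m * (U : ℤ))
         n0.c n1.c g.k0 g.k1))

def chainOk (mode : ℕ) (B : Box) (L : Leaf) : Node → List (Seg × Node) → Bool
  | n, [] => Nat.ble B.T2 n.a
  | n, (g, n') :: rest =>
      nodeOk n' && segOk mode B L n g n' rest.isEmpty && chainOk mode B L n' rest

/-- Twice the trapezoidal lower bound of `∫ √(1-c²)`, units `10⁻¹²`. -/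
def trap (B : Box) : Node → List (Seg × Node) → ℕ
  | _, [] => 0
  | n, (_, n') :: rest =>
      (if Nat.ble B.E2 n.a && Nat.ble n'.a B.T1 then (n'.a - n.a) * (n.s + n'.s) else 0)
        + trap B n' rest

/-- The tangent of the candidate profile is valid. -/
def tangentOk (L : Leaf) : Bool :=
  match L.kind with
  | 0 => Nat.ble (2 * U) L.p
  | 1 => Nat.ble 1 L.q && Nat.ble (PU * U) (L.p * L.q)
  | _ => Nat.ble 1 L.q && Nat.ble (12 * PU * U * U) (L.p * L.q * L.q)

/-- Three times the slope of the tangent. -/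
def slope3 (L : Leaf) : ℕ :=
  match L.kind with
  | 0 => 0
  | 1 => 3 * L.q
  | _ => 2 * L.q

/-- The final inequality at volume `v`. -/
def valOk (mode : ℕ) (L : Leaf) (G v : ℕ) : Bool :=
  decide (((10 * slope3 L * v + 30 * L.p * U + 300 * U : ℕ) : ℤ) ≤
    30 * (L.lam * (v : ℤ)) + 30 * (L.mu * (U : ℤ)) + ((30 * G : ℕ) : ℤ)
      + (match mode with | 0 => 0 | _ => 3 * (L.m * (U : ℤ))))

def leafOk (mode : ℕ) (B : Box) (L : Leaf) : Bool :=
  nodeOk L.first && Nat.ble L.first.a B.E1 && !L.steps.isEmpty &&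
  chainOk mode B L L.first L.steps && tangentOk L &&
  (let G := trap B L.first L.steps
   valOk mode L G B.v1 && valOk mode L G B.v2)

def treeOk (mode : ℕ) : Box → Tree → Bool
  | B, .leaf L => leafOk mode B L
  | B, .empty => Nat.ble (B.v2 + 1) B.E1
  | B, .corner => Nat.ble mode 2 && Nat.ble 2 mode &&
      Nat.ble 995000 B.T1 && Nat.ble B.E2 5000 && Nat.ble 280000 B.v1
  | B, .splitV x l r => treeOk mode { B with v2 := x } l && treeOk mode { B with v1 := x } r
  | B, .splitE x l r => treeOk mode { B with E2 := x } l && treeOk mode { B with E1 := x } r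
  | B, .splitT x l r => treeOk mode { B with T2 := x } l && treeOk mode { B with T1 := x } r
  | B, .splitB x l r => treeOk mode { B with b2 := x } l && treeOk mode { B with b1 := x } r

end Vale.P232.Chk

namespace Vale.P232.Chk

/-- Short constructors for generated certificates. -/
@[reducible] def nd (a c s d e : ℕ) : Node := ⟨a, c, s, d, e⟩
@[reducible] def st (l0 l1 k0 k1 oF oC a c s d e : ℕ) : Seg × Node :=
  (⟨l0, l1, k0, k1, oF, oC⟩, ⟨a, c, s, d, e⟩)
@[reducible] def lf (lam mu m : ℤ) (kind q p : ℕ) (first : Node) (steps : List (Seg × Node)) :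
    Leaf := ⟨lam, mu, m, kind, q, p, first, steps⟩

end Vale.P232.Chk
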