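import Vale.Agent.P232.Defs

/-!
P232, module D1: the one dimensional slicing inequality for discs (exact, with the ball
and the tube as equality cases).
-/

open MeasureTheory Real Set intervalIntegral

namespace Vale.P232

noncomputable section

/-- Vertical density of the calibration with affine slice weight `lam * a + mu` and slice
perimeter bound `L`. -/
def gS (L : ℝ → ℝ) (lam mu a : ℝ) : ℝ := √(1 - (max (lam * a + mu) 0 / L a) ^ 2)

/-- Perimeter of a disc of area `a`. -/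
def discP (a : ℝ) : ℝ := 2 * √(π * a)

/-- `∫_{m-D}^{m+D} sqrt((u²-s²)(t²-u²))`. -/
def Kint (s t : ℝ) : ℝ := ∫ u in s..t, √((u ^ 2 - s ^ 2) * (t ^ 2 - u ^ 2))

lemma tubeP_tangent {v S : ℝ} (hv : 0 ≤ v) :
    S * tubeP v ≤ 2 * √π * (v + S ^ 2 / 4) := by
  unfold tubeP
  rw [sqrt_mul pi_pos.le]
  obtain ⟨r, hr, rfl⟩ : ∃ r, 0 ≤ r ∧ v = r ^ 2 := ⟨√v, sqrt_nonneg _, (sq_sqrt hv).symm⟩
  rw [Real.sqrt_sq hr]
  nlinarith [mul_nonneg (sqrt_nonneg π) (sq_nonneg (r - S / 2))]

lemma ballP_tangent {v S : ℝ} (hv : 0 ≤ v) (hS : 0 < S) :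
    S * ballP v ≤ 2 * √π * v + 4 / 3 * S ^ 3 := by
  set q : ℝ := 3 * √π / S with hq
  have hq0 : 0 < q := by positivity
  have h := Real.geom_mean_le_arith_mean3_weighted (w₁ := 1 / 3) (w₂ := 1 / 3) (w₃ := 1 / 3)
    (p₁ := q * v) (p₂ := q * v) (p₃ := 36 * π / q ^ 2)
    (by norm_num) (by norm_num) (by norm_num) (by positivity) (by positivity) (by positivity)
    (by norm_num)
  have hb : ballP v = (q * v) ^ (1 / 3 : ℝ) * (q * v) ^ (1 / 3 : ℝ)
      * (36 * π / q ^ 2) ^ (1 / 3 : ℝ) := by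
    rw [← Real.mul_rpow (by positivity) (by positivity),
      ← Real.mul_rpow (by positivity) (by positivity)]
    have : q * v * (q * v) * (36 * π / q ^ 2) = 36 * π * (v * v) := by field_simp
    rw [this, Real.mul_rpow (by positivity) (by positivity), Real.mul_rpow hv hv,
      ← Real.rpow_add' hv (by norm_num)]
    norm_num [ballP]
  rw [hb]
  refine (mul_le_mul_of_nonneg_left h hS.le).trans (le_of_eq ?_)
  have hp : √π * √π = π := mul_self_sqrt pi_pos.le
  rw [hq]
  field_simp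
  linear_combination (-36 * S ^ 3 : ℝ) * hp + (0 : ℝ) * hp

lemma concave_sqrt_sub {D a b θ : ℝ} (hD : 0 ≤ D) (ha : D ≤ a) (hb : D ≤ b)
    (h0 : 0 ≤ θ) (h1 : θ ≤ 1) :
    (1 - θ) * √(a ^ 2 - D ^ 2) + θ * √(b ^ 2 - D ^ 2)
      ≤ √(((1 - θ) * a + θ * b) ^ 2 - D ^ 2) := by
  have ha2 : 0 ≤ a ^ 2 - D ^ 2 := by nlinarith
  have hb2 : 0 ≤ b ^ 2 - D ^ 2 := by nlinarith
  refine Real.le_sqrt_of_sq_le ?_
  have hab : 0 ≤ a * b - D ^ 2 := by nlinarith
  have hprod : √(a ^ 2 - D ^ 2) * √(b ^ 2 - D ^ 2) ≤ a * b - D ^ 2 := by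
    rw [← sqrt_mul ha2, Real.sqrt_le_left hab]
    nlinarith [sq_nonneg (D * (a - b))]
  rw [add_sq, mul_pow, mul_pow, sq_sqrt ha2, sq_sqrt hb2]
  nlinarith [mul_le_mul_of_nonneg_left hprod (mul_nonneg h0 (sub_nonneg.2 h1))]

lemma integral_sqrt_sq_sub (D : ℝ) (hD : 0 ≤ D) :
    ∫ x in (-D)..D, √(D ^ 2 - x ^ 2) = π * D ^ 2 / 2 := by
  rcases eq_or_lt_of_le hD with rfl | hpos
  · simp
  have h : ∀ x : ℝ, √(D ^ 2 - x ^ 2) = D * √(1 - (x / D) ^ 2) := by
    intro x
    rw [← Real.sqrt_sq hD, ← sqrt_mul (sq_nonneg D)]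
    congr 1
    rw [Real.sqrt_sq hD]
    field_simp
  simp only [h]
  rw [intervalIntegral.integral_const_mul,
    intervalIntegral.integral_comp_div (fun y => √(1 - y ^ 2)) hpos.ne']
  rw [neg_div, div_self hpos.ne', integral_sqrt_one_sub_sq, smul_eq_mul]
  ring

lemma integral_mul_sqrt_sub {s t : ℝ} (hs : 0 ≤ s) (hst : s ≤ t) :
    ∫ u in s..t, u * √(t ^ 2 - u ^ 2) = √(t ^ 2 - s ^ 2) ^ 3 / 3 := by
  have hd : ∀ u ∈ Ioo s t, HasDerivAt (fun u => -(√(t ^ 2 - u ^ 2) ^ 3) / 3)
      (u * √(t ^ 2 - u ^ 2)) u := by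
    intro u hu
    have hpos : 0 < t ^ 2 - u ^ 2 := by nlinarith [hu.1, hu.2]
    have := ((((hasDerivAt_pow 2 u).const_sub (t ^ 2)).sqrt hpos.ne').pow 3).neg.div_const 3
    refine this.congr_deriv ?_
    have hr : √(t ^ 2 - u ^ 2) ≠ 0 := (Real.sqrt_pos.2 hpos).ne'
    push_cast
    field_simp
  rw [intervalIntegral.integral_eq_sub_of_hasDerivAt_of_le hst (by fun_prop) hd
    ((by fun_prop : Continuous fun u => u * √(t ^ 2 - u ^ 2)).intervalIntegrable _ _)]
  simp
  ring

lemma Kint_lower_small {s t : ℝ} (hs : 0 < s) (hst : s ≤ t) :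
    √(t ^ 2 - s ^ 2) ^ 3 / 3 - s ^ 2 * t * log (t / s) ≤ Kint s t := by
  have ht : 0 < t := hs.trans_le hst
  have hint : ContinuousOn (fun u : ℝ => u⁻¹) (uIcc s t) := by
    refine ContinuousOn.inv₀ continuousOn_id fun u hu => ?_
    rw [uIcc_of_le hst] at hu
    exact (hs.trans_le hu.1).ne'
  have h1 : ∫ u in s..t, (u * √(t ^ 2 - u ^ 2) - s ^ 2 * t * u⁻¹) ≤ Kint s t := by
    refine intervalIntegral.integral_mono_on hst ?_ ?_ ?_
    · exact ((by fun_prop : Continuous fun u => u * √(t ^ 2 - u ^ 2)).intervalIntegrable _ _).sub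
        ((hint.intervalIntegrable).const_mul _)
    · exact (by fun_prop : Continuous fun u : ℝ =>
        √((u ^ 2 - s ^ 2) * (t ^ 2 - u ^ 2))).intervalIntegrable _ _
    · intro u hu
      have hu0 : 0 < u := hs.trans_le hu.1
      have ha : 0 ≤ u ^ 2 - s ^ 2 := by nlinarith [hu.1]
      have hb : 0 ≤ t ^ 2 - u ^ 2 := by nlinarith [hu.2]
      have key : u - s ^ 2 * u⁻¹ ≤ √(u ^ 2 - s ^ 2) := by
        have h2 : u - s ^ 2 * u⁻¹ = (u ^ 2 - s ^ 2) / u := by field_simp
        rw [h2, div_le_iff₀ hu0]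
        nlinarith [sq_sqrt ha, sqrt_nonneg (u ^ 2 - s ^ 2),
          Real.sqrt_le_iff.2 ⟨hu0.le, (by nlinarith : u ^ 2 - s ^ 2 ≤ u ^ 2)⟩]
      have htb : √(t ^ 2 - u ^ 2) ≤ t := Real.sqrt_le_iff.2 ⟨ht.le, by nlinarith⟩
      rw [sqrt_mul ha]
      have := mul_le_mul_of_nonneg_right key (sqrt_nonneg (t ^ 2 - u ^ 2))
      nlinarith [mul_le_mul_of_nonneg_left htb (by positivity : 0 ≤ s ^ 2 * u⁻¹)]
  rw [intervalIntegral.integral_sub
      ((by fun_prop : Continuous fun u => u * √(t ^ 2 - u ^ 2)).intervalIntegrable _ _)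
      ((hint.intervalIntegrable).const_mul _),
    intervalIntegral.integral_const_mul, integral_mul_sqrt_sub hs.le hst,
    integral_inv_of_pos hs ht] at h1
  exact h1

lemma integral_abs_mul_sqrt (D : ℝ) (hD : 0 ≤ D) :
    ∫ x in (0:ℝ)..D, x * √(D ^ 2 - x ^ 2) = D ^ 3 / 3 := by
  rw [integral_mul_sqrt_sub le_rfl hD]
  simp [Real.sqrt_sq hD]

lemma integral_half_sqrt (D : ℝ) (hD : 0 ≤ D) :
    ∫ x in (0:ℝ)..D, √(D ^ 2 - x ^ 2) = π * D ^ 2 / 4 := by
  have hi : ∀ a b : ℝ, IntervalIntegrable (fun x => √(D ^ 2 - x ^ 2)) volume a b :=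
    fun a b => (by fun_prop : Continuous fun x => √(D ^ 2 - x ^ 2)).intervalIntegrable a b
  have h := integral_sqrt_sq_sub D hD
  rw [← intervalIntegral.integral_add_adjacent_intervals (hi _ 0) (hi 0 _)] at h
  have h2 := intervalIntegral.integral_comp_neg (a := (0:ℝ)) (b := D)
    (fun x => √(D ^ 2 - x ^ 2))
  simp only [neg_sq, neg_zero] at h2
  rw [← h2] at h
  linarith

/-- The pairing lower bound for `Kint`. -/
lemma Kint_lower_pair {s t : ℝ} (hs : 0 ≤ s) (hst : s ≤ t) :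
    ((t - s) / 2) ^ 2 * (2 * √((s + t) ^ 2 - ((t - s) / 2) ^ 2) * (π / 4 - 1 / 3)
      + 2 * √((s + t) / 2) * (√t + √s) / 3) ≤ Kint s t := by
  set m := (s + t) / 2 with hm
  set D := (t - s) / 2 with hD
  have hD0 : 0 ≤ D := by rw [hD]; linarith
  have hDm : D ≤ m := by rw [hD, hm]; linarith
  rcases eq_or_lt_of_le hD0 with h0 | hDpos
  · have : s = t := by linarith
    subst this; simp [Kint, hD]
  set w : ℝ → ℝ := fun x => √(D ^ 2 - x ^ 2) with hw
  set f : ℝ → ℝ := fun x => √((2 * m + x) ^ 2 - D ^ 2) with hf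
  have hwc : Continuous w := by fun_prop
  have hfc : Continuous f := by fun_prop
  have hK : Kint s t = ∫ x in (-D)..D, w x * f x := by
    unfold Kint
    have h := intervalIntegral.integral_comp_add_left (a := -D) (b := D)
      (fun u => √((u ^ 2 - s ^ 2) * (t ^ 2 - u ^ 2))) m
    have e1 : m + -D = s := by rw [hm, hD]; ring
    have e2 : m + D = t := by rw [hm, hD]; ring
    rw [e1, e2] at h
    rw [← h]
    refine intervalIntegral.integral_congr fun x hx => ?_
    rw [uIcc_of_le (by linarith)] at hx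
    simp only [hw, hf]
    rw [← sqrt_mul (by nlinarith [hx.1, hx.2])]
    congr 1
    have es : s = m - D := by rw [hm, hD]; ring
    have et : t = m + D := by rw [hm, hD]; ring
    rw [es, et]; ring
  have hsplit : Kint s t = ∫ x in (0:ℝ)..D, w x * (f x + f (-x)) := by
    have hi : ∀ a b : ℝ, IntervalIntegrable (fun x => w x * f x) volume a b :=
      fun a b => (hwc.mul hfc).intervalIntegrable a b
    rw [hK, ← intervalIntegral.integral_add_adjacent_intervals (hi _ 0) (hi 0 _)]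
    have h2 := intervalIntegral.integral_comp_neg (a := (0:ℝ)) (b := D) (fun x => w x * f x)
    simp only [neg_zero] at h2
    rw [← h2]
    have e : ∀ x, w (-x) = w x := fun x => by simp [hw]
    simp only [e, mul_add]
    rw [intervalIntegral.integral_add ((by fun_prop : Continuous fun x => w x * f x).intervalIntegrable _ _)
      ((by fun_prop : Continuous fun x => w x * f (-x)).intervalIntegrable _ _)]
    ring
  set g0 := 2 * √((s + t) ^ 2 - D ^ 2) with hg0
  set g1 := 2 * √m * (√t + √s) with hg1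
  have hend : f D + f (-D) = g1 := by
    have et : t = m + D := by rw [hm, hD]; ring
    have es : s = m - D := by rw [hm, hD]; ring
    have hm0 : 0 ≤ m := hD0.trans hDm
    simp only [hf]
    rw [show (2 * m + D) ^ 2 - D ^ 2 = 2 ^ 2 * (m * t) by rw [et]; ring,
      show (2 * m + -D) ^ 2 - D ^ 2 = 2 ^ 2 * (m * s) by rw [es]; ring,
      sqrt_mul (by norm_num) (m * t), sqrt_mul (by norm_num) (m * s), Real.sqrt_sq (by norm_num),
      sqrt_mul hm0 t, sqrt_mul hm0 s, hg1]
    ring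
  have hchord : ∀ x ∈ Icc (0:ℝ) D, g0 + (g1 - g0) / D * x ≤ f x + f (-x) := by
    intro x hx
    have hθ0 : 0 ≤ x / D := div_nonneg hx.1 hD0
    have hθ1 : x / D ≤ 1 := (div_le_one hDpos).2 hx.2
    have h1 := concave_sqrt_sub hD0 (a := 2 * m) (b := 2 * m + D) (by linarith) (by linarith)
      hθ0 hθ1
    have h2 := concave_sqrt_sub hD0 (a := 2 * m) (b := 2 * m + -D) (by linarith) (by linarith)
      hθ0 hθ1
    rw [show (1 - x / D) * (2 * m) + x / D * (2 * m + D) = 2 * m + x by field_simp; ring] at h1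
    rw [show (1 - x / D) * (2 * m) + x / D * (2 * m + -D) = 2 * m + -x by field_simp; ring] at h2
    have e0 : g0 = 2 * √((2 * m) ^ 2 - D ^ 2) := by rw [hg0, hm]; ring_nf
    have : g0 + (g1 - g0) / D * x = (1 - x / D) * g0 + x / D * g1 := by field_simp; ring
    rw [this, ← hend, e0]
    simp only [hf]
    linarith
  have hmono : ∫ x in (0:ℝ)..D, (g0 * w x + (g1 - g0) / D * (x * w x)) ≤ Kint s t := by
    rw [hsplit]
    refine intervalIntegral.integral_mono_on hD0 ?_ ?_ ?_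
    · exact (by fun_prop : Continuous fun x => g0 * w x + (g1 - g0) / D * (x * w x)).intervalIntegrable _ _
    · exact (by fun_prop : Continuous fun x => w x * (f x + f (-x))).intervalIntegrable _ _
    · intro x hx
      have := mul_le_mul_of_nonneg_left (hchord x hx) (sqrt_nonneg (D ^ 2 - x ^ 2))
      simp only [hw] at this ⊢
      linarith
  rw [intervalIntegral.integral_add ((by fun_prop : Continuous fun x => g0 * w x).intervalIntegrable _ _)
      ((by fun_prop : Continuous fun x => (g1 - g0) / D * (x * w x)).intervalIntegrable _ _),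
    intervalIntegral.integral_const_mul, intervalIntegral.integral_const_mul] at hmono
  simp only [hw] at hmono
  rw [integral_half_sqrt D hD0, integral_abs_mul_sqrt D hD0] at hmono
  refine le_trans (le_of_eq ?_) hmono
  rw [hg0, hg1]
  field_simp
  ring

lemma pi_quarter : (452 : ℝ) / 1000 ≤ π / 4 - 1 / 3 := by
  have := pi_gt_d4; norm_num at this ⊢; linarith

lemma sqrtpi_lt : √π < 17725 / 10000 := by
  rw [Real.sqrt_lt' (by norm_num)]; have := pi_lt_d4; norm_num at this ⊢; linarith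

lemma sqrtpi_gt : (17724 : ℝ) / 10000 < √π := by
  rw [Real.lt_sqrt (by norm_num)]; have := pi_gt_d4; norm_num at this ⊢; linarith

lemma key_tube_small {s t y : ℝ} (hs : 0 ≤ s) (hst : s ≤ t) (hy : y ≤ 1 / 4)
    (hyS : ((t - s) / 2) ^ 2 = y * (s + t) ^ 2) (hS : (707 : ℝ) / 1000 ≤ s + t) :
    2 * √π * ((s + t) ^ 2 / 4 - s * t) ≤ 4 * Kint s t := by
  have hK := Kint_lower_pair hs hst
  rw [hyS] at hK
  set S := s + t with hSdef
  have hS0 : 0 ≤ S := le_trans (by norm_num) hS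
  have h0 : (866 : ℝ) / 1000 * S ≤ √(S ^ 2 - y * S ^ 2) :=
    Real.le_sqrt_of_sq_le (by nlinarith [mul_nonneg (sub_nonneg.2 hy) (sq_nonneg S)])
  have hsum : √S ≤ √t + √s := by
    rw [Real.sqrt_le_left (by positivity), hSdef, add_sq, sq_sqrt (hs.trans hst), sq_sqrt hs]
    nlinarith [mul_nonneg (sqrt_nonneg t) (sqrt_nonneg s)]
  have h1 : (707 : ℝ) / 1000 * S ≤ √(S / 2) * (√t + √s) := by
    refine le_trans ?_ (mul_le_mul_of_nonneg_left hsum (sqrt_nonneg _))
    rw [← sqrt_mul (by linarith)]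
    exact Real.le_sqrt_of_sq_le (by nlinarith)
  have hb : (12539 : ℝ) / 10000 * S ≤
      2 * √(S ^ 2 - y * S ^ 2) * (π / 4 - 1 / 3) + 2 * √(S / 2) * (√t + √s) / 3 := by
    have := mul_le_mul h0 pi_quarter (by norm_num) (sqrt_nonneg _)
    linarith
  have hyS0 : 0 ≤ y * S ^ 2 := hyS ▸ sq_nonneg _
  have := (mul_le_mul_of_nonneg_left hb hyS0).trans hK
  have h4 : S ^ 2 / 4 - s * t = y * S ^ 2 := by rw [← hyS, hSdef]; ring
  rw [h4]
  have hc : 2 * √π ≤ 4 * (12539 / 10000 * S) := by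
    have := sqrtpi_lt; linarith
  have := mul_le_mul_of_nonneg_left hc hyS0
  linarith

lemma key_ball_small {s t σ : ℝ} (hspos : 0 < s) (hst : s ≤ t) (es : s = σ * (s + t))
    (hσ : σ ≤ 1 / 25) (hS : s + t ≤ 707 / 1000) :
    4 / 3 * (s + t) ^ 3 ≤ 4 * Kint s t + 2 * √π * (s * t) := by
  set S := s + t with hSdef
  have hS0 : 0 < S := by rw [hSdef]; linarith
  have et : t = (1 - σ) * S := by linarith [es, hSdef]
  have hσpos : 0 < σ := by
    by_contra h
    push Not at h
    nlinarith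
  have hK2 := Kint_lower_small hspos hst
  have hr : (1 - 3 * σ) * S ^ 3 ≤ √(t ^ 2 - s ^ 2) ^ 3 := by
    have he : t ^ 2 - s ^ 2 = (1 - 2 * σ) * S ^ 2 := by rw [es, et]; ring
    have hr1 : (1 - σ - σ ^ 2 * 2) * S ≤ √(t ^ 2 - s ^ 2) := by
      refine Real.le_sqrt_of_sq_le ?_
      rw [he, mul_pow]
      refine mul_le_mul_of_nonneg_right ?_ (sq_nonneg S)
      nlinarith [mul_nonneg (sq_nonneg σ) hσpos.le, mul_nonneg (sq_nonneg σ) (sub_nonneg.2 hσ)]
    have h0 : 0 ≤ t ^ 2 - s ^ 2 := by nlinarith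
    rw [show √(t ^ 2 - s ^ 2) ^ 3 = √(t ^ 2 - s ^ 2) ^ 2 * √(t ^ 2 - s ^ 2) by ring, sq_sqrt h0]
    rw [he] at hr1 ⊢
    refine le_trans ?_ (mul_le_mul_of_nonneg_left hr1 (by nlinarith))
    rw [show (1 - 2 * σ) * S ^ 2 * ((1 - σ - σ ^ 2 * 2) * S)
      = ((1 - 2 * σ) * (1 - σ - σ ^ 2 * 2)) * S ^ 3 by ring]
    refine mul_le_mul_of_nonneg_right ?_ (by positivity)
    nlinarith [mul_nonneg (sq_nonneg σ) hσpos.le]
  have hlog : log (t / s) ≤ 736 / 1000 * √(1 / σ) := by
    have hx : t / s ≤ 1 / σ := by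
      rw [es, et, one_div, mul_div_mul_right _ _ hS0.ne', div_le_iff₀ hσpos,
        inv_mul_cancel₀ hσpos.ne']
      linarith
    refine (log_le_log (div_pos (hspos.trans_le hst) hspos) hx).trans ?_
    have hy : 0 < √(1 / σ) := sqrt_pos.2 (by positivity)
    have h := Real.log_le_sub_one_of_pos (div_pos hy (exp_pos 1))
    rw [log_div hy.ne' (exp_pos 1).ne', log_exp, log_sqrt (by positivity)] at h
    have he : 1 / exp 1 ≤ 368 / 1000 := by
      rw [div_le_iff₀ (exp_pos 1)]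
      have := exp_one_gt_d9; norm_num at this ⊢; linarith
    have := mul_le_mul_of_nonneg_left he hy.le
    rw [show √(1 / σ) / exp 1 = √(1 / σ) * (1 / exp 1) by ring] at h
    linarith
  have hsq : σ * √(1 / σ) ≤ 1 / 5 := by
    have : σ * √(1 / σ) = √σ := by
      rw [one_div, sqrt_inv, ← div_eq_mul_inv, Real.div_sqrt]
    rw [this, Real.sqrt_le_left (by norm_num)]; linarith
  have hloss : s ^ 2 * t * log (t / s) ≤ 736 / 5000 * σ * S ^ 3 := by
    refine (mul_le_mul_of_nonneg_left hlog (mul_nonneg (sq_nonneg s) (hspos.trans_le hst).le)).trans ?_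
    rw [es, et, show (σ * S) ^ 2 * ((1 - σ) * S) * (736 / 1000 * √(1 / σ))
      = 736 / 1000 * ((1 - σ) * (σ * √(1 / σ))) * (σ * S ^ 3) by ring,
      show 736 / 5000 * σ * S ^ 3 = 736 / 1000 * (1 / 5) * (σ * S ^ 3) by ring]
    refine mul_le_mul_of_nonneg_right ?_ (by positivity)
    have h0 : 0 ≤ σ * √(1 / σ) := by positivity
    nlinarith [mul_nonneg hσpos.le h0]
  have h2 : 5 * (σ * (1 - σ)) * S ^ 3 ≤ 2 * √π * (s * t) := by
    have h5 : 5 * S ≤ 2 * √π := by have := sqrtpi_gt; linarith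
    rw [es, et, show 2 * √π * (σ * S * ((1 - σ) * S)) = 2 * √π * (σ * (1 - σ) * S ^ 2) by ring,
      show 5 * (σ * (1 - σ)) * S ^ 3 = 5 * S * (σ * (1 - σ) * S ^ 2) by ring]
    exact mul_le_mul_of_nonneg_right h5 (mul_nonneg (mul_nonneg hσpos.le (by linarith)) (sq_nonneg S))
  nlinarith [mul_nonneg (mul_nonneg hσpos.le (sub_nonneg.2 hσ)) (pow_nonneg hS0.le 3),
    mul_nonneg hσpos.le (pow_nonneg hS0.le 3)]

lemma key_large_bracket {s t σ y : ℝ} (hσ : 1 / 25 ≤ σ) (hσ1 : σ ≤ 1 / 2)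
    (es : s = σ * (s + t)) (hy : y = (1 / 2 - σ) ^ 2) (hS : 0 < s + t) :
    (904 / 1000 * (1 - 53 / 100 * y)
      + 4713 / 10000 * (14142 / 10000 - 11081 / 10000 * y)) * (s + t) * (y * (s + t) ^ 2)
      ≤ Kint s t := by
  set S := s + t with hSdef
  have et : t = (1 - σ) * S := by linarith [es, hSdef]
  have hσ0 : 0 ≤ σ := le_trans (by norm_num) hσ
  have hs : 0 ≤ s := by rw [es]; positivity
  have hst : s ≤ t := by rw [es, et]; exact mul_le_mul_of_nonneg_right (by linarith) hS.le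
  have hK := Kint_lower_pair hs hst
  have hD : ((t - s) / 2) ^ 2 = y * S ^ 2 := by rw [hy, es, et]; ring
  rw [hD, ← hSdef] at hK
  have hy0 : 0 ≤ y := hy ▸ sq_nonneg _
  have hy4 : y ≤ 2116 / 10000 := by rw [hy]; nlinarith
  have h0 : (1 - 53 / 100 * y) * S ≤ √(S ^ 2 - y * S ^ 2) := by
    refine Real.le_sqrt_of_sq_le ?_
    have : (1 - 53 / 100 * y) ^ 2 ≤ 1 - y := by nlinarith
    have := mul_le_mul_of_nonneg_right this (sq_nonneg S)
    linarith [mul_pow (1 - 53 / 100 * y) S 2]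
  have hσ2 : (0:ℝ) ≤ 1 - σ := by linarith
  have hq : (14142 / 10000 - 11081 / 10000 * y) ≤ √σ + √(1 - σ) := by
    have hpr : √σ * √(1 - σ) = √(1 / 4 - y) := by
      rw [← sqrt_mul hσ0]; congr 1; rw [hy]; ring
    have hlow : ((14142 / 10000 - 11081 / 10000 * y) ^ 2 - 1) / 2 ≤ √(1 / 4 - y) := by
      refine Real.le_sqrt_of_sq_le ?_
      nlinarith [mul_nonneg hy0 (sub_nonneg.2 hy4), mul_nonneg (mul_nonneg hy0 hy0) (sub_nonneg.2 hy4)]
    refine le_of_pow_le_pow_left₀ two_ne_zero (by positivity) ?_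
    rw [add_sq, sq_sqrt hσ0, sq_sqrt hσ2, mul_assoc, hpr]
    linarith
  have hr : (707 : ℝ) / 1000 * S ≤ √(S / 2) * √S := by
    rw [← sqrt_mul (by linarith)]
    exact Real.le_sqrt_of_sq_le (by nlinarith)
  have h1 : (707 / 1000 * (14142 / 10000 - 11081 / 10000 * y)) * S ≤ √(S / 2) * (√t + √s) := by
    rw [es, et, sqrt_mul hσ0, sqrt_mul hσ2,
      show √(S / 2) * (√(1 - σ) * √S + √σ * √S) = (√σ + √(1 - σ)) * (√(S / 2) * √S) by ring]
    refine le_trans (le_of_eq ?_) (mul_le_mul hq hr (by positivity) (by positivity))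
    ring
  have h3 := mul_le_mul h0 pi_quarter (by norm_num) (sqrt_nonneg _)
  have hS14 : 0 ≤ S * (14142 / 10000 - 11081 / 10000 * y) := mul_nonneg hS.le (by linarith)
  have h53 : 0 ≤ S * (1 - 53 / 100 * y) := mul_nonneg hS.le (by linarith)
  have hb : (904 / 1000 * (1 - 53 / 100 * y)
      + 4713 / 10000 * (14142 / 10000 - 11081 / 10000 * y)) * S ≤
        2 * √(S ^ 2 - y * S ^ 2) * (π / 4 - 1 / 3) + 2 * √(S / 2) * (√t + √s) / 3 := by
    linarith
  refine le_trans ?_ hK
  rw [mul_comm _ (y * S ^ 2)]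
  exact mul_le_mul_of_nonneg_left hb (mul_nonneg hy0 (sq_nonneg S))

/-- Either the tube or the ball tangency inequality holds. -/
lemma Kint_key {s t : ℝ} (hs : 0 ≤ s) (hst : s ≤ t) (hS : 0 < s + t) :
    2 * √π * ((s + t) ^ 2 / 4 - s * t) ≤ 4 * Kint s t ∨
    4 / 3 * (s + t) ^ 3 ≤ 4 * Kint s t + 2 * √π * (s * t) := by
  obtain ⟨σ, es⟩ : ∃ σ, s = σ * (s + t) := ⟨s / (s + t), (div_mul_cancel₀ _ hS.ne').symm⟩
  have hσ0 : 0 ≤ σ := by
    by_contra h
    push Not at h
    have := mul_neg_of_neg_of_pos h hS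
    linarith
  have hσ1 : σ ≤ 1 / 2 := by
    by_contra h
    push Not at h
    have := mul_lt_mul_of_pos_right h hS
    linarith
  set S := s + t with hSdef
  have et : t = (1 - σ) * S := by linarith [es, hSdef]
  set y := (1 / 2 - σ) ^ 2 with hy
  have hy0 : 0 ≤ y := sq_nonneg _
  have hD : ((t - s) / 2) ^ 2 = y * S ^ 2 := by rw [hy, es, et]; ring
  by_cases hsmall : σ ≤ 1 / 25
  · by_cases hSbig : (707 : ℝ) / 1000 ≤ S
    · left
      exact key_tube_small hs hst (by rw [hy]; nlinarith) hD hSbig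
    · right
      push Not at hSbig
      rcases eq_or_lt_of_le hs with h | hspos
      · subst h
        have ht0 : 0 ≤ t := hs.trans hst
        have : Kint 0 t = t ^ 3 / 3 := by
          rw [Kint]
          have hint : EqOn (fun u => √((u ^ 2 - 0 ^ 2) * (t ^ 2 - u ^ 2)))
              (fun u => u * √(t ^ 2 - u ^ 2)) (uIcc 0 t) := by
            intro u hu
            rw [uIcc_of_le hst] at hu
            simp [sqrt_mul (sq_nonneg u), Real.sqrt_sq hu.1]
          rw [intervalIntegral.integral_congr hint, integral_mul_sqrt_sub le_rfl ht0]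
          simp [Real.sqrt_sq ht0]
        rw [this, hSdef]
        simp
        linarith
      · exact key_ball_small hspos hst es hsmall hSbig.le
  · push Not at hsmall
    have hK := key_large_bracket hsmall.le hσ1 es hy hS
    have hy4 : y ≤ 2116 / 10000 := by rw [hy]; nlinarith
    by_cases hSbig : (6525 : ℝ) / 10000 ≤ S
    · left
      rw [show S ^ 2 / 4 - s * t = y * S ^ 2 by rw [← hD, hSdef]; ring]
      have hB : (13586 : ℝ) / 10000 ≤ 904 / 1000 * (1 - 53 / 100 * y)
          + 4713 / 10000 * (14142 / 10000 - 11081 / 10000 * y) := by linarith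
      have h1 : 2 * √π ≤ 4 * ((904 / 1000 * (1 - 53 / 100 * y)
          + 4713 / 10000 * (14142 / 10000 - 11081 / 10000 * y)) * S) := by
        have := mul_le_mul hB hSbig (by norm_num) (by linarith)
        have := sqrtpi_lt; linarith
      have := mul_le_mul_of_nonneg_right h1 (mul_nonneg hy0 (sq_nonneg S))
      linarith
    · right
      push Not at hSbig
      have hst2 : s * t = (1 / 4 - y) * S ^ 2 := by rw [hy, es, et]; ring
      have h2 : (5432 / 1000 : ℝ) * S ≤ 2 * √π := by have := sqrtpi_gt; linarith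
      have key : 4 / 3 ≤ 4 * y * (904 / 1000 * (1 - 53 / 100 * y)
          + 4713 / 10000 * (14142 / 10000 - 11081 / 10000 * y)) + 5432 / 1000 * (1 / 4 - y) := by
        nlinarith [mul_nonneg hy0 (sub_nonneg.2 hy4)]
      rw [hst2]
      have := mul_le_mul_of_nonneg_left h2
        (mul_nonneg (by linarith : (0:ℝ) ≤ 1 / 4 - y) (sq_nonneg S))
      have := mul_le_mul_of_nonneg_right key (pow_nonneg hS.le 3)
      linarith

/-- D1: disc slices give at least the smaller of ball and tube. -/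
theorem scalar_disc {E T v : ℝ} (hE : 0 ≤ E) (hEv : E ≤ v) (hvT : v ≤ T) :
    ∃ lam mu : ℝ,
      (∀ a ∈ Icc E T, 0 ≤ lam * a + mu ∧ lam * a + mu ≤ discP a) ∧
      min (ballP v) (tubeP v) ≤ lam * v + mu + 2 * ∫ a in E..T, gS discP lam mu a := by
  have hv : 0 ≤ v := hE.trans hEv
  have hT : 0 ≤ T := hv.trans hvT
  set s := √E with hsdef
  set t := √T with htdef
  have hs : 0 ≤ s := sqrt_nonneg _
  have hst : s ≤ t := sqrt_le_sqrt (hEv.trans hvT)
  have hsE : s ^ 2 = E := sq_sqrt hE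
  have htT : t ^ 2 = T := sq_sqrt hT
  rcases eq_or_lt_of_le (add_nonneg hs (hs.trans hst) : 0 ≤ s + t) with h | hS
  · have hT0 : T = 0 := by rw [← htT]; nlinarith
    have hE0 : E = 0 := by linarith
    have hv0 : v = 0 := by linarith
    refine ⟨0, 0, fun a _ => by simp [discP], ?_⟩
    subst hT0 hE0 hv0
    simp [ballP, tubeP]
  set S := s + t with hSdef
  set lam := 2 * √π / S with hlam
  set mu := lam * (s * t) with hmu
  refine ⟨lam, mu, fun a ha => ?_, ?_⟩
  · have ha0 : 0 ≤ a := hE.trans ha.1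
    refine ⟨by positivity, ?_⟩
    have h1 : s ≤ √a := sqrt_le_sqrt ha.1
    have h2 : √a ≤ t := sqrt_le_sqrt ha.2
    have key : a + s * t ≤ √a * S := by
      nlinarith [mul_nonneg (sub_nonneg.2 h1) (sub_nonneg.2 h2), sq_sqrt ha0]
    calc lam * a + mu = lam * (a + s * t) := by rw [hmu]; ring
      _ ≤ lam * (√a * S) := mul_le_mul_of_nonneg_left key (by positivity)
      _ = discP a := by
        rw [discP, sqrt_mul pi_pos.le, hlam]; field_simp
  · have hG : ∫ a in E..T, gS discP lam mu a = 2 / S * Kint s t := by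
      have hsub : ∫ a in E..T, gS discP lam mu a
          = ∫ u in s..t, gS discP lam mu (u ^ 2) * (2 * u) := by
        rw [← hsE, ← htT]
        refine (intervalIntegral.integral_comp_mul_deriv_of_deriv_nonneg (f := fun u : ℝ => u ^ 2)
          (f' := fun u => 2 * u) (g := gS discP lam mu) (by fun_prop)
          (fun u _ => by simpa using hasDerivAt_pow 2 u) fun u hu => ?_).symm
        rw [min_eq_left hst] at hu
        linarith [hu.1]
      rw [hsub, Kint, ← intervalIntegral.integral_const_mul]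
      refine intervalIntegral.integral_congr fun u hu => ?_
      rw [uIcc_of_le hst] at hu
      have hu0 : 0 ≤ u := hs.trans hu.1
      rcases eq_or_lt_of_le hu0 with h | hupos
      · subst h
        have : s = 0 := le_antisymm hu.1 hs
        simp [this]
      simp only [gS, discP]
      rw [max_eq_left (by positivity), sqrt_mul pi_pos.le, Real.sqrt_sq hu0]
      have e : (lam * u ^ 2 + mu) / (2 * (√π * u)) = (u ^ 2 + s * t) / (u * S) := by
        rw [hmu, hlam]
        have := (sqrt_pos.2 pi_pos).ne'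
        field_simp
      rw [e]
      have hA : 0 ≤ (u ^ 2 - s ^ 2) * (t ^ 2 - u ^ 2) :=
        mul_nonneg (by nlinarith [hu.1]) (by nlinarith [hu.2])
      have e2 : 1 - ((u ^ 2 + s * t) / (u * S)) ^ 2
          = (u ^ 2 - s ^ 2) * (t ^ 2 - u ^ 2) / (u * S) ^ 2 := by
        have hne : u * S ≠ 0 := (mul_pos hupos hS).ne'
        rw [div_pow, one_sub_div (pow_ne_zero 2 hne)]
        congr 1
        rw [hSdef]; ring
      rw [e2, sqrt_div hA, Real.sqrt_sq (by positivity)]
      field_simp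
    rw [hG]
    have e3 : S * (lam * v + mu + 2 * (2 / S * Kint s t))
        = 2 * √π * (v + s * t) + 4 * Kint s t := by
      rw [hmu, hlam]; field_simp; ring
    rcases Kint_key hs hst hS with h | h
    · refine (min_le_right _ _).trans (le_of_mul_le_mul_left ?_ hS)
      rw [e3]
      refine (tubeP_tangent hv).trans ?_
      have : S ^ 2 = (s + t) ^ 2 := rfl
      linarith
    · refine (min_le_left _ _).trans (le_of_mul_le_mul_left ?_ hS)
      rw [e3]
      refine (ballP_tangent hv hS).trans ?_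
      linarith

end

end Vale.P232
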