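import Vale.Agent.P232.ScalarCheck
import Vale.Agent.P232.ScalarDefs
import Vale.Agent.P232.ScalarCR

/-!
P232, module D: soundness of the certificate checker.
-/

open MeasureTheory Real Set

namespace Vale.P232.Chk

noncomputable section

/-- A natural number of units as a real. -/
def u (n : ℕ) : ℝ := (n : ℝ) / 1000000

/-- An integer number of units as a real. -/
def z (n : ℤ) : ℝ := (n : ℝ) / 1000000

lemma u_nonneg (n : ℕ) : 0 ≤ u n := by unfold u; positivity

lemma u_le {m n : ℕ} (h : m ≤ n) : u m ≤ u n := by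
  unfold u; gcongr

lemma u_lt {m n : ℕ} (h : m < n) : u m < u n := by
  unfold u; gcongr

lemma u_U : u U = 1 := by norm_num [u, U]

lemma PL_le : u PL ≤ π := by
  have := pi_gt_d6; norm_num [u, PL] at *; linarith

lemma le_PU : π ≤ u PU := by
  have := pi_lt_d6; norm_num [u, PU] at *; linarith

lemma le_discP {d a : ℕ} (h : d * d ≤ 4 * PL * a) : u d ≤ discP (u a) := by
  have h' : (u d) ^ 2 ≤ 4 * u PL * u a := by
    have : ((d * d : ℕ) : ℝ) ≤ ((4 * PL * a : ℕ) : ℝ) := by exact_mod_cast h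
    unfold u
    field_simp
    push_cast [U, PL] at this ⊢
    nlinarith
  have h2 : (u d / 2) ^ 2 ≤ π * u a := by
    nlinarith [mul_le_mul_of_nonneg_right PL_le (u_nonneg a)]
  have := Real.le_sqrt_of_sq_le h2
  unfold discP
  linarith

/-- Linear interpolation. -/
def lerp (x0 x1 t : ℝ) : ℝ := (1 - t) * x0 + t * x1

lemma lerp_mono {x0 x1 y0 y1 t : ℝ} (ht0 : 0 ≤ t) (ht1 : t ≤ 1) (h0 : x0 ≤ y0) (h1 : x1 ≤ y1) :
    lerp x0 x1 t ≤ lerp y0 y1 t :=
  add_le_add (mul_le_mul_of_nonneg_left h0 (by linarith)) (mul_le_mul_of_nonneg_left h1 ht0)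

lemma lerp_le {x0 x1 y t : ℝ} (ht0 : 0 ≤ t) (ht1 : t ≤ 1) (h0 : x0 ≤ y) (h1 : x1 ≤ y) :
    lerp x0 x1 t ≤ y := by
  have := lerp_mono ht0 ht1 h0 h1
  unfold lerp at *; linarith

lemma discP_concave {a0 a1 x0 x1 t : ℝ} (ha0 : 0 ≤ a0) (ha1 : 0 ≤ a1) (ht0 : 0 ≤ t)
    (ht1 : t ≤ 1) (h0 : x0 ≤ discP a0) (h1 : x1 ≤ discP a1) :
    lerp x0 x1 t ≤ discP (lerp a0 a1 t) := by
  refine (lerp_mono ht0 ht1 h0 h1).trans ?_
  unfold discP lerp
  have hA := mul_nonneg pi_pos.le ha0
  have hB := mul_nonneg pi_pos.le ha1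
  have : (1 - t) * √(π * a0) + t * √(π * a1) ≤ √(π * ((1 - t) * a0 + t * a1)) := by
    refine Real.le_sqrt_of_sq_le ?_
    rw [add_sq, mul_pow, mul_pow, sq_sqrt hA, sq_sqrt hB]
    nlinarith [mul_nonneg (mul_nonneg ht0 (sub_nonneg.2 ht1))
      (sq_nonneg (√(π * a0) - √(π * a1))), sq_sqrt hA, sq_sqrt hB]
  linarith

/-- Data of a segment, in real form: the parameter of `a`. -/
lemma seg_param {a0 a1 a : ℝ} (h : a0 < a1) (ha : a ∈ Icc a0 a1) :
    0 ≤ (a - a0) / (a1 - a0) ∧ (a - a0) / (a1 - a0) ≤ 1 ∧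
      lerp a0 a1 ((a - a0) / (a1 - a0)) = a := by
  have hd : 0 < a1 - a0 := sub_pos.2 h
  refine ⟨div_nonneg (by linarith [ha.1]) hd.le, (div_le_one hd).2 (by linarith [ha.2]), ?_⟩
  unfold lerp
  field_simp
  ring

/-! ### nodes -/

lemma nodeOk_spec {n : Node} (h : nodeOk n = true) :
    u n.a ≤ 1 ∧ u n.c ≤ 1 ∧ u n.c ^ 2 + u n.s ^ 2 ≤ 1 ∧ u n.d ≤ discP (u n.a) ∧
      u n.e ≤ discP (1 - u n.a) := by
  simp only [nodeOk, Bool.and_eq_true, Nat.ble_eq] at h
  obtain ⟨⟨⟨h1, h2⟩, h3⟩, h4⟩ := h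
  have ha := u_le h1
  rw [u_U] at ha
  have hcs : u n.c ^ 2 + u n.s ^ 2 ≤ 1 := by
    have : ((n.c * n.c + n.s * n.s : ℕ) : ℝ) ≤ ((U * U : ℕ) : ℝ) := by exact_mod_cast h2
    push_cast at this
    unfold u
    field_simp
    linarith
  refine ⟨ha, ?_, hcs, le_discP h3, ?_⟩
  · nlinarith [u_nonneg n.c, sq_nonneg (u n.s)]
  · have := le_discP h4
    rwa [show u (U - n.a) = 1 - u n.a by
      unfold u; rw [Nat.cast_sub h1]; norm_num; ring] at this

/-! ### the single wrap and cross bounds -/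

lemma lcross_ge_disc {a b : ℝ} (ha0 : 0 ≤ a) (_hb : b ≤ 1 / 2) :
    discP (1 - a) ≤ LCross a b := by
  unfold LCross
  split_ifs with h1 h2
  · set r := 1 / 2 - b
    have hA : 0 ≤ 1 - a := by nlinarith [mul_nonneg pi_pos.le (sq_nonneg r)]
    unfold discP
    have : √(π * (1 - a)) ≤ (π * r + (1 - a) / r) / 2 := by
      rw [Real.sqrt_le_left (by positivity)]
      have e : ((π * r + (1 - a) / r) / 2) ^ 2 - π * (1 - a) = ((π * r - (1 - a) / r) / 2) ^ 2 := by
        field_simp; ring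
      nlinarith [sq_nonneg ((π * r - (1 - a) / r) / 2)]
    linarith
  · unfold discP
    have : √(π * (1 - a)) ≤ 2 := by
      rw [Real.sqrt_le_left (by norm_num)]
      nlinarith [pi_pos, pi_lt_four, mul_nonneg pi_pos.le ha0]
    linarith
  · exact le_rfl

lemma lcross_ge_affine {a b b1 x : ℝ} (hb1 : b1 < 1 / 2) (hb : b1 ≤ b) (hb2 : b ≤ 1 / 2)
    (hc : π * (1 / 2 - b1) ^ 2 ≤ 1 - a)
    (hx : x ≤ π * (1 / 2 - b1) + (1 - a) / (1 / 2 - b1)) (hx' : x ≤ 99 / 10) :
    x ≤ LCross a b := by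
  unfold LCross
  set r1 := 1 / 2 - b1 with hr1
  set r := 1 / 2 - b with hr
  have h10 : 0 < r1 := by rw [hr1]; linarith
  have hrr : r ≤ r1 := by rw [hr, hr1]; linarith
  have hr0 : 0 ≤ r := by rw [hr]; linarith
  split_ifs with h1 h2
  · refine hx.trans ?_
    have hkey : 0 ≤ (r1 - r) * ((1 - a) / (r * r1) - π) := by
      refine mul_nonneg (sub_nonneg.2 hrr) (sub_nonneg.2 ?_)
      rw [le_div_iff₀ (mul_pos h2 h10)]
      nlinarith [mul_le_mul_of_nonneg_left hrr (mul_nonneg pi_pos.le h10.le)]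
    have : (π * r + (1 - a) / r) - (π * r1 + (1 - a) / r1)
        = (r1 - r) * ((1 - a) / (r * r1) - π) := by field_simp; ring
    linarith
  · exact hx'
  · have heq : π * r1 ^ 2 = 1 - a := by
      have : π * r ^ 2 ≤ π * r1 ^ 2 :=
        mul_le_mul_of_nonneg_left (pow_le_pow_left₀ hr0 hrr 2) pi_pos.le
      push Not at h1
      linarith
    refine hx.trans (le_of_eq ?_)
    unfold discP
    rw [← heq, show π * (π * r1 ^ 2) = (π * r1) ^ 2 by ring, Real.sqrt_sq (by positivity)]
    field_simp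
    ring

/-- Lower bound for `4·CR R` used by the checker. -/
def CTab (o : ℕ) : ℝ := u (frTab o).1

/-- The value `R` used by the checker. -/
def RTab (o : ℕ) : ℝ := ((frTab o).2.2 : ℝ) / (frTab o).2.1

/-- The five lower bounds for `CR`. -/
def CRValid : Prop := ∀ o : ℕ, CTab o ≤ 4 * CR (RTab o)

lemma frTab_mem (o : ℕ) :
    RTab o = 1 / 2 ∨ RTab o = 2 / 3 ∨ RTab o = 17 / 20 ∨ RTab o = 6 / 5 ∨ RTab o = 2 := by
  rcases o with _ | _ | _ | _ | _ | n <;> simp [RTab, frTab]

lemma FR_le_FZ (o : ℕ) (a b : ℝ) : FR (RTab o) a b ≤ FZ a b := by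
  unfold FZ
  rcases frTab_mem o with h | h | h | h | h <;> rw [h] <;> simp

lemma fOk_spec (hC : CRValid) {o a b2 x : ℕ} (h : fOk o a b2 x = true) {b : ℝ}
    (hb : b ≤ u b2) : (o = 0 → u x ≤ 2) ∧ (o ≠ 0 → u x ≤ FR (RTab o) (u a) b) := by
  rcases o with _ | o
  · simp only [fOk, Nat.ble_eq] at h
    exact ⟨fun _ => (u_le h).trans (le_of_eq (by norm_num [u, U])), fun h0 => absurd rfl h0⟩
  · simp only [fOk, Nat.ble_eq] at h
    refine ⟨fun h0 => absurd h0 (by simp), fun _ => ?_⟩
    have h0 := hC (o + 1)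
    unfold FR
    have hnum : (0 : ℝ) < (frTab (o + 1)).2.1 ∧ (0 : ℝ) < (frTab (o + 1)).2.2 := by
      rcases o with _ | _ | _ | _ | n <;> simp [frTab]
    have h' : ((x * (frTab (o + 1)).2.2 + 2 * b2 * (frTab (o + 1)).2.1 : ℕ) : ℝ)
        ≤ (((frTab (o + 1)).1 * (frTab (o + 1)).2.2 + a * (frTab (o + 1)).2.1 : ℕ) : ℝ) := by
      exact_mod_cast h
    push_cast at h'
    have e : (u a - 2 * u b2) / RTab (o + 1) ≤ (u a - 2 * b) / RTab (o + 1) := by
      have : 0 < RTab (o + 1) := div_pos hnum.2 hnum.1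
      gcongr
    have e2 : u x ≤ CTab (o + 1) + (u a - 2 * u b2) / RTab (o + 1) := by
      unfold CTab RTab u
      obtain ⟨hn, hd⟩ := hnum
      field_simp
      nlinarith
    linarith

lemma crOk_spec {oC b1 : ℕ} {n0 n1 : Node} {x0 x1 : ℕ} (h0 : nodeOk n0 = true)
    (h1 : nodeOk n1 = true) (hlt : n0.a < n1.a) (h : crOk oC b1 n0 n1 x0 x1 = true) {t b : ℝ}
    (ht0 : 0 ≤ t) (ht1 : t ≤ 1) (hb : u b1 ≤ b) (hb2 : b ≤ 1 / 2) :
    lerp (u x0) (u x1) t ≤ LCross (lerp (u n0.a) (u n1.a) t) b := by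
  obtain ⟨ha0, -, -, -, he0⟩ := nodeOk_spec h0
  obtain ⟨ha1, -, -, -, he1⟩ := nodeOk_spec h1
  have hapos : 0 ≤ lerp (u n0.a) (u n1.a) t := by
    have := lerp_mono ht0 ht1 (u_nonneg n0.a) (u_nonneg n1.a)
    simpa [lerp] using this
  rcases oC with _ | k
  · simp only [crOk, Bool.and_eq_true, Nat.ble_eq] at h
    refine le_trans ?_ (lcross_ge_disc hapos hb2)
    have := discP_concave (by linarith) (by linarith) ht0 ht1 ((u_le h.1).trans he0)
      ((u_le h.2).trans he1)
    refine this.trans (le_of_eq ?_)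
    congr 1
    unfold lerp; ring
  · simp only [crOk, Bool.and_eq_true, Nat.ble_eq] at h
    obtain ⟨⟨⟨⟨⟨hr, hcond⟩, hx0⟩, hx1⟩, hy0⟩, hy1⟩ := h
    have hb1U : b1 < U / 2 := by omega
    have er : u (U / 2 - b1) = 1 / 2 - u b1 := by
      unfold u; rw [Nat.cast_sub hb1U.le]; norm_num; ring
    have hrpos : 0 < u (U / 2 - b1) := by
      unfold u
      have : (0 : ℝ) < ((U / 2 - b1 : ℕ) : ℝ) := by exact_mod_cast hr
      positivity
    have hb1' : u b1 < 1 / 2 := by linarith [er, hrpos]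
    have ha1U : n1.a ≤ U := by
      simp only [nodeOk, Bool.and_eq_true, Nat.ble_eq] at h1; exact h1.1.1.1
    have hcondR : π * (1 / 2 - u b1) ^ 2 ≤ 1 - u n1.a := by
      rw [← er]
      refine le_trans (mul_le_mul_of_nonneg_right le_PU (sq_nonneg _)) ?_
      have h' : ((PU * (U / 2 - b1) * (U / 2 - b1) : ℕ) : ℝ)
          ≤ ((U * U * (U - n1.a) : ℕ) : ℝ) := by exact_mod_cast hcond
      unfold u
      push_cast [Nat.cast_sub ha1U] at h' ⊢
      field_simp
      linarith
    have side : ∀ (n : Node) (x : ℕ), n.a ≤ U →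
        x * (U / 2 - b1) * U ≤ PL * (U / 2 - b1) * (U / 2 - b1) + U * U * (U - n.a) →
        u x ≤ π * (1 / 2 - u b1) + (1 - u n.a) / (1 / 2 - u b1) := by
      intro n x hn hx
      rw [← er]
      refine le_trans ?_ (add_le_add_left (mul_le_mul_of_nonneg_right PL_le hrpos.le) _)
      have h' : ((x * (U / 2 - b1) * U : ℕ) : ℝ)
          ≤ ((PL * (U / 2 - b1) * (U / 2 - b1) + U * U * (U - n.a) : ℕ) : ℝ) := by
        exact_mod_cast hx
      push_cast [Nat.cast_sub hn] at h'
      have hc : (0 : ℝ) < ((U / 2 - b1 : ℕ) : ℝ) := by exact_mod_cast hr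
      unfold u
      field_simp
      linarith
    have ha0U : n0.a ≤ U := hlt.le.trans ha1U
    refine lcross_ge_affine hb1' hb hb2 ?_ ?_ ?_
    · have : lerp (u n0.a) (u n1.a) t ≤ u n1.a := lerp_le ht0 ht1 (u_le hlt.le) le_rfl
      linarith
    · refine (lerp_mono ht0 ht1 (side n0 x0 ha0U hx0) (side n1 x1 ha1U hx1)).trans (le_of_eq ?_)
      unfold lerp; ring
    · refine lerp_le ht0 ht1 ((u_le hy0).trans (le_of_eq ?_)) ((u_le hy1).trans (le_of_eq ?_)) <;>
        norm_num [u]

/-! ### segments -/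

lemma lOk_spec (hC : CRValid) {mode : ℕ} {B : Box} {g : Seg} {n0 n1 : Node}
    (h0 : nodeOk n0 = true) (h1 : nodeOk n1 = true) (hlt : n0.a < n1.a)
    (h : lOk mode B g n0 n1 = true) {t : ℝ} (ht0 : 0 ≤ t) (ht1 : t ≤ 1) :
    (mode ≠ 2 → lerp (u g.l0) (u g.l1) t ≤ LY (lerp (u n0.a) (u n1.a) t)) ∧
    (mode = 2 → ∀ b, u B.b1 ≤ b → b ≤ u B.b2 → b ≤ 1 / 2 →
      lerp (u g.l0) (u g.l1) t ≤ LZ (lerp (u n0.a) (u n1.a) t) b) := by
  obtain ⟨ha0, -, -, hd0, -⟩ := nodeOk_spec h0
  obtain ⟨ha1, -, -, hd1, -⟩ := nodeOk_spec h1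
  simp only [lOk, discOk, Bool.and_eq_true, Nat.ble_eq] at h
  obtain ⟨⟨hg0, hg1⟩, hrest⟩ := h
  have hdisc := discP_concave (u_nonneg n0.a) (u_nonneg n1.a) ht0 ht1
    ((u_le hg0).trans hd0) ((u_le hg1).trans hd1)
  refine ⟨fun hm => le_min hdisc ?_, fun hm b hb1 hb2 hb => le_min hdisc (le_min ?_ ?_)⟩
  · have hc : cap22 g.l0 g.l1 = true := by
      split at hrest
      · exact absurd rfl hm
      · exact hrest
    simp only [cap22, Bool.and_eq_true, Nat.ble_eq] at hc
    refine lerp_le ht0 ht1 ((u_le hc.1).trans ?_) ((u_le hc.2).trans ?_) <;> norm_num [u]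
  · subst hm
    simp only [Bool.and_eq_true] at hrest
    have f0 := fOk_spec hC hrest.1.1 hb2
    have f1 := fOk_spec hC hrest.1.2 hb2
    by_cases ho : g.oF = 0
    · exact (lerp_le ht0 ht1 (f0.1 ho) (f1.1 ho)).trans (le_max_left _ _)
    · refine (lerp_mono ht0 ht1 (f0.2 ho) (f1.2 ho)).trans
        (le_trans (le_of_eq ?_) (FR_le_FZ g.oF _ b))
      unfold FR lerp; ring
  · subst hm
    simp only [Bool.and_eq_true] at hrest
    exact crOk_spec h0 h1 hlt hrest.2 ht0 ht1 hb1 hb

lemma kOk_spec {mode : ℕ} {B : Box} {g : Seg} {n0 n1 : Node}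
    (h0 : nodeOk n0 = true) (h1 : nodeOk n1 = true) (hlt : n0.a < n1.a)
    (h : kOk mode B g n0 n1 = true) {t : ℝ} (ht0 : 0 ≤ t) (ht1 : t ≤ 1) :
    (mode ≠ 2 → lerp (u g.k0) (u g.k1) t ≤ LCyc (lerp (u n0.a) (u n1.a) t)) ∧
    (mode = 2 → ∀ b, u B.b1 ≤ b → b ≤ 1 / 2 →
      lerp (u g.k0) (u g.k1) t ≤ LCross (lerp (u n0.a) (u n1.a) t) b) := by
  obtain ⟨ha0, -, -, hd0, he0⟩ := nodeOk_spec h0
  obtain ⟨ha1, -, -, hd1, he1⟩ := nodeOk_spec h1
  refine ⟨fun hm => ?_, fun hm b hb hb' => ?_⟩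
  · simp only [kOk] at h
    simp only [discOk, cap22, Bool.and_eq_true, Nat.ble_eq] at h
    obtain ⟨⟨⟨hk0, hk1⟩, hc0, hc1⟩, hrest⟩ := h
    have hY : lerp (u g.k0) (u g.k1) t ≤ LY (lerp (u n0.a) (u n1.a) t) := by
      refine le_min (discP_concave (u_nonneg n0.a) (u_nonneg n1.a) ht0 ht1
        ((u_le hk0).trans hd0) ((u_le hk1).trans hd1)) ?_
      refine lerp_le ht0 ht1 ((u_le hc0).trans ?_) ((u_le hc1).trans ?_) <;> norm_num [u]
    refine le_min hY ?_
    split at hrest <;> simp only [Bool.and_eq_true, Nat.ble_eq] at hrest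
    · refine le_trans ?_ (le_max_right _ _)
      refine lerp_le ht0 ht1 ((u_le hrest.1).trans ?_) ((u_le hrest.2).trans ?_) <;> norm_num [u]
    · refine le_trans ?_ (le_max_left _ _)
      refine (discP_concave (by linarith) (by linarith) ht0 ht1 ((u_le hrest.1).trans he0)
        ((u_le hrest.2).trans he1)).trans (le_of_eq ?_)
      congr 1
      unfold lerp; ring
  · subst hm
    exact crOk_spec h0 h1 hlt h ht0 ht1 hb hb'

lemma bern_spec {p0 p1 : ℤ} {c0 c1 l0 l1 : ℕ} (h : bern p0 p1 c0 c1 l0 l1 = true) {t : ℝ}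
    (ht0 : 0 ≤ t) (ht1 : t ≤ 1) :
    lerp ((p0 : ℝ) / 10 ^ 12) ((p1 : ℝ) / 10 ^ 12) t
      ≤ lerp (u c0) (u c1) t * lerp (u l0) (u l1) t := by
  simp only [bern, Bool.and_eq_true, decide_eq_true_eq] at h
  obtain ⟨⟨h0, h1⟩, h2⟩ := h
  have e0 : (p0 : ℝ) ≤ (c0 : ℝ) * l0 := by exact_mod_cast h0
  have e1 : (p1 : ℝ) ≤ (c1 : ℝ) * l1 := by exact_mod_cast h1
  have e2 : (p0 : ℝ) + p1 ≤ (c0 : ℝ) * l1 + c1 * l0 := by exact_mod_cast h2
  unfold lerp u
  field_simp
  nlinarith [mul_le_mul_of_nonneg_left e0 (sq_nonneg (1 - t)),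
    mul_le_mul_of_nonneg_left e1 (sq_nonneg t),
    mul_le_mul_of_nonneg_left e2 (mul_nonneg ht0 (sub_nonneg.2 ht1))]

/-- Outer bound in each mode. -/
def Lm (mode : ℕ) (b a : ℝ) : ℝ :=
  match mode with
  | 2 => LZ a b
  | _ => LY a

/-- Inner bound in each mode. -/
def Km (mode : ℕ) (b a : ℝ) : ℝ :=
  match mode with
  | 0 => LY a
  | 1 => LCyc a
  | _ => LCross a b

/-- Least inner area in each mode. -/
def alm (mode : ℕ) (v E T : ℝ) : ℝ :=
  match mode with
  | 2 => alo v E T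
  | _ => E

/-- Extra weight in each mode. -/
def mm (mode : ℕ) (L : Leaf) : ℝ :=
  match mode with
  | 0 => 0
  | _ => z L.m

/-- The parameters lie in the box. -/
structure InBox (B : Box) (v E T b : ℝ) : Prop where
  v1 : u B.v1 ≤ v
  v2 : v ≤ u B.v2
  E1 : u B.E1 ≤ E
  E2 : E ≤ u B.E2
  T1 : u B.T1 ≤ T
  T2 : T ≤ u B.T2
  b1 : u B.b1 ≤ b
  b2 : b ≤ u B.b2
  half : b ≤ 1 / 2
  Ev : E ≤ v
  vT : v ≤ T

lemma phi_real (L : Leaf) (a : ℕ) :
    ((phi L a : ℤ) : ℝ) / 10 ^ 12 = z L.lam * u a + z L.mu := by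
  simp only [phi, u, z, U]
  push_cast
  field_simp
  ring

lemma lerp_affine (p q x0 x1 t : ℝ) :
    lerp (p * x0 + q) (p * x1 + q) t = p * lerp x0 x1 t + q := by
  unfold lerp; ring

lemma skip_spec {mode : ℕ} {B : Box} {a1 : ℕ} {last : Bool} {v E T b : ℝ} (hB : InBox B v E T b)
    (h : skipPhase mode B a1 last = true) : last = false ∧ u a1 ≤ alm mode v E T := by
  simp only [skipPhase, Bool.and_eq_true, Bool.not_eq_true'] at h
  refine ⟨h.1, ?_⟩
  obtain ⟨-, h⟩ := h
  split at h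
  · simp only [Bool.or_eq_true, Nat.ble_eq] at h
    simp only [alm]
    rcases h with h | h
    · exact ((u_le h).trans hB.E1).trans (le_max_left _ _)
    · refine le_trans ?_ (le_max_right _ _)
      have h' : ((9 * a1 + B.T2 : ℕ) : ℝ) ≤ ((10 * B.v1 : ℕ) : ℝ) := by exact_mod_cast h
      push_cast at h'
      have := hB.v1
      have := hB.T2
      rw [le_div_iff₀ (by norm_num [h0])]
      simp only [h0, u] at *
      linarith
  · simp only [Nat.ble_eq] at h
    refine ((u_le h).trans hB.E1).trans (le_of_eq ?_)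
    unfold alm
    split
    · contradiction
    · rfl

/-- Piecewise linear interpolation of the `c` values. -/
def pl (x : ℝ) : Node → List (Seg × Node) → ℝ
  | n, [] => u n.c
  | n, (_, n') :: rest =>
      if x < u n'.a ∨ rest = [] then
        lerp (u n.c) (u n'.c) ((x - u n.a) / (u n'.a - u n.a))
      else pl x n' rest

lemma measurable_pl : ∀ (l : List (Seg × Node)) (n : Node), Measurable fun x => pl x n l := by
  intro l
  induction l with
  | nil => intro n; simp only [pl]; fun_prop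
  | cons p rest ih =>
    intro n
    obtain ⟨g, n'⟩ := p
    simp only [pl]
    refine Measurable.ite ?_ (by unfold lerp; fun_prop) (ih n')
    by_cases h : rest = []
    · simp [h]
    · simp only [h, or_false]
      exact measurableSet_Iio

/-- Right end of a chain. -/
def lastA : Node → List (Seg × Node) → ℕ
  | n, [] => n.a
  | _, (_, n') :: rest => lastA n' rest

lemma chain_last {mode : ℕ} {B : Box} {L : Leaf} :
    ∀ (l : List (Seg × Node)) (n : Node), chainOk mode B L n l = true → B.T2 ≤ lastA n l := by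
  intro l
  induction l with
  | nil => intro n h; simpa [chainOk, lastA] using h
  | cons p rest ih =>
    intro n h
    obtain ⟨g, n'⟩ := p
    simp only [chainOk, Bool.and_eq_true] at h
    exact ih n' h.2

lemma chain_spec (hC : CRValid) {mode : ℕ} (hmode : mode ≤ 2) {B : Box} {L : Leaf}
    {v E T b : ℝ} (hB : InBox B v E T b) :
    ∀ (l : List (Seg × Node)) (n : Node), l ≠ [] → nodeOk n = true →
      chainOk mode B L n l = true → ∀ x, u n.a ≤ x → x ≤ u (lastA n l) →
      0 ≤ pl x n l ∧ pl x n l ≤ 1 ∧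
      z L.lam * x + z L.mu ≤ pl x n l * Lm mode b x ∧
      (alm mode v E T ≤ x →
        z L.lam * x + z L.mu + mm mode L ≤ pl x n l * Km mode b x) := by
  intro l
  induction l with
  | nil => intro n h; exact absurd rfl h
  | cons p rest ih =>
    intro n _ hn h x hx0 hx1
    obtain ⟨g, n'⟩ := p
    simp only [chainOk, Bool.and_eq_true] at h
    obtain ⟨⟨hn', hseg⟩, hrest⟩ := h
    simp only [segOk, Bool.and_eq_true, Nat.ble_eq] at hseg
    obtain ⟨⟨⟨hlt, hl⟩, hbern⟩, hphase⟩ := hseg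
    have hlt' : n.a < n'.a := hlt
    simp only [lastA] at hx1
    by_cases hc : x < u n'.a ∨ rest = []
    swap
    · push Not at hc
      simp only [pl, hc.1.not_gt, hc.2, or_self, if_false]
      exact ih n' hc.2 hn' hrest x hc.1 hx1
    · have hx' : x ≤ u n'.a := by
        rcases hc with hc | hc
        · exact hc.le
        · subst hc; exact hx1
      simp only [pl, hc, if_true]
      obtain ⟨ht0, ht1, hxe⟩ := seg_param (u_lt hlt') ⟨hx0, hx'⟩
      set t := (x - u n.a) / (u n'.a - u n.a)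
      obtain ⟨-, hc0, -, -, -⟩ := nodeOk_spec hn
      obtain ⟨-, hc1, -, -, -⟩ := nodeOk_spec hn'
      have hpos : 0 ≤ lerp (u n.c) (u n'.c) t := by
        have := lerp_mono ht0 ht1 (u_nonneg n.c) (u_nonneg n'.c)
        simpa [lerp] using this
      have hb := bern_spec hbern ht0 ht1
      rw [phi_real, phi_real, lerp_affine, hxe] at hb
      obtain ⟨hLY, hLZ⟩ := lOk_spec hC hn hn' hlt' hl ht0 ht1
      rw [hxe] at hLY hLZ
      have hmain : z L.lam * x + z L.mu ≤ lerp (u n.c) (u n'.c) t * Lm mode b x := by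
        refine hb.trans (mul_le_mul_of_nonneg_left ?_ hpos)
        unfold Lm
        split
        · exact hLZ rfl b hB.b1 hB.b2 hB.half
        · exact hLY ‹_›
      refine ⟨hpos, lerp_le ht0 ht1 hc0 hc1, hmain, fun hal => ?_⟩
      interval_cases mode
      · simpa [mm, Km, Lm] using hmain
      all_goals
        simp only [Bool.or_eq_true, Bool.and_eq_true] at hphase
        rcases hphase with hskip | ⟨hk, hkb⟩
        · obtain ⟨hlast, hle⟩ := skip_spec hB hskip
          rcases hc with hc | hc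
          · linarith
          · subst hc; simp at hlast
        have hb' := bern_spec hkb ht0 ht1
        push_cast at hb'
        rw [add_div, add_div, phi_real, phi_real, add_assoc, add_assoc, lerp_affine, hxe] at hb'
        obtain ⟨hKY, hKZ⟩ := kOk_spec hn hn' hlt' hk ht0 ht1
        rw [hxe] at hKY hKZ
        refine le_trans (le_of_eq ?_) (hb'.trans (mul_le_mul_of_nonneg_left ?_ hpos))
        · simp only [mm, z]; ring
      · exact hKY (by norm_num)
      · exact hKZ rfl b hB.b1 hB.half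

lemma lerp_sqrt {c0 c1 s0 s1 t : ℝ} (ht0 : 0 ≤ t) (ht1 : t ≤ 1)
    (h0 : c0 ^ 2 + s0 ^ 2 ≤ 1) (h1 : c1 ^ 2 + s1 ^ 2 ≤ 1) :
    lerp s0 s1 t ≤ √(1 - lerp c0 c1 t ^ 2) := by
  refine Real.le_sqrt_of_sq_le ?_
  unfold lerp
  nlinarith [mul_nonneg (mul_nonneg ht0 (sub_nonneg.2 ht1)) (sq_nonneg (c0 - c1)),
    mul_nonneg (mul_nonneg ht0 (sub_nonneg.2 ht1)) (sq_nonneg (s0 - s1)),
    mul_le_mul_of_nonneg_left h0 (sub_nonneg.2 ht1), mul_le_mul_of_nonneg_left h1 ht0]

lemma integral_lerp {a0 a1 s0 s1 : ℝ} (h : a0 < a1) :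
    ∫ x in a0..a1, lerp s0 s1 ((x - a0) / (a1 - a0)) = (a1 - a0) * (s0 + s1) / 2 := by
  have hd : a1 - a0 ≠ 0 := (sub_pos.2 h).ne'
  have e : (fun x => lerp s0 s1 ((x - a0) / (a1 - a0))) =
      fun x => (s0 - (s1 - s0) * a0 / (a1 - a0)) + (s1 - s0) / (a1 - a0) * x := by
    funext x; unfold lerp; field_simp; ring
  rw [e, intervalIntegral.integral_add intervalIntegrable_const
      ((by fun_prop : Continuous fun x => (s1 - s0) / (a1 - a0) * x).intervalIntegrable _ _),
    intervalIntegral.integral_const, intervalIntegral.integral_const_mul, integral_id,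
    smul_eq_mul]
  field_simp
  ring

lemma intervalIntegrable_cS {c : ℝ → ℝ} (hc : Measurable c) (a b : ℝ) :
    IntervalIntegrable (cS c) volume a b := by
  refine (intervalIntegrable_const (c := (1 : ℝ))).mono_fun ?_ ?_
  · exact (Measurable.aestronglyMeasurable (by unfold cS; fun_prop))
  · refine Filter.Eventually.of_forall fun x => ?_
    simp only [cS, norm_eq_abs, abs_one, abs_of_nonneg (sqrt_nonneg _)]
    rw [Real.sqrt_le_one]
    nlinarith [sq_nonneg (c x)]

/-- The trapezoid sum is a lower bound for twice the integral. -/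
lemma trap_spec {mode : ℕ} {B : Box} {L : Leaf} {E T : ℝ} (hET : E ≤ T)
    (hE2 : E ≤ u B.E2) (hT1 : u B.T1 ≤ T) {c : ℝ → ℝ} (hc : Measurable c) :
    ∀ (l : List (Seg × Node)) (n : Node), nodeOk n = true → chainOk mode B L n l = true →
      (∀ x, u n.a ≤ x → x < u (lastA n l) → c x = pl x n l) →
      (trap B n l : ℝ) / 10 ^ 12 ≤ 2 * ∫ x in (max E (min T (u n.a)))..T, cS c x := by
  intro l
  induction l with
  | nil =>
    intro n _ _ _
    simp only [trap, Nat.cast_zero, zero_div]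
    exact mul_nonneg two_pos.le (intervalIntegral.integral_nonneg
      (max_le hET (min_le_left _ _)) fun x _ => sqrt_nonneg _)
  | cons p rest ih =>
    intro n hn h hceq
    obtain ⟨g, n'⟩ := p
    simp only [chainOk, Bool.and_eq_true] at h
    obtain ⟨⟨hn', hseg⟩, hrest⟩ := h
    simp only [segOk, Bool.and_eq_true, Nat.ble_eq] at hseg
    have hlt : n.a < n'.a := hseg.1.1.1
    simp only [lastA] at hceq
    have hmono : ∀ (l : List (Seg × Node)) (m : Node), chainOk mode B L m l = true →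
        m.a ≤ lastA m l := by
      intro l
      induction l with
      | nil => intro m _; exact le_rfl
      | cons q r ihr =>
        intro m hm
        obtain ⟨g', m'⟩ := q
        simp only [chainOk, segOk, Bool.and_eq_true, Nat.ble_eq] at hm
        have : m.a + 1 ≤ m'.a := hm.1.2.1.1.1
        exact le_trans (by omega) (ihr m' hm.2)
    have hlast : u n'.a ≤ u (lastA n' rest) := u_le (hmono rest n' hrest)
    have ihv := ih n' hn' hrest fun x hx0 hx1 => by
      rw [hceq x ((u_lt hlt).le.trans hx0) hx1]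
      have : ¬(x < u n'.a ∨ rest = []) := by
        rintro (h' | h')
        · linarith
        · subst h'; simp only [lastA] at hx1; linarith
      simp only [pl, this, if_false]
    set A := max E (min T (u n.a)) with hA
    set A' := max E (min T (u n'.a)) with hA'
    have hAA : A ≤ A' := max_le_max le_rfl (min_le_min le_rfl (u_lt hlt).le)
    rw [← intervalIntegral.integral_add_adjacent_intervals
      (intervalIntegrable_cS hc A A') (intervalIntegrable_cS hc A' T)]
    have hfirst : ((if Nat.ble B.E2 n.a && Nat.ble n'.a B.T1 then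
        (n'.a - n.a) * (n.s + n'.s) else 0 : ℕ) : ℝ) / 10 ^ 12 ≤ 2 * ∫ x in A..A', cS c x := by
      split_ifs with hin
      swap
      · simp only [Nat.cast_zero, zero_div]
        exact mul_nonneg two_pos.le (intervalIntegral.integral_nonneg hAA fun x _ => sqrt_nonneg _)
      simp only [Bool.and_eq_true, Nat.ble_eq] at hin
      have eA : A = u n.a := by
        rw [hA, min_eq_right (((u_lt hlt).le.trans (u_le hin.2)).trans hT1),
          max_eq_right (hE2.trans (u_le hin.1))]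
      have eA' : A' = u n'.a := by
        rw [hA', min_eq_right ((u_le hin.2).trans hT1),
          max_eq_right ((hE2.trans (u_le hin.1)).trans (u_lt hlt).le)]
      rw [eA, eA']
      obtain ⟨-, -, hcs0, -, -⟩ := nodeOk_spec hn
      obtain ⟨-, -, hcs1, -, -⟩ := nodeOk_spec hn'
      have hle : ∫ x in (u n.a)..(u n'.a),
          lerp (u n.s) (u n'.s) ((x - u n.a) / (u n'.a - u n.a))
          ≤ ∫ x in (u n.a)..(u n'.a), cS c x := by
        refine intervalIntegral.integral_mono_on_of_le_Ioo (u_lt hlt).le ?_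
          (intervalIntegrable_cS hc _ _) ?_
        · exact (by unfold lerp; fun_prop : Continuous fun x =>
            lerp (u n.s) (u n'.s) ((x - u n.a) / (u n'.a - u n.a))).intervalIntegrable _ _
        intro x hx
        obtain ⟨ht0, ht1, -⟩ := seg_param (u_lt hlt) (Ioo_subset_Icc_self hx)
        simp only [cS]
        rw [hceq x hx.1.le (hx.2.trans_le hlast)]
        simp only [pl, hx.2, true_or, if_true]
        exact lerp_sqrt ht0 ht1 hcs0 hcs1
      rw [integral_lerp (u_lt hlt)] at hle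
      refine le_trans (le_of_eq ?_) (mul_le_mul_of_nonneg_left hle two_pos.le)
      unfold u
      push_cast [Nat.cast_sub hlt.le]
      ring
    rw [trap, Nat.cast_add, add_div, mul_add 2 (∫ x in A..A', cS c x)]
    exact add_le_add hfirst ihv

/-! ### tangents of the candidate profile -/

lemma tube_tan {v q : ℝ} (hv : 0 ≤ v) (hq : 0 < q) : tubeP v ≤ q * v + π / q := by
  unfold tubeP
  have h : √(π * v) ≤ (q * v + π / q) / 2 := by
    rw [Real.sqrt_le_left (by positivity)]
    have e : ((q * v + π / q) / 2) ^ 2 - π * v = ((q * v - π / q) / 2) ^ 2 := by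
      field_simp; ring
    nlinarith [sq_nonneg ((q * v - π / q) / 2)]
  linarith

lemma ball_tan {v q : ℝ} (hv : 0 ≤ v) (hq : 0 < q) :
    ballP v ≤ 2 / 3 * q * v + 12 * π / q ^ 2 := by
  have h := Real.geom_mean_le_arith_mean3_weighted (w₁ := 1 / 3) (w₂ := 1 / 3) (w₃ := 1 / 3)
    (p₁ := q * v) (p₂ := q * v) (p₃ := 36 * π / q ^ 2)
    (by norm_num) (by norm_num) (by norm_num) (by positivity) (by positivity) (by positivity)
    (by norm_num)
  have hb : ballP v = (q * v) ^ (1 / 3 : ℝ) * (q * v) ^ (1 / 3 : ℝ)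
      * (36 * π / q ^ 2) ^ (1 / 3 : ℝ) := by
    rw [← Real.mul_rpow (by positivity) (by positivity),
      ← Real.mul_rpow (by positivity) (by positivity)]
    have : q * v * (q * v) * (36 * π / q ^ 2) = 36 * π * (v * v) := by field_simp
    rw [this, Real.mul_rpow (by positivity) (by positivity), Real.mul_rpow hv hv,
      ← Real.rpow_add' hv (by norm_num)]
    norm_num [ballP]
  rw [hb]
  refine h.trans (le_of_eq ?_)
  ring

lemma tangent_spec {L : Leaf} (h : tangentOk L = true) {v : ℝ} (hv : 0 ≤ v) :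
    candJ v ≤ (slope3 L : ℝ) / 3000000 * v + u L.p := by
  unfold candJ
  unfold tangentOk at h
  unfold slope3
  split at h <;> simp only [Bool.and_eq_true, Nat.ble_eq] at h
  · rename_i hk
    simp only [Nat.cast_zero, zero_div, zero_mul, zero_add]
    exact (min_le_right _ _).trans (le_trans (le_of_eq (by norm_num [u, U])) (u_le h))
  · rename_i hk
    have hq : 0 < u L.q := by
      have : (0 : ℝ) < L.q := by exact_mod_cast h.1
      unfold u; positivity
    refine ((min_le_left _ _).trans (min_le_right _ _)).trans ((tube_tan hv hq).trans ?_)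
    have h' : ((PU * U : ℕ) : ℝ) ≤ ((L.p * L.q : ℕ) : ℝ) := by exact_mod_cast h.2
    push_cast at h'
    have hp : π / u L.q ≤ u L.p := by
      rw [div_le_iff₀ hq]
      refine le_PU.trans ?_
      simp only [u] at h' ⊢
      field_simp
      push_cast at h' ⊢
      linarith
    push_cast
    simp only [u] at hp ⊢
    linarith
  · rename_i hk0 hk1
    have hq : 0 < u L.q := by
      have : (0 : ℝ) < L.q := by exact_mod_cast h.1
      unfold u; positivity
    refine ((min_le_left _ _).trans (min_le_left _ _)).trans ((ball_tan hv hq).trans ?_)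
    have h' : ((12 * PU * U * U : ℕ) : ℝ) ≤ ((L.p * L.q * L.q : ℕ) : ℝ) := by exact_mod_cast h.2
    push_cast at h'
    have hp : 12 * π / u L.q ^ 2 ≤ u L.p := by
      rw [div_le_iff₀ (pow_pos hq 2)]
      refine (mul_le_mul_of_nonneg_left le_PU (by norm_num)).trans ?_
      simp only [u] at h' ⊢
      field_simp
      push_cast at h' ⊢
      linarith
    push_cast
    simp only [u] at hp ⊢
    linarith

/-! ### leaves and trees -/

lemma valOk_spec {mode : ℕ} {L : Leaf} {G v : ℕ} (h : valOk mode L G v = true) :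
    (slope3 L : ℝ) / 3000000 * u v + u L.p + 1 / 100000
      ≤ z L.lam * u v + z L.mu + (G : ℝ) / 10 ^ 12 + 2 * h0 * mm mode L := by
  simp only [valOk, decide_eq_true_eq] at h
  have h' := (Int.cast_le (R := ℝ)).2 h
  push_cast at h'
  simp only [u, z, h0, U] at *
  unfold mm
  split at h' <;> simp only [z] <;> push_cast at h' <;> field_simp <;> linarith

/-- The conclusion in each mode. -/
def Good (mode : ℕ) (v E T b : ℝ) : Prop :=
  Cert2G (candJ v + 1 / 100000) (Lm mode b) (Km mode b) v E (alm mode v E T) T ∨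
    (mode = 2 ∧ 7 / 25 ≤ v ∧ E ≤ 1 / 200 ∧ 199 / 200 ≤ T ∧
      Cert2G (2 + (√(1 - T) + √E) / 20) (fun a => LZ a b) (fun a => LCross a b) v E (alo v E T) T)

lemma leaf_spec (hC : CRValid) {mode : ℕ} (hmode : mode ≤ 2) {B : Box} {L : Leaf}
    {v E T b : ℝ} (hB : InBox B v E T b) (h : leafOk mode B L = true) : Good mode v E T b := by
  simp only [leafOk, Bool.and_eq_true, Nat.ble_eq, Bool.not_eq_true'] at h
  obtain ⟨⟨⟨⟨⟨hn, hfirst⟩, hne⟩, hchain⟩, htan⟩, hv1, hv2⟩ := h
  have hne' : L.steps ≠ [] := by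
    intro e; simp [e] at hne
  have hE : 0 ≤ E := (u_nonneg _).trans hB.E1
  have hET : E ≤ T := hB.Ev.trans hB.vT
  set c : ℝ → ℝ := fun x => max 0 (min 1 (pl x L.first L.steps)) with hcdef
  have hcm : Measurable c := measurable_const.max (measurable_const.min (measurable_pl _ _))
  have hT2 : T ≤ u (lastA L.first L.steps) := hB.T2.trans (u_le (chain_last _ _ hchain))
  have hsp := chain_spec hC hmode hB L.steps L.first hne' hn hchain
  have hceq : ∀ x, u L.first.a ≤ x → x ≤ u (lastA L.first L.steps) →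
      c x = pl x L.first L.steps := by
    intro x hx0 hx1
    obtain ⟨h0', h1', -, -⟩ := hsp x hx0 hx1
    simp only [hcdef, min_eq_right h1', max_eq_right h0']
  have hal : E ≤ alm mode v E T := by
    unfold alm
    split
    · exact le_max_left _ _
    · exact le_rfl
  have hfa : u L.first.a ≤ E := (u_le hfirst).trans hB.E1
  refine Or.inl ⟨z L.lam, z L.mu, mm mode L, c, hcm,
    fun a => ⟨le_max_left _ _, max_le zero_le_one (min_le_left _ _)⟩, ?_, ?_, ?_⟩
  · intro a ha
    rw [hceq a (hfa.trans ha.1) (ha.2.trans hT2)]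
    exact (hsp a (hfa.trans ha.1) (ha.2.trans hT2)).2.2.1
  · intro a ha
    have hx0 := hfa.trans (hal.trans ha.1)
    rw [hceq a hx0 (ha.2.trans hT2)]
    exact (hsp a hx0 (ha.2.trans hT2)).2.2.2 ha.1
  · have hint := trap_spec hET hB.E2 hB.T1 hcm L.steps L.first hn hchain
      fun x hx0 hx1 => hceq x hx0 hx1.le
    rw [min_eq_right (hfa.trans hET), max_eq_left hfa] at hint
    have t1 := valOk_spec hv1
    have t2 := valOk_spec hv2
    refine (add_le_add (tangent_spec htan (hE.trans hB.Ev)) le_rfl).trans ?_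
    rcases le_total ((slope3 L : ℝ) / 3000000) (z L.lam) with hs | hs
    · have := mul_le_mul_of_nonneg_left hB.v1 (sub_nonneg.2 hs)
      linarith
    · have := mul_le_mul_of_nonneg_left hB.v2 (sub_nonneg.2 hs)
      linarith

/-- The corner of the slab case, settled analytically. -/
def CornerValid : Prop :=
  ∀ {v E T b : ℝ}, 7 / 25 ≤ v → v ≤ 1 / π → 0 ≤ E → E ≤ 1 / 200 → 199 / 200 ≤ T → T ≤ 1 →
    0 ≤ b → b ≤ 1 / 2 →
      Cert2G (2 + (√(1 - T) + √E) / 20) (fun a => LZ a b) (fun a => LCross a b) v E (alo v E T) T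

theorem tree_spec (hC : CRValid) (hK : CornerValid) {mode : ℕ} (hmode : mode ≤ 2) :
    ∀ (t : Tree) {B : Box}, treeOk mode B t = true → ∀ {v E T b : ℝ}, v ≤ 1 / π → T ≤ 1 →
      InBox B v E T b → Good mode v E T b := by
  intro t
  induction t with
  | leaf L => intro B h v E T b _ _ hB; exact leaf_spec hC hmode hB h
  | empty =>
    intro B h v E T b _ _ hB
    simp only [treeOk, Nat.ble_eq] at h
    have := u_lt (show B.v2 < B.E1 from h)
    linarith [hB.E1, hB.Ev, hB.v2]
  | corner =>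
    intro B h v E T b hv hT hB
    simp only [treeOk, Bool.and_eq_true, Nat.ble_eq] at h
    obtain ⟨⟨⟨⟨hm, hm'⟩, hT1⟩, hE2⟩, hv1⟩ := h
    obtain rfl : mode = 2 := le_antisymm hm hm'
    have e1 : 7 / 25 ≤ v := le_trans (le_of_eq (by norm_num [u])) ((u_le hv1).trans hB.v1)
    have e2 : E ≤ 1 / 200 := hB.E2.trans ((u_le hE2).trans (le_of_eq (by norm_num [u])))
    have e3 : 199 / 200 ≤ T := le_trans (le_of_eq (by norm_num [u])) ((u_le hT1).trans hB.T1)
    exact Or.inr ⟨rfl, e1, e2, e3, hK e1 hv ((u_nonneg _).trans hB.E1) e2 e3 hT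
      ((u_nonneg _).trans hB.b1) hB.half⟩
  | splitV x l r ihl ihr =>
    intro B h v E T b hv hT hB
    simp only [treeOk, Bool.and_eq_true] at h
    rcases le_total v (u x) with hx | hx
    · exact ihl h.1 hv hT { hB with v2 := hx }
    · exact ihr h.2 hv hT { hB with v1 := hx }
  | splitE x l r ihl ihr =>
    intro B h v E T b hv hT hB
    simp only [treeOk, Bool.and_eq_true] at h
    rcases le_total E (u x) with hx | hx
    · exact ihl h.1 hv hT { hB with E2 := hx }
    · exact ihr h.2 hv hT { hB with E1 := hx }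
  | splitT x l r ihl ihr =>
    intro B h v E T b hv hT hB
    simp only [treeOk, Bool.and_eq_true] at h
    rcases le_total T (u x) with hx | hx
    · exact ihl h.1 hv hT { hB with T2 := hx }
    · exact ihr h.2 hv hT { hB with T1 := hx }
  | splitB x l r ihl ihr =>
    intro B h v E T b hv hT hB
    simp only [treeOk, Bool.and_eq_true] at h
    rcases le_total b (u x) with hx | hx
    · exact ihl h.1 hv hT { hB with b2 := hx }
    · exact ihr h.2 hv hT { hB with b1 := hx }

end

end Vale.P232.Chk
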