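import Vale.Agent.P232.ScalarCheck

/-!
P232, module D: gluing lemmas for the generated certificates.
-/

namespace Vale.P232.Chk

variable {m a1 a2 e1 e2 t1 t2 b1 b2 x : ℕ} {l r : Tree}

theorem splitV_ok (hl : treeOk m ⟨a1, x, e1, e2, t1, t2, b1, b2⟩ l = true)
    (hr : treeOk m ⟨x, a2, e1, e2, t1, t2, b1, b2⟩ r = true) :
    treeOk m ⟨a1, a2, e1, e2, t1, t2, b1, b2⟩ (.splitV x l r) = true := by
  simp [treeOk, hl, hr]

theorem splitE_ok (hl : treeOk m ⟨a1, a2, e1, x, t1, t2, b1, b2⟩ l = true)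
    (hr : treeOk m ⟨a1, a2, x, e2, t1, t2, b1, b2⟩ r = true) :
    treeOk m ⟨a1, a2, e1, e2, t1, t2, b1, b2⟩ (.splitE x l r) = true := by
  simp [treeOk, hl, hr]

theorem splitT_ok (hl : treeOk m ⟨a1, a2, e1, e2, t1, x, b1, b2⟩ l = true)
    (hr : treeOk m ⟨a1, a2, e1, e2, x, t2, b1, b2⟩ r = true) :
    treeOk m ⟨a1, a2, e1, e2, t1, t2, b1, b2⟩ (.splitT x l r) = true := by
  simp [treeOk, hl, hr]

theorem splitB_ok (hl : treeOk m ⟨a1, a2, e1, e2, t1, t2, b1, x⟩ l = true)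
    (hr : treeOk m ⟨a1, a2, e1, e2, t1, t2, x, b2⟩ r = true) :
    treeOk m ⟨a1, a2, e1, e2, t1, t2, b1, b2⟩ (.splitB x l r) = true := by
  simp [treeOk, hl, hr]

end Vale.P232.Chk
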