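import Vale.Agent.P232.HeatConcave
import Vale.Agent.P232.Steiner

/-!
P232, slab range: minimisers have no thin parts.
-/

open MeasureTheory Set Filter Topology Metric
open scoped ENNReal

namespace Vale.P232.SlabUnique

open Rearr

noncomputable section

/-- Jump of an indicator between two points. -/
def jump (A : Set V3) (x y : V3) : ℝ := |ind A y - ind A x|

theorem jump_nonneg (A : Set V3) (x y : V3) : 0 ≤ jump A x y := abs_nonneg _

theorem jump_le_one (A : Set V3) (x y : V3) : jump A x y ≤ 1 := abs_ind_sub_le _ _ _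

theorem Phi_eq_jump {A : Set V3} (hA : MeasurableSet A) (r : ℝ) :
    Phi r A = (∫ h in eball r, ∫ x in cube, jump A x (x + h)) / kappa r := by
  simp only [Phi, shiftDiff_eq hA, jump]

/-- A jointly measurable family of periodic sets. -/
structure Layers (S : ℝ → Set V3) : Prop where
  meas : MeasurableSet {p : ℝ × V3 | p.2 ∈ S p.1}
  per : ∀ t, IsPeriodic (S t)

theorem Layers.measurableSet {S : ℝ → Set V3} (hS : Layers S) (t : ℝ) : MeasurableSet (S t) :=
  (measurable_const.prodMk measurable_id) hS.meas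

theorem Layers.measurable_jump {S : ℝ → Set V3} (hS : Layers S) :
    Measurable fun q : ℝ × (V3 × V3) => jump (S q.1) q.2.2 (q.2.2 + q.2.1) := by
  have h : Measurable fun p : ℝ × V3 => ind (S p.1) p.2 := by
    have e : (fun p : ℝ × V3 => ind (S p.1) p.2)
        = {p : ℝ × V3 | p.2 ∈ S p.1}.indicator fun _ => (1 : ℝ) := by
      funext p
      by_cases hp : p.2 ∈ S p.1 <;> simp [ind, hp]
    rw [e]; exact measurable_const.indicator hS.meas
  exact ((h.comp (measurable_fst.prodMk (measurable_snd.snd.add measurable_snd.fst))).sub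
    (h.comp (measurable_fst.prodMk measurable_snd.snd))).norm

theorem Layers.integrable_jump {S : ℝ → Set V3} (hS : Layers S) (r : ℝ) :
    Integrable (Function.uncurry fun (t : ℝ) (q : V3 × V3) => jump (S t) q.2 (q.2 + q.1))
      ((volume.restrict (Ioo (0 : ℝ) 1)).prod
        (((volume : Measure V3).restrict (eball r)).prod ((volume : Measure V3).restrict cube))) :=
  Integrable.of_bound hS.measurable_jump.aestronglyMeasurable 1 (Eventually.of_forall fun q => by
    simp only [Function.uncurry, Real.norm_eq_abs, abs_of_nonneg (jump_nonneg _ _ _)]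
    exact jump_le_one _ _ _)

theorem Layers.Phi_eq {S : ℝ → Set V3} (hS : Layers S) (r t : ℝ) :
    Phi r (S t) = (∫ q, jump (S t) q.2 (q.2 + q.1) ∂(((volume : Measure V3).restrict (eball r)).prod
      ((volume : Measure V3).restrict cube))) / kappa r := by
  rw [Phi_eq_jump (hS.measurableSet t), integral_prod]
  refine Integrable.of_bound ?_ 1 (Eventually.of_forall fun q => ?_)
  · exact (hS.measurable_jump.comp (measurable_const.prodMk measurable_id)).aestronglyMeasurable
  · rw [Real.norm_eq_abs, abs_of_nonneg (jump_nonneg _ _ _)]; exact jump_le_one _ _ _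

theorem Layers.integrable_Phi {S : ℝ → Set V3} (hS : Layers S) (r : ℝ) :
    IntegrableOn (fun t => Phi r (S t)) (Ioo 0 1) := by
  refine (((hS.integrable_jump r).integral_prod_left).div_const (kappa r)).congr
    (Eventually.of_forall fun t => ?_)
  exact (hS.Phi_eq r t).symm

/-- Summed over the layers, the nonlocal perimeters are at most the averaged jump. -/
theorem Layers.integral_Phi_le {S T : ℝ → Set V3} (hS : Layers S) (hT : Layers T) {r : ℝ}
    (hr : 0 < r) {G : V3 → V3 → ℝ}
    (hG : ∀ h, IntegrableOn (fun x => G x (x + h)) cube)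
    (hG' : IntegrableOn (fun h => ∫ x in cube, G x (x + h)) (eball r))
    (hpt : ∀ x y, (∫ t in Ioo (0 : ℝ) 1, (jump (S t) x y + jump (T t) x y)) ≤ G x y) :
    ∫ t in Ioo (0 : ℝ) 1, (Phi r (S t) + Phi r (T t))
      ≤ (∫ h in eball r, ∫ x in cube, G x (x + h)) / kappa r := by
  simp only [hS.Phi_eq, hT.Phi_eq, ← add_div, integral_div]
  refine div_le_div_of_nonneg_right ?_ (kappa_pos hr).le
  have hi := (hS.integrable_jump r).add (hT.integrable_jump r)
  have hS1 : IntegrableOn (fun t => ∫ q, jump (S t) q.2 (q.2 + q.1) ∂(((volume : Measure V3).restrict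
      (eball r)).prod ((volume : Measure V3).restrict cube))) (Ioo 0 1) :=
    (hS.integrable_jump r).integral_prod_left
  have hT1 : IntegrableOn (fun t => ∫ q, jump (T t) q.2 (q.2 + q.1) ∂(((volume : Measure V3).restrict
      (eball r)).prod ((volume : Measure V3).restrict cube))) (Ioo 0 1) :=
    (hT.integrable_jump r).integral_prod_left
  rw [integral_add hS1 hT1,
    show (∫ t in Ioo (0 : ℝ) 1, ∫ q, jump (S t) q.2 (q.2 + q.1) ∂(((volume : Measure V3).restrict
        (eball r)).prod ((volume : Measure V3).restrict cube))) +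
      (∫ t in Ioo (0 : ℝ) 1, ∫ q, jump (T t) q.2 (q.2 + q.1) ∂(((volume : Measure V3).restrict
        (eball r)).prod ((volume : Measure V3).restrict cube)))
      = ∫ q, (∫ t in Ioo (0 : ℝ) 1, (jump (S t) q.2 (q.2 + q.1) + jump (T t) q.2 (q.2 + q.1)))
        ∂(((volume : Measure V3).restrict (eball r)).prod ((volume : Measure V3).restrict cube))
      from ?_]
  · have hR : Integrable (fun q : V3 × V3 => ∫ t in Ioo (0 : ℝ) 1,
        (jump (S t) q.2 (q.2 + q.1) + jump (T t) q.2 (q.2 + q.1)))
        (((volume : Measure V3).restrict (eball r)).prod ((volume : Measure V3).restrict cube)) :=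
      hi.integral_prod_right
    rw [integral_prod _ hR]
    refine integral_mono_ae hR.integral_prod_left hG' ?_
    filter_upwards [hR.prod_right_ae] with h hh
    exact setIntegral_mono hh (hG h) fun x => hpt x (x + h)
  · have hS2 : Integrable (fun q : V3 × V3 => ∫ t in Ioo (0 : ℝ) 1, jump (S t) q.2 (q.2 + q.1))
        (((volume : Measure V3).restrict (eball r)).prod ((volume : Measure V3).restrict cube)) :=
      (hS.integrable_jump r).integral_prod_right
    have hT2 : Integrable (fun q : V3 × V3 => ∫ t in Ioo (0 : ℝ) 1, jump (T t) q.2 (q.2 + q.1))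
        (((volume : Measure V3).restrict (eball r)).prod ((volume : Measure V3).restrict cube)) :=
      (hT.integrable_jump r).integral_prod_right
    rw [integral_integral_swap (hS.integrable_jump r), integral_integral_swap (hT.integrable_jump r),
      ← integral_add hS2 hT2]
    refine integral_congr_ae ?_
    filter_upwards [(hS.integrable_jump r).prod_left_ae, (hT.integrable_jump r).prod_left_ae]
      with q h1 h2
    exact (integral_add h1 h2).symm

theorem eventually_ge_Phi {A : Set V3} (hA : MeasurableSet A) (hp : IsPeriodic A) {a ε : ℝ}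
    (ha : ENNReal.ofReal a ≤ perimeter A) (hε : 0 < ε) :
    ∀ᶠ r in 𝓝[>] (0 : ℝ), a - ε ≤ Phi r A := by
  rcases le_or_gt (a - ε) 0 with h | h
  · exact Eventually.of_forall fun r => h.trans (Phi_nonneg r A)
  by_contra hne
  rw [not_eventually] at hne
  have h1 := ha.trans (perimeter_le_of_frequently hA hp (hne.mono fun r hr => (not_le.1 hr).le))
  rw [ENNReal.ofReal_le_ofReal_iff h.le] at h1
  linarith

/-- Lower bounds of the perimeters of the layers pass to a bound of the averaged jumps. -/
theorem le_of_layers {S T : ℝ → Set V3} (hS : Layers S) (hT : Layers T) {a b B : ℝ}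
    (ha : ∀ t ∈ Ioo (0 : ℝ) 1, ENNReal.ofReal a ≤ perimeter (S t))
    (hb : ∀ t ∈ Ioo (0 : ℝ) 1, ENNReal.ofReal b ≤ perimeter (T t))
    (hB : ∀ r ∈ Ioo (0 : ℝ) (1 / 4), ∫ t in Ioo (0 : ℝ) 1, (Phi r (S t) + Phi r (T t)) ≤ B) :
    a + b ≤ B := by
  refine le_of_forall_pos_le_add fun ε hε => ?_
  set c := a + b - ε
  set u : ℕ → ℝ := fun n => 1 / ((n : ℝ) + 5)
  have hu : ∀ n, u n ∈ Ioo (0 : ℝ) (1 / 4) := fun n => by
    refine ⟨by positivity, ?_⟩
    simp only [u]
    rw [div_lt_div_iff₀ (by positivity) (by norm_num)]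
    linarith [n.cast_nonneg (α := ℝ)]
  have hu0 : Tendsto u atTop (𝓝[>] 0) := by
    rw [tendsto_nhdsWithin_iff]
    refine ⟨?_, Eventually.of_forall fun n => (hu n).1⟩
    simpa [u, one_div, Function.comp_def] using
      tendsto_inv_atTop_zero.comp (tendsto_natCast_atTop_atTop.atTop_add
        (tendsto_const_nhds : Tendsto (fun _ : ℕ => (5 : ℝ)) atTop (𝓝 5)))
  set F : ℕ → ℝ → ℝ := fun n t => min (Phi (u n) (S t) + Phi (u n) (T t)) c
  have hi : ∀ n, IntegrableOn (fun t => Phi (u n) (S t) + Phi (u n) (T t)) (Ioo 0 1) := fun n =>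
    (hS.integrable_Phi _).add (hT.integrable_Phi _)
  have hlim : Tendsto (fun n => ∫ t in Ioo (0 : ℝ) 1, F n t) atTop
      (𝓝 (∫ _t in Ioo (0 : ℝ) 1, c)) := by
    refine tendsto_integral_of_dominated_convergence (fun _ => |c|)
      (fun n => (hi n).aestronglyMeasurable.inf aestronglyMeasurable_const) (integrable_const _)
      (fun n => Eventually.of_forall fun t => ?_) ?_
    · rw [Real.norm_eq_abs, abs_le]
      refine ⟨le_min ?_ (neg_abs_le c), (min_le_right _ _).trans (le_abs_self c)⟩
      linarith [abs_nonneg c, Phi_nonneg (u n) (S t), Phi_nonneg (u n) (T t)]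
    · filter_upwards [ae_restrict_mem measurableSet_Ioo] with t ht
      refine tendsto_const_nhds.congr' ?_
      filter_upwards [hu0.eventually ((eventually_ge_Phi (hS.measurableSet t) (hS.per t) (ha t ht)
        (half_pos hε)).and (eventually_ge_Phi (hT.measurableSet t) (hT.per t) (hb t ht)
        (half_pos hε)))] with n hn
      refine (min_eq_right ?_).symm
      simp only [c]; linarith
  have hle : ∫ _t in Ioo (0 : ℝ) 1, c ≤ B := le_of_tendsto' hlim fun n =>
    (setIntegral_mono ((hi n).inf (integrable_const c)) (hi n) fun t => min_le_left _ _).trans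
      (hB _ (hu n))
  simp [measureReal_def] at hle
  linarith

theorem integral_layer {u v : ℝ} (hu : u ∈ Icc (0 : ℝ) 1) (hv : v ∈ Icc (0 : ℝ) 1) :
    ∫ t in Ioo (0 : ℝ) 1, |(if t < v then (1 : ℝ) else 0) - (if t < u then 1 else 0)| = |v - u| := by
  have e : (fun t : ℝ => |(if t < v then (1 : ℝ) else 0) - (if t < u then 1 else 0)|)
      = (Ico (min u v) (max u v)).indicator fun _ => (1 : ℝ) := by
    funext t
    by_cases h1 : t < v <;> by_cases h2 : t < u
    · rw [if_pos h1, if_pos h2, indicator_of_notMem (by simp [h1, h2]), sub_self, abs_zero]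
    · rw [if_pos h1, if_neg h2, indicator_of_mem (by simp [h1, not_lt.1 h2]), sub_zero, abs_one]
    · rw [if_neg h1, if_pos h2, indicator_of_mem (by simp [h2, not_lt.1 h1]), zero_sub, abs_neg,
        abs_one]
    · rw [if_neg h1, if_neg h2, indicator_of_notMem (by simp [h1, h2]), sub_self, abs_zero]
  rw [e, setIntegral_indicator measurableSet_Ico]
  have h : (Ioo (0 : ℝ) 1 ∩ Ico (min u v) (max u v) : Set ℝ) =ᵐ[volume] Ioo (min u v) (max u v) := by
    have : (Ioo (0 : ℝ) 1 ∩ Ioo (min u v) (max u v) : Set ℝ) = Ioo (min u v) (max u v) :=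
      inter_eq_right.2 (Ioo_subset_Ioo (le_min hu.1 hv.1) (max_le hu.2 hv.2))
    exact (Filter.EventuallyEq.inter (EventuallyEq.refl _ _) Ioo_ae_eq_Ico.symm).trans
      (EventuallyEq.of_eq this)
  rw [setIntegral_congr_set h]
  simp [measureReal_def, max_sub_min_eq_abs, abs_nonneg, ENNReal.toReal_ofReal, abs_sub_comm]

/-- Componentwise distance to the lattice. -/
def dv (y : V3) : V3 := fun i => dd (y i)

theorem abs_norm_dv_sub (a b : V3) : |‖dv a‖ - ‖dv b‖| ≤ ‖a - b‖ := by
  refine (abs_norm_sub_norm_le _ _).trans ((pi_norm_le_iff_of_nonneg (norm_nonneg _)).2 fun i => ?_)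
  refine le_trans ?_ (norm_le_pi_norm (a - b) i)
  simp only [dv, Pi.sub_apply, Real.norm_eq_abs, abs_sub_le_iff]
  constructor
  · linarith [dd_le_add (a i) (b i)]
  · linarith [dd_le_add (b i) (a i), abs_sub_comm (a i) (b i)]

theorem continuous_normDv (x0 : V3) : Continuous fun y => ‖dv (y - x0)‖ := by
  refine LipschitzWith.continuous (K := 1) (LipschitzWith.of_dist_le_mul fun a b => ?_)
  simpa [Real.dist_eq, dist_eq_norm] using abs_norm_dv_sub (a - x0) (b - x0)

theorem dv_periodic (x0 x : V3) (k : Fin 3 → ℤ) :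
    dv (x + (fun i => (k i : ℝ)) - x0) = dv (x - x0) := by
  funext i
  simp only [dv, Pi.sub_apply, Pi.add_apply]
  rw [show x i + (k i : ℝ) - x0 i = x i - x0 i + k i by ring, dd_add_int]

/-- A periodic box. -/
def box (x0 : V3) (ρ : ℝ) : Set V3 := {y | ‖dv (y - x0)‖ < ρ}

theorem measurableSet_box (x0 : V3) (ρ : ℝ) : MeasurableSet (box x0 ρ) :=
  measurableSet_lt (continuous_normDv x0).measurable measurable_const

theorem isPeriodic_box (x0 : V3) (ρ : ℝ) : IsPeriodic (box x0 ρ) := fun x k => by
  simp only [box, mem_ofPred_eq, dv_periodic]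

/-- The part of `E` near a point. -/
def mass (E : Set V3) (x0 : V3) (ρ : ℝ) : ℝ := ∫ t in ball (0 : V3) ρ, ind E (x0 + t)

theorem tvol_inter_box {E : Set V3} (hE : MeasurableSet E) (hp : IsPeriodic E) (x0 : V3) {ρ : ℝ}
    (hρ : ρ ≤ 1 / 2) : tvol (E ∩ box x0 ρ) = mass E x0 ρ := by
  set c : V3 := fun _ => 1 / 2 with hc
  have hper : IsPeriodicFun (ind (E ∩ box x0 ρ)) := (hp.inter (isPeriodic_box x0 ρ)).ind
  rw [tvol_eq_integral (hE.inter (measurableSet_box x0 ρ)),
    ← integral_periodic_translate hper (x0 - c)]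
  have e : ∀ y ∈ cube, ind (E ∩ box x0 ρ) (y + (x0 - c))
      = (ball c ρ).indicator (fun y => ind E (x0 + (y - c))) y := by
    intro y hy
    have hd : dv (y + (x0 - c) - x0) = fun i => |(y - c) i| := by
      funext i
      have := hy i (mem_univ i)
      simp only [dv, Pi.sub_apply, Pi.add_apply]
      rw [show y i + (x0 i - c i) - x0 i = y i - c i by ring, Steiner.dd_eq_abs]
      rw [abs_le, hc]
      constructor <;> linarith [this.1, this.2]
    have hn : ‖dv (y + (x0 - c) - x0)‖ = ‖y - c‖ := by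
      rw [hd]
      simp [Pi.norm_def]
    by_cases hb : y ∈ ball c ρ
    · rw [indicator_of_mem hb]
      rw [mem_ball, dist_eq_norm] at hb
      have ey : y + (x0 - c) = x0 + (y - c) := by abel
      have hmem : y + (x0 - c) ∈ box x0 ρ := by show ‖dv _‖ < ρ; rw [hn]; exact hb
      by_cases hE' : x0 + (y - c) ∈ E
      · simp [ind, hE', hmem, ey ▸ hE']
      · simp [ind, hE', hmem, ey ▸ hE']
    · rw [indicator_of_notMem hb]
      rw [mem_ball, dist_eq_norm] at hb
      simp [ind, Set.indicator, box, hn, hb]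
  have hsub : ball c ρ ⊆ cube := fun y hy i _ => by
    rw [mem_ball, dist_eq_norm] at hy
    have h1 : |y i - c i| < 1 / 2 :=
      ((norm_le_pi_norm (y - c) i).trans_lt hy).trans_le hρ
    rw [abs_lt, hc] at h1
    constructor <;> linarith [h1.1, h1.2]
  rw [setIntegral_congr_fun measurableSet_cube e, setIntegral_indicator measurableSet_ball,
    inter_eq_right.2 hsub, mass, ← (measurePreserving_sub_right (volume : Measure V3)
      c).setIntegral_preimage_emb (MeasurableEquiv.subRight c).measurableEmbedding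
        (fun t => ind E (x0 + t))]
  congr 1
  congr 1
  ext y
  simp [dist_eq_norm]

theorem mass_nonneg (E : Set V3) (x0 : V3) (ρ : ℝ) : 0 ≤ mass E x0 ρ :=
  setIntegral_nonneg measurableSet_ball fun _ _ => ind_nonneg _ _

theorem integrableOn_mass {E : Set V3} (hE : MeasurableSet E) (x0 : V3) (ρ : ℝ) :
    IntegrableOn (fun t => ind E (x0 + t)) (ball (0 : V3) ρ) :=
  IntegrableOn.of_bound measure_ball_lt_top
    ((measurable_ind hE).comp (measurable_const_add x0)).aestronglyMeasurable 1
    (Eventually.of_forall fun t => by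
      simp only [Function.comp_apply, Real.norm_eq_abs, abs_of_nonneg (ind_nonneg _ _)]
      exact ind_le_one _ _)

theorem mass_mono {E : Set V3} (hE : MeasurableSet E) (x0 : V3) {ρ ρ' : ℝ} (h : ρ ≤ ρ') :
    mass E x0 ρ ≤ mass E x0 ρ' :=
  setIntegral_mono_set (integrableOn_mass hE x0 ρ') (Eventually.of_forall fun _ => ind_nonneg _ _)
    (ball_subset_ball h).eventuallyLE

/-- The isoperimetric hypothesis. -/
def ProfileBound : Prop := ∀ V ∈ Ioo (0 : ℝ) 1, ENNReal.ofReal (J V) ≤ profile V

theorem J_le_perimeter (hprof : ProfileBound) {A : Set V3} (hA : MeasurableSet A)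
    (hp : IsPeriodic A) (h : tvol A ∈ Ioo (0 : ℝ) 1) :
    ENNReal.ofReal (J (tvol A)) ≤ perimeter A :=
  (hprof _ h).trans (profile_le hA hp)

theorem four_le_J {a : ℝ} (h0 : 0 ≤ a) (h1 : a ≤ 1 / 100) :
    4 * a ^ (2 / 3 : ℝ) ≤ J a := by
  have hJ : J a = candJ a := by rw [J, min_eq_left (by linarith)]
  rw [hJ, candJ]
  set s := a ^ (1 / 3 : ℝ) with hs
  have hs0 : 0 ≤ s := Real.rpow_nonneg h0 _
  have e3 : s ^ 3 = a := by rw [hs, ← Real.rpow_natCast, ← Real.rpow_mul h0]; norm_num
  have e2 : a ^ (2 / 3 : ℝ) = s ^ 2 := by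
    rw [hs, ← Real.rpow_natCast (a ^ (1 / 3 : ℝ)), ← Real.rpow_mul h0]; norm_num
  have hπ := Real.pi_gt_three
  have hs1 : s ≤ 1 / 2 := le_of_pow_le_pow_left₀ three_ne_zero (by norm_num) (by
    rw [e3]; norm_num; linarith)
  refine le_min (le_min ?_ ?_) ?_
  · unfold ballP
    refine mul_le_mul_of_nonneg_right ?_ (Real.rpow_nonneg h0 _)
    refine le_of_pow_le_pow_left₀ three_ne_zero (Real.rpow_nonneg (by positivity) _) ?_
    rw [← Real.rpow_natCast ((36 * Real.pi) ^ (1 / 3 : ℝ)) 3, ← Real.rpow_mul (by positivity)]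
    norm_num
    linarith
  · rw [e2, tubeP]
    have : 2 * s ^ 2 ≤ Real.sqrt (Real.pi * a) := by
      refine Real.le_sqrt_of_sq_le ?_
      rw [← e3]
      nlinarith [pow_nonneg hs0 3]
    linarith
  · rw [e2]; nlinarith

/-- The candidate profile on the slab range. -/
theorem J_eq_two {V : ℝ} (h1 : 1 / Real.pi ≤ V) (h2 : V ≤ 1 - 1 / Real.pi) : J V = 2 := by
  have hπ := Real.pi_gt_three
  have hπ4 := Real.pi_lt_d2
  set v := min V (1 - V)
  have hv : 1 / Real.pi ≤ v := le_min h1 (by linarith)
  have hv2 : v ≤ 1 / 2 := by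
    rcases le_total V (1 / 2) with h | h
    · exact (min_le_left _ _).trans h
    · exact (min_le_right _ _).trans (by linarith)
  have hv0 : 0 ≤ v := le_trans (by positivity) hv
  show candJ v = 2
  have ht : 2 ≤ tubeP v := by
    unfold tubeP
    have : 1 ≤ Real.sqrt (Real.pi * v) := by
      rw [← Real.sqrt_one]; refine Real.sqrt_le_sqrt ?_
      rw [div_le_iff₀ (by linarith)] at hv; linarith
    linarith
  have hb : 2 ≤ ballP v := by
    have h03 : (3 : ℝ) / 10 ≤ v := le_trans (by
      rw [le_div_iff₀ (by linarith)]; linarith) hv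
    refine le_of_pow_le_pow_left₀ three_ne_zero
      (mul_nonneg (Real.rpow_nonneg (by positivity) _) (Real.rpow_nonneg hv0 _)) ?_
    rw [ballP, mul_pow, ← Real.rpow_natCast ((36 * Real.pi) ^ (1 / 3 : ℝ)) 3,
      ← Real.rpow_natCast (v ^ (2 / 3 : ℝ)) 3, ← Real.rpow_mul (by positivity),
      ← Real.rpow_mul hv0]
    norm_num
    nlinarith [mul_le_mul h03 h03 (by norm_num) hv0]
  exact min_eq_right (le_min hb ht)

/-- Cutting off a small box costs at most the mass of `E` near its boundary. -/
theorem cut_step (hprof : ProfileBound) {E : Set V3} (hE : MeasurableSet E) (hp : IsPeriodic E)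
    (hP : perimeter E ≤ ENNReal.ofReal 2) (hV1 : tvol E ≤ 1 - 1 / Real.pi) (x0 : V3) {ρ g : ℝ}
    (hg : 0 < g) (hρ : ρ + g ≤ 1 / 2) (hm : mass E x0 (ρ + g) ≤ tvol E - 1 / Real.pi)
    (hm1 : mass E x0 (ρ + g) ≤ 1 / 100) :
    4 * mass E x0 ρ ^ (2 / 3 : ℝ) ≤ 12 * mass E x0 (ρ + g) / g := by
  have hπ := Real.pi_gt_three
  have hpos : 0 < 1 / Real.pi := by positivity
  rcases (mass_nonneg E x0 ρ).eq_or_lt with h0 | h0
  · rw [← h0, Real.zero_rpow (by norm_num), mul_zero]
    exact div_nonneg (mul_nonneg (by norm_num) (mass_nonneg _ _ _)) hg.le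
  set φ : V3 → ℝ := fun y => min 1 (max 0 ((ρ + g - ‖dv (y - x0)‖) / g)) with hφdef
  have hφc : Continuous φ :=
    continuous_const.min (continuous_const.max ((continuous_const.sub (continuous_normDv x0)).div_const g))
  have hφ01 : ∀ y, φ y ∈ Icc (0 : ℝ) 1 := fun y =>
    ⟨le_min zero_le_one (le_max_left _ _), min_le_left _ _⟩
  have hφper : ∀ y k, φ (y + fun i => ((k : Fin 3 → ℤ) i : ℝ)) = φ y := fun y k => by
    simp only [φ, dv_periodic]
  have hφlip : ∀ x y, |φ y - φ x| ≤ ‖y - x‖ / g := by
    intro x y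
    simp only [φ]
    refine (abs_min_sub_min_le_max _ _ _ _).trans ?_
    rw [sub_self, abs_zero]
    refine max_le (by positivity) ((abs_max_sub_max_le_max _ _ _ _).trans ?_)
    rw [sub_self, abs_zero]
    refine max_le (by positivity) ?_
    rw [← sub_div, abs_div, abs_of_pos hg]
    refine div_le_div_of_nonneg_right ?_ hg.le
    calc |ρ + g - ‖dv (y - x0)‖ - (ρ + g - ‖dv (x - x0)‖)|
        = |‖dv (x - x0)‖ - ‖dv (y - x0)‖| := by congr 1; ring
      _ ≤ ‖x - x0 - (y - x0)‖ := abs_norm_dv_sub _ _
      _ = ‖y - x‖ := by rw [sub_sub_sub_cancel_right, norm_sub_rev]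
  have hφout : ∀ y, y ∉ box x0 (ρ + g) → φ y = 0 := fun y hy => by
    simp only [box, mem_ofPred_eq, not_lt] at hy
    simp only [φ]
    rw [max_eq_left (div_nonpos_of_nonpos_of_nonneg (by linarith) hg.le), min_eq_right zero_le_one]
  have hφin : ∀ y, y ∈ box x0 ρ → φ y = 1 := fun y hy => by
    simp only [box, mem_ofPred_eq] at hy
    simp only [φ]
    rw [min_eq_left (le_max_of_le_right _)]
    rw [le_div_iff₀ hg]; linarith
  set S : ℝ → Set V3 := fun t => E ∩ {y | t < φ y}
  set T : ℝ → Set V3 := fun t => E \ {y | t < φ y}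
  have hperφ : ∀ t, IsPeriodic {y | t < φ y} := fun t y k => by simp only [mem_ofPred_eq, hφper]
  have hmφ : MeasurableSet {p : ℝ × V3 | p.1 < φ p.2} :=
    measurableSet_lt measurable_fst (hφc.measurable.comp measurable_snd)
  have hS : Layers S := ⟨(measurable_snd hE).inter hmφ, fun t => hp.inter (hperφ t)⟩
  have hT : Layers T := ⟨(measurable_snd hE).diff hmφ, fun t y k =>
    and_congr (hp y k) (not_congr (hperφ t y k))⟩
  have hvol : ∀ t ∈ Ioo (0 : ℝ) 1, mass E x0 ρ ≤ tvol (S t) ∧ tvol (S t) ≤ mass E x0 (ρ + g)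
      ∧ tvol (T t) = tvol E - tvol (S t) := by
    intro t ht
    have hfin : ∀ A : Set V3, volume (A ∩ cube) ≠ ⊤ := fun A =>
      ne_top_of_le_ne_top (by simp [volume_cube_eq_one]) (measure_mono inter_subset_right)
    have mono : ∀ A B : Set V3, A ⊆ B → tvol A ≤ tvol B := fun A B hAB =>
      ENNReal.toReal_mono (hfin B) (measure_mono (inter_subset_inter_left _ hAB))
    refine ⟨?_, ?_, ?_⟩
    · rw [← tvol_inter_box hE hp x0 (by linarith)]
      exact mono _ _ fun y hy => ⟨hy.1, by
        show t < φ y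
        rw [hφin y hy.2]; exact ht.2⟩
    · rw [← tvol_inter_box hE hp x0 hρ]
      refine mono _ _ fun y hy => ⟨hy.1, ?_⟩
      by_contra hn
      have : t < φ y := hy.2
      rw [hφout y hn] at this
      linarith [ht.1]
    · have := tvol_union_add_inter (hS.measurableSet t) (hT.measurableSet t)
      simp only [S, T, inter_union_sdiff] at this
      have h0 : (E ∩ {y | t < φ y}) ∩ (E \ {y | t < φ y}) = ∅ := by
        ext y; simp; tauto
      rw [h0] at this
      simp [tvol] at this ⊢
      linarith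
  set a := 4 * mass E x0 ρ ^ (2 / 3 : ℝ)
  have ha : ∀ t ∈ Ioo (0 : ℝ) 1, ENNReal.ofReal a ≤ perimeter (S t) := by
    intro t ht
    obtain ⟨h1, h2, -⟩ := hvol t ht
    refine le_trans (ENNReal.ofReal_le_ofReal ?_)
      (J_le_perimeter hprof (hS.measurableSet t) (hS.per t) ⟨by linarith, by linarith⟩)
    refine le_trans ?_ (four_le_J (by linarith) (by linarith))
    exact mul_le_mul_of_nonneg_left
      (Real.rpow_le_rpow (mass_nonneg _ _ _) h1 (by norm_num)) (by norm_num)
  have hb : ∀ t ∈ Ioo (0 : ℝ) 1, ENNReal.ofReal 2 ≤ perimeter (T t) := by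
    intro t ht
    obtain ⟨h1, h2, h3⟩ := hvol t ht
    have hlo : 1 / Real.pi ≤ tvol (T t) := by linarith
    have hhi : tvol (T t) ≤ 1 - 1 / Real.pi := by linarith
    refine le_trans (le_of_eq ?_)
      (J_le_perimeter hprof (hT.measurableSet t) (hT.per t) ⟨by linarith, by linarith⟩)
    congr 1
    exact (J_eq_two hlo hhi).symm
  set mo := mass E x0 (ρ + g)
  have hB : ∀ r ∈ Ioo (0 : ℝ) (1 / 4),
      ∫ t in Ioo (0 : ℝ) 1, (Phi r (S t) + Phi r (T t)) ≤ 2 + 12 * mo / g := by
    intro r hr
    set D := E ∩ box x0 (ρ + g)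
    have hDm : MeasurableSet D := hE.inter (measurableSet_box _ _)
    set G : V3 → V3 → ℝ := fun x y => jump E x y + 2 / g * ((ind D x + ind D y) * ‖y - x‖)
    have i1 : ∀ h, IntegrableOn (fun x => jump E x (x + h)) cube := fun h =>
      integrableOn_shift_ind hE h
    have i2 : ∀ h, IntegrableOn (fun x => ind D x + ind D (x + h)) cube := fun h =>
      (integrableOn_ind hDm).add ((integrableOn_ind (measurableSet_shift hDm h)).congr
        (Eventually.of_forall fun x => by simp [ind, Set.indicator]))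
    have hG : ∀ h, IntegrableOn (fun x => G x (x + h)) cube := fun h => by
      simp only [G, add_sub_cancel_left]
      exact (i1 h).add (((i2 h).mul_const _).const_mul _)
    have hval : ∀ h, ∫ x in cube, G x (x + h) = shiftDiff E h + 2 / g * (2 * mo * ‖h‖) := by
      intro h
      simp only [G, add_sub_cancel_left]
      rw [integral_add (i1 h) (((i2 h).mul_const _).const_mul _), shiftDiff_eq hE,
        integral_const_mul, integral_mul_const]
      congr 2
      congr 1
      rw [integral_add (integrableOn_ind hDm) ((integrableOn_ind (measurableSet_shift hDm h)).congr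
          (Eventually.of_forall fun x => by simp [ind, Set.indicator])),
        integral_periodic_translate (hp.inter (isPeriodic_box x0 (ρ + g))).ind h,
        ← tvol_eq_integral hDm, tvol_inter_box hE hp x0 hρ]
      ring
    have hG' : IntegrableOn (fun h => ∫ x in cube, G x (x + h)) (eball r) := by
      simp only [hval]
      exact (integrableOn_shiftDiff hE hp r).add
        (integrableOn_eball (by fun_prop) r)
    refine (hS.integral_Phi_le hT hr.1 hG hG' ?_).trans ?_
    · intro x y
      have hlay := integral_layer (hφ01 x) (hφ01 y)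
      set L : ℝ → ℝ := fun t => |(if t < φ y then (1 : ℝ) else 0) - (if t < φ x then 1 else 0)|
      have hpt : ∀ t, jump (S t) x y + jump (T t) x y ≤ jump E x y + 2 * (ind E x * ind E y) * L t := by
        intro t
        by_cases h1 : x ∈ E <;> by_cases h2 : y ∈ E <;> by_cases h3 : t < φ x <;>
          by_cases h4 : t < φ y <;> simp [jump, ind, S, T, L, h1, h2, h3, h4] <;> norm_num
      have hLi : IntegrableOn L (Ioo 0 1) := by
        refine Integrable.of_bound ?_ 1 (Eventually.of_forall fun t => ?_)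
        · have hst : ∀ c : ℝ, Measurable fun t : ℝ => if t < c then (1 : ℝ) else 0 := fun c =>
            Measurable.ite (measurableSet_Iio (a := c)) measurable_const measurable_const
          exact ((hst (φ y)).sub (hst (φ x))).norm.aestronglyMeasurable
        · by_cases h3 : t < φ x <;> by_cases h4 : t < φ y <;> simp [L, h3, h4]
      have hJi : ∀ {U : ℝ → Set V3}, Layers U → IntegrableOn (fun t => jump (U t) x y) (Ioo 0 1) := by
        intro U hU
        refine Integrable.of_bound ?_ 1 (Eventually.of_forall fun t => ?_)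
        · have := hU.measurable_jump.comp
            (measurable_id.prodMk (measurable_const (a := (y - x, x))))
          simpa [Function.comp_def] using (this.aestronglyMeasurable
            (μ := volume.restrict (Ioo (0 : ℝ) 1)))
        · rw [Real.norm_eq_abs, abs_of_nonneg (jump_nonneg _ _ _)]; exact jump_le_one _ _ _
      have hc : IntegrableOn (fun _ : ℝ => jump E x y) (Ioo 0 1) := integrable_const _
      refine (setIntegral_mono ((hJi hS).add (hJi hT))
        (hc.add (hLi.const_mul _)) hpt).trans ?_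
      simp only [Pi.add_apply]
      rw [integral_add (integrable_const _) (hLi.const_mul _), integral_const_mul, hlay]
      simp only [integral_const, measureReal_def, Measure.restrict_apply_univ, Real.volume_Ioo,
        sub_zero, ENNReal.ofReal_one, ENNReal.toReal_one, one_smul, G]
      gcongr ?_ + ?_
      · exact le_rfl
      have hx0 := ind_nonneg E x
      have hy0 := ind_nonneg E y
      by_cases hDx : x ∈ D ∨ y ∈ D
      · have h1 : 1 ≤ ind D x + ind D y := by
          rcases hDx with h | h <;> simp [ind, h, indicator_nonneg]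
        calc 2 * (ind E x * ind E y) * |φ y - φ x| ≤ 2 * 1 * (‖y - x‖ / g) := by
              gcongr
              · exact mul_le_one₀ (ind_le_one _ _) hy0 (ind_le_one _ _)
              · exact hφlip x y
          _ = 2 / g * (1 * ‖y - x‖) := by ring
          _ ≤ _ := by gcongr
      · push Not at hDx
        have hz : 0 ≤ 2 / g * ((ind D x + ind D y) * ‖y - x‖) := by
          have := ind_nonneg D x; have := ind_nonneg D y; positivity
        by_cases hxy : x ∈ E ∧ y ∈ E
        · have e1 := hφout x fun h => hDx.1 ⟨hxy.1, h⟩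
          have e2 := hφout y fun h => hDx.2 ⟨hxy.2, h⟩
          rw [e1, e2]; simpa using hz
        · rw [show ind E x * ind E y = 0 by
            by_cases hxe : x ∈ E
            · simp [ind, show y ∉ E from fun h => hxy ⟨hxe, h⟩]
            · simp [ind, hxe]]
          simpa using hz
    simp only [hval]
    rw [integral_add (integrableOn_shiftDiff hE hp r) (integrableOn_eball (by fun_prop) r),
      add_div]
    refine add_le_add ?_ ?_
    · exact Phi_le_of_perBound hE hp (fun X hX => by
        have h1 := le_trans (le_iSup₂ (f := fun X (_ : IsTestField X) =>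
          ENNReal.ofReal (∫ x in E ∩ cube, div3 X x)) X hX) hP
        exact (ENNReal.ofReal_le_ofReal_iff zero_le_two).1 h1) hr.1
    rw [div_le_iff₀ (kappa_pos hr.1)]
    calc ∫ h in eball r, 2 / g * (2 * mo * ‖h‖)
        ≤ ∫ h in eball r, 2 / g * (2 * mo * ∑ i, |h i|) := by
          refine setIntegral_mono (integrableOn_eball (by fun_prop) r)
            (integrableOn_eball (by fun_prop) r) fun h => ?_
          have : ‖h‖ ≤ ∑ i, |h i| := (pi_norm_le_iff_of_nonneg (by positivity)).2 fun i => by
            rw [Real.norm_eq_abs]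
            exact Finset.single_le_sum (fun j _ => abs_nonneg (h j)) (Finset.mem_univ i)
          have := mass_nonneg E x0 (ρ + g)
          gcongr
      _ = 12 * mo / g * kappa r := by
          simp only [integral_const_mul]
          rw [integral_finsetSum _ fun i _ => integrableOn_eball (by fun_prop) r]
          simp only [integral_abs_apply, Finset.sum_const, Finset.card_univ, Fintype.card_fin,
            nsmul_eq_mul]
          push_cast; ring
  have := le_of_layers hS hT ha hb hB
  linarith

/-- Density: a box containing little of `E` has a core containing none. -/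
theorem mass_eq_zero (hprof : ProfileBound) {E : Set V3} (hE : MeasurableSet E) (hp : IsPeriodic E)
    (hP : perimeter E ≤ ENNReal.ofReal 2) (hV1 : tvol E ≤ 1 - 1 / Real.pi) {δ : ℝ} (hδ : 0 < δ)
    (hδ4 : δ ≤ 1 / 4) (hδV : (δ / 96) ^ 3 ≤ tvol E - 1 / Real.pi) (x0 : V3)
    (hm : mass E x0 (2 * δ) ≤ (δ / 96) ^ 3) : mass E x0 δ = 0 := by
  set ρ : ℕ → ℝ := fun k => δ + δ / 2 ^ k
  set u : ℕ → ℝ := fun k => mass E x0 (ρ k) ^ (1 / 3 : ℝ)
  have hu0 : ∀ k, 0 ≤ u k := fun k => Real.rpow_nonneg (mass_nonneg _ _ _) _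
  have hu3 : ∀ k, u k ^ 3 = mass E x0 (ρ k) := fun k => by
    simp only [u]; rw [← Real.rpow_natCast, ← Real.rpow_mul (mass_nonneg _ _ _)]; norm_num
  have hρle : ∀ k, ρ k ≤ 2 * δ := fun k => by
    have : δ / 2 ^ k ≤ δ := div_le_self hδ.le (one_le_pow₀ one_le_two)
    simp only [ρ]; linarith
  have hsmall : ∀ k, mass E x0 (ρ k) ≤ (δ / 96) ^ 3 := fun k =>
    (mass_mono hE x0 (hρle k)).trans hm
  have h100 : (δ / 96) ^ 3 ≤ 1 / 100 :=
    (pow_le_pow_left₀ (by positivity) (show δ / 96 ≤ 1 / 96 by linarith) 3).trans (by norm_num)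
  have step : ∀ k, u (k + 1) ^ 2 * δ ≤ 6 * 2 ^ k * u k ^ 3 := by
    intro k
    have hg : 0 < δ / 2 ^ (k + 1) := by positivity
    have e : ρ (k + 1) + δ / 2 ^ (k + 1) = ρ k := by simp only [ρ, pow_succ]; field_simp; ring
    have h := cut_step hprof hE hp hP hV1 x0 hg (by rw [e]; linarith [hρle k])
      (by rw [e]; exact (hsmall k).trans hδV) (by rw [e]; exact (hsmall k).trans h100)
    rw [e, ← hu3 k] at h
    have e2 : mass E x0 (ρ (k + 1)) ^ (2 / 3 : ℝ) = u (k + 1) ^ 2 := by
      simp only [u]; rw [← Real.rpow_natCast, ← Real.rpow_mul (mass_nonneg _ _ _)]; norm_num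
    rw [e2, le_div_iff₀ hg] at h
    rw [pow_succ 2 k] at h
    field_simp at h
    linarith
  have hu96 : u 0 ≤ δ / 96 :=
    le_of_pow_le_pow_left₀ three_ne_zero (by positivity) (by rw [hu3]; exact hsmall 0)
  have decay : ∀ k, u k ≤ δ / 96 / 4 ^ k := by
    intro k
    induction k with
    | zero => simpa using hu96
    | succ k ih =>
      refine le_of_pow_le_pow_left₀ two_ne_zero (by positivity) (le_of_mul_le_mul_right ?_ hδ)
      refine (step k).trans ?_
      refine (mul_le_mul_of_nonneg_left (pow_le_pow_left₀ (hu0 k) ih 3) (by positivity)).trans ?_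
      have h2 : (1 : ℝ) ≤ 2 ^ k := one_le_pow₀ one_le_two
      have h4 : (4 : ℝ) ^ k = 2 ^ k * 2 ^ k := by rw [← mul_pow]; norm_num
      rw [pow_succ (4 : ℝ) k, h4]
      set z := (2 : ℝ) ^ k
      have hz : 0 < z := by positivity
      have e : δ / 96 / (z * z * 4) ^ 1 = δ / (384 * z ^ 2) := by field_simp; ring
      have l : 6 * z * (δ / 96 / (z * z)) ^ 3 = δ ^ 3 / (147456 * z ^ 5) := by field_simp; ring
      have r' : (δ / 96 / (z * z * 4)) ^ 2 * δ = δ ^ 3 / (147456 * z ^ 4) := by field_simp; ring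
      rw [l, r']
      refine div_le_div_of_nonneg_left (by positivity) (by positivity) ?_
      have : z ^ 4 ≤ z ^ 5 := pow_le_pow_right₀ h2 (by norm_num)
      linarith
  refine le_antisymm ?_ (mass_nonneg _ _ _)
  have hlim : Tendsto (fun k : ℕ => (δ / 96) * ((1 / 4 : ℝ)) ^ k) atTop (𝓝 0) := by
    simpa using (tendsto_pow_atTop_nhds_zero_of_lt_one (r := (1 / 4 : ℝ)) (by norm_num) (by norm_num)).const_mul (δ / 96)
  have hle : ∀ k, mass E x0 δ ^ (1 / 3 : ℝ) ≤ δ / 96 * (1 / 4) ^ k := fun k => by
    refine le_trans (Real.rpow_le_rpow (mass_nonneg _ _ _) (mass_mono hE x0 ?_) (by norm_num))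
      ((decay k).trans (le_of_eq ?_))
    · simp only [ρ]; have : 0 ≤ δ / 2 ^ k := by positivity
      linarith
    · rw [one_div_pow, ← div_eq_mul_one_div]
  have h0 := ge_of_tendsto' hlim hle
  have := le_antisymm h0 (Real.rpow_nonneg (mass_nonneg _ _ _) _)
  rw [Real.rpow_eq_zero (mass_nonneg _ _ _) (by norm_num)] at this
  exact this.le

end

end Vale.P232.SlabUnique
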