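import Vale.Agent.P232.Graph

/-!
P232: calibrations of a level set, slice by slice.
-/

open MeasureTheory Set Filter Topology
open scoped ENNReal

namespace Vale.P232

noncomputable section

lemma three_le {μ : Measure ℝ} [SFinite μ] {A B C W : ℝ → ℝ → ℝ≥0∞}
    (hA : Measurable (fun q : ℝ × ℝ => A q.1 q.2)) (hB : Measurable (fun q : ℝ × ℝ => B q.1 q.2))
    (h : ∀ x y, A x y + B x y + C x y ≤ W x y) :
    (∫⁻ x, ∫⁻ y, A x y ∂μ ∂μ) + (∫⁻ x, ∫⁻ y, B x y ∂μ ∂μ) + (∫⁻ x, ∫⁻ y, C x y ∂μ ∂μ)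
      ≤ ∫⁻ x, ∫⁻ y, W x y ∂μ ∂μ := by
  have m1 : Measurable (fun x => ∫⁻ y, A x y ∂μ) := hA.lintegral_prod_right'
  have m2 : Measurable (fun x => ∫⁻ y, B x y ∂μ) := hB.lintegral_prod_right'
  rw [← lintegral_add_left m1,
    ← lintegral_add_left (f := fun x => (∫⁻ y, A x y ∂μ) + ∫⁻ y, B x y ∂μ) (m1.add m2)]
  refine lintegral_mono fun x => ?_
  have ma : Measurable (A x) := hA.comp (measurable_const.prodMk measurable_id)
  have mb : Measurable (B x) := hB.comp (measurable_const.prodMk measurable_id)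
  rw [← lintegral_add_left ma, ← lintegral_add_left (f := fun y => A x y + B x y) (ma.add mb)]
  exact lintegral_mono fun y => h x y

namespace CoreFun

variable {f : V3 → ℝ}

lemma zr_eq_iff_xr (hf : CoreFun f) {t x y z : ℝ} (hx : x ∈ Ioo (0:ℝ) (1/2))
    (hz : z ∈ Ioo (0:ℝ) (1/2)) : zr f t x y = z ↔ xr f t y z = x := by
  have hcz : ContinuousOn (fun u => f (pt x y u)) (Icc 0 (1/2)) := fun u _ =>
    (hf.hasDerivAt_z x y u).continuousAt.continuousWithinAt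
  have hcx : ContinuousOn (fun u => f (pt u y z)) (Icc 0 (1/2)) := fun u _ =>
    (hf.hasDerivAt_x u y z).continuousAt.continuousWithinAt
  constructor
  · intro h
    have he : f (pt x y (zr f t x y)) = t :=
      apply_root hcz (hf.strictAnti_z x y) (show 0 < zr f t x y from h.symm ▸ hz.1) (show zr f t x y < 1/2 from h.symm ▸ hz.2)
    rw [h] at he
    exact root_eq_of_apply_eq hcx (hf.strictAnti_x y z) hx he
  · intro h
    have he : f (pt (xr f t y z) y z) = t :=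
      apply_root hcx (hf.strictAnti_x y z) (show 0 < xr f t y z from h.symm ▸ hx.1) (show xr f t y z < 1/2 from h.symm ▸ hx.2)
    rw [h] at he
    exact root_eq_of_apply_eq hcz (hf.strictAnti_z x y) hz he

lemma zr_eq_iff_yr (hf : CoreFun f) {t x y z : ℝ} (hy : y ∈ Ioo (0:ℝ) (1/2))
    (hz : z ∈ Ioo (0:ℝ) (1/2)) : zr f t x y = z ↔ yr f t x z = y := by
  have hcz : ContinuousOn (fun u => f (pt x y u)) (Icc 0 (1/2)) := fun u _ =>
    (hf.hasDerivAt_z x y u).continuousAt.continuousWithinAt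
  have hcy : ContinuousOn (fun u => f (pt x u z)) (Icc 0 (1/2)) := fun u _ =>
    (hf.hasDerivAt_y x u z).continuousAt.continuousWithinAt
  constructor
  · intro h
    have he : f (pt x y (zr f t x y)) = t :=
      apply_root hcz (hf.strictAnti_z x y) (show 0 < zr f t x y from h.symm ▸ hz.1) (show zr f t x y < 1/2 from h.symm ▸ hz.2)
    rw [h] at he
    exact root_eq_of_apply_eq hcy (hf.strictAnti_y x z) hy he
  · intro h
    have he : f (pt x (yr f t x z) z) = t :=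
      apply_root hcy (hf.strictAnti_y x z) (show 0 < yr f t x z from h.symm ▸ hy.1) (show yr f t x z < 1/2 from h.symm ▸ hy.2)
    rw [h] at he
    exact root_eq_of_apply_eq hcz (hf.strictAnti_z x y) hz he

lemma hasDerivAt_zr_x (hf : CoreFun f) {t x y : ℝ} (h : zr f t x y ∈ Ioo (0:ℝ) (1/2)) :
    HasDerivAt (fun u => zr f t u y)
      (- dd f 0 x y (zr f t x y) / dd f 2 x y (zr f t x y)) x :=
  hasDerivAt_root (F := fun u s => f (pt u y s)) (Fr := fun u s => dd f 0 u y s)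
    (Fs := fun u s => dd f 2 u y s)
    (hf.continuous.comp (continuous_pt.comp (f := fun q : ℝ × ℝ => (q.1, y, q.2)) (by fun_prop)))
    (fun u => hf.strictAnti_z u y) (fun u s => hf.hasDerivAt_x u y s)
    (fun u s => hf.hasDerivAt_z u y s)
    ((hf.continuous_dd 0).comp (f := fun q : ℝ × ℝ => (q.1, y, q.2)) (by fun_prop))
    ((hf.continuous_dd 2).comp (f := fun q : ℝ × ℝ => (q.1, y, q.2)) (by fun_prop))
    h.1 h.2 (hf.dd_neg_z x y h).ne

lemma hasDerivAt_zr_y (hf : CoreFun f) {t x y : ℝ} (h : zr f t x y ∈ Ioo (0:ℝ) (1/2)) :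
    HasDerivAt (fun u => zr f t x u)
      (- dd f 1 x y (zr f t x y) / dd f 2 x y (zr f t x y)) y :=
  hasDerivAt_root (F := fun u s => f (pt x u s)) (Fr := fun u s => dd f 1 x u s)
    (Fs := fun u s => dd f 2 x u s)
    (hf.continuous.comp (continuous_pt.comp (f := fun q : ℝ × ℝ => (x, q.1, q.2)) (by fun_prop)))
    (fun u => hf.strictAnti_z x u) (fun u s => hf.hasDerivAt_y x u s)
    (fun u s => hf.hasDerivAt_z x u s)
    ((hf.continuous_dd 1).comp (f := fun q : ℝ × ℝ => (x, q.1, q.2)) (by fun_prop))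
    ((hf.continuous_dd 2).comp (f := fun q : ℝ × ℝ => (x, q.1, q.2)) (by fun_prop))
    h.1 h.2 (hf.dd_neg_z x y h).ne

/-- Change of variables `x ↔ z` on the graph. -/
lemma swap_x (hf : CoreFun f) (t y : ℝ) (G : ℝ → ℝ → ℝ≥0∞) :
    ∫⁻ x in Ioo (0:ℝ) (1/2), (if zr f t x y ∈ Ioo (0:ℝ) (1/2) then
        ENNReal.ofReal |dd f 0 x y (zr f t x y) / dd f 2 x y (zr f t x y)| * G x (zr f t x y)
      else 0) =
    ∫⁻ z in Ioo (0:ℝ) (1/2),
      (if xr f t y z ∈ Ioo (0:ℝ) (1/2) then G (xr f t y z) z else 0) := by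
  set Z := fun x => zr f t x y with hZ
  set X := fun z => xr f t y z with hX
  have hZc : Continuous Z := hf.continuous_zr.comp (f := fun x : ℝ => (t, x, y)) (by fun_prop)
  have hXc : Continuous X := hf.continuous_xr.comp (f := fun z : ℝ => (t, y, z)) (by fun_prop)
  set s : Set ℝ := Ioo (0:ℝ) (1/2) ∩ Z ⁻¹' Ioo (0:ℝ) (1/2) with hs
  have hsm : MeasurableSet s := measurableSet_Ioo.inter (hZc.measurable measurableSet_Ioo)
  have himg : Z '' s = Ioo (0:ℝ) (1/2) ∩ X ⁻¹' Ioo (0:ℝ) (1/2) := by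
    ext z
    constructor
    · rintro ⟨x, ⟨hx, hzx⟩, rfl⟩
      refine ⟨hzx, ?_⟩
      show xr f t y (Z x) ∈ Ioo (0:ℝ) (1/2)
      rw [(hf.zr_eq_iff_xr hx hzx).1 rfl]
      exact hx
    · rintro ⟨hz, hxz⟩
      have h := (hf.zr_eq_iff_xr hxz hz).2 rfl
      exact ⟨X z, ⟨hxz, (show zr f t (X z) y ∈ Ioo (0:ℝ) (1/2) from h.symm ▸ hz)⟩, h⟩
  have hinj : InjOn Z s := by
    intro a ha b hb hab
    have h1 := (hf.zr_eq_iff_xr ha.1 ha.2).1 rfl
    have h2 := (hf.zr_eq_iff_xr hb.1 hb.2).1 rfl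
    rw [← h1, ← h2]
    exact congrArg (fun z => xr f t y z) hab
  have key := lintegral_image_eq_lintegral_abs_deriv_mul (f := Z)
    (f' := fun x => - dd f 0 x y (Z x) / dd f 2 x y (Z x)) hsm
    (fun x hx => (hf.hasDerivAt_zr_x hx.2).hasDerivWithinAt) hinj (fun z => G (X z) z)
  have hR : ∫⁻ z in Z '' s, G (X z) z = ∫⁻ z in Ioo (0:ℝ) (1/2),
      (if X z ∈ Ioo (0:ℝ) (1/2) then G (X z) z else 0) := by
    rw [himg, inter_comm, ← setLIntegral_indicator (hXc.measurable measurableSet_Ioo)]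
    refine lintegral_congr fun z => ?_
    by_cases hz : X z ∈ Ioo (0:ℝ) (1/2)
    · rw [if_pos hz, indicator_of_mem (show z ∈ X ⁻¹' Ioo (0:ℝ) (1/2) from hz)]
    · rw [if_neg hz, indicator_of_notMem (show z ∉ X ⁻¹' Ioo (0:ℝ) (1/2) from hz)]
  have hL : ∫⁻ x in s, ENNReal.ofReal |(- dd f 0 x y (Z x) / dd f 2 x y (Z x))| * G (X (Z x)) (Z x)
      = ∫⁻ x in Ioo (0:ℝ) (1/2), (if Z x ∈ Ioo (0:ℝ) (1/2) then
        ENNReal.ofReal |dd f 0 x y (Z x) / dd f 2 x y (Z x)| * G x (Z x) else 0) := by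
    rw [hs, inter_comm, ← setLIntegral_indicator (hZc.measurable measurableSet_Ioo)]
    refine setLIntegral_congr_fun measurableSet_Ioo fun x hx => ?_
    by_cases hzx : Z x ∈ Ioo (0:ℝ) (1/2)
    · have h1 : X (Z x) = x := (hf.zr_eq_iff_xr hx hzx).1 rfl
      simp only [if_pos hzx, indicator_of_mem (show x ∈ Z ⁻¹' Ioo (0:ℝ) (1/2) from hzx)]
      rw [h1, neg_div, abs_neg]
    · simp only [if_neg hzx, indicator_of_notMem (show x ∉ Z ⁻¹' Ioo (0:ℝ) (1/2) from hzx)]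
  rw [← hR, key, hL]

/-- Change of variables `y ↔ z` on the graph. -/
lemma swap_y (hf : CoreFun f) (t x : ℝ) (G : ℝ → ℝ → ℝ≥0∞) :
    ∫⁻ y in Ioo (0:ℝ) (1/2), (if zr f t x y ∈ Ioo (0:ℝ) (1/2) then
        ENNReal.ofReal |dd f 1 x y (zr f t x y) / dd f 2 x y (zr f t x y)| * G y (zr f t x y)
      else 0) =
    ∫⁻ z in Ioo (0:ℝ) (1/2),
      (if yr f t x z ∈ Ioo (0:ℝ) (1/2) then G (yr f t x z) z else 0) := by
  set Z := fun y => zr f t x y with hZ
  set X := fun z => yr f t x z with hX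
  have hZc : Continuous Z := hf.continuous_zr.comp (f := fun y : ℝ => (t, x, y)) (by fun_prop)
  have hXc : Continuous X := hf.continuous_yr.comp (f := fun z : ℝ => (t, x, z)) (by fun_prop)
  set s : Set ℝ := Ioo (0:ℝ) (1/2) ∩ Z ⁻¹' Ioo (0:ℝ) (1/2) with hs
  have hsm : MeasurableSet s := measurableSet_Ioo.inter (hZc.measurable measurableSet_Ioo)
  have himg : Z '' s = Ioo (0:ℝ) (1/2) ∩ X ⁻¹' Ioo (0:ℝ) (1/2) := by
    ext z
    constructor
    · rintro ⟨y, ⟨hy, hzy⟩, rfl⟩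
      refine ⟨hzy, ?_⟩
      show yr f t x (Z y) ∈ Ioo (0:ℝ) (1/2)
      rw [(hf.zr_eq_iff_yr hy hzy).1 rfl]
      exact hy
    · rintro ⟨hz, hxz⟩
      have h := (hf.zr_eq_iff_yr hxz hz).2 rfl
      exact ⟨X z, ⟨hxz, (show zr f t x (X z) ∈ Ioo (0:ℝ) (1/2) from h.symm ▸ hz)⟩, h⟩
  have hinj : InjOn Z s := by
    intro a ha b hb hab
    have h1 := (hf.zr_eq_iff_yr ha.1 ha.2).1 rfl
    have h2 := (hf.zr_eq_iff_yr hb.1 hb.2).1 rfl
    rw [← h1, ← h2]
    exact congrArg (fun z => yr f t x z) hab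
  have key := lintegral_image_eq_lintegral_abs_deriv_mul (f := Z)
    (f' := fun y => - dd f 1 x y (Z y) / dd f 2 x y (Z y)) hsm
    (fun y hy => (hf.hasDerivAt_zr_y hy.2).hasDerivWithinAt) hinj (fun z => G (X z) z)
  have hR : ∫⁻ z in Z '' s, G (X z) z = ∫⁻ z in Ioo (0:ℝ) (1/2),
      (if X z ∈ Ioo (0:ℝ) (1/2) then G (X z) z else 0) := by
    rw [himg, inter_comm, ← setLIntegral_indicator (hXc.measurable measurableSet_Ioo)]
    refine lintegral_congr fun z => ?_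
    by_cases hz : X z ∈ Ioo (0:ℝ) (1/2)
    · rw [if_pos hz, indicator_of_mem (show z ∈ X ⁻¹' Ioo (0:ℝ) (1/2) from hz)]
    · rw [if_neg hz, indicator_of_notMem (show z ∉ X ⁻¹' Ioo (0:ℝ) (1/2) from hz)]
  have hL : ∫⁻ y in s, ENNReal.ofReal |(- dd f 1 x y (Z y) / dd f 2 x y (Z y))| * G (X (Z y)) (Z y)
      = ∫⁻ y in Ioo (0:ℝ) (1/2), (if Z y ∈ Ioo (0:ℝ) (1/2) then
        ENNReal.ofReal |dd f 1 x y (Z y) / dd f 2 x y (Z y)| * G y (Z y) else 0) := by
    rw [hs, inter_comm, ← setLIntegral_indicator (hZc.measurable measurableSet_Ioo)]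
    refine setLIntegral_congr_fun measurableSet_Ioo fun y hy => ?_
    by_cases hzy : Z y ∈ Ioo (0:ℝ) (1/2)
    · have h1 : X (Z y) = y := (hf.zr_eq_iff_yr hy hzy).1 rfl
      simp only [if_pos hzy, indicator_of_mem (show y ∈ Z ⁻¹' Ioo (0:ℝ) (1/2) from hzy)]
      rw [h1, neg_div, abs_neg]
    · simp only [if_neg hzy, indicator_of_notMem (show y ∉ Z ⁻¹' Ioo (0:ℝ) (1/2) from hzy)]
  rw [← hR, key, hL]

/-- Pointwise calibration inequality. -/
lemma calib_le (hf : CoreFun f) {t x y a b c : ℝ} (ha : 0 ≤ a) (hb : 0 ≤ b)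
    (habc : a ^ 2 + b ^ 2 + c ^ 2 ≤ 1) (h : zr f t x y ∈ Ioo (0:ℝ) (1/2)) :
    c + |dd f 0 x y (zr f t x y) / dd f 2 x y (zr f t x y)| * a
      + |dd f 1 x y (zr f t x y) / dd f 2 x y (zr f t x y)| * b ≤ Wel f t x y := by
  set D0 := dd f 0 x y (zr f t x y)
  set D1 := dd f 1 x y (zr f t x y)
  set D2 := dd f 2 x y (zr f t x y)
  have hD2 : 0 < |D2| := abs_pos.2 (hf.dd_neg_z x y h).ne
  unfold Wel
  rw [le_div_iff₀ hD2, abs_div, abs_div]
  have e : (c + |D0| / |D2| * a + |D1| / |D2| * b) * |D2| = c * |D2| + |D0| * a + |D1| * b := by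
    field_simp
  rw [e]
  unfold gradLen
  rw [Fin.sum_univ_three]
  show _ ≤ Real.sqrt (D0 ^ 2 + D1 ^ 2 + D2 ^ 2)
  refine Real.le_sqrt_of_sq_le ?_
  have h0 : |D0| ^ 2 = D0 ^ 2 := sq_abs _
  have h1 : |D1| ^ 2 = D1 ^ 2 := sq_abs _
  have h2 : |D2| ^ 2 = D2 ^ 2 := sq_abs _
  nlinarith [sq_nonneg (c * |D0| - a * |D2|), sq_nonneg (c * |D1| - b * |D2|),
    sq_nonneg (a * |D1| - b * |D0|), mul_nonneg (sub_nonneg.2 habc)
      (add_nonneg (add_nonneg (sq_nonneg D0) (sq_nonneg D1)) (sq_nonneg D2))]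

/-- A vector field of length at most one bounds the level area from below. -/
theorem calib (hf : CoreFun f) (t : ℝ) {a b c : ℝ → ℝ → ℝ → ℝ}
    (ham : Measurable (fun q : ℝ × ℝ × ℝ => a q.1 q.2.1 q.2.2))
    (hbm : Measurable (fun q : ℝ × ℝ × ℝ => b q.1 q.2.1 q.2.2))
    (hcm : Measurable (fun q : ℝ × ℝ × ℝ => c q.1 q.2.1 q.2.2))
    (ha : ∀ x y z, 0 ≤ a x y z) (hb : ∀ x y z, 0 ≤ b x y z) (hc : ∀ x y z, 0 ≤ c x y z)
    (habc : ∀ x y z, a x y z ^ 2 + b x y z ^ 2 + c x y z ^ 2 ≤ 1) :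
    8 * ((∫⁻ x in Ioo (0:ℝ) (1/2), ∫⁻ y in Ioo (0:ℝ) (1/2),
          if zr f t x y ∈ Ioo (0:ℝ) (1/2) then ENNReal.ofReal (c x y (zr f t x y)) else 0)
        + (∫⁻ y in Ioo (0:ℝ) (1/2), ∫⁻ z in Ioo (0:ℝ) (1/2),
          if xr f t y z ∈ Ioo (0:ℝ) (1/2) then ENNReal.ofReal (a (xr f t y z) y z) else 0)
        + ∫⁻ x in Ioo (0:ℝ) (1/2), ∫⁻ z in Ioo (0:ℝ) (1/2),
          if yr f t x z ∈ Ioo (0:ℝ) (1/2) then ENNReal.ofReal (b x (yr f t x z) z) else 0)
      ≤ Qz f t := by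
  have hzc : Continuous (fun q : ℝ × ℝ => zr f t q.1 q.2) :=
    hf.continuous_zr.comp (f := fun q : ℝ × ℝ => (t, q.1, q.2)) (by fun_prop)
  have hp : Measurable (fun q : ℝ × ℝ => ((q.1, q.2, zr f t q.1 q.2) : ℝ × ℝ × ℝ)) :=
    measurable_fst.prodMk (measurable_snd.prodMk hzc.measurable)
  have hpc : Continuous (fun q : ℝ × ℝ => ((q.1, q.2, zr f t q.1 q.2) : ℝ × ℝ × ℝ)) :=
    continuous_fst.prodMk (continuous_snd.prodMk hzc)
  set Rx := fun x y => |dd f 0 x y (zr f t x y) / dd f 2 x y (zr f t x y)| with hRx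
  set Ry := fun x y => |dd f 1 x y (zr f t x y) / dd f 2 x y (zr f t x y)| with hRy
  have hRxm : Measurable (fun q : ℝ × ℝ => Rx q.1 q.2) :=
    (((hf.continuous_dd 0).comp hpc).measurable.div ((hf.continuous_dd 2).comp hpc).measurable).abs
  have hRym : Measurable (fun q : ℝ × ℝ => Ry q.1 q.2) :=
    (((hf.continuous_dd 1).comp hpc).measurable.div ((hf.continuous_dd 2).comp hpc).measurable).abs
  have hset : MeasurableSet {q : ℝ × ℝ | zr f t q.1 q.2 ∈ Ioo (0:ℝ) (1/2)} :=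
    hzc.measurable measurableSet_Ioo
  set Ca := fun x y => if zr f t x y ∈ Ioo (0:ℝ) (1/2) then
    ENNReal.ofReal (Rx x y) * ENNReal.ofReal (a x y (zr f t x y)) else 0 with hCa
  set Cb := fun x y => if zr f t x y ∈ Ioo (0:ℝ) (1/2) then
    ENNReal.ofReal (Ry x y) * ENNReal.ofReal (b x y (zr f t x y)) else 0 with hCb
  set Cc := fun x y => if zr f t x y ∈ Ioo (0:ℝ) (1/2) then
    ENNReal.ofReal (c x y (zr f t x y)) else 0 with hCc
  have mCa : Measurable (fun q : ℝ × ℝ => Ca q.1 q.2) := Measurable.ite hset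
    (hRxm.ennreal_ofReal.mul (ham.comp hp).ennreal_ofReal) measurable_const
  have mCb : Measurable (fun q : ℝ × ℝ => Cb q.1 q.2) := Measurable.ite hset
    (hRym.ennreal_ofReal.mul (hbm.comp hp).ennreal_ofReal) measurable_const
  have mCc : Measurable (fun q : ℝ × ℝ => Cc q.1 q.2) := Measurable.ite hset
    (hcm.comp hp).ennreal_ofReal measurable_const
  have ea : ∫⁻ y in Ioo (0:ℝ) (1/2), ∫⁻ z in Ioo (0:ℝ) (1/2),
      (if xr f t y z ∈ Ioo (0:ℝ) (1/2) then ENNReal.ofReal (a (xr f t y z) y z) else 0)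
      = ∫⁻ x in Ioo (0:ℝ) (1/2), ∫⁻ y in Ioo (0:ℝ) (1/2), Ca x y := by
    have hsw := lintegral_lintegral_swap (μ := volume.restrict (Ioo (0:ℝ) (1/2)))
      (ν := volume.restrict (Ioo (0:ℝ) (1/2))) (f := Ca) mCa.aemeasurable
    rw [hsw]
    refine lintegral_congr fun y => ?_
    simp only [hCa, hRx]
    exact (hf.swap_x t y fun x z => ENNReal.ofReal (a x y z)).symm
  have eb : ∫⁻ x in Ioo (0:ℝ) (1/2), ∫⁻ z in Ioo (0:ℝ) (1/2),
      (if yr f t x z ∈ Ioo (0:ℝ) (1/2) then ENNReal.ofReal (b x (yr f t x z) z) else 0)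
      = ∫⁻ x in Ioo (0:ℝ) (1/2), ∫⁻ y in Ioo (0:ℝ) (1/2), Cb x y := by
    refine lintegral_congr fun x => ?_
    simp only [hCb, hRy]
    exact (hf.swap_y t x fun y z => ENNReal.ofReal (b x y z)).symm
  rw [ea, eb]
  unfold Qz
  refine mul_le_mul_right (three_le (C := Cb) mCc mCa fun x y => ?_) _
  simp only [hCa, hCb, hCc]
  by_cases h : zr f t x y ∈ Ioo (0:ℝ) (1/2)
  · simp only [if_pos h]
    rw [← ENNReal.ofReal_mul (abs_nonneg _), ← ENNReal.ofReal_mul (abs_nonneg _),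
      ← ENNReal.ofReal_add (hc _ _ _) (mul_nonneg (abs_nonneg _) (ha _ _ _)),
      ← ENNReal.ofReal_add (add_nonneg (hc _ _ _) (mul_nonneg (abs_nonneg _) (ha _ _ _)))
        (mul_nonneg (abs_nonneg _) (hb _ _ _))]
    exact ENNReal.ofReal_le_ofReal (hf.calib_le (ha _ _ _) (hb _ _ _) (habc _ _ _) h)
  · simp only [if_neg h, add_zero, le_refl]

end CoreFun

end

end Vale.P232
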