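import Vale.Agent.P232.Slice
import Vale.Agent.P232.PlanarDefs

/-!
P232: slice areas and the slicing inequality.
-/

open MeasureTheory Set Filter Topology
open scoped ENNReal

namespace Vale.P232

noncomputable section

/-- Area of the slice of `{f > t}` at height `z`. -/
def sliceA (f : V3 → ℝ) (t z : ℝ) : ℝ := 4 * ∫ x in (0:ℝ)..(1/2), yr f t x z

namespace CoreFun

variable {f : V3 → ℝ}

lemma continuous_yr_fix (hf : CoreFun f) (t z : ℝ) : Continuous (fun x => yr f t x z) :=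
  hf.continuous_yr.comp (f := fun x : ℝ => (t, x, z)) (by fun_prop)

lemma continuous_xr_fix (hf : CoreFun f) (t z : ℝ) : Continuous (fun y => xr f t y z) :=
  hf.continuous_xr.comp (f := fun y : ℝ => (t, y, z)) (by fun_prop)

lemma lt_zr_iff (hf : CoreFun f) {t x y z : ℝ} (hz : z ∈ Ico (0:ℝ) (1/2)) :
    z < zr f t x y ↔ t < f (pt x y z) :=
  lt_root_iff (fun u _ => (hf.hasDerivAt_z x y u).continuousAt.continuousWithinAt)
    (hf.strictAnti_z x y) hz

lemma zr_lt_iff (hf : CoreFun f) {t x y z : ℝ} (hz : z ∈ Ioc (0:ℝ) (1/2)) :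
    zr f t x y < z ↔ f (pt x y z) < t :=
  root_lt_iff (fun u _ => (hf.hasDerivAt_z x y u).continuousAt.continuousWithinAt)
    (hf.strictAnti_z x y) hz

lemma lt_yr_iff (hf : CoreFun f) {t x y z : ℝ} (hy : y ∈ Ico (0:ℝ) (1/2)) :
    y < yr f t x z ↔ t < f (pt x y z) :=
  lt_root_iff (fun u _ => (hf.hasDerivAt_y x u z).continuousAt.continuousWithinAt)
    (hf.strictAnti_y x z) hy

lemma yr_lt_iff (hf : CoreFun f) {t x y z : ℝ} (hy : y ∈ Ioc (0:ℝ) (1/2)) :
    yr f t x z < y ↔ f (pt x y z) < t :=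
  root_lt_iff (fun u _ => (hf.hasDerivAt_y x u z).continuousAt.continuousWithinAt)
    (hf.strictAnti_y x z) hy

lemma lt_xr_iff (hf : CoreFun f) {t x y z : ℝ} (hx : x ∈ Ico (0:ℝ) (1/2)) :
    x < xr f t y z ↔ t < f (pt x y z) :=
  lt_root_iff (fun u _ => (hf.hasDerivAt_x u y z).continuousAt.continuousWithinAt)
    (hf.strictAnti_x y z) hx

lemma xr_lt_iff (hf : CoreFun f) {t x y z : ℝ} (hx : x ∈ Ioc (0:ℝ) (1/2)) :
    xr f t y z < x ↔ f (pt x y z) < t :=
  root_lt_iff (fun u _ => (hf.hasDerivAt_x u y z).continuousAt.continuousWithinAt)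
    (hf.strictAnti_x y z) hx

lemma antitone_x (hf : CoreFun f) (y z : ℝ) {a b : ℝ} (ha : a ∈ Icc (0:ℝ) (1/2))
    (hb : b ∈ Icc (0:ℝ) (1/2)) (h : a ≤ b) : f (pt b y z) ≤ f (pt a y z) :=
  (hf.strictAnti_x y z).antitoneOn ha hb h

lemma antitone_y (hf : CoreFun f) (x z : ℝ) {a b : ℝ} (ha : a ∈ Icc (0:ℝ) (1/2))
    (hb : b ∈ Icc (0:ℝ) (1/2)) (h : a ≤ b) : f (pt x b z) ≤ f (pt x a z) :=
  (hf.strictAnti_y x z).antitoneOn ha hb h

lemma antitone_z (hf : CoreFun f) (x y : ℝ) {a b : ℝ} (ha : a ∈ Icc (0:ℝ) (1/2))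
    (hb : b ∈ Icc (0:ℝ) (1/2)) (h : a ≤ b) : f (pt x y b) ≤ f (pt x y a) :=
  (hf.strictAnti_z x y).antitoneOn ha hb h

/-- The root is monotone in the function. -/
lemma _root_.Vale.P232.root_mono {F G : ℝ → ℝ} {t : ℝ}
    (h : ∀ s ∈ Icc (0:ℝ) (1/2), F s ≤ G s) : root F t ≤ root G t := by
  unfold root
  refine ENNReal.toReal_mono ((root_set_measure_le G t).trans_lt ENNReal.ofReal_lt_top).ne
    (measure_mono ?_)
  rintro s ⟨hs, hts⟩
  exact ⟨hs, hts.trans_le (h s hs)⟩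

lemma yr_antitone_z (hf : CoreFun f) (t x : ℝ) :
    AntitoneOn (fun z => yr f t x z) (Icc 0 (1/2)) :=
  fun _ ha _ hb hab => root_mono fun s _ => hf.antitone_z x s ha hb hab

lemma xr_antitone_z (hf : CoreFun f) (t y : ℝ) :
    AntitoneOn (fun z => xr f t y z) (Icc 0 (1/2)) :=
  fun _ ha _ hb hab => root_mono fun s _ => hf.antitone_z s y ha hb hab

/-- The slice at height `z`. -/
def quad (hf : CoreFun f) (t z : ℝ) : Quad where
  phi x := yr f t x z
  psi y := xr f t y z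
  cont_phi := hf.continuous_yr_fix t z
  cont_psi := hf.continuous_xr_fix t z
  anti_phi := fun _ ha _ hb hab => root_mono fun s _ => hf.antitone_x s z ha hb hab
  anti_psi := fun _ ha _ hb hab => root_mono fun s _ => hf.antitone_y s z ha hb hab
  phi_mem := fun _ => root_mem _ _
  psi_mem := fun _ => root_mem _ _
  inv := fun _ hx _ hy => (hf.lt_yr_iff ⟨hy.1.le, hy.2⟩).trans (hf.lt_xr_iff ⟨hx.1.le, hx.2⟩).symm

lemma sliceA_eq (hf : CoreFun f) (t z : ℝ) : sliceA f t z = 4 * (hf.quad t z).area := rfl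

lemma continuous_sliceA (hf : CoreFun f) (t : ℝ) : Continuous (sliceA f t) := by
  have h : Continuous (Function.uncurry fun (z : ℝ) (x : ℝ) => yr f t x z) :=
    hf.continuous_yr.comp (f := fun q : ℝ × ℝ => (t, q.2, q.1)) (by fun_prop)
  exact continuous_const.mul (intervalIntegral.continuous_parametric_intervalIntegral_of_continuous'
    (μ := volume) h 0 (1/2))

lemma antitone_sliceA (hf : CoreFun f) (t : ℝ) : AntitoneOn (sliceA f t) (Icc 0 (1/2)) := by
  intro a ha b hb hab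
  exact mul_le_mul_of_nonneg_left (intervalIntegral.integral_mono_on (by norm_num)
    ((hf.continuous_yr_fix t b).intervalIntegrable _ _)
    ((hf.continuous_yr_fix t a).intervalIntegrable _ _)
    fun x _ => hf.yr_antitone_z t x ha hb hab) (by norm_num)

lemma sliceA_nonneg (t z : ℝ) : 0 ≤ sliceA f t z :=
  mul_nonneg (by norm_num) (intervalIntegral.integral_nonneg (by norm_num) fun _ _ => root_nonneg _ _)

lemma sliceA_le_one (hf : CoreFun f) (t z : ℝ) : sliceA f t z ≤ 1 := by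
  have h := intervalIntegral.integral_mono_on (a := (0:ℝ)) (b := 1/2) (by norm_num)
    ((hf.continuous_yr_fix t z).intervalIntegrable (μ := volume) 0 (1/2))
    (intervalIntegrable_const (c := (1/2:ℝ))) fun x _ => root_le_half _ _
  rw [intervalIntegral.integral_const, smul_eq_mul] at h
  unfold sliceA
  norm_num at h ⊢
  linarith

/-- The planar measure of `{z < zr}`. -/
lemma measure_lt_zr (hf : CoreFun f) (t : ℝ) {z : ℝ} (hz : z ∈ Ico (0:ℝ) (1/2)) :
    ∫⁻ x in Ioo (0:ℝ) (1/2), ∫⁻ y in Ioo (0:ℝ) (1/2), (if z < zr f t x y then 1 else 0)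
      = ENNReal.ofReal (sliceA f t z / 4) := by
  have hx : ∀ x, ∫⁻ y in Ioo (0:ℝ) (1/2), (if z < zr f t x y then (1:ℝ≥0∞) else 0)
      = ENNReal.ofReal (yr f t x z) := by
    intro x
    have he : ∀ y ∈ Ioo (0:ℝ) (1/2), (if z < zr f t x y then (1:ℝ≥0∞) else 0)
        = (Iio (yr f t x z)).indicator 1 y := by
      intro y hy
      simp only [hf.lt_zr_iff hz, ← hf.lt_yr_iff ⟨hy.1.le, hy.2⟩]
      by_cases h : y < yr f t x z
      · rw [if_pos h, indicator_of_mem (show y ∈ Iio (yr f t x z) from h)]; rfl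
      · rw [if_neg h, indicator_of_notMem (show y ∉ Iio (yr f t x z) from h)]
    rw [setLIntegral_congr_fun measurableSet_Ioo he, lintegral_indicator_one measurableSet_Iio,
      Measure.restrict_apply measurableSet_Iio]
    have : Iio (yr f t x z) ∩ Ioo (0:ℝ) (1/2) = Ioo 0 (yr f t x z) := by
      have := root_le_half (fun s => f (pt x s z)) t
      ext y
      simp only [mem_inter_iff, mem_Iio, mem_Ioo]
      constructor
      · rintro ⟨h1, h2, -⟩; exact ⟨h2, h1⟩
      · rintro ⟨h1, h2⟩; exact ⟨h2, h1, h2.trans_le this⟩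
    rw [this, Real.volume_Ioo, sub_zero]
  simp_rw [hx]
  rw [← ofReal_integral_eq_lintegral_ofReal
    ((hf.continuous_yr_fix t z).integrableOn_Icc.mono_set Ioo_subset_Icc_self)
    (ae_of_all _ fun x => root_nonneg _ _)]
  congr 1
  unfold sliceA
  rw [intervalIntegral.integral_of_le (by norm_num), setIntegral_congr_set Ioo_ae_eq_Ioc]
  ring

/-- The planar measure of `{zr = 1/2}`. -/
lemma measure_zr_top (hf : CoreFun f) (t : ℝ) :
    ∫⁻ x in Ioo (0:ℝ) (1/2), ∫⁻ y in Ioo (0:ℝ) (1/2), (if 1/2 ≤ zr f t x y then 1 else 0)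
      = ENNReal.ofReal (sliceA f t (1/2) / 4) := by
  have hx : ∀ x, ∫⁻ y in Ioo (0:ℝ) (1/2), (if 1/2 ≤ zr f t x y then (1:ℝ≥0∞) else 0)
      = ENNReal.ofReal (yr f t x (1/2)) := by
    intro x
    have he : ∀ y ∈ Ioo (0:ℝ) (1/2), (if 1/2 ≤ zr f t x y then (1:ℝ≥0∞) else 0)
        = (Iic (yr f t x (1/2))).indicator 1 y := by
      intro y hy
      have h1 := hf.zr_lt_iff (t := t) (x := x) (y := y) (z := 1/2) ⟨by norm_num, le_refl _⟩
      have h2 := hf.yr_lt_iff (t := t) (x := x) (y := y) (z := 1/2) ⟨hy.1, hy.2.le⟩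
      have h : (1/2 ≤ zr f t x y) ↔ y ≤ yr f t x (1/2) := by
        rw [← not_lt, h1, ← h2, not_lt]
      by_cases h' : y ≤ yr f t x (1/2)
      · rw [if_pos (h.2 h'), indicator_of_mem (show y ∈ Iic (yr f t x (1/2)) from h')]; rfl
      · rw [if_neg (mt h.1 h'), indicator_of_notMem (show y ∉ Iic (yr f t x (1/2)) from h')]
    rw [setLIntegral_congr_fun measurableSet_Ioo he, lintegral_indicator_one measurableSet_Iic,
      Measure.restrict_apply measurableSet_Iic]
    have hle := root_le_half (fun s => f (pt x s (1/2))) t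
    have : volume (Iic (yr f t x (1/2)) ∩ Ioo (0:ℝ) (1/2)) = volume (Ioo 0 (yr f t x (1/2))) := by
      refine le_antisymm ((measure_mono ?_).trans_eq (measure_congr Ioo_ae_eq_Ioc.symm))
        (measure_mono ?_)
      · rintro y ⟨h1, h2⟩; exact ⟨h2.1, h1⟩
      · rintro y ⟨h1, h2⟩
        exact ⟨h2.le, h1, h2.trans_le hle⟩
    rw [this, Real.volume_Ioo, sub_zero]
  simp_rw [hx]
  rw [← ofReal_integral_eq_lintegral_ofReal
    ((hf.continuous_yr_fix t (1/2)).integrableOn_Icc.mono_set Ioo_subset_Icc_self)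
    (ae_of_all _ fun x => root_nonneg _ _)]
  congr 1
  unfold sliceA
  rw [intervalIntegral.integral_of_le (by norm_num), setIntegral_congr_set Ioo_ae_eq_Ioc]
  ring

/-- The measure of the planar domain of the graph. -/
def dom (f : V3 → ℝ) (t : ℝ) : Set (ℝ × ℝ) :=
  {q | zr f t q.1 q.2 ∈ Ioo (0:ℝ) (1/2)}

/-- Lebesgue measure on the open quarter square. -/
def sqm : Measure (ℝ × ℝ) :=
  (volume.restrict (Ioo (0:ℝ) (1/2))).prod (volume.restrict (Ioo (0:ℝ) (1/2)))

instance : IsFiniteMeasure sqm := by unfold sqm; infer_instance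

lemma sqm_lt (hf : CoreFun f) (t : ℝ) {z : ℝ} (hz : z ∈ Ico (0:ℝ) (1/2)) :
    sqm {q | z < zr f t q.1 q.2} = ENNReal.ofReal (sliceA f t z / 4) := by
  have hm : MeasurableSet {q : ℝ × ℝ | z < zr f t q.1 q.2} := measurableSet_lt measurable_const
    (hf.continuous_zr.comp (f := fun q : ℝ × ℝ => (t, q.1, q.2)) (by fun_prop)).measurable
  rw [← hf.measure_lt_zr t hz, ← lintegral_indicator_one hm]
  unfold sqm
  rw [lintegral_prod _ (measurable_one.indicator hm).aemeasurable]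
  refine lintegral_congr fun x => lintegral_congr fun y => ?_
  by_cases h : z < zr f t x y
  · rw [if_pos h, indicator_of_mem (show (x, y) ∈ {q : ℝ × ℝ | z < zr f t q.1 q.2} from h)]; rfl
  · rw [if_neg h, indicator_of_notMem (show (x, y) ∉ {q : ℝ × ℝ | z < zr f t q.1 q.2} from h)]

lemma sqm_top (hf : CoreFun f) (t : ℝ) :
    sqm {q | 1/2 ≤ zr f t q.1 q.2} = ENNReal.ofReal (sliceA f t (1/2) / 4) := by
  have hm : MeasurableSet {q : ℝ × ℝ | 1/2 ≤ zr f t q.1 q.2} := measurableSet_le measurable_const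
    (hf.continuous_zr.comp (f := fun q : ℝ × ℝ => (t, q.1, q.2)) (by fun_prop)).measurable
  rw [← hf.measure_zr_top t, ← lintegral_indicator_one hm]
  unfold sqm
  rw [lintegral_prod _ (measurable_one.indicator hm).aemeasurable]
  refine lintegral_congr fun x => lintegral_congr fun y => ?_
  by_cases h : 1/2 ≤ zr f t x y
  · rw [if_pos h, indicator_of_mem (show (x, y) ∈ {q : ℝ × ℝ | 1/2 ≤ zr f t q.1 q.2} from h)]; rfl
  · rw [if_neg h, indicator_of_notMem (show (x, y) ∉ {q : ℝ × ℝ | 1/2 ≤ zr f t q.1 q.2} from h)]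

lemma continuous_zr_fix (hf : CoreFun f) (t : ℝ) :
    Continuous (fun q : ℝ × ℝ => zr f t q.1 q.2) :=
  hf.continuous_zr.comp (f := fun q : ℝ × ℝ => (t, q.1, q.2)) (by fun_prop)

lemma sqm_eq_level (hf : CoreFun f) (t : ℝ) {z : ℝ} (hz : z ∈ Ioo (0:ℝ) (1/2)) :
    sqm {q | zr f t q.1 q.2 = z} = 0 := by
  have hm : MeasurableSet {q : ℝ × ℝ | zr f t q.1 q.2 = z} :=
    (hf.continuous_zr_fix t).measurable (measurableSet_singleton z)
  unfold sqm
  rw [Measure.prod_apply hm]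
  refine lintegral_eq_zero_of_ae_eq_zero (ae_of_all _ fun x => ?_)
  show (volume.restrict (Ioo (0:ℝ) (1/2))) _ = 0
  rw [Measure.restrict_apply (measurable_prodMk_left hm)]
  refine measure_mono_null (t := {yr f t x z}) ?_ Real.volume_singleton
  rintro y ⟨hy1, hy2⟩
  exact ((hf.zr_eq_iff_yr hy2 hz).1 hy1).symm

/-- Pushing the graph domain forward by the slice area gives Lebesgue measure. -/
theorem map_sliceA (hf : CoreFun f) (t : ℝ) :
    Measure.map (fun q : ℝ × ℝ => sliceA f t (zr f t q.1 q.2)) (sqm.restrict (dom f t)) =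
      ENNReal.ofReal (1/4) •
        volume.restrict (Ioc (sliceA f t (1/2)) (sliceA f t 0)) := by
  set A := sliceA f t with hA
  have hAc : Continuous A := hf.continuous_sliceA t
  have hmono : AntitoneOn A (Icc 0 (1/2)) := hf.antitone_sliceA t
  have hAnn : ∀ z, 0 ≤ A z := fun z => sliceA_nonneg t z
  have h10 : A (1/2) ≤ A 0 :=
    hmono ⟨le_refl _, by norm_num⟩ ⟨by norm_num, le_refl _⟩ (by norm_num)
  have hZc := hf.continuous_zr_fix t
  have hAZ : Measurable (fun q : ℝ × ℝ => A (zr f t q.1 q.2)) := (hAc.comp hZc).measurable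
  haveI : IsFiniteMeasure (Measure.map (fun q : ℝ × ℝ => A (zr f t q.1 q.2))
      (sqm.restrict (dom f t))) := Measure.isFiniteMeasure_map _ _
  -- measure of `{0 < Z < z}`
  have key : ∀ z ∈ Ioc (0:ℝ) (1/2), sqm {q | 0 < zr f t q.1 q.2 ∧ zr f t q.1 q.2 < z} =
      ENNReal.ofReal ((A 0 - A z) / 4) := by
    intro z hz
    have hms : MeasurableSet {q : ℝ × ℝ | z ≤ zr f t q.1 q.2} :=
      measurableSet_le measurable_const hZc.measurable
    have hset : {q : ℝ × ℝ | 0 < zr f t q.1 q.2 ∧ zr f t q.1 q.2 < z} =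
        {q | 0 < zr f t q.1 q.2} \ {q | z ≤ zr f t q.1 q.2} := by
      ext q; simp
    have hsub : {q : ℝ × ℝ | z ≤ zr f t q.1 q.2} ⊆ {q | 0 < zr f t q.1 q.2} :=
      fun q hq => hz.1.trans_le hq
    have hval : sqm {q | z ≤ zr f t q.1 q.2} = ENNReal.ofReal (A z / 4) := by
      rcases hz.2.lt_or_eq with h | h
      · rw [← hf.sqm_lt t ⟨hz.1.le, h⟩]
        refine le_antisymm ?_ (measure_mono fun q (hq : z < zr f t q.1 q.2) => hq.le)
        calc sqm {q | z ≤ zr f t q.1 q.2}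
            ≤ sqm ({q | z < zr f t q.1 q.2} ∪ {q | zr f t q.1 q.2 = z}) := by
              refine measure_mono fun q hq => ?_
              rcases (show z ≤ zr f t q.1 q.2 from hq).lt_or_eq with h' | h'
              · exact Or.inl h'
              · exact Or.inr h'.symm
          _ ≤ _ := by
              refine (measure_union_le _ _).trans ?_
              rw [hf.sqm_eq_level t ⟨hz.1, h⟩, add_zero]
      · subst h; exact hf.sqm_top t
    rw [hset, measure_diff hsub hms.nullMeasurableSet (measure_ne_top _ _), hval,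
      hf.sqm_lt t ⟨le_refl 0, by norm_num⟩, ← ENNReal.ofReal_sub _ (by linarith [hAnn z])]
    congr 1
    ring
  have hdom : MeasurableSet (dom f t) := hZc.measurable measurableSet_Ioo
  have htot : sqm (dom f t) = ENNReal.ofReal ((A 0 - A (1/2)) / 4) := by
    rw [← key (1/2) ⟨by norm_num, le_refl _⟩]
    rfl
  refine Measure.ext_of_Iic _ _ fun a => ?_
  rw [Measure.map_apply hAZ measurableSet_Iic, Measure.restrict_apply (hAZ measurableSet_Iic),
    Measure.smul_apply, Measure.restrict_apply measurableSet_Iic, smul_eq_mul]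
  rcases lt_or_ge a (A (1/2)) with ha | ha
  · have e1 : (fun q : ℝ × ℝ => A (zr f t q.1 q.2)) ⁻¹' Iic a ∩ dom f t = ∅ := by
      ext q
      simp only [mem_inter_iff, mem_preimage, mem_Iic, mem_empty_iff_false, iff_false, not_and]
      intro h1 h2
      have := hmono ⟨h2.1.le, h2.2.le⟩ ⟨by norm_num, le_refl _⟩ h2.2.le
      linarith
    have e2 : Iic a ∩ Ioc (A (1/2)) (A 0) = ∅ := by
      ext u; simp only [mem_inter_iff, mem_Iic, mem_Ioc, mem_empty_iff_false, iff_false, not_and]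
      intro h1 h2; linarith
    rw [e1, e2]; simp
  rcases le_or_gt (A 0) a with ha0 | ha0
  · have e1 : (fun q : ℝ × ℝ => A (zr f t q.1 q.2)) ⁻¹' Iic a ∩ dom f t = dom f t := by
      refine inter_eq_right.2 fun q hq => ?_
      exact (hmono ⟨le_refl _, by norm_num⟩ ⟨hq.1.le, hq.2.le⟩ hq.1.le).trans ha0
    have e2 : Iic a ∩ Ioc (A (1/2)) (A 0) = Ioc (A (1/2)) (A 0) :=
      inter_eq_right.2 fun u hu => hu.2.trans ha0
    rw [e1, e2, htot, Real.volume_Ioc, ← ENNReal.ofReal_mul (by norm_num)]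
    congr 1; ring
  · -- `A z ≤ a` iff `za ≤ z`
    set S := {z | z ∈ Icc (0:ℝ) (1/2) ∧ A z ≤ a} with hS
    have hSc : IsClosed S := isClosed_Icc.inter (isClosed_le hAc continuous_const)
    have hSne : S.Nonempty := ⟨1/2, ⟨by norm_num, le_refl _⟩, ha⟩
    have hSb : BddBelow S := ⟨0, fun z hz => hz.1.1⟩
    set za := sInf S with hza
    obtain ⟨hzaI, hzaA⟩ : za ∈ S := hSc.csInf_mem hSne hSb
    have hza0 : 0 < za := by
      rcases hzaI.1.lt_or_eq with h | h
      · exact h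
      · rw [← h] at hzaA; linarith
    have hAza : A za = a := by
      refine le_antisymm hzaA (not_lt.1 fun hlt => ?_)
      have hev : ∀ᶠ z in 𝓝[<] za, A z < a :=
        ((hAc.tendsto za).eventually (gt_mem_nhds hlt)).filter_mono nhdsWithin_le_nhds
      have hev2 : ∀ᶠ z in 𝓝[<] za, 0 < z :=
        ((tendsto_id).eventually (lt_mem_nhds hza0)).filter_mono nhdsWithin_le_nhds
      obtain ⟨z, ⟨hz1, hz2⟩, hz3⟩ :=
        ((hev.and hev2).and self_mem_nhdsWithin).exists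
      have : za ≤ z := csInf_le hSb ⟨⟨hz2.le, (le_of_lt hz3).trans hzaI.2⟩, hz1.le⟩
      exact absurd hz3 (not_lt.2 this)
    have e1 : (fun q : ℝ × ℝ => A (zr f t q.1 q.2)) ⁻¹' Iic a ∩ dom f t =
        dom f t \ {q | 0 < zr f t q.1 q.2 ∧ zr f t q.1 q.2 < za} := by
      ext q
      simp only [mem_inter_iff, mem_preimage, mem_Iic, Set.mem_sdiff, dom, mem_Ioo, Set.mem_ofPred_eq]
      constructor
      · rintro ⟨h1, h2, h3⟩
        refine ⟨⟨h2, h3⟩, fun h => ?_⟩
        have := csInf_le hSb (show zr f t q.1 q.2 ∈ S from ⟨⟨h2.le, h3.le⟩, h1⟩)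
        linarith [h.2]
      · rintro ⟨⟨h2, h3⟩, h⟩
        exact ⟨(hmono hzaI ⟨h2.le, h3.le⟩ (not_lt.1 fun h' => h ⟨h2, h'⟩)).trans hzaA, h2, h3⟩
    have hsub : {q : ℝ × ℝ | 0 < zr f t q.1 q.2 ∧ zr f t q.1 q.2 < za} ⊆ dom f t :=
      fun q hq => ⟨hq.1, hq.2.trans_le hzaI.2⟩
    have hms2 : MeasurableSet {q : ℝ × ℝ | 0 < zr f t q.1 q.2 ∧ zr f t q.1 q.2 < za} :=
      hZc.measurable measurableSet_Ioo
    have e2 : Iic a ∩ Ioc (A (1/2)) (A 0) = Ioc (A (1/2)) a := by
      ext u; simp only [mem_inter_iff, mem_Iic, mem_Ioc]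
      constructor
      · rintro ⟨h1, h2, h3⟩; exact ⟨h2, h1⟩
      · rintro ⟨h1, h2⟩; exact ⟨h2, h1, h2.trans ha0.le⟩
    rw [e1, e2, measure_diff hsub hms2.nullMeasurableSet (measure_ne_top _ _), htot,
      key za ⟨hza0, hzaI.2⟩, hAza, ← ENNReal.ofReal_sub _ (by linarith), Real.volume_Ioc,
      ← ENNReal.ofReal_mul (by norm_num)]
    congr 1; ring

/-- The slicing inequality. -/
theorem slice_bound (hf : CoreFun f) (t : ℝ) {c ℓ : ℝ → ℝ} {a b : ℝ → ℝ → ℝ → ℝ}
    (hcm : Measurable c) (hc : ∀ s, c s ∈ Icc (0:ℝ) 1)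
    (ham : Measurable (fun q : ℝ × ℝ × ℝ => a q.1 q.2.1 q.2.2))
    (hbm : Measurable (fun q : ℝ × ℝ × ℝ => b q.1 q.2.1 q.2.2))
    (ha : ∀ x y z, 0 ≤ a x y z) (hb : ∀ x y z, 0 ≤ b x y z)
    (hab : ∀ x y z, a x y z ^ 2 + b x y z ^ 2 ≤ 1)
    (hℓ : ∀ᵐ z ∂(volume.restrict (Ioo (0:ℝ) (1/2))),
      ENNReal.ofReal (ℓ z) ≤ 4 * (hf.quad t z).flux (fun x y => a x y z) (fun x y => b x y z)) :
    2 * (∫⁻ z in Ioo (0:ℝ) (1/2), ENNReal.ofReal (c (sliceA f t z) * ℓ z))
      + 2 * (∫⁻ s in Ioc (sliceA f t (1/2)) (sliceA f t 0),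
          ENNReal.ofReal (Real.sqrt (1 - c s ^ 2)))
      ≤ Qz f t := by
  set C := fun z => c (sliceA f t z) with hC
  have hCm : Measurable C := hcm.comp (hf.continuous_sliceA t).measurable
  have hC01 : ∀ z, C z ∈ Icc (0:ℝ) 1 := fun z => hc _
  have hCp : Measurable (fun q : ℝ × ℝ × ℝ => C q.2.2) := hCm.comp measurable_snd.snd
  refine le_trans ?_ (hf.calib t (a := fun x y z => C z * a x y z) (b := fun x y z => C z * b x y z)
    (c := fun _ _ z => Real.sqrt (1 - C z ^ 2)) (hCp.mul ham) (hCp.mul hbm)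
    (((hCp.pow_const 2).const_sub 1).sqrt)
    (fun x y z => mul_nonneg (hC01 z).1 (ha x y z)) (fun x y z => mul_nonneg (hC01 z).1 (hb x y z))
    (fun _ _ _ => Real.sqrt_nonneg _) (fun x y z => ?_))
  swap
  · have h1 : C z ^ 2 ≤ 1 := by nlinarith [(hC01 z).1, (hC01 z).2]
    rw [Real.sq_sqrt (by linarith)]
    nlinarith [hab x y z, sq_nonneg (C z)]
  have hsm : Measurable (fun s => ENNReal.ofReal (Real.sqrt (1 - c s ^ 2))) :=
    (((hcm.pow_const 2).const_sub 1).sqrt).ennreal_ofReal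
  have hZc := hf.continuous_zr_fix t
  -- flat part
  have hflat : ∫⁻ x in Ioo (0:ℝ) (1/2), ∫⁻ y in Ioo (0:ℝ) (1/2),
      (if zr f t x y ∈ Ioo (0:ℝ) (1/2) then
        ENNReal.ofReal (Real.sqrt (1 - C (zr f t x y) ^ 2)) else 0)
      = ENNReal.ofReal (1/4) * ∫⁻ s in Ioc (sliceA f t (1/2)) (sliceA f t 0),
          ENNReal.ofReal (Real.sqrt (1 - c s ^ 2)) := by
    have hdom : MeasurableSet (dom f t) := hZc.measurable measurableSet_Ioo
    have hAZ : Measurable (fun q : ℝ × ℝ => sliceA f t (zr f t q.1 q.2)) :=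
      ((hf.continuous_sliceA t).comp hZc).measurable
    rw [← smul_eq_mul, ← lintegral_smul_measure, ← hf.map_sliceA t, lintegral_map hsm hAZ,
      ← lintegral_indicator hdom]
    unfold sqm
    rw [lintegral_prod (fun q : ℝ × ℝ => (dom f t).indicator
      (fun q => ENNReal.ofReal (Real.sqrt (1 - c (sliceA f t (zr f t q.1 q.2)) ^ 2))) q)
      ((hsm.comp hAZ).indicator hdom).aemeasurable]
    refine lintegral_congr fun x => lintegral_congr fun y => ?_
    by_cases h : zr f t x y ∈ Ioo (0:ℝ) (1/2)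
    · rw [if_pos h, indicator_of_mem (show (x, y) ∈ dom f t from h)]
    · rw [if_neg h, indicator_of_notMem (show (x, y) ∉ dom f t from h)]
  rw [hflat]
  -- curved part
  have hmx : Measurable (fun q : ℝ × ℝ => if xr f t q.1 q.2 ∈ Ioo (0:ℝ) (1/2) then
      ENNReal.ofReal (a (xr f t q.1 q.2) q.1 q.2) else 0) := by
    have hx : Continuous (fun q : ℝ × ℝ => xr f t q.1 q.2) :=
      hf.continuous_xr.comp (f := fun q : ℝ × ℝ => (t, q.1, q.2)) (by fun_prop)
    exact Measurable.ite (hx.measurable measurableSet_Ioo)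
      (ham.comp (hx.measurable.prodMk (measurable_fst.prodMk measurable_snd))).ennreal_ofReal
      measurable_const
  have hmy : Measurable (fun q : ℝ × ℝ => if yr f t q.1 q.2 ∈ Ioo (0:ℝ) (1/2) then
      ENNReal.ofReal (b q.1 (yr f t q.1 q.2) q.2) else 0) := by
    have hy : Continuous (fun q : ℝ × ℝ => yr f t q.1 q.2) :=
      hf.continuous_yr.comp (f := fun q : ℝ × ℝ => (t, q.1, q.2)) (by fun_prop)
    exact Measurable.ite (hy.measurable measurableSet_Ioo)
      (hbm.comp (measurable_fst.prodMk (hy.measurable.prodMk measurable_snd))).ennreal_ofReal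
      measurable_const
  have hcur : ∫⁻ z in Ioo (0:ℝ) (1/2), ENNReal.ofReal (C z * ℓ z) ≤
      4 * ((∫⁻ y in Ioo (0:ℝ) (1/2), ∫⁻ z in Ioo (0:ℝ) (1/2),
          if xr f t y z ∈ Ioo (0:ℝ) (1/2) then ENNReal.ofReal (C z * a (xr f t y z) y z) else 0)
        + ∫⁻ x in Ioo (0:ℝ) (1/2), ∫⁻ z in Ioo (0:ℝ) (1/2),
          if yr f t x z ∈ Ioo (0:ℝ) (1/2) then ENNReal.ofReal (C z * b x (yr f t x z) z) else 0) := by
    have e : ∀ (u : ℝ → ℝ → ℝ) (P : ℝ → ℝ → Prop) [∀ y z, Decidable (P y z)],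
        Measurable (fun q : ℝ × ℝ => if P q.1 q.2 then ENNReal.ofReal (u q.1 q.2) else 0) →
        ∫⁻ y in Ioo (0:ℝ) (1/2), ∫⁻ z in Ioo (0:ℝ) (1/2),
          (if P y z then ENNReal.ofReal (C z * u y z) else 0) =
        ∫⁻ z in Ioo (0:ℝ) (1/2), ENNReal.ofReal (C z) *
          ∫⁻ y in Ioo (0:ℝ) (1/2), (if P y z then ENNReal.ofReal (u y z) else 0) := by
      intro u P _ hm
      have hpt : ∀ y z, (if P y z then ENNReal.ofReal (C z * u y z) else 0) =
          ENNReal.ofReal (C z) * (if P y z then ENNReal.ofReal (u y z) else 0) := by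
        intro y z
        split_ifs
        · exact ENNReal.ofReal_mul (hC01 z).1
        · simp
      simp_rw [hpt]
      rw [lintegral_lintegral_swap (f := fun y z => ENNReal.ofReal (C z) *
        (if P y z then ENNReal.ofReal (u y z) else 0))
        ((hCm.comp measurable_snd).ennreal_ofReal.mul hm).aemeasurable]
      exact lintegral_congr fun z => lintegral_const_mul' _ _ ENNReal.ofReal_ne_top
    rw [e (fun y z => a (xr f t y z) y z) (fun y z => xr f t y z ∈ Ioo (0:ℝ) (1/2)) hmx,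
      e (fun x z => b x (yr f t x z) z) (fun x z => yr f t x z ∈ Ioo (0:ℝ) (1/2)) hmy]
    have hm1 : Measurable (fun z => ENNReal.ofReal (C z) * ∫⁻ y in Ioo (0:ℝ) (1/2),
        if xr f t y z ∈ Ioo (0:ℝ) (1/2) then ENNReal.ofReal (a (xr f t y z) y z) else 0) :=
      hCm.ennreal_ofReal.mul hmx.lintegral_prod_left'
    rw [← lintegral_add_left hm1, ← lintegral_const_mul' 4 _ (by norm_num : (4:ℝ≥0∞) ≠ ⊤)]
    refine lintegral_mono_ae (hℓ.mono fun z hz => ?_)
    rw [ENNReal.ofReal_mul (hC01 z).1, ← mul_add, mul_left_comm]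
    exact mul_le_mul_right hz _
  calc 2 * (∫⁻ z in Ioo (0:ℝ) (1/2), ENNReal.ofReal (C z * ℓ z))
      + 2 * (∫⁻ s in Ioc (sliceA f t (1/2)) (sliceA f t 0),
          ENNReal.ofReal (Real.sqrt (1 - c s ^ 2)))
      ≤ 2 * (4 * ((∫⁻ y in Ioo (0:ℝ) (1/2), ∫⁻ z in Ioo (0:ℝ) (1/2),
          if xr f t y z ∈ Ioo (0:ℝ) (1/2) then ENNReal.ofReal (C z * a (xr f t y z) y z) else 0)
        + ∫⁻ x in Ioo (0:ℝ) (1/2), ∫⁻ z in Ioo (0:ℝ) (1/2),
          if yr f t x z ∈ Ioo (0:ℝ) (1/2) then ENNReal.ofReal (C z * b x (yr f t x z) z) else 0))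
        + 2 * (∫⁻ s in Ioc (sliceA f t (1/2)) (sliceA f t 0),
          ENNReal.ofReal (Real.sqrt (1 - c s ^ 2))) := by gcongr
    _ = _ := by
        have h2 : (8:ℝ≥0∞) * ENNReal.ofReal (1/4) = 2 := by
          rw [← ENNReal.ofReal_ofNat 8, ← ENNReal.ofReal_mul (by norm_num)]
          norm_num
        generalize ∫⁻ s in Ioc (sliceA f t (1/2)) (sliceA f t 0),
          ENNReal.ofReal (Real.sqrt (1 - c s ^ 2)) = S
        rw [add_assoc (ENNReal.ofReal (1/4) * S), mul_add (8:ℝ≥0∞), ← mul_assoc (8:ℝ≥0∞), h2,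
          ← mul_assoc (2:ℝ≥0∞) 4, show (2:ℝ≥0∞) * 4 = 8 by norm_num]
        ring

end CoreFun

end

end Vale.P232
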