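import Vale.Agent.P232.SteinerLiftCentre
import Vale.Agent.P232.Upper
import Vale.Agent.P232.ShapeFacts

/-!
P232: lifting balls, tubes and slabs through Steiner symmetrisation.
-/

open MeasureTheory Real Set Filter Topology

namespace Vale.P232

open Rearr Upper

noncomputable section

theorem shapeAt_half (W : Finset (Fin 3)) (R : ℝ) :
    shapeAt W (fun _ => 1 / 2) R = shape W R := by
  ext x
  simp only [shapeAt, shape, mem_ofPred_eq, qd]
  refine iff_of_eq (congrArg (· < R ^ 2) (Finset.sum_congr rfl fun k _ => ?_))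
  rw [← rep_sq, show x k - 1 / 2 = (Int.fract (x k) - 1 / 2) + (⌊x k⌋ : ℝ) by
    rw [Int.fract]; ring, rep_add_int,
    rep_of_mem ⟨by linarith [Int.fract_nonneg (x k)], by linarith [Int.fract_lt_one (x k)]⟩]

theorem shiftSet_shapeAt (t : V3) (W : Finset (Fin 3)) (c : V3) (R : ℝ) :
    shiftSet t (shapeAt W c R) = shapeAt W (c - t) R := by
  ext x
  simp only [shiftSet, shapeAt, mem_ofPred_eq]
  refine iff_of_eq (congrArg (· < R ^ 2) (Finset.sum_congr rfl fun k _ => ?_))
  rw [Pi.add_apply, Pi.sub_apply, show x k + t k - c k = x k - (c k - t k) by ring]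

theorem St_shiftSet (i : Fin 3) (t : V3) (ht : t i = 0) (E : Set V3) :
    Steiner.St i (shiftSet t E) = shiftSet t (Steiner.St i E) := by
  ext x
  have hf : Steiner.flen i (shiftSet t E) x = Steiner.flen i E (x + t) := by
    unfold Steiner.flen
    congr 2
    ext a
    simp only [shiftSet, mem_inter_iff, mem_ofPred_eq]
    rw [show Function.update x i a + t = Function.update (x + t) i a from funext fun k => by
      rcases eq_or_ne k i with rfl | hk <;> simp [*]]
  show x i ∈ carc (Steiner.flen i (shiftSet t E) x) ↔ (x + t) i ∈ carc (Steiner.flen i E (x + t))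
  rw [hf, Pi.add_apply, ht, add_zero]

theorem shapeAt_congr {W : Finset (Fin 3)} {c c' : V3} (h : ∀ k ∈ W, c k = c' k) (R : ℝ) :
    shapeAt W c R = shapeAt W c' R := by
  ext x
  simp only [shapeAt, mem_ofPred_eq]
  exact iff_of_eq (congrArg (· < R ^ 2) (Finset.sum_congr rfl fun k hk => by rw [h k hk]))

theorem fib_shapeAt (i : Fin 3) {W : Finset (Fin 3)} (hi : i ∈ W) (a : ℝ) (R : ℝ)
    (y : Steiner.V2) :
    Steiner.fib i (shapeAt W (Function.update 0 i a) R) y
      = if Lift.qy i (W.erase i) y < R ^ 2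
        then Rigid.arcAt a (Lift.mR R (Lift.qy i (W.erase i) y)) else ∅ := by
  ext t
  have hsum : ∑ k ∈ W, Rearr.dd ((i.insertNth t y : V3) k - (Function.update 0 i a : V3) k) ^ 2
      = Rearr.dd (t - a) ^ 2 + Lift.qy i (W.erase i) y := by
    rw [← Finset.add_sum_erase W _ hi, ← Lift.qS_insertNth (Finset.notMem_erase i W) y t]
    simp only [Fin.insertNth_apply_same, Function.update_self, qS]
    refine congrArg (_ + ·) (Finset.sum_congr rfl fun k hk => ?_)
    rw [Function.update_of_ne (Finset.ne_of_mem_erase hk), Pi.zero_apply, sub_zero]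
  have hmem : t ∈ Steiner.fib i (shapeAt W (Function.update 0 i a) R) y
      ↔ Rearr.dd (t - a) ^ 2 + Lift.qy i (W.erase i) y < R ^ 2 := by
    simp only [Steiner.fib, shapeAt, mem_ofPred_eq, hsum]
  rw [hmem]
  by_cases hq : Lift.qy i (W.erase i) y < R ^ 2
  · rw [if_pos hq]
    simp only [Rigid.arcAt, Lift.mR, mem_ofPred_eq]
    rw [show 2 * √(R ^ 2 - Lift.qy i (W.erase i) y) / 2 = √(R ^ 2 - Lift.qy i (W.erase i) y) by ring,
      Real.lt_sqrt (Rearr.dd_nonneg _)]
    constructor <;> intro h <;> linarith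
  · rw [if_neg hq]
    simp only [mem_empty_iff_false, iff_false, not_lt]
    linarith [sq_nonneg (Rearr.dd (t - a)), not_lt.1 hq]

theorem fib_eq_empty_or_univ (i : Fin 3) {W : Finset (Fin 3)} (hi : i ∉ W) (c : V3) (R : ℝ)
    (y : Steiner.V2) :
    Steiner.fib i (shapeAt W c R) y = ∅ ∨ Steiner.fib i (shapeAt W c R) y = univ := by
  have h : ∀ t : ℝ, t ∈ Steiner.fib i (shapeAt W c R) y ↔ 0 ∈ Steiner.fib i (shapeAt W c R) y := by
    intro t
    simp only [Steiner.fib, shapeAt, mem_ofPred_eq]
    refine iff_of_eq (congrArg (· < R ^ 2) (Finset.sum_congr rfl fun k hk => ?_))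
    obtain ⟨l, rfl⟩ := (Fin.eq_self_or_eq_succAbove i k).resolve_left fun h => hi (h ▸ hk)
    simp
  by_cases h0 : (0 : ℝ) ∈ Steiner.fib i (shapeAt W c R) y
  · exact Or.inr (eq_univ_of_forall fun t => (h t).2 h0)
  · exact Or.inl (eq_empty_of_forall_notMem fun t ht => h0 ((h t).1 ht))

theorem volume_fib_of_St (i : Fin 3) {E F : Set V3} (h : Steiner.St i E =ᵐ[volume] F) :
    ∀ᵐ y : Steiner.V2, (volume (Steiner.fib i E y ∩ I01)).toReal
      = (volume (Steiner.fib i F y ∩ I01)).toReal := by
  filter_upwards [fib_congr_ae i h] with y hy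
  rw [Steiner.fib_St] at hy
  set m := (volume (Steiner.fib i E y ∩ I01)).toReal
  have hm1 : m ≤ 1 := by
    have := ENNReal.toReal_mono (b := 1) ENNReal.one_ne_top
      (show volume (Steiner.fib i E y ∩ I01) ≤ 1 from
        (measure_mono inter_subset_right).trans (le_of_eq (by simp [I01])))
    simpa using this
  rw [← measure_congr (hy.inter (ae_eq_refl I01)), volume_carc ENNReal.toReal_nonneg hm1,
    ENNReal.toReal_ofReal ENNReal.toReal_nonneg]

theorem volume_arcAt (c : ℝ) {m : ℝ} (hm0 : 0 ≤ m) (hm1 : m ≤ 1) :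
    (volume (Rigid.arcAt c m ∩ I01)).toReal = m := by
  have hset : (fun x => x + c) ⁻¹' (Rigid.arcAt c m ∩ Ioc c (c + 1)) = carc m ∩ Ioc 0 1 := by
    ext x; simp [Rigid.arcAt, carc, add_comm c 1]
  have hper : Steiner.Per1 (Rigid.arcAt c m) := fun a z => by
    simp only [Rigid.arcAt, mem_ofPred_eq,
      show a + (z : ℝ) - c = a - c + (z : ℝ) by ring, dd_add_int]
  rw [show I01 = Ico (0 : ℝ) 1 from rfl,
    Steiner.per1_window hper (measurableSet_lt (measurable_dd.comp (measurable_id.sub_const c))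
      measurable_const) c,
    ← measure_preimage_add_right volume c, hset]
  have := Steiner.per1_window (Steiner.per1_carc m) (measurableSet_carc m) 0
  rw [zero_add] at this
  rw [← this, ← show I01 = Ico (0 : ℝ) 1 from rfl, volume_carc hm0 hm1, ENNReal.toReal_ofReal hm0]

theorem lift_centred (i : Fin 3) {E : Set V3} (hE : MeasurableSet E) (hp : IsPeriodic E)
    {W : Finset (Fin 3)} (hi : i ∈ W) {R : ℝ} (hR0 : 0 < R) (hR : R < 1 / 2)
    (hsh : Steiner.St i E =ᵐ[volume] shapeAt W 0 R)
    (heq : perimeter E ≤ perimeter (Steiner.St i E)) :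
    ∃ a : ℝ, E =ᵐ[volume] shapeAt W (Function.update 0 i a) R := by
  have h0 : (Function.update (0 : V3) i (0 : ℝ)) = 0 := Function.update_eq_self i (0 : V3)
  have hv : tvol E = tvol (shapeAt W 0 R) := by
    rw [← tvol_congr_ae' hsh, Steiner.tvol_St i hE]
  have hP : perimeter E ≤ ENNReal.ofReal (W.card * tvol E / R) := by
    rw [hv]
    exact (heq.trans_eq (perimeter_congr_ae hsh)).trans (perimeter_shapeAt_le W 0 hR0 hR.le)
  have hcard : ((W.erase i).card : ℝ) + 1 = W.card := by
    exact_mod_cast Finset.card_erase_add_one hi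
  have D : Lift.Data i (W.erase i) R E := by
    refine ⟨hE, hp, Finset.notMem_erase i W, hR0, hR, ?_, fun X hX => ?_⟩
    · filter_upwards [volume_fib_of_St i hsh] with y hy
      rw [hy, ← h0, fib_shapeAt i hi 0 R y]
      by_cases hq : Lift.qy i (W.erase i) y < R ^ 2
      · obtain ⟨a, b⟩ := Lift.mR_mem hR0 hR (Lift.qy_nonneg y) hq
        rw [if_pos hq, if_pos hq, volume_arcAt 0 a.le b.le]
      · rw [if_neg hq, if_neg hq]; simp
    · have h1 := perBound_toReal (ne_top_of_le_ne_top ENNReal.ofReal_ne_top hP) X hX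
      refine h1.trans ((ENNReal.toReal_le_of_le_ofReal ?_ hP).trans (le_of_eq ?_))
      · exact div_nonneg (mul_nonneg (Nat.cast_nonneg _) ENNReal.toReal_nonneg) hR0.le
      · rw [hcard]
  obtain ⟨c, hc⟩ := D.exists_centre
  refine ⟨c, ae_eq_of_fib i hE (measurableSet_shapeAt _ _ _) ?_⟩
  filter_upwards [hc, D.fibre] with y h1 h2
  rw [fib_shapeAt i hi c R y]
  by_cases hq : Lift.qy i (W.erase i) y < R ^ 2
  · rw [if_pos hq]; exact h1 hq
  · rw [if_neg hq]
    rw [if_neg hq] at h2
    have h0' : volume (Steiner.fib i E y ∩ I01) = 0 :=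
      ((ENNReal.toReal_eq_zero_iff _).1 h2).resolve_right
        (ne_top_of_le_ne_top (by simp [I01]) (measure_mono inter_subset_right))
    refine Rigid.per1_ae_eq_of_window (Steiner.per1_fib i hp y) (fun a z => by simp) 0 ?_
    filter_upwards [measure_eq_zero_iff_ae_notMem.1 h0'] with t ht hw
    simp only [mem_empty_iff_false, iff_false]
    exact fun hm => ht ⟨hm, hw.1.le, by linarith [hw.2]⟩

theorem lift_off_axis (i : Fin 3) {E : Set V3} (hE : MeasurableSet E) (hp : IsPeriodic E)
    {W : Finset (Fin 3)} (hi : i ∉ W) {c : V3} {R : ℝ}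
    (hsh : Steiner.St i E =ᵐ[volume] shapeAt W c R) : E =ᵐ[volume] shapeAt W c R := by
  refine ae_eq_of_fib i hE (measurableSet_shapeAt _ _ _) ?_
  filter_upwards [volume_fib_of_St i hsh] with y hy
  have hfin : ∀ s : Set ℝ, volume (s ∩ I01) ≠ ⊤ := fun s =>
    ne_top_of_le_ne_top (by simp [I01]) (measure_mono inter_subset_right)
  rcases fib_eq_empty_or_univ i hi c R y with h | h
  · rw [h] at hy ⊢
    have h0 : volume (Steiner.fib i E y ∩ I01) = 0 := by
      rw [← ENNReal.ofReal_toReal (hfin _), hy]; simp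
    refine Rigid.per1_ae_eq_of_window (Steiner.per1_fib i hp y) (fun a z => by simp) 0 ?_
    filter_upwards [measure_eq_zero_iff_ae_notMem.1 h0] with t ht hw
    simp only [mem_empty_iff_false, iff_false]
    exact fun hm => ht ⟨hm, hw.1.le, by linarith [hw.2]⟩
  · rw [h] at hy ⊢
    have h0 : volume (I01 \ Steiner.fib i E y) = 0 := by
      have h1 : volume (Steiner.fib i E y ∩ I01) = 1 := by
        rw [← ENNReal.ofReal_toReal (hfin _), hy]; simp [I01]
      rw [show I01 \ Steiner.fib i E y = I01 \ (Steiner.fib i E y ∩ I01) by ext; simp,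
        measure_sdiff (s₂ := Steiner.fib i E y ∩ I01) inter_subset_right
        ((Steiner.measurableSet_fib i hE y).inter Steiner.measurableSet_I01).nullMeasurableSet (hfin _), h1]
      simp [I01]
    refine Rigid.per1_ae_eq_of_window (Steiner.per1_fib i hp y) (fun a z => by simp) 0 ?_
    filter_upwards [measure_eq_zero_iff_ae_notMem.1 h0] with t ht hw
    simp only [mem_univ, iff_true]
    by_contra hm
    exact ht ⟨⟨hw.1.le, by linarith [hw.2]⟩, hm⟩

/-- Lift through one Steiner symmetrisation: if it is a ball, tube or slab and costs no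
perimeter, the set was a translate of that shape along the axis. -/
theorem lift_shapeAt (i : Fin 3) {E : Set V3} (hE : MeasurableSet E) (hp : IsPeriodic E)
    {W : Finset (Fin 3)} {c : V3} {R : ℝ} (hR0 : 0 < R) (hR : R < 1 / 2)
    (hc : i ∈ W → c i = 0) (hsh : Steiner.St i E =ᵐ[volume] shapeAt W c R)
    (heq : perimeter E ≤ perimeter (Steiner.St i E)) :
    ∃ a : ℝ, E =ᵐ[volume] shapeAt W (Function.update c i a) R := by
  by_cases hi : i ∈ W
  swap
  · refine ⟨c i, ?_⟩
    rw [Function.update_eq_self]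
    exact lift_off_axis i hE hp hi hsh
  set t : V3 := c
  have ht : t i = 0 := hc hi
  have hsh' : Steiner.St i (shiftSet t E) =ᵐ[volume] shapeAt W 0 R := by
    rw [St_shiftSet i t ht]
    have := shiftSet_congr_ae t hsh
    rwa [shiftSet_shapeAt, sub_self] at this
  have heq' : perimeter (shiftSet t E) ≤ perimeter (Steiner.St i (shiftSet t E)) := by
    rwa [St_shiftSet i t ht, perimeter_shiftSet t hE hp,
      perimeter_shiftSet t (Steiner.measurableSet_St i hE) (Steiner.periodic_St i hp)]
  obtain ⟨a, ha⟩ := lift_centred i (measurableSet_shiftSet t hE) (isPeriodic_shiftSet t hp) hi hR0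
    hR hsh' heq'
  refine ⟨a, ?_⟩
  have := shiftSet_congr_ae (-t) ha
  rw [shiftSet_shiftSet, neg_add_cancel, shiftSet_zero, shiftSet_shapeAt, sub_neg_eq_add] at this
  rwa [show Function.update (0 : V3) i a + t = Function.update c i a from funext fun k => by
    rcases eq_or_ne k i with rfl | hk <;> simp [*, t]] at this

end

end Vale.P232
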