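import Vale.Agent.P232.SteinerLiftCore

/-!
P232: equality in the test inequality makes the fibres arcs; its first variation.
-/

open MeasureTheory Real Set Filter Topology

namespace Vale.P232.Lift

open Rearr Steiner

noncomputable section

variable {i : Fin 3} {S : Finset (Fin 3)} {R : ℝ} {E : Set V3}

theorem sqrt_lower {b X : ℝ} (hb : 0 < b) (hX : 0 ≤ b ^ 2 + X) :
    b + X / (2 * b) - X ^ 2 / (2 * b ^ 3) ≤ √(b ^ 2 + X) := by
  set s := √(b ^ 2 + X)
  have hs : X = s ^ 2 - b ^ 2 := by rw [sq_sqrt hX]; ring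
  have hs0 : 0 ≤ s := sqrt_nonneg _
  rw [hs, show b + (s ^ 2 - b ^ 2) / (2 * b) - (s ^ 2 - b ^ 2) ^ 2 / (2 * b ^ 3)
    = (2 * b ^ 4 + b ^ 2 * (s ^ 2 - b ^ 2) - (s ^ 2 - b ^ 2) ^ 2) / (2 * b ^ 3) by field_simp,
    div_le_iff₀ (by positivity)]
  nlinarith [mul_nonneg (sq_nonneg (b - s)) (show 0 ≤ (s + b) ^ 2 - b ^ 2 by nlinarith)]

theorem ae_of_ae_cube2 {p : V2 → Prop}
    (hp : ∀ (y : V2) (z : Fin 2 → ℤ), p (y + fun l => (z l : ℝ)) ↔ p y)
    (h : ∀ᵐ y ∂(volume : Measure V2).restrict cube2, p y) : ∀ᵐ y : V2, p y := by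
  have h' := (ae_restrict_iff' measurableSet_cube2).1 h
  have hz : ∀ z : Fin 2 → ℤ, ∀ᵐ y : V2,
      (y + fun l => (z l : ℝ)) ∈ cube2 → p (y + fun l => (z l : ℝ)) := fun z =>
    (measurePreserving_add_right (volume : Measure V2) _).quasiMeasurePreserving.ae h'
  filter_upwards [ae_all_iff.2 hz] with y hy
  refine (hp y fun l => -⌊y l⌋).1 (hy _ fun l _ => ?_)
  simp only [Pi.add_apply, mem_Ico, Int.cast_neg]
  constructor <;> linarith [Int.floor_le (y l), Int.lt_floor_add_one (y l)]

theorem ofReal_le_vlim {β : V3 → ℝ} {y : V2} {L : ℝ}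
    (h : ∀ δ > 0, ∀ᶠ n in atTop, L - δ ≤ Rigid.wvar (wsec i β y) (gsec i E n y)) :
    ENNReal.ofReal L ≤ vlim i β E y := by
  refine le_of_tendsto (f := fun δ => ENNReal.ofReal (L - δ)) (x := 𝓝[>] (0 : ℝ)) ?_ ?_
  · refine ENNReal.tendsto_ofReal ?_
    have hc : Continuous fun δ : ℝ => L - δ := continuous_const.sub continuous_id
    simpa using (hc.tendsto (0 : ℝ)).mono_left nhdsWithin_le_nhds
  · filter_upwards [self_mem_nhdsWithin] with δ (hδ : 0 < δ)
    exact le_liminf_of_le (by isBoundedDefault)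
      ((h δ hδ).mono fun n hn => ENNReal.ofReal_le_ofReal hn)

theorem wvar_const (b : ℝ) (g : ℝ → ℝ) :
    Rigid.wvar (fun _ => b) g = b * Rigid.wvar (fun _ => 1) g := by
  simp only [Rigid.wvar, intervalIntegral.integral_const_mul, one_mul]

theorem calA_indep {M : ℝ} (hi : i ∉ S) (y : V2) (t : ℝ) :
    calA S R M (i.insertNth t y) = calA S R M (i.insertNth 0 y) := by
  have h : ∀ k ∈ S, (i.insertNth t y : V3) k = (i.insertNth 0 y : V3) k := fun k hk => by
    obtain ⟨l, rfl⟩ := (Fin.eq_self_or_eq_succAbove i k).resolve_left (fun h => hi (h ▸ hk))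
    simp
  funext k
  by_cases hk : k ∈ S
  · simp only [calA, hk, if_true]
    rw [Finset.sum_congr rfl fun j hj => by rw [h j hj], h k hk]
  · simp [calA, hk]

theorem calA_sum_sq (hR0 : 0 < R) (hR : R < 1 / 2) {M : ℝ} (hM : 1 < M) {x : V3}
    (hx : qS S x < R ^ 2) : ∑ k, calA S R M x k ^ 2 = qS S x / R ^ 2 := by
  simp only [calA_eq hR0 hR hM hx, qS, Finset.sum_div, ← rep_sq, ← div_pow]
  rw [← Finset.sum_subset (Finset.subset_univ S) fun k _ hk => by simp [hk]]
  exact Finset.sum_congr rfl fun k hk => by simp [hk]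

theorem mR_sq_div (hR0 : 0 < R) {q : ℝ} (hq : q ≤ R ^ 2) :
    (mR R q / (2 * R)) ^ 2 = 1 - q / R ^ 2 := by
  rw [mR, mul_div_mul_left _ _ (two_ne_zero' ℝ), div_pow, sq_sqrt (by linarith)]
  field_simp

/-- The field-weight pairing appearing in the first variation. -/
def pairG (i : Fin 3) (S : Finset (Fin 3)) (R : ℝ) (G : V3 → V3) (y : V2) : ℝ :=
  ∑ k, calA S R 2 (i.insertNth 0 y) k * G (i.insertNth 0 y) k

/-- Integrand of the first variation. -/
def varQ (i : Fin 3) (S : Finset (Fin 3)) (R : ℝ) (E : Set V3) (G : V3 → V3) (θ : ℝ) (y : V2) :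
    ℝ :=
  {y | qy i S y < R ^ 2}.indicator (fun y => pairG i S R G y / (mR R (qy i S y) / (2 * R))
    * (2 * π * cos (π * mR R (qy i S y)) / sin (π * mR R (qy i S y))) * cC i E θ y) y

namespace Data

variable (D : Data i S R E)
include D

theorem wsec_zero {y : V2} (hy : qy i S y < R ^ 2) (θ : ℝ) :
    wsec i (wA (aG i S R 2 0 θ 0)) y = fun _ => mR R (qy i S y) / (2 * R) := by
  funext t
  have hq : qS S (i.insertNth t y) < R ^ 2 := by rwa [qS_insertNth D.notMem]
  have hm := (mR_mem D.R_pos D.R_lt (qy_nonneg y) hy).1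
  simp only [wsec, wA, aG, Pi.zero_apply, mul_zero, add_zero,
    calA_sum_sq D.R_pos D.R_lt one_lt_two hq, qS_insertNth D.notMem]
  rw [max_eq_right (by rw [sub_nonneg, div_le_one (by nlinarith [D.R_pos])]; linarith),
    ← mR_sq_div D.R_pos hy.le, sqrt_sq (by have := D.R_pos; positivity)]

theorem ae_good : ∀ᵐ y : V2, qy i S y < R ^ 2 →
    (∀ a : ℝ, (volume (fib i E y ∩ Ioo a (a + 1))).toReal = mR R (qy i S y)) := by
  filter_upwards [D.fibre] with y hy hq a
  rw [if_pos hq] at hy
  rw [← hy, show I01 = Ico (0 : ℝ) 1 from rfl,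
    per1_window (per1_fib i D.per y) (measurableSet_fib i D.meas y) a,
    measure_congr (Filter.EventuallyEq.inter (ae_eq_refl (fib i E y)) Ioo_ae_eq_Ioc)]

theorem tvol_pos : 0 < tvol E := by
  rw [D.tvol_eq]
  have hR0 := D.R_pos
  have hR := D.R_lt
  set f : V2 → ℝ := fun y => if qy i S y < R ^ 2 then mR R (qy i S y) else 0
  have h0 : ∀ y, 0 ≤ f y := fun y => by
    simp only [f]; split_ifs with h
    · exact (mR_mem hR0 hR (qy_nonneg y) h).1.le
    · rfl
  have hm : Measurable f := Measurable.ite (measurableSet_lt continuous_qy.measurable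
    measurable_const) (by unfold mR; exact (measurable_const.mul
      ((measurable_const.sub continuous_qy.measurable).sqrt))) measurable_const
  have hb : ∀ y, |f y| ≤ 1 := fun y => by
    rw [abs_of_nonneg (h0 y)]; simp only [f]; split_ifs with h
    · exact (mR_mem hR0 hR (qy_nonneg y) h).2.le
    · exact zero_le_one
  rw [setIntegral_pos_iff_support_of_nonneg_ae (Eventually.of_forall h0)
    (integrableOn_cube2 hm hb)]
  refine lt_of_lt_of_le ?_ (measure_mono
    (show (univ.pi fun _ : Fin 2 => Ioo (0 : ℝ) (R / 2)) ⊆ Function.support f ∩ cube2 from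
      fun y hy => ?_))
  · simp only [volume_pi_pi, Real.volume_Ioo, Finset.prod_const, Finset.card_univ, Fintype.card_fin]
    exact ENNReal.pow_pos (ENNReal.ofReal_pos.2 (by linarith)) 2
  have hyl : ∀ l, y l ∈ Ioo (0 : ℝ) (R / 2) := fun l => hy l (mem_univ l)
  refine ⟨?_, fun l _ => ⟨(hyl l).1.le, by linarith [(hyl l).2]⟩⟩
  have hq : qy i S y < R ^ 2 := by
    refine lt_of_le_of_lt (Finset.sum_le_sum fun l _ => (?_ :
      (if i.succAbove l ∈ S then dd (y l) ^ 2 else 0) ≤ (R / 2) ^ 2)) ?_
    · split_ifs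
      · refine pow_le_pow_left₀ (dd_nonneg _) ?_ 2
        have := dd_le_abs (y l) 0
        simp [abs_of_pos (hyl l).1] at this
        linarith [(hyl l).2]
      · positivity
    · simp; nlinarith
  simp only [Function.mem_support, f, if_pos hq]
  exact (mR_mem hR0 hR (qy_nonneg y) hq).1.ne'

/-- Almost every fibre over the projection is an arc. -/
theorem ae_arc : ∀ᵐ y : V2, qy i S y < R ^ 2 →
    ∃ c, fib i E y =ᵐ[volume] Rigid.arcAt c (mR R (qy i S y)) := by
  refine ae_of_ae_cube2 (fun y z => by simp only [qy_add_int, fib_shift D.per]) ?_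
  have hR0 := D.R_pos
  set U := {y : V2 | qy i S y < R ^ 2}
  have hU : MeasurableSet U := measurableSet_lt continuous_qy.measurable measurable_const
  set f : V2 → ENNReal := U.indicator fun y => ENNReal.ofReal (mR R (qy i S y) / R)
  set g : V2 → ENNReal := U.indicator (vlim i (wA (aG i S R 2 0 0 0)) E)
  have hP : Pert i S R (0 : V3 → V3) 0 0 :=
    ⟨contDiff_const, fun _ _ => rfl, fun _ => rfl, fun _ _ => rfl, fun x h => absurd rfl h,
      by positivity, le_rfl, fun x => by simp⟩
  have hcont : Continuous (wA (aG i S R 2 0 0 (0 : V3 → V3))) :=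
    (continuous_const.max (continuous_const.sub (continuous_finsetSum _ fun k _ =>
      ((continuous_apply k).comp (contDiff_aG hR0 D.R_lt hP 2 0 0).continuous).pow 2))).sqrt
  have hgood : ∀ᵐ y : V2, y ∈ U → ENNReal.ofReal (mR R (qy i S y) / R) ≤
      vlim i (wA (aG i S R 2 0 0 0)) E y ∧
      (vlim i (wA (aG i S R 2 0 0 0)) E y ≤ ENNReal.ofReal (mR R (qy i S y) / R) →
        ∃ c, fib i E y =ᵐ[volume] Rigid.arcAt c (mR R (qy i S y))) := by
    filter_upwards [D.ae_good, ae_tendsto_gsec (i := i) D.meas] with y hv hlim hy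
    obtain ⟨hm0, hm1⟩ := mR_mem hR0 D.R_lt (qy_nonneg y) hy
    set m := mR R (qy i S y)
    have hb : 0 < m / (2 * R) := by positivity
    by_cases hvar : ∃ᶠ n in atTop, Rigid.wvar (fun _ => 1) (gsec i E n y) < 3
    · obtain ⟨c, hc⟩ := Rigid.exists_arc (per1_fib i D.per y) hm0 hm1 (hv hy)
        (contDiff_gsec D.meas · y) (periodic_gsec D.per · y) hlim hvar
      refine ⟨ofReal_le_vlim fun δ hδ => ?_, fun _ => ⟨c, hc⟩⟩
      rw [D.wsec_zero hy]
      refine (Rigid.eventually_ends_le hm0 hm1 hc (contDiff_gsec D.meas · y)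
        (periodic_gsec D.per · y) hlim (β := fun _ => m / (2 * R)) continuous_const
        (fun _ => rfl) (fun _ => hb.le) hδ).mono fun n hn => le_trans (le_of_eq ?_) hn
      field_simp; ring
    · rw [not_frequently] at hvar
      have h3 : ENNReal.ofReal (3 * (m / (2 * R))) ≤ vlim i (wA (aG i S R 2 0 0 0)) E y := by
        refine ofReal_le_vlim fun δ hδ => hvar.mono fun n hn => ?_
        rw [D.wsec_zero hy, wvar_const]
        nlinarith [not_lt.1 hn]
      have h2 : m / R = 2 * (m / (2 * R)) := by field_simp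
      refine ⟨le_trans (ENNReal.ofReal_le_ofReal (by linarith)) h3, fun h => ?_⟩
      exact absurd ((ENNReal.ofReal_le_ofReal_iff (by positivity)).1 (h3.trans h)) (by linarith)
  have hfg : f ≤ᵐ[(volume : Measure V2).restrict cube2] g := by
    filter_upwards [ae_restrict_of_ae hgood] with y hy
    by_cases h : y ∈ U
    · simpa [f, g, h] using (hy h).1
    · simp [f, g, h]
  have hfint : ∫⁻ y in cube2, f y = ENNReal.ofReal (tvol E / R) := by
    rw [D.tvol_eq, ← integral_div]
    rw [ofReal_integral_eq_lintegral_ofReal]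
    · refine lintegral_congr fun y => ?_
      by_cases h : qy i S y < R ^ 2
      · simp [f, U, h]
      · simp [f, U, h]
    · refine integrableOn_cube2 (C := 1 / R) (((Measurable.ite hU (by
        unfold mR; exact measurable_const.mul ((measurable_const.sub
          continuous_qy.measurable).sqrt)) measurable_const)).div_const R) fun y => ?_
      rw [abs_div, abs_of_pos hR0]
      refine div_le_div_of_nonneg_right ?_ hR0.le
      split_ifs with h
      · obtain ⟨a, b⟩ := mR_mem hR0 D.R_lt (qy_nonneg y) h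
        rw [abs_of_pos a]; exact b.le
      · simp
    · refine Eventually.of_forall fun y => ?_
      by_cases h : qy i S y < R ^ 2
      · simp only [if_pos h]; exact div_nonneg (mR_mem hR0 D.R_lt (qy_nonneg y) h).1.le hR0.le
      · simp [h]
  have hle : ∫⁻ y in cube2, g y ≤ ∫⁻ y in cube2, f y := by
    rw [hfint]
    refine (D.master hP (ε := 0) (θ := 0) (by simp)).trans (le_of_eq ?_)
    simp
  have heq := ae_eq_of_ae_le_of_lintegral_le hfg (by rw [hfint]; exact ENNReal.ofReal_ne_top)
    ((measurable_vlim hcont D.meas).indicator hU).aemeasurable hle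
  filter_upwards [heq, ae_restrict_of_ae hgood] with y hy hgy hyU
  refine (hgy hyU).2 (le_of_eq ?_)
  simpa [f, g, show y ∈ U from hyU] using hy.symm

theorem cC_arc {y : V2} {c m θ : ℝ} (hm0 : 0 ≤ m) (hm1 : m < 1)
    (h : fib i E y =ᵐ[volume] Rigid.arcAt c m) :
    cC i E θ y = sin (π * m) / π * cos (2 * π * c + θ) := by
  have hper : Function.Periodic
      ((fib i E y).indicator fun t => cos (2 * π * t + θ)) 1 := fun t => by
    have := per1_fib i D.per y t 1
    push_cast at this
    have hc : cos (2 * π * (t + 1) + θ) = cos (2 * π * t + θ) := by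
      rw [show 2 * π * (t + 1) + θ = 2 * π * t + θ + 2 * π by ring, cos_add_two_pi]
    by_cases h1 : t ∈ fib i E y
    · rw [indicator_of_mem h1, indicator_of_mem (this.2 h1), hc]
    · rw [indicator_of_notMem h1, indicator_of_notMem (mt this.1 h1)]
  rw [cC, show I01 = Ico (0 : ℝ) 1 from rfl, integral_Ico_eq_integral_Ioo,
    ← integral_Ioc_eq_integral_Ioo, ← intervalIntegral.integral_of_le zero_le_one,
    ← Rigid.integral_arc_cos hm0 hm1 θ]
  have e : (c + 1 / 2) = (c - 1 / 2) + 1 := by ring
  have h0 := hper.intervalIntegral_add_eq 0 (c - 1 / 2)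
  rw [zero_add] at h0
  rw [e, h0]
  refine intervalIntegral.integral_congr_ae ?_
  filter_upwards [indicator_ae_eq_of_ae_eq_set (f := fun t => cos (2 * π * t + θ)) h] with t ht _
  simpa using ht

theorem abs_pair_le {G : V3 → V3} {r C : ℝ} (P : Pert i S R G r C) {y : V2}
    (hy : qy i S y < R ^ 2) : |pairG i S R G y| ≤ C := by
  have hq : qS S (i.insertNth 0 y) < R ^ 2 := by rwa [qS_insertNth D.notMem]
  refine (Finset.abs_sum_le_sum_abs _ _).trans ?_
  simp only [abs_mul]
  refine (sum_mul_le_sqrt_mul_sqrt _ _ _).trans ?_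
  simp only [sq_abs, calA_sum_sq D.R_pos D.R_lt one_lt_two hq]
  calc √(qS S (i.insertNth 0 y) / R ^ 2) * √(∑ k, G (i.insertNth 0 y) k ^ 2) ≤ 1 * C :=
        mul_le_mul (sqrt_le_one.2 ((div_le_one (by nlinarith [D.R_pos])).2 hq.le)) (P.le _)
          (sqrt_nonneg _) zero_le_one
    _ = C := one_mul C

theorem pair_eq_zero {G : V3 → V3} {r C : ℝ} (P : Pert i S R G r C) {y : V2}
    (hy : r < qy i S y) : G (i.insertNth 0 y) = 0 ∧ pairG i S R G y = 0 := by
  have h : G (i.insertNth 0 y) = 0 := by
    by_contra h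
    linarith [P.supp _ h, qS_insertNth (i := i) D.notMem y 0]
  exact ⟨h, by simp [pairG, h]⟩

theorem measurable_varQ {G : V3 → V3} {r C : ℝ} (P : Pert i S R G r C) (θ : ℝ) :
    Measurable (varQ i S R E G θ) := by
  have hins : Continuous fun y : V2 => (i.insertNth 0 y : V3) :=
    (continuous_insertNth i).comp (continuous_id.prodMk continuous_const)
  have h1 : Continuous (pairG i S R G) := continuous_finsetSum _ fun k _ =>
    (((continuous_apply k).comp (contDiff_calA D.R_pos D.R_lt).continuous).comp hins).mul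
      (((continuous_apply k).comp P.smooth.continuous).comp hins)
  have hm : Measurable fun y => mR R (qy i S y) :=
    measurable_const.mul ((measurable_const.sub continuous_qy.measurable).sqrt)
  exact (((h1.measurable.div (hm.div_const _)).mul
    (((measurable_cos.comp (hm.const_mul π)).const_mul (2 * π)).div
      (measurable_sin.comp (hm.const_mul π)))).mul (measurable_cC D.meas θ)).indicator
    (measurableSet_lt continuous_qy.measurable measurable_const)

theorem ae_abs_varQ_le {G : V3 → V3} {r C : ℝ} (P : Pert i S R G r C) (θ : ℝ) :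
    ∀ᵐ y : V2, |varQ i S R E G θ y| ≤ 2 * C / √(1 - r / R ^ 2) := by
  have hr : 0 < 1 - r / R ^ 2 := by
    rw [sub_pos, div_lt_one (by nlinarith [D.R_pos])]; exact P.r_lt
  have hC := P.C_nonneg
  filter_upwards [D.ae_arc] with y hy
  by_cases hU : qy i S y < R ^ 2
  · rw [varQ, indicator_of_mem (show y ∈ {y | qy i S y < R ^ 2} from hU)]
    rcases lt_or_ge r (qy i S y) with hr' | hr'
    · simp [(D.pair_eq_zero P hr').2]; positivity
    obtain ⟨c, hc⟩ := hy hU
    obtain ⟨hm0, hm1⟩ := mR_mem D.R_pos D.R_lt (qy_nonneg y) hU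
    rw [D.cC_arc hm0.le hm1 hc]
    have hb : √(1 - r / R ^ 2) ≤ mR R (qy i S y) / (2 * R) := by
      rw [sqrt_le_left (by have := D.R_pos; positivity), mR_sq_div D.R_pos hU.le]
      gcongr
    have hs : sin (π * mR R (qy i S y)) ≠ 0 :=
      (sin_pos_of_pos_of_lt_pi (by positivity) (mul_lt_of_lt_one_right pi_pos hm1)).ne'
    rw [show pairG i S R G y / (mR R (qy i S y) / (2 * R)) *
        (2 * π * cos (π * mR R (qy i S y)) / sin (π * mR R (qy i S y))) *
        (sin (π * mR R (qy i S y)) / π * cos (2 * π * c + θ))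
      = pairG i S R G y / (mR R (qy i S y) / (2 * R)) *
        (2 * (cos (π * mR R (qy i S y)) * cos (2 * π * c + θ))) by
      set sn := sin (π * mR R (qy i S y))
      set cs := cos (π * mR R (qy i S y))
      field_simp]
    rw [abs_mul, abs_div, abs_of_pos (show 0 < mR R (qy i S y) / (2 * R) by
      have := D.R_pos; positivity), abs_mul, abs_two, abs_mul]
    calc _ ≤ C / √(1 - r / R ^ 2) * (2 * (1 * 1)) := by
          refine mul_le_mul (div_le_div₀ hC (D.abs_pair_le P hU) (sqrt_pos.2 hr) hb) ?_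
            (by positivity) (by positivity)
          gcongr <;> exact abs_cos_le_one _
      _ = _ := by ring
  · rw [varQ, indicator_of_notMem (show y ∉ {y | qy i S y < R ^ 2} from hU), abs_zero]
    positivity

/-- First variation of the test inequality. -/
theorem first_variation {G : V3 → V3} {r C : ℝ} (P : Pert i S R G r C) (θ : ℝ) :
    ∫ x in E ∩ cube, cos (2 * π * x i + θ) * div3 G x = ∫ y in cube2, varQ i S R E G θ y := by
  set T := ∫ x in E ∩ cube, cos (2 * π * x i + θ) * div3 G x
  set Q := ∫ y in cube2, varQ i S R E G θ y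
  have hR0 := D.R_pos
  have hC := P.C_nonneg
  have hr : 0 < 1 - r / R ^ 2 := by
    rw [sub_pos, div_lt_one (by nlinarith)]; exact P.r_lt
  set b₀ := √(1 - r / R ^ 2)
  have hb₀ : 0 < b₀ := sqrt_pos.2 hr
  set K := C ^ 2 / (2 * b₀) + (3 * C + C ^ 2) ^ 2 / (2 * b₀ ^ 3)
  have hK : 0 ≤ K := by positivity
  have hfin : IsFiniteMeasure ((volume : Measure V2).restrict cube2) :=
    ⟨by simp [cube2, volume_pi_pi]⟩
  have hQint : IntegrableOn (varQ i S R E G θ) cube2 :=
    IntegrableOn.of_bound (by simp [cube2, volume_pi_pi])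
      (D.measurable_varQ P θ).aestronglyMeasurable (2 * C / b₀)
      (ae_restrict_of_ae (D.ae_abs_varQ_le P θ))
  have hsr : 0 < 1 - √r / R := by
    rw [sub_pos, div_lt_one hR0, sqrt_lt' hR0]
    exact P.r_lt
  have hv := div_pos D.tvol_pos hR0
  obtain ⟨ε₀, hε₀, h1, h2, h3⟩ : ∃ ε₀ > (0 : ℝ), ε₀ * C ≤ 1 - √r / R ∧ ε₀ ≤ 1 ∧
      ε₀ * |T| ≤ tvol E / R := by
    refine ⟨min 1 (min ((1 - √r / R) / (C + 1)) (tvol E / R / (|T| + 1))),
      lt_min one_pos (lt_min (by positivity) (by positivity)), ?_, min_le_left _ _, ?_⟩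
    · calc _ ≤ (1 - √r / R) / (C + 1) * C :=
            mul_le_mul_of_nonneg_right ((min_le_right _ _).trans (min_le_left _ _)) hC
        _ ≤ (1 - √r / R) / (C + 1) * (C + 1) :=
            mul_le_mul_of_nonneg_left (by linarith) (by positivity)
        _ = _ := div_mul_cancel₀ _ (by positivity)
    · calc _ ≤ tvol E / R / (|T| + 1) * |T| :=
            mul_le_mul_of_nonneg_right ((min_le_right _ _).trans (min_le_right _ _)) (abs_nonneg _)
        _ ≤ tvol E / R / (|T| + 1) * (|T| + 1) :=
            mul_le_mul_of_nonneg_left (by linarith) (by positivity)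
        _ = _ := div_mul_cancel₀ _ (by positivity)
  suffices key : ∀ ε : ℝ, |ε| ≤ ε₀ → ε * (T - Q) ≤ 2 * K * ε ^ 2 by
    by_contra hne
    have hd : T - Q ≠ 0 := sub_ne_zero.2 hne
    set u := min ε₀ (|T - Q| / (4 * (K + 1)))
    have hu : 0 < u := lt_min hε₀ (by positivity)
    have hu2 : u * (4 * (K + 1)) ≤ |T - Q| := (le_div_iff₀ (by positivity)).1 (min_le_right _ _)
    rcases lt_or_gt_of_ne hd with hn | hn
    · have := key (-u) (by rw [abs_neg, abs_of_pos hu]; exact min_le_left _ _)
      rw [abs_of_neg hn] at hu2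
      nlinarith
    · have := key u (by rw [abs_of_pos hu]; exact min_le_left _ _)
      rw [abs_of_pos hn] at hu2
      nlinarith
  intro ε hε
  have hεC : |ε| * C ≤ 1 - √r / R := (mul_le_mul_of_nonneg_right hε hC).trans h1
  set β := wA (aG i S R 2 ε θ G)
  have hβc : Continuous β :=
    (continuous_const.max (continuous_const.sub (continuous_finsetSum _ fun k _ =>
      ((continuous_apply k).comp (contDiff_aG hR0 D.R_lt P 2 ε θ).continuous).pow 2))).sqrt
  have hβp : IsPeriodicFun β := fun x z => by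
    simp only [β, wA, periodic_aG P 2 ε θ x z]
  set U := {y : V2 | qy i S y < R ^ 2}
  have hU : MeasurableSet U := measurableSet_lt continuous_qy.measurable measurable_const
  set l : V2 → ℝ := U.indicator fun y => mR R (qy i S y) / R - ε * varQ i S R E G θ y
    - 2 * K * ε ^ 2
  have hlow : ∀ᵐ y : V2, ENNReal.ofReal (l y) ≤ U.indicator (vlim i β E) y := by
    filter_upwards [D.ae_arc, ae_tendsto_gsec (i := i) D.meas] with y hy hlim
    by_cases hyU : y ∈ U
    swap
    · simp [l, hyU]
    obtain ⟨c, hc⟩ := hy hyU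
    obtain ⟨hm0, hm1⟩ := mR_mem hR0 D.R_lt (qy_nonneg y) (show qy i S y < R ^ 2 from hyU)
    rw [indicator_of_mem hyU]
    set m := mR R (qy i S y)
    set b := m / (2 * R)
    have hb : 0 < b := by positivity
    set A := pairG i S R G y
    have hQ : varQ i S R E G θ y
        = A / b * (cos (2 * π * (c - m / 2) + θ) + cos (2 * π * (c + m / 2) + θ)) := by
      rw [varQ, indicator_of_mem (show y ∈ {y | qy i S y < R ^ 2} from hyU), D.cC_arc hm0.le hm1 hc,
        cos_add_cos]
      have hs : sin (π * m) ≠ 0 :=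
        (sin_pos_of_pos_of_lt_pi (by positivity) (mul_lt_of_lt_one_right pi_pos hm1)).ne'
      rw [show (2 * π * (c - m / 2) + θ + (2 * π * (c + m / 2) + θ)) / 2 = 2 * π * c + θ by ring,
        show (2 * π * (c - m / 2) + θ - (2 * π * (c + m / 2) + θ)) / 2 = -(π * m) by ring, cos_neg]
      show A / b * (2 * π * cos (π * m) / sin (π * m)) * (sin (π * m) / π * cos (2 * π * c + θ))
        = A / b * (2 * cos (2 * π * c + θ) * cos (π * m))
      clear_value A b
      set sn := sin (π * m)
      set cs := cos (π * m)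
      clear_value sn cs
      field_simp
    have hpt : ∀ t : ℝ, b - ε * cos (2 * π * t + θ) * A / b - K * ε ^ 2 ≤ wsec i β y t := by
      intro t
      have hq : qS S (i.insertNth t y) < R ^ 2 := by rw [qS_insertNth D.notMem]; exact hyU
      set G₂ := ∑ k, G (i.insertNth 0 y) k ^ 2
      set X := -(2 * ε * cos (2 * π * t + θ) * A + (ε * cos (2 * π * t + θ)) ^ 2 * G₂)
      have hw : wsec i β y t = √(max 0 (b ^ 2 + X)) := by
        simp only [wsec, β, wA, aG, P.indep y t, calA_indep D.notMem y t,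
          Fin.insertNth_apply_same]
        rw [mR_sq_div hR0 (le_of_lt hyU), ← qS_insertNth D.notMem y 0,
          ← calA_sum_sq (M := 2) hR0 D.R_lt one_lt_two (by rw [qS_insertNth D.notMem]; exact hyU)]
        congr 2
        simp only [X, A, G₂, pairG, Finset.mul_sum, ← Finset.sum_add_distrib,
          ← Finset.sum_neg_distrib]
        rw [sub_add, ← Finset.sum_sub_distrib]
        congr 1
        exact Finset.sum_congr rfl fun k _ => by ring
      rw [hw]
      rcases lt_or_ge r (qy i S y) with hr' | hr'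
      · obtain ⟨hG, hA⟩ := D.pair_eq_zero P hr'
        have hX : X = 0 := by simp [X, A, G₂, hA, hG]
        rw [hX, add_zero, max_eq_right (sq_nonneg b), sqrt_sq hb.le,
          show A = 0 from hA]
        simp
        nlinarith [mul_nonneg hK (sq_nonneg ε)]
      have hb₀b : b₀ ≤ b := by
        rw [sqrt_le_left hb.le, mR_sq_div hR0 (le_of_lt hyU)]
        gcongr
      have hA : |A| ≤ C := D.abs_pair_le P hyU
      have hG₂ : 0 ≤ G₂ ∧ G₂ ≤ C ^ 2 := by
        refine ⟨Finset.sum_nonneg fun k _ => sq_nonneg _, ?_⟩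
        have := pow_le_pow_left₀ (sqrt_nonneg _) (P.le (i.insertNth 0 y)) 2
        rwa [sq_sqrt (Finset.sum_nonneg fun k _ => sq_nonneg _)] at this
      set cφ := cos (2 * π * t + θ)
      have hφ : |cφ| ≤ 1 := abs_cos_le_one _
      have hφ2 : cφ ^ 2 ≤ 1 := (sq_le_one_iff_abs_le_one _).2 hφ
      have hX : |X| ≤ |ε| * (3 * C + C ^ 2) := by
        rw [abs_neg]
        refine (abs_add_le _ _).trans ?_
        have e1 : |2 * ε * cφ * A| ≤ 2 * |ε| * C := by
          rw [abs_mul, abs_mul, abs_mul, abs_two]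
          calc 2 * |ε| * |cφ| * |A| ≤ 2 * |ε| * 1 * C := by gcongr
            _ = _ := by ring
        have e2 : |(ε * cφ) ^ 2 * G₂| ≤ |ε| * C ^ 2 := by
          rw [abs_mul, abs_of_nonneg (sq_nonneg _), abs_of_nonneg hG₂.1, mul_pow]
          calc ε ^ 2 * cφ ^ 2 * G₂ ≤ |ε| * 1 * C ^ 2 := by
                refine mul_le_mul (mul_le_mul ?_ hφ2 (sq_nonneg _) (abs_nonneg _)) hG₂.2 hG₂.1
                  (by positivity)
                rw [← sq_abs]; nlinarith [abs_nonneg ε, hε.trans h2]
            _ = _ := by ring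
        nlinarith [abs_nonneg ε]
      have hnn : 0 ≤ b ^ 2 + X := by
        by_cases hG0 : G (i.insertNth t y) = 0
        · have : G (i.insertNth 0 y) = 0 := by rw [← P.indep y t]; exact hG0
          simp [X, A, G₂, pairG, this]
          positivity
        · have h := (D.aG_sq_le P (θ := θ) (M := 2) one_lt_two hεC _).2 hG0
          simp only [aG, P.indep y t, calA_indep D.notMem y t, Fin.insertNth_apply_same] at h
          rw [mR_sq_div hR0 (le_of_lt hyU), ← qS_insertNth D.notMem y 0,
            ← calA_sum_sq (M := 2) hR0 D.R_lt one_lt_two (by rw [qS_insertNth D.notMem]; exact hyU)]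
          have hexp : ∑ k, calA S R 2 (i.insertNth 0 y) k ^ 2 - X
              = ∑ k, (calA S R 2 (i.insertNth 0 y) k + ε * cφ * G (i.insertNth 0 y) k) ^ 2 := by
            simp only [X, A, G₂, pairG, sub_neg_eq_add, Finset.mul_sum, ← Finset.sum_add_distrib]
            exact Finset.sum_congr rfl fun k _ => by ring
          linarith
      rw [max_eq_right hnn]
      refine le_trans ?_ (sqrt_lower hb hnn)
      have e3 : (ε * cφ) ^ 2 * G₂ / (2 * b) ≤ ε ^ 2 * (C ^ 2 / (2 * b₀)) := by
        calc (ε * cφ) ^ 2 * G₂ / (2 * b) ≤ ε ^ 2 * C ^ 2 / (2 * b₀) := by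
              refine div_le_div₀ (by positivity) ?_ (by positivity) (by linarith)
              rw [mul_pow]
              calc ε ^ 2 * cφ ^ 2 * G₂ ≤ ε ^ 2 * 1 * C ^ 2 := by
                    gcongr
                    exact hG₂.2
                _ = _ := by ring
          _ = _ := by ring
      have e4 : X ^ 2 / (2 * b ^ 3) ≤ ε ^ 2 * ((3 * C + C ^ 2) ^ 2 / (2 * b₀ ^ 3)) := by
        calc X ^ 2 / (2 * b ^ 3) ≤ ε ^ 2 * (3 * C + C ^ 2) ^ 2 / (2 * b₀ ^ 3) := by
              refine div_le_div₀ (by positivity) ?_ (by positivity) (by gcongr)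
              rw [← sq_abs X, ← sq_abs ε, ← mul_pow]
              gcongr
          _ = _ := by ring
      have e5 : X / (2 * b) = -(ε * cφ * A / b) - (ε * cφ) ^ 2 * G₂ / (2 * b) := by
        simp only [X]; field_simp; ring
      have e6 : K * ε ^ 2 = ε ^ 2 * (C ^ 2 / (2 * b₀))
          + ε ^ 2 * ((3 * C + C ^ 2) ^ 2 / (2 * b₀ ^ 3)) := by ring
      linarith
    refine ofReal_le_vlim fun δ hδ => ?_
    have hp1 : Function.Periodic (wsec i β y) 1 := fun t => by
      simp only [wsec, insertNth_add_one, hβp _ _]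
    refine (Rigid.eventually_ends_le hm0 hm1 hc (contDiff_gsec D.meas · y)
      (periodic_gsec D.per · y) hlim (β := wsec i β y)
      (hβc.comp (contDiff_insertNth i y).continuous) hp1 (fun _ => sqrt_nonneg _) hδ).mono
      fun n hn => le_trans ?_ hn
    simp only [l, indicator_of_mem hyU, hQ]
    have ha := hpt (c - m / 2)
    have hb' := hpt (c + m / 2)
    have e7 : m / R = 2 * b := by simp only [b]; field_simp
    have e8 : ε * (A / b * (cos (2 * π * (c - m / 2) + θ) + cos (2 * π * (c + m / 2) + θ)))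
        = ε * cos (2 * π * (c - m / 2) + θ) * A / b + ε * cos (2 * π * (c + m / 2) + θ) * A / b := by
      ring
    linarith
  have hmint : IntegrableOn (fun y => if qy i S y < R ^ 2 then mR R (qy i S y) else 0) cube2 := by
    refine integrableOn_cube2 (C := 1) (Measurable.ite hU (by
      unfold mR; exact measurable_const.mul ((measurable_const.sub
        continuous_qy.measurable).sqrt)) measurable_const) fun y => ?_
    split_ifs with h
    · obtain ⟨a, b⟩ := mR_mem hR0 D.R_lt (qy_nonneg y) h
      rw [abs_of_pos a]; exact b.le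
    · simp
  have hone : IntegrableOn (U.indicator fun _ => 2 * K * ε ^ 2) cube2 :=
    (integrableOn_const (by simp [cube2, volume_pi_pi])).indicator hU
  have hl : l = fun y => (if qy i S y < R ^ 2 then mR R (qy i S y) else 0) / R
      - ε * varQ i S R E G θ y - U.indicator (fun _ => 2 * K * ε ^ 2) y := by
    funext y
    by_cases h : qy i S y < R ^ 2
    · simp [l, U, h]
    · simp [l, U, h, varQ]
  have hlint : IntegrableOn l cube2 := by
    rw [hl]; exact ((hmint.div_const R).sub (hQint.const_mul ε)).sub hone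
  have hlI : tvol E / R - ε * Q - 2 * K * ε ^ 2 ≤ ∫ y in cube2, l y := by
    have i1 : IntegrableOn (fun y => (if qy i S y < R ^ 2 then mR R (qy i S y) else 0) / R
        - ε * varQ i S R E G θ y) cube2 := (hmint.div_const R).sub (hQint.const_mul ε)
    rw [hl]
    beta_reduce
    rw [integral_sub i1 hone,
      integral_sub (hmint.div_const R) (hQint.const_mul ε), integral_div, integral_const_mul,
      ← D.tvol_eq]
    have : ∫ y in cube2, U.indicator (fun _ => 2 * K * ε ^ 2) y ≤ ∫ _ in cube2, 2 * K * ε ^ 2 :=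
      integral_mono hone (integrable_const _) fun y => indicator_le_self' (fun _ _ => by positivity) y
    rw [setIntegral_const, show (volume : Measure V2).real cube2 = 1 by
      simp [measureReal_def, cube2, volume_pi_pi], one_smul] at this
    linarith
  have hup : ENNReal.ofReal (∫ y in cube2, max (l y) 0) ≤ ENNReal.ofReal (tvol E / R - ε * T) := by
    have hmax : IntegrableOn (fun y => max (l y) 0) cube2 := hlint.sup (integrable_zero _ _ _)
    rw [ofReal_integral_eq_lintegral_ofReal hmax
      (Eventually.of_forall fun y => le_max_right _ _)]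
    refine le_trans (lintegral_mono_ae ?_) (D.master P hεC)
    filter_upwards [ae_restrict_of_ae hlow] with y hy
    rwa [ENNReal.ofReal_max, ENNReal.ofReal_zero, max_eq_left zero_le]
  have hTb : ε * T ≤ tvol E / R :=
    (le_abs_self _).trans ((abs_mul ε T).trans_le
      ((mul_le_mul_of_nonneg_right hε (abs_nonneg _)).trans h3))
  have h9 := (ENNReal.ofReal_le_ofReal_iff (by linarith)).1 hup
  have h10 : ∫ y in cube2, l y ≤ ∫ y in cube2, max (l y) 0 :=
    integral_mono hlint (hlint.sup (integrable_zero _ _ _)) fun y => le_max_left _ _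
  linarith

end Data

end

end Vale.P232.Lift
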