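import Vale.Agent.P232.SteinerLiftArc

/-!
P232: the first variation makes the centres of the fibre arcs constant.
-/

open MeasureTheory Real Set Filter Topology

namespace Vale.P232.Lift

open Rearr Steiner

noncomputable section

variable {i : Fin 3} {S : Finset (Fin 3)} {R : ℝ} {E : Set V3}

theorem continuous_qe : Continuous (qe i S) :=
  continuous_finsetSum _ fun l _ => by
    by_cases h : i.succAbove l ∈ S
    · simp only [h, if_true]; exact (continuous_apply l).pow 2
    · simp only [h, if_false]; exact continuous_const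

theorem qy_le_qe (y : V2) : qy i S y ≤ qe i S y := by
  refine Finset.sum_le_sum fun l _ => ?_
  by_cases h : i.succAbove l ∈ S
  · simp only [h, if_true]
    rw [← sq_abs (y l)]
    refine pow_le_pow_left₀ (dd_nonneg _) ?_ 2
    simpa using dd_le_abs (y l) 0
  · simp [h]

theorem abs_lt_of_qe {y : V2} (hR0 : 0 ≤ R) (h : qe i S y < R ^ 2) {l : Fin 2}
    (hl : i.succAbove l ∈ S) : |y l| < R := by
  refine lt_of_pow_lt_pow_left₀ 2 hR0 (lt_of_le_of_lt ?_ h)
  rw [sq_abs]
  refine le_trans (le_of_eq ?_) (Finset.single_le_sum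
    (f := fun j => if i.succAbove j ∈ S then y j ^ 2 else 0)
    (fun j _ => by split_ifs <;> positivity) (Finset.mem_univ l))
  simp [hl]

theorem qy_eq_qe {y : V2} (hR0 : 0 < R) (hR : R < 1 / 2) (h : qe i S y < R ^ 2) :
    qy i S y = qe i S y := by
  refine Finset.sum_congr rfl fun l _ => ?_
  by_cases hl : i.succAbove l ∈ S
  · have := abs_lt.1 (abs_lt_of_qe hR0.le h hl)
    simp only [hl, if_true]
    rw [← rep_sq, rep_of_mem ⟨by linarith, by linarith⟩]
  · simp [hl]

theorem convex_qe_lt (a : ℝ) : Convex ℝ {y : V2 | qe i S y < a} := by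
  have hc : ConvexOn ℝ univ (qe i S) := by
    refine ⟨convex_univ, fun x _ y _ p q hp hq hpq => ?_⟩
    simp only [qe, smul_eq_mul, Finset.mul_sum, ← Finset.sum_add_distrib]
    refine Finset.sum_le_sum fun l _ => ?_
    by_cases hl : i.succAbove l ∈ S
    · simp only [hl, if_true, Pi.add_apply, Pi.smul_apply, smul_eq_mul]
      obtain rfl : q = 1 - p := by linarith
      nlinarith [mul_nonneg (mul_nonneg hp hq) (sq_nonneg (x l - y l))]
    · simp [hl]
  simpa using hc.convex_lt a

theorem closedBall_subset_qe {a a' η : ℝ} (hη1 : η ≤ 1) (ha1 : a ≤ 1) (hη : 6 * η < a' - a)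
    {y : V2} (hy : qe i S y < a) : Metric.closedBall y η ⊆ {z | qe i S z < a'} := fun z hz => by
  have hd : ∀ l, |z l - y l| ≤ η := fun l =>
    (norm_le_pi_norm (z - y) l).trans (mem_closedBall_iff_norm.1 hz)
  have : qe i S z ≤ qe i S y + ∑ _l : Fin 2, 3 * η := by
    rw [qe, qe, ← Finset.sum_add_distrib]
    refine Finset.sum_le_sum fun l _ => ?_
    have h0 : 0 ≤ η := (abs_nonneg _).trans (hd l)
    by_cases hl : i.succAbove l ∈ S
    · simp only [hl, if_true]
      have hy1 : |y l| ≤ 1 := (sq_le_one_iff_abs_le_one _).1 (by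
        have : y l ^ 2 ≤ qe i S y := le_trans (le_of_eq (by simp [hl]))
          (Finset.single_le_sum (f := fun j => if i.succAbove j ∈ S then y j ^ 2 else 0)
            (fun j _ => by split_ifs <;> positivity) (Finset.mem_univ l))
        linarith)
      obtain ⟨a1, a2⟩ := abs_le.1 (hd l)
      obtain ⟨b1, b2⟩ := abs_le.1 hy1
      nlinarith [mul_nonneg (show 0 ≤ η - (z l - y l) by linarith) (show 0 ≤ η + (z l - y l) by linarith),
        mul_nonneg (show 0 ≤ η - (z l - y l) by linarith) (show 0 ≤ 1 + y l by linarith),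
        mul_nonneg (show 0 ≤ η + (z l - y l) by linarith) (show 0 ≤ 1 - y l by linarith)]
    · simp only [hl, if_false]; linarith
  simp only [Finset.sum_const, Finset.card_univ, Fintype.card_fin, nsmul_eq_mul, Nat.cast_ofNat] at this
  show qe i S z < a'
  linarith

theorem hat_qy (hi : i ∉ S) (x : V3) : qS S x = qy i S (hat i x) := by
  conv_lhs => rw [← Fin.insertNth_self_removeNth i x]
  rw [qS_insertNth hi]
  rfl

/-- The test field built from a compactly supported function. -/
def testG (i : Fin 3) (y₀ : V2) (l : Fin 2) (g : V2 → ℝ) (x : V3) : V3 := fun k =>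
  if k = i.succAbove l then perize i y₀ g x else 0

theorem perize_add_axis (y₀ : V2) (g : V2 → ℝ) (s : ℝ) (x : V3) :
    perize i y₀ g (x + s • e i) = perize i y₀ g x := by
  simp only [perize, Pi.add_apply, Pi.smul_apply, e, Pi.single_eq_of_ne (Fin.succAbove_ne i _),
    smul_zero, add_zero]

theorem fderiv_perize_axis (y₀ : V2) (g : V2 → ℝ) (y : V2) (t : ℝ) :
    fderiv ℝ (perize i y₀ g) (i.insertNth t y)
      = fderiv ℝ (perize i y₀ g) (i.insertNth 0 y) := by
  have h : (i.insertNth t y : V3) = i.insertNth 0 y + t • e i := by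
    ext k
    rcases Fin.eq_self_or_eq_succAbove i k with rfl | ⟨j, rfl⟩
    · simp [e]
    · simp [e, Fin.succAbove_ne i j]
  rw [h, ← fderiv_comp_add_right]
  exact congrArg (fun F => fderiv ℝ F (i.insertNth 0 y)) (funext fun x => perize_add_axis y₀ g t x)

namespace Data

variable (D : Data i S R E)
include D

theorem weak_ident {a' η : ℝ} (ha' : a' < R ^ 2) (hη : η < 1 / 2) (θ : ℝ) (y₀ : V2)
    (ψ : V2 → ℝ) (hψ : ContDiff ℝ 1 ψ) (hball : Metric.closedBall y₀ η ⊆ {y | qe i S y < a'})
    (hsupp : tsupport ψ ⊆ Metric.closedBall y₀ η) (l : Fin 2) :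
    ∫ y, cC i E θ y * (fderiv ℝ ψ y (Pi.single l 1) / sin (π * mR R (qe i S y))) = 0 := by
  have hR0 := D.R_pos
  have hR := D.R_lt
  have hin : ∀ y ∈ tsupport ψ, qe i S y < a' := fun y hy => hball (hsupp hy)
  have hsin : ∀ y, qe i S y < R ^ 2 → 0 < sin (π * mR R (qe i S y)) := fun y hy => by
    obtain ⟨a, b⟩ := mR_mem (q := qe i S y) hR0 hR
      (Finset.sum_nonneg fun j _ => by split_ifs <;> positivity) hy
    exact sin_pos_of_pos_of_lt_pi (by positivity) (mul_lt_of_lt_one_right pi_pos b)
  set g : V2 → ℝ := fun y => ψ y * (sin (π * mR R (qe i S y)))⁻¹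
  have hgs : tsupport g ⊆ tsupport ψ := tsupport_mul_subset_left
  have hqd : ContDiff ℝ 1 (qe i S) := ContDiff.sum fun j _ => by
    by_cases hj : i.succAbove j ∈ S
    · simp only [hj, if_true]; exact (contDiff_apply ℝ ℝ j).pow 2
    · simp only [hj, if_false]; exact contDiff_const
  have hg : ContDiff ℝ 1 g := contDiff_iff_contDiffAt.2 fun y => by
    by_cases hy : y ∈ tsupport ψ
    · have hq := (hin y hy).trans ha'
      refine hψ.contDiffAt.mul (ContDiffAt.inv ?_ (hsin y hq).ne')
      exact Real.contDiff_sin.contDiffAt.comp y (contDiffAt_const.mul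
        (contDiffAt_const.mul ((contDiffAt_const.sub hqd.contDiffAt).sqrt (by linarith))))
    · refine (contDiffAt_const (c := (0 : ℝ))).congr_of_eventuallyEq ?_
      filter_upwards [(isClosed_tsupport ψ).isOpen_compl.mem_nhds hy] with z hz
      simp [g, image_eq_zero_of_notMem_tsupport hz]
  have hgball := hgs.trans hsupp
  set G := testG i y₀ l g
  have hGsm : ContDiff ℝ 1 G := contDiff_pi.2 fun k => by
    by_cases hk : k = i.succAbove l
    · simp only [G, testG, hk, if_true]; exact contDiff_perize hη hg hgball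
    · simp only [G, testG, hk, if_false]; exact contDiff_const
  have hGp : IsPeriodicFun G := fun x z => by
    funext k; simp only [G, testG, periodic_perize x z]
  obtain ⟨C, hC0, hC⟩ := IsPeriodicFun.exists_bound (g := fun x => √(∑ k, G x k ^ 2))
    (fun x z => by simp only [hGp x z])
    ((continuous_finsetSum _ fun k _ => ((continuous_apply k).comp hGsm.continuous).pow 2).sqrt)
  have P : Pert i S R G a' C := by
    refine ⟨hGsm, hGp, fun x => by simp [G, testG, (Fin.succAbove_ne i l).symm],
      fun y t => ?_, fun x hx => ?_, ha', hC0, fun x => (le_abs_self _).trans (hC x)⟩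
    · funext k
      simp only [G, testG, perize, Fin.insertNth_apply_succAbove]
    · have hne : perize i y₀ g x ≠ 0 := fun h => hx (by funext k; simp [G, testG, h])
      set z : V2 := fun j => y₀ j + rep (x (i.succAbove j) - y₀ j)
      have hz : qe i S z < a' := hin z (hgs (subset_tsupport g hne))
      rw [hat_qy D.notMem, show hat i x = z + fun j => ((round (x (i.succAbove j) - y₀ j) : ℤ) : ℝ)
        from funext fun j => by simp [hat, z, rep]; ring, qy_add_int]
      exact (qy_le_qe z).trans hz.le
  have hfv := D.first_variation P θ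
  have hdiv : ∀ (y : V2) (t : ℝ), div3 G (i.insertNth t y)
      = fderiv ℝ (perize i y₀ g) (i.insertNth 0 y) (e (i.succAbove l)) := fun y t => by
    unfold div3
    simp only [← fderiv_component hGsm]
    rw [Finset.sum_eq_single (i.succAbove l)]
    · simp only [G, testG, if_true]
      rw [← fderiv_perize_axis y₀ g y t]
    · intro k _ hk
      simp [G, testG, hk]
    · simp
  set dG : V2 → ℝ := fun y => fderiv ℝ (perize i y₀ g) (i.insertNth 0 y) (e (i.succAbove l))
  have hins : Continuous fun y : V2 => (i.insertNth 0 y : V3) :=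
    (continuous_insertNth i).comp (continuous_id.prodMk continuous_const)
  have hpg := contDiff_perize (i := i) hη hg hgball
  have hdGc : Continuous dG :=
    ((hpg.continuous_fderiv (by norm_num)).clm_apply continuous_const).comp hins
  have hdGp : ∀ (y : V2) (z : Fin 2 → ℤ), dG (y + fun j => (z j : ℝ)) = dG y := fun y z => by
    simp only [dG, insertNth_shift, periodic_perize.periodic_fderiv _ _]
  obtain ⟨Cd, -, hCd⟩ := IsPeriodicFun.exists_bound
    (g := fun x : V3 => fderiv ℝ (perize i y₀ g) x (e (i.succAbove l)))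
    (fun x z => by simp only [periodic_perize.periodic_fderiv x z])
    ((hpg.continuous_fderiv (by norm_num)).clm_apply continuous_const)
  set P₁ : V2 → ℝ := fun y => cC i E θ y * dG y
  have hP₁b : ∀ y, |P₁ y| ≤ Cd := fun y => by
    rw [abs_mul]
    exact (mul_le_of_le_one_left (abs_nonneg _) (abs_cC_le θ y)).trans (hCd _)
  have hL : ∫ x in E ∩ cube, cos (2 * π * x i + θ) * div3 G x = ∫ y in cube2, P₁ y := by
    rw [setIntegral_inter_cube D.meas, integral_cube_axis i]
    · refine setIntegral_congr_fun measurableSet_cube2 fun y _ => ?_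
      simp only [P₁, cC, ← integral_mul_const]
      refine setIntegral_congr_fun measurableSet_I01 fun t _ => ?_
      simp only [fib_indicator_eq, hdiv, Fin.insertNth_apply_same]
      ring
    · have hcd : Continuous fun x : V3 => cos (2 * π * x i + θ) * div3 G x := by
        have := continuous_divergence hGsm; fun_prop
      refine Integrable.mono' (Continuous.integrableOn_cube hcd).norm
        ((measurable_ind D.meas).mul hcd.measurable).aestronglyMeasurable
        (Eventually.of_forall fun x => ?_)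
      rw [norm_mul]
      exact mul_le_of_le_one_left (norm_nonneg _) (by
        rw [Real.norm_eq_abs, abs_of_nonneg (ind_nonneg E _)]; exact ind_le_one E _)
  set f₁ : V2 → ℝ := fun y => cC i E θ y * fderiv ℝ g y (Pi.single l 1)
  set f₂ : V2 → ℝ := fun y => cC i E θ y * (g y * ((if i.succAbove l ∈ S then y l else 0)
    / R / (mR R (qe i S y) / (2 * R))
    * (2 * π * cos (π * mR R (qe i S y)) / sin (π * mR R (qe i S y)))))
  have hfar : ∀ y : V2, ¬ (∀ j, y j - y₀ j ∈ Ioo (-(1/2) : ℝ) (1/2)) → y ∉ tsupport g := by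
    intro y hy hmem
    refine hy fun j => ?_
    have := abs_le.1 ((norm_le_pi_norm (y - y₀) j).trans (mem_closedBall_iff_norm.1 (hgball hmem)))
    simp only [Pi.sub_apply] at this
    constructor <;> linarith
  have hu1 : ∫ y in cube2, P₁ y = ∫ y, f₁ y :=
    integral_unfold ((measurable_cC D.meas θ).mul hdGc.measurable) hP₁b
      (fun y z => by
        show cC i E θ _ * dG _ = cC i E θ y * dG y
        rw [cC_shift D.per, hdGp]) y₀
      (fun y hy => by
        show cC i E θ y * dG y = _
        simp only [f₁, dG, fderiv_perize hg y hy])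
      fun y hy => by simp [f₁, fderiv_of_notMem_tsupport (𝕜 := ℝ) (hfar y hy)]
  have hQper : ∀ (y : V2) (z : Fin 2 → ℤ),
      varQ i S R E G θ (y + fun j => (z j : ℝ)) = varQ i S R E G θ y := fun y z => by
    simp only [varQ, pairG, indicator_apply, mem_ofPred_eq, qy_add_int, cC_shift D.per,
      insertNth_shift, periodic_calA _ _, hGp _ _]
  obtain ⟨CQ, hCQ⟩ : ∃ CQ, ∀ᵐ y : V2, |varQ i S R E G θ y| ≤ CQ := ⟨_, D.ae_abs_varQ_le P θ⟩
  set Qc : V2 → ℝ := fun y => max (-|CQ|) (min |CQ| (varQ i S R E G θ y))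
  have hQc : ∀ᵐ y : V2, Qc y = varQ i S R E G θ y := by
    filter_upwards [hCQ] with y hy
    obtain ⟨h1, h2⟩ := abs_le.1 (hy.trans (le_abs_self CQ))
    simp only [Qc, min_eq_right h2, max_eq_right h1]
  set f₂c : V2 → ℝ := fun y => if ∀ j, y j - y₀ j ∈ Ioo (-(1/2) : ℝ) (1/2) then Qc y else 0
  have hu2 : ∫ y in cube2, Qc y = ∫ y, f₂c y :=
    integral_unfold (measurable_const.max (measurable_const.min (D.measurable_varQ P θ)))
      (C := |CQ|) (fun y => abs_le.2 ⟨le_max_left _ _,
        max_le (by linarith [abs_nonneg CQ]) (min_le_left _ _)⟩)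
      (fun y z => by simp only [hQper]) y₀ (fun y hy => by simp only [f₂c, if_pos hy]; rfl)
      fun y hy => by simp only [f₂c, if_neg hy]
  have hf2 : f₂c =ᵐ[volume] f₂ := by
    filter_upwards [hQc] with y hy
    by_cases hin' : ∀ j, y j - y₀ j ∈ Ioo (-(1/2) : ℝ) (1/2)
    · simp only [f₂c, if_pos hin', hy]
      have hGy : G (i.insertNth 0 y) = fun k => if k = i.succAbove l then g y else 0 := by
        funext k
        simp only [G, testG, perize_insertNth y (fun j => Ioo_subset_Ico_self (hin' j)) 0]
      have hpair : pairG i S R G y = calA S R 2 (i.insertNth 0 y) (i.succAbove l) * g y := by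
        simp [pairG, hGy]
      by_cases hgy : g y = 0
      · simp [varQ, hpair, f₂, hgy]
      have hq : qe i S y < R ^ 2 := (hin y (hgs (subset_tsupport g hgy))).trans ha'
      have hq' := qy_eq_qe hR0 hR hq
      rw [varQ, indicator_of_mem (show y ∈ {y | qy i S y < R ^ 2} from hq'.trans_lt hq), hq', hpair,
        calA_eq hR0 hR one_lt_two (by rw [qS_insertNth D.notMem]; exact hq'.trans_lt hq)]
      simp only [f₂, Fin.insertNth_apply_succAbove]
      by_cases hl : i.succAbove l ∈ S
      · have := abs_lt.1 (abs_lt_of_qe hR0.le hq hl)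
        simp only [if_pos hl, rep_of_mem (show y l ∈ Ico (-(1/2) : ℝ) (1/2) from
          ⟨by linarith, by linarith⟩)]
        ring
      · simp [hl]
    · simp only [f₂c, if_neg hin', f₂, image_eq_zero_of_notMem_tsupport (hfar y hin'), zero_mul,
        mul_zero]
  have hkey : ∫ y, f₁ y = ∫ y, f₂ y := by
    rw [← hu1, ← hL, hfv, ← integral_congr_ae hf2, ← hu2]
    exact (integral_congr_ae (ae_restrict_of_ae hQc)).symm
  have hpt : ∀ y, cC i E θ y * (fderiv ℝ ψ y (Pi.single l 1) / sin (π * mR R (qe i S y)))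
      = f₁ y - f₂ y := by
    intro y
    by_cases hy : y ∈ tsupport ψ
    swap
    · simp [f₁, f₂, fderiv_of_notMem_tsupport (𝕜 := ℝ) hy,
        fderiv_of_notMem_tsupport (𝕜 := ℝ) (mt (@hgs y) hy),
        image_eq_zero_of_notMem_tsupport (mt (@hgs y) hy)]
    have hq : qe i S y < R ^ 2 := (hin y hy).trans ha'
    have hs := hsin y hq
    have hsq : 0 < √(R ^ 2 - qe i S y) := sqrt_pos.2 (by linarith)
    set d : ℝ := if i.succAbove l ∈ S then 2 * y l else 0
    have hline : HasDerivAt (fun s : ℝ => y + s • (Pi.single l 1 : V2)) (Pi.single l 1) 0 := by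
      simpa using ((hasDerivAt_id (0 : ℝ)).smul_const (Pi.single l 1 : V2)).const_add y
    have hqe : HasDerivAt (fun s : ℝ => qe i S (y + s • (Pi.single l 1 : V2))) d 0 := by
      have : ∀ j : Fin 2, HasDerivAt
          (fun s : ℝ => if i.succAbove j ∈ S then (y + s • (Pi.single l 1 : V2)) j ^ 2 else 0)
          (if j = l then d else 0) 0 := by
        intro j
        have h1 := (hasDerivAt_pi.1 hline j).pow 2
        by_cases hj : i.succAbove j ∈ S
        · simp only [hj, if_true]
          refine h1.congr_deriv ?_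
          rcases eq_or_ne j l with rfl | hjl
          · simp [d, hj]
          · simp [hjl]
        · simp only [hj, if_false]
          refine (hasDerivAt_const _ _).congr_deriv ?_
          rcases eq_or_ne j l with rfl | hjl
          · simp [d, hj]
          · simp [hjl]
      have h2 := HasDerivAt.sum (u := Finset.univ) fun j _ => this j
      simp only [Finset.sum_ite_eq', Finset.mem_univ, if_true] at h2
      rw [show (fun s : ℝ => qe i S (y + s • (Pi.single l 1 : V2))) = ∑ j : Fin 2, fun s : ℝ =>
          if i.succAbove j ∈ S then (y + s • (Pi.single l 1 : V2)) j ^ 2 else 0 from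
        funext fun s => by simp [qe, Finset.sum_apply]]
      exact h2
    have h3 : HasDerivAt (fun s : ℝ => g (y + s • (Pi.single l 1 : V2)))
        (fderiv ℝ ψ y (Pi.single l 1) * (sin (π * mR R (qe i S y)))⁻¹ + ψ y *
          (-(cos (π * mR R (qe i S y)) * (π * (2 * (-d / (2 * √(R ^ 2 - qe i S y))))))
            / sin (π * mR R (qe i S y)) ^ 2)) 0 := by
      have ha := (hψ.differentiable (by norm_num) (y + (0 : ℝ) • (Pi.single l 1 : V2))
        ).hasFDerivAt.comp_hasDerivAt (0 : ℝ) hline
      have hb := (((((hqe.const_sub (R ^ 2)).sqrt (by simp; linarith)).const_mul 2).const_mul π).sin).inv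
        (by simpa [mR] using hs.ne')
      have := ha.mul hb
      simp only [zero_smul, add_zero, Function.comp_apply, mR, Pi.inv_apply] at this ⊢
      exact this
    obtain ⟨D', hD', hD''⟩ : ∃ D', D' = fderiv ℝ ψ y (Pi.single l 1) * (sin (π * mR R (qe i S y)))⁻¹
        + ψ y * (-(cos (π * mR R (qe i S y)) * (π * (2 * (-d / (2 * √(R ^ 2 - qe i S y))))))
          / sin (π * mR R (qe i S y)) ^ 2) ∧
        HasDerivAt (fun s : ℝ => g (y + s • (Pi.single l 1 : V2))) D' 0 := ⟨_, rfl, h3⟩
    have h4 : fderiv ℝ g y (Pi.single l 1) = D' := by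
      have hc := (hg.differentiable (by norm_num) (y + (0 : ℝ) • (Pi.single l 1 : V2))
        ).hasFDerivAt.comp_hasDerivAt (0 : ℝ) hline
      simp only [zero_smul, add_zero] at hc
      exact hc.unique hD''
    rw [hD'] at h4
    simp only [f₁, f₂]
    rw [h4]
    simp only [g, mR]
    have hd : d = 2 * (if i.succAbove l ∈ S then y l else 0) := by
      simp only [d]; split_ifs <;> simp
    rw [hd]
    have hs' : sin (π * (2 * √(R ^ 2 - qe i S y))) ≠ 0 := hs.ne'
    set sn := sin (π * (2 * √(R ^ 2 - qe i S y)))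
    set cs := cos (π * (2 * √(R ^ 2 - qe i S y)))
    set sq := √(R ^ 2 - qe i S y)
    set w := (if i.succAbove l ∈ S then y l else 0)
    clear_value sn cs sq w
    field_simp
    ring
  simp only [hpt]
  have hcs : HasCompactSupport g :=
    IsCompact.of_isClosed_subset (isCompact_closedBall y₀ η) (isClosed_tsupport g) hgball
  have hi1 : Integrable f₁ := by
    refine Integrable.mono' (((hg.continuous_fderiv (by norm_num)).clm_apply
      continuous_const).norm.integrable_of_hasCompactSupport
        ((hcs.fderiv_apply (𝕜 := ℝ) (Pi.single l 1)).norm))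
      ((measurable_cC D.meas θ).mul
        ((hg.continuous_fderiv (by norm_num)).clm_apply continuous_const).measurable).aestronglyMeasurable
      (Eventually.of_forall fun y => ?_)
    simp only [f₁, norm_mul]
    exact mul_le_of_le_one_left (norm_nonneg _) (abs_cC_le θ y)
  have hbdd : ∀ᵐ y : V2, ‖f₂ y‖ ≤ (Metric.closedBall y₀ η).indicator (fun _ => |CQ|) y := by
    filter_upwards [hf2, hQc] with y h1 h2
    by_cases hyb : y ∈ Metric.closedBall y₀ η
    · rw [indicator_of_mem hyb, ← h1]
      simp only [f₂c, Real.norm_eq_abs]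
      split_ifs
      · exact abs_le.2 ⟨le_max_left _ _, max_le (by linarith [abs_nonneg CQ]) (min_le_left _ _)⟩
      · simp
    · rw [indicator_of_notMem hyb]
      simp [f₂, image_eq_zero_of_notMem_tsupport (mt (@hgball y) hyb)]
  have hqm : Measurable fun y => mR R (qe i S y) :=
    measurable_const.mul ((measurable_const.sub continuous_qe.measurable).sqrt)
  have hif : Measurable fun y : V2 => if i.succAbove l ∈ S then y l else 0 := by
    by_cases hl : i.succAbove l ∈ S
    · simp only [hl, if_true]; exact measurable_pi_apply l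
    · simp only [hl, if_false]; exact measurable_const
  have hi2 : Integrable f₂ :=
    Integrable.mono' ((integrable_indicator_iff measurableSet_closedBall).2
      (integrableOn_const (measure_closedBall_lt_top).ne))
      ((measurable_cC D.meas θ).mul (hg.continuous.measurable.mul
        (((hif.div_const R).div (hqm.div_const _)).mul
          (((measurable_cos.comp (hqm.const_mul π)).const_mul (2 * π)).div
            (measurable_sin.comp (hqm.const_mul π)))))).aestronglyMeasurable hbdd
  rw [integral_sub hi1 hi2, hkey, sub_self]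

/-- On every sublevel the normalised coefficient is constant. -/
theorem coef_const {a : ℝ} (ha : a < R ^ 2) (θ : ℝ) :
    ∃ κ, ∀ᵐ y : V2, qe i S y < a → cC i E θ y / sin (π * mR R (qe i S y)) = κ := by
  have hR0 := D.R_pos
  have hR := D.R_lt
  set a' := (a + R ^ 2) / 2
  have haa : a < a' := by simp only [a']; linarith
  have ha' : a' < R ^ 2 := by simp only [a']; linarith
  set η := min (1 / 4) ((a' - a) / 8)
  have hη : 0 < η := lt_min (by norm_num) (by linarith)
  set H : V2 → ℝ := {y | qe i S y < a'}.indicator fun y =>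
    max (-1) (min 1 (cC i E θ y / sin (π * mR R (qe i S y))))
  have hqm : Measurable fun y => mR R (qe i S y) :=
    measurable_const.mul ((measurable_const.sub continuous_qe.measurable).sqrt)
  have hHm : Measurable H := (measurable_const.max (measurable_const.min
    ((measurable_cC D.meas θ).div (measurable_sin.comp (hqm.const_mul π))))).indicator
      (measurableSet_lt continuous_qe.measurable measurable_const)
  have hHb : ∀ y, |H y| ≤ 1 := fun y => by
    simp only [H, indicator_apply]
    split_ifs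
    · exact abs_le.2 ⟨le_max_left _ _, max_le (by norm_num) (min_le_left _ _)⟩
    · simp
  have hHeq : ∀ᵐ y : V2, qe i S y < a' → H y = cC i E θ y / sin (π * mR R (qe i S y)) := by
    filter_upwards [D.ae_arc] with y hy hq
    simp only [H, indicator_of_mem (show y ∈ {y | qe i S y < a'} from hq)]
    have hqq := qy_eq_qe hR0 hR (hq.trans ha')
    obtain ⟨c, hc⟩ := hy (hqq ▸ hq.trans ha')
    obtain ⟨h0, h1⟩ := mR_mem hR0 hR (qy_nonneg y) (hqq ▸ hq.trans ha')
    rw [← hqq, D.cC_arc h0.le h1 hc]
    have hs : sin (π * mR R (qy i S y)) ≠ 0 :=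
      (sin_pos_of_pos_of_lt_pi (by positivity) (mul_lt_of_lt_one_right pi_pos h1)).ne'
    have hle : |sin (π * mR R (qy i S y)) / π * cos (2 * π * c + θ) / sin (π * mR R (qy i S y))| ≤ 1 := by
      rw [show sin (π * mR R (qy i S y)) / π * cos (2 * π * c + θ) / sin (π * mR R (qy i S y))
        = cos (2 * π * c + θ) / π by field_simp, abs_div, abs_of_pos pi_pos,
        div_le_one pi_pos]
      linarith [abs_cos_le_one (2 * π * c + θ), pi_gt_three]
    rw [min_eq_right (abs_le.1 hle).2, max_eq_right (abs_le.1 hle).1]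
  obtain ⟨κ, hκ⟩ := ae_eq_const_of_weak (convex_qe_lt (i := i) (S := S) a) hHm hHb hη
    (U' := {y | qe i S y < a'}) (fun x hx => closedBall_subset_qe
      ((min_le_left _ _).trans (by norm_num)) (by nlinarith)
      (by nlinarith [min_le_right (1 / 4 : ℝ) ((a' - a) / 8)]) hx)
    (fun y₀ ψ hψ hball hsupp l => by
      refine Eq.trans (integral_congr_ae ?_)
        (D.weak_ident ha' (lt_of_le_of_lt (min_le_left _ _) (by norm_num)) θ y₀ ψ hψ hball hsupp l)
      filter_upwards [hHeq] with y hy
      by_cases hq : qe i S y < a'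
      · rw [hy hq]; ring
      · rw [fderiv_of_notMem_tsupport (𝕜 := ℝ) (f := ψ) fun h => hq (hball (hsupp h))]; simp)
  refine ⟨κ, ?_⟩
  filter_upwards [hκ, hHeq] with y h1 h2 hq
  rw [← h2 (hq.trans haa), h1 hq]

/-- The fibres are translates of those of the centred shape by one common amount. -/
theorem exists_centre : ∃ c : ℝ, ∀ᵐ y : V2, qy i S y < R ^ 2 →
    fib i E y =ᵐ[volume] Rigid.arcAt c (mR R (qy i S y)) := by
  have hR0 := D.R_pos
  have hR := D.R_lt
  set a : ℕ → ℝ := fun k => R ^ 2 * (1 - 1 / ((k : ℝ) + 2))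
  have ha : ∀ k, a k < R ^ 2 := fun k => by
    have : 0 < 1 / ((k : ℝ) + 2) := by positivity
    simp only [a]
    exact mul_lt_of_lt_one_right (by positivity) (by linarith)
  choose κ hκ using fun k : ℕ => D.coef_const (ha k) 0
  choose μ hμ using fun k : ℕ => D.coef_const (ha k) (-(π / 2))
  have hgood : ∀ᵐ y : V2, qe i S y < R ^ 2 → ∃ c, fib i E y =ᵐ[volume]
      Rigid.arcAt c (mR R (qy i S y)) ∧ ∀ k, qe i S y < a k →
        cos (2 * π * c) = π * κ k ∧ sin (2 * π * c) = π * μ k := by
    filter_upwards [D.ae_arc, ae_all_iff.2 hκ, ae_all_iff.2 hμ] with y hy h1 h2 hq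
    have hqq := qy_eq_qe hR0 hR hq
    obtain ⟨c, hc⟩ := hy (hqq ▸ hq)
    obtain ⟨m0, m1⟩ := mR_mem hR0 hR (qy_nonneg y) (hqq ▸ hq)
    refine ⟨c, hc, fun k hk => ?_⟩
    have e1 := h1 k hk
    have e2 := h2 k hk
    rw [← hqq, D.cC_arc m0.le m1 hc] at e1 e2
    have hs : sin (π * mR R (qy i S y)) ≠ 0 :=
      (sin_pos_of_pos_of_lt_pi (by positivity) (mul_lt_of_lt_one_right pi_pos m1)).ne'
    rw [← e1, ← e2, add_zero, ← sub_eq_add_neg, cos_sub_pi_div_two]
    constructor <;> field_simp
  obtain ⟨y₁, hy₁, hg₁⟩ : ∃ y, qe i S y < a 0 ∧ (qe i S y < R ^ 2 → ∃ c,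
      fib i E y =ᵐ[volume] Rigid.arcAt c (mR R (qy i S y)) ∧ ∀ k, qe i S y < a k →
        cos (2 * π * c) = π * κ k ∧ sin (2 * π * c) = π * μ k) := by
    have hpos : volume {y : V2 | qe i S y < a 0} ≠ 0 :=
      ((isOpen_lt continuous_qe continuous_const).measure_pos volume
        ⟨0, by norm_num [qe, a]; positivity⟩).ne'
    exact ((frequently_ae_mem_iff.2 hpos).and_eventually hgood).exists
  obtain ⟨c₁, -, hc₁⟩ := hg₁ (hy₁.trans (ha 0))
  have hmono : ∀ k, a 0 ≤ a k := fun k => by
    simp only [a, Nat.cast_zero, zero_add]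
    refine mul_le_mul_of_nonneg_left ?_ (sq_nonneg R)
    have : 1 / ((k : ℝ) + 2) ≤ 1 / 2 :=
      one_div_le_one_div_of_le two_pos (by linarith [k.cast_nonneg (α := ℝ)])
    linarith
  have hall : ∀ᵐ y : V2, qe i S y < R ^ 2 →
      fib i E y =ᵐ[volume] Rigid.arcAt c₁ (mR R (qy i S y)) := by
    filter_upwards [hgood] with y hy hq
    obtain ⟨c, hc, hk⟩ := hy hq
    obtain ⟨k, hk'⟩ : ∃ k, qe i S y < a k := by
      have hlim : Tendsto a atTop (𝓝 (R ^ 2)) := by
        have h := (tendsto_const_nhds (x := (1 : ℝ)) (f := atTop (α := ℕ))).sub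
          (tendsto_const_nhds.div_atTop
            (tendsto_atTop_add_const_right _ (2 : ℝ) tendsto_natCast_atTop_atTop) (a := (1 : ℝ)))
        simpa [a] using h.const_mul (R ^ 2)
      exact (hlim.eventually_const_lt hq).exists
    obtain ⟨e1, e2⟩ := hk k hk'
    obtain ⟨f1, f2⟩ := hc₁ k (hy₁.trans_le (hmono k))
    obtain ⟨z, hz⟩ := Real.Angle.angle_eq_iff_two_pi_dvd_sub.1
      (Real.Angle.cos_sin_inj (e1.trans f1.symm) (e2.trans f2.symm))
    have hcz : c = c₁ + z := by nlinarith [pi_pos]
    refine hc.trans (Eventually.of_forall fun t => propext ?_)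
    show dd (t - c) < _ ↔ dd (t - c₁) < _
    rw [hcz, show t - (c₁ + (z : ℝ)) = t - c₁ + ((-z : ℤ) : ℝ) by push_cast; ring, dd_add_int]
  refine ⟨c₁, ?_⟩
  have hz : ∀ z : Fin 2 → ℤ, ∀ᵐ y : V2, qe i S (y + fun j => (z j : ℝ)) < R ^ 2 →
      fib i E (y + fun j => (z j : ℝ)) =ᵐ[volume]
        Rigid.arcAt c₁ (mR R (qy i S (y + fun j => (z j : ℝ)))) := fun z =>
    (measurePreserving_add_right (volume : Measure V2) _).quasiMeasurePreserving.ae hall
  filter_upwards [ae_all_iff.2 hz] with y hy hq
  have h := hy (fun j => -round (y j))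
  rw [qy_add_int, fib_shift D.per] at h
  refine h (lt_of_eq_of_lt (Finset.sum_congr rfl fun j _ => ?_) hq)
  by_cases hj : i.succAbove j ∈ S
  · simp only [hj, if_true, ← rep_sq, rep, Pi.add_apply, Int.cast_neg, ← sub_eq_add_neg]
  · simp [hj]

end Data

end

end Vale.P232.Lift
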