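import Vale.Agent.P232.SteinerLiftBase

/-!
P232: a function with vanishing weak gradient on a convex open set is constant.
-/

open MeasureTheory Set Filter Topology
open scoped Convolution

namespace Vale.P232

open Steiner

noncomputable section

theorem tendsto_const_of_fderiv_zero {U : Set V2} (hU : Convex ℝ U) {F : ℕ → V2 → ℝ}
    {H : V2 → ℝ} (hlim : ∀ᵐ x : V2, Tendsto (fun n => F n x) atTop (𝓝 (H x)))
    (hF : ∀ᶠ n in atTop, ∀ x ∈ U, HasFDerivAt (F n) (0 : V2 →L[ℝ] ℝ) x) :
    ∃ κ, ∀ᵐ x : V2, x ∈ U → H x = κ := by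
  by_cases hne : ∃ x ∈ U, Tendsto (fun n => F n x) atTop (𝓝 (H x))
  · obtain ⟨a, ha, hla⟩ := hne
    refine ⟨H a, ?_⟩
    filter_upwards [hlim] with x hx hxU
    refine tendsto_nhds_unique hx (hla.congr' ?_)
    filter_upwards [hF] with n hn
    have h := hU.norm_image_sub_le_of_norm_hasFDerivWithin_le (𝕜 := ℝ)
      (fun z hz => (hn z hz).hasFDerivWithinAt) (C := 0) (fun z _ => by simp) ha hxU
    rw [zero_mul, norm_le_zero_iff, sub_eq_zero] at h
    exact h.symm
  · refine ⟨0, ?_⟩
    filter_upwards [hlim] with x hx hxU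
    exact absurd ⟨x, hxU, hx⟩ hne

/-- A bounded function with vanishing weak gradient on an open convex set is constant there. -/
theorem ae_eq_const_of_weak {U U' : Set V2} (hU : Convex ℝ U) {H : V2 → ℝ} (hH : Measurable H)
    {C : ℝ} (hC : ∀ x, |H x| ≤ C) {η : ℝ} (hη : 0 < η)
    (hUU' : ∀ x ∈ U, Metric.closedBall x η ⊆ U')
    (hweak : ∀ (y₀ : V2) (ψ : V2 → ℝ), ContDiff ℝ 1 ψ → Metric.closedBall y₀ η ⊆ U' →
      tsupport ψ ⊆ Metric.closedBall y₀ η → ∀ l, ∫ z, H z * fderiv ℝ ψ z (Pi.single l 1) = 0) :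
    ∃ κ, ∀ᵐ x : V2, x ∈ U → H x = κ := by
  let φ : ℕ → ContDiffBump (0 : V2) := fun n =>
    { rIn := 1 / (2 * ((n : ℝ) + 1))
      rOut := 1 / ((n : ℝ) + 1)
      rIn_pos := by positivity
      rIn_lt_rOut := one_div_lt_one_div_of_lt (by positivity) (by linarith [n.cast_nonneg (α := ℝ)]) }
  set ρ : ℕ → V2 → ℝ := fun n => (φ n).normed volume with hρ
  have hHl : LocallyIntegrable H volume :=
    (locallyIntegrable_const C).mono hH.aestronglyMeasurable
      (Eventually.of_forall fun x => le_trans (hC x) (le_abs_self C))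
  set F : ℕ → V2 → ℝ := fun n => H ⋆[ContinuousLinearMap.mul ℝ ℝ, volume] ρ n with hF
  have hlim : ∀ᵐ x : V2, Tendsto (fun n => F n x) atTop (𝓝 (H x)) := by
    filter_upwards [ContDiffBump.ae_convolution_tendsto_right_of_locallyIntegrable (φ := φ)
      (K := 2) tendsto_one_div_add_atTop_nhds_zero_nat
      (Eventually.of_forall fun n => by simp only [φ]; field_simp; rfl) hHl] with x hx
    refine hx.congr fun n => ?_
    simp only [hF, convolution_eq_swap (f := H), convolution_def, ContinuousLinearMap.lsmul_apply,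
      ContinuousLinearMap.mul_apply', smul_eq_mul, hρ]
    exact integral_congr_ae (Eventually.of_forall fun t => mul_comm _ _)
  refine tendsto_const_of_fderiv_zero hU hlim ?_
  filter_upwards [tendsto_one_div_add_atTop_nhds_zero_nat.eventually (gt_mem_nhds hη)] with n hn x hx
  have hd : ContDiff ℝ 1 (ρ n) := (φ n).contDiff_normed
  have hc : HasCompactSupport (ρ n) := (φ n).hasCompactSupport_normed
  have hf := hc.hasFDerivAt_convolution_right (ContinuousLinearMap.mul ℝ ℝ) (μ := volume) hHl hd x
  refine hf.congr_fderiv ?_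
  have hv : ∀ l : Fin 2, (H ⋆[(ContinuousLinearMap.mul ℝ ℝ).precompR V2, volume]
      fderiv ℝ (ρ n)) x (Pi.single l 1) = 0 := fun l => by
    rw [convolution_precompR_apply _ hHl (hc.fderiv ℝ) (hd.continuous_fderiv (by norm_num)),
      convolution_def]
    simp only [ContinuousLinearMap.mul_apply']
    have hψ : ContDiff ℝ 1 fun z => ρ n (x - z) := hd.comp (contDiff_const.sub contDiff_id)
    have hsupp : tsupport (fun z => ρ n (x - z)) ⊆ Metric.closedBall x η := by
      refine closure_minimal (fun z hz => ?_) Metric.isClosed_closedBall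
      have h2 : x - z ∈ tsupport ((φ n).normed volume) := subset_tsupport _ hz
      rw [(φ n).tsupport_normed_eq, Metric.mem_closedBall, dist_zero_right] at h2
      rw [Metric.mem_closedBall, dist_comm, dist_eq_norm]
      exact h2.trans hn.le
    have hw := hweak x _ hψ (hUU' x hx) hsupp l
    have hder : ∀ z, fderiv ℝ (fun z => ρ n (x - z)) z (Pi.single l 1)
        = -(fderiv ℝ (ρ n) (x - z) (Pi.single l 1)) := fun z => by
      have h1 : HasFDerivAt (fun z => ρ n (x - z))
          ((fderiv ℝ (ρ n) (x - z)).comp (-ContinuousLinearMap.id ℝ V2)) z :=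
        (hd.differentiable (by norm_num) (x - z)).hasFDerivAt.comp z
          ((hasFDerivAt_id z).const_sub x)
      rw [h1.fderiv]
      simp
    simp only [hder, mul_neg, integral_neg, neg_eq_zero] at hw
    exact hw
  refine ContinuousLinearMap.ext fun v => ?_
  rw [zero_apply, show v = v 0 • (Pi.single 0 1 : V2) + v 1 • (Pi.single 1 1 : V2) from
    funext fun k => by fin_cases k <;> simp]
  simp [hv]

end

end Vale.P232
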