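import Vale.Agent.P232.SteinerLiftVar
import Vale.Agent.P232.SteinerLiftCal
import Vale.Agent.P232.SteinerLiftConst

/-!
P232: rigidity of Steiner symmetrisation at a centred ball, tube or slab.
-/

open MeasureTheory Real Set Filter Topology

namespace Vale.P232.Lift

open Rearr Steiner

noncomputable section

/-- Periodic squared distance of transverse coordinates. -/
def qy (i : Fin 3) (S : Finset (Fin 3)) (y : V2) : ℝ :=
  ∑ l, if i.succAbove l ∈ S then dd (y l) ^ 2 else 0

/-- The same without periodisation. -/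
def qe (i : Fin 3) (S : Finset (Fin 3)) (y : V2) : ℝ :=
  ∑ l, if i.succAbove l ∈ S then y l ^ 2 else 0

/-- Fibre length of the symmetric shape. -/
def mR (R q : ℝ) : ℝ := 2 * √(R ^ 2 - q)

/-- Fourier coefficient of the fibre. -/
def cC (i : Fin 3) (E : Set V3) (θ : ℝ) (y : V2) : ℝ :=
  ∫ t in I01, (fib i E y).indicator (fun t => cos (2 * π * t + θ)) t

/-- The weight completing a horizontal field. -/
def wA (A : V3 → V3) (x : V3) : ℝ := √(max 0 (1 - ∑ k, A x k ^ 2))

/-- The perturbed horizontal field. -/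
def aG (i : Fin 3) (S : Finset (Fin 3)) (R M ε θ : ℝ) (G : V3 → V3) (x : V3) : V3 :=
  fun k => calA S R M x k + ε * cos (2 * π * x i + θ) * G x k

/-- The hypotheses of the centred rigidity statement. -/
structure Data (i : Fin 3) (S : Finset (Fin 3)) (R : ℝ) (E : Set V3) : Prop where
  meas : MeasurableSet E
  per : IsPeriodic E
  notMem : i ∉ S
  R_pos : 0 < R
  R_lt : R < 1 / 2
  fibre : ∀ᵐ y : V2, (volume (fib i E y ∩ I01)).toReal =
    if qy i S y < R ^ 2 then mR R (qy i S y) else 0
  bound : PerBound E ((S.card + 1) * tvol E / R)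

/-- Admissible perturbations. -/
structure Pert (i : Fin 3) (S : Finset (Fin 3)) (R : ℝ) (G : V3 → V3) (r C : ℝ) : Prop where
  smooth : ContDiff ℝ 1 G
  per : IsPeriodicFun G
  axis : ∀ x, G x i = 0
  indep : ∀ (y : V2) (t : ℝ), G (i.insertNth t y) = G (i.insertNth 0 y)
  supp : ∀ x, G x ≠ 0 → qS S x ≤ r
  r_lt : r < R ^ 2
  C_nonneg : 0 ≤ C
  le : ∀ x, √(∑ k, G x k ^ 2) ≤ C

variable {i : Fin 3} {S : Finset (Fin 3)} {R : ℝ} {E : Set V3}

theorem qy_nonneg (y : V2) : 0 ≤ qy i S y :=
  Finset.sum_nonneg fun l _ => by split <;> positivity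

theorem continuous_qy : Continuous (qy i S) :=
  continuous_finsetSum _ fun l _ => by
    by_cases h : i.succAbove l ∈ S
    · simp only [h, if_true]; exact (continuous_dd.comp (continuous_apply l)).pow 2
    · simp only [h, if_false]; exact continuous_const

theorem qy_add_int (y : V2) (z : Fin 2 → ℤ) : qy i S (y + fun l => (z l : ℝ)) = qy i S y := by
  simp only [qy, Pi.add_apply, dd_add_int]

theorem qS_insertNth (hi : i ∉ S) (y : V2) (t : ℝ) : qS S (i.insertNth t y) = qy i S y := by
  have : qS S (i.insertNth t y) = ∑ k, if k ∈ S then dd ((i.insertNth t y : V3) k) ^ 2 else 0 := by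
    rw [Finset.sum_ite_mem, Finset.univ_inter]; rfl
  rw [this, Fin.sum_univ_succAbove _ i, if_neg hi, zero_add]
  simp [qy]

theorem mR_mem (hR0 : 0 < R) (hR : R < 1 / 2) {q : ℝ} (h0 : 0 ≤ q) (hq : q < R ^ 2) :
    0 < mR R q ∧ mR R q < 1 := by
  refine ⟨mul_pos two_pos (sqrt_pos.2 (by linarith)), ?_⟩
  have : √(R ^ 2 - q) ≤ R := (sqrt_le_left hR0.le).2 (by linarith)
  unfold mR; linarith

theorem insertNth_shift (y : V2) (z : Fin 2 → ℤ) (t : ℝ) :
    (i.insertNth t (y + fun l => (z l : ℝ)) : V3)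
      = i.insertNth t y + fun k => ((i.insertNth 0 z : Fin 3 → ℤ) k : ℝ) := by
  ext k
  rcases Fin.eq_self_or_eq_succAbove i k with rfl | ⟨j, rfl⟩ <;> simp

theorem fib_shift (hp : IsPeriodic E) (y : V2) (z : Fin 2 → ℤ) :
    fib i E (y + fun l => (z l : ℝ)) = fib i E y := by
  ext t
  simp only [fib, mem_ofPred_eq, insertNth_shift]
  exact hp _ _

theorem cC_shift (hp : IsPeriodic E) (θ : ℝ) (y : V2) (z : Fin 2 → ℤ) :
    cC i E θ (y + fun l => (z l : ℝ)) = cC i E θ y := by
  simp only [cC, fib_shift hp]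

theorem fib_indicator_eq (f : ℝ → ℝ) (y : V2) (t : ℝ) :
    (fib i E y).indicator f t = ind E (i.insertNth t y) * f t := by
  by_cases h : (i.insertNth t y : V3) ∈ E
  · rw [indicator_of_mem (show t ∈ fib i E y from h), ind, indicator_of_mem h, one_mul]
  · rw [indicator_of_notMem (show t ∉ fib i E y from h), ind, indicator_of_notMem h, zero_mul]

theorem measurable_cC (hE : MeasurableSet E) (θ : ℝ) : Measurable (cC i E θ) := by
  have hm : Measurable fun p : V2 × ℝ => ind E (i.insertNth p.2 p.1) * cos (2 * π * p.2 + θ) :=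
    ((measurable_ind hE).comp (measurable_insertNth i)).mul (by fun_prop)
  have : cC i E θ = fun y => ∫ t in I01, ind E (i.insertNth t y) * cos (2 * π * t + θ) := by
    funext y; simp only [cC, fib_indicator_eq]
  rw [this]
  exact hm.stronglyMeasurable.integral_prod_right'.measurable

theorem abs_cC_le (θ : ℝ) (y : V2) : |cC i E θ y| ≤ 1 := by
  have : IsFiniteMeasure ((volume : Measure ℝ).restrict I01) := ⟨by simp [I01]⟩
  rw [← Real.norm_eq_abs]
  refine (norm_integral_le_of_norm_le_const (C := 1) (Eventually.of_forall fun t => ?_)).trans ?_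
  · rw [fib_indicator_eq, norm_mul, Real.norm_eq_abs, Real.norm_eq_abs,
      abs_of_nonneg (ind_nonneg E _)]
    exact mul_le_one₀ (ind_le_one E _) (abs_nonneg _) (abs_cos_le_one _)
  · simp [I01, measureReal_def]

theorem integrableOn_cube2 {P : V2 → ℝ} (hm : Measurable P) {C : ℝ} (hb : ∀ y, |P y| ≤ C) :
    IntegrableOn P cube2 :=
  IntegrableOn.of_bound (by simp [cube2, volume_pi_pi]) hm.aestronglyMeasurable C
    (Eventually.of_forall hb)

theorem integral_cube2_eq {P : V2 → ℝ} (hm : Measurable P) {C : ℝ} (hb : ∀ y, |P y| ≤ C) :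
    ∫ x in cube, P (hat i x) = ∫ y in cube2, P y := by
  rw [integral_cube_axis i (F := fun x => P (hat i x)) (IntegrableOn.of_bound
    (by simp [cube, volume_pi_pi]) (hm.comp (contDiff_hat i).continuous.measurable).aestronglyMeasurable
    C (Eventually.of_forall fun x => hb _))]
  simp [hat_insertNth, I01]

theorem integral_cube2_translate {P : V2 → ℝ} (hm : Measurable P) {C : ℝ} (hb : ∀ y, |P y| ≤ C)
    (hp : ∀ (y : V2) (z : Fin 2 → ℤ), P (y + fun l => (z l : ℝ)) = P y) (h : V2) :
    ∫ y in cube2, P (y + h) = ∫ y in cube2, P y := by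
  rw [← integral_cube2_eq (i := 0) (P := fun y => P (y + h)) (hm.comp (measurable_add_const h))
      (fun y => hb _),
    ← integral_cube2_eq (i := 0) hm hb]
  have hF : IsPeriodicFun fun x : V3 => P (hat 0 x) := fun x k => by
    show P _ = P _
    rw [← hp (hat 0 x) fun l => k (Fin.succAbove 0 l)]
    rfl
  rw [← integral_periodic_translate hF ((0 : Fin 3).insertNth 0 h)]
  refine setIntegral_congr_fun measurableSet_cube fun x _ => ?_
  congr 1

theorem integral_unfold {P : V2 → ℝ} (hm : Measurable P) {C : ℝ} (hb : ∀ y, |P y| ≤ C)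
    (hp : ∀ (y : V2) (z : Fin 2 → ℤ), P (y + fun l => (z l : ℝ)) = P y) (y₀ : V2) {f : V2 → ℝ}
    (hf : ∀ y : V2, (∀ l, y l - y₀ l ∈ Ioo (-(1/2) : ℝ) (1/2)) → P y = f y)
    (hf0 : ∀ y : V2, ¬ (∀ l, y l - y₀ l ∈ Ioo (-(1/2) : ℝ) (1/2)) → f y = 0) :
    ∫ y in cube2, P y = ∫ y, f y := by
  set h : V2 := fun l => y₀ l - 1 / 2
  rw [← integral_cube2_translate hm hb hp h,
    ← integral_add_right_eq_self f h, ← integral_indicator measurableSet_cube2]
  refine integral_congr_ae ?_
  filter_upwards [ae_all_iff.2 fun l : Fin 2 =>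
    (Measure.quasiMeasurePreserving_eval (μ := fun _ : Fin 2 => (volume : Measure ℝ)) l).ae
      (volume.ae_ne 0)] with y hy
  by_cases hc : y ∈ cube2
  · rw [indicator_of_mem hc]
    refine hf _ fun l => ?_
    have := hc l (mem_univ l)
    have hne : y l ≠ 0 := hy l
    simp only [h, Pi.add_apply, mem_Ico, mem_Ioo] at this ⊢
    exact ⟨by linarith [lt_of_le_of_ne this.1 (Ne.symm hne)], by linarith [this.2]⟩
  · rw [indicator_of_notMem hc, hf0 _ fun hall => hc fun l _ => ?_]
    have := hall l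
    simp only [h, Pi.add_apply, mem_Ioo, mem_Ico] at this ⊢
    exact ⟨by linarith [this.1], by linarith [this.2]⟩

namespace Data

variable (D : Data i S R E)
include D

theorem tvol_eq : tvol E = ∫ y in cube2, if qy i S y < R ^ 2 then mR R (qy i S y) else 0 := by
  have h1 : ∀ᵐ y : V2 ∂volume.restrict cube2, volume (fib i E y ∩ I01) < ⊤ :=
    Eventually.of_forall fun y => lt_of_le_of_lt (measure_mono inter_subset_right) (by simp [I01])
  have hm : Measurable fun y => volume (fib i E y ∩ I01) := by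
    have := measurable_volume_fib i (D.meas.inter
      ((measurable_pi_apply i) (measurableSet_I01)) : MeasurableSet (E ∩ (fun x : V3 => x i) ⁻¹' I01))
    have hEq : (fun y => volume (fib i E y ∩ I01))
        = fun y => volume (fib i (E ∩ (fun x : V3 => x i) ⁻¹' I01) y) := by
      funext y; congr 1; ext t; simp [fib]
    rw [hEq]; exact this
  rw [tvol, volume_inter_cube i E D.meas, ← integral_toReal hm.aemeasurable h1]
  exact integral_congr_ae (ae_restrict_of_ae D.fibre)

theorem ae_qS_lt : ∀ᵐ x : V3, x ∈ E → qS S x < R ^ 2 := by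
  have := ae_of_ae_fib i (S := E ∩ {x | R ^ 2 ≤ qS S x})
    (D.meas.inter (measurableSet_le measurable_const (continuous_qS S).measurable)) ?_
  · filter_upwards [this] with x hx hxE
    exact not_le.1 fun h => hx ⟨hxE, h⟩
  filter_upwards [D.fibre] with y hy
  by_cases hq : qy i S y < R ^ 2
  · filter_upwards with t ht
    exact absurd hq (not_lt.2 (by simpa [qS_insertNth D.notMem] using ht.2))
  · rw [if_neg hq] at hy
    have h0 : volume (fib i E y ∩ I01) = 0 :=
      ((ENNReal.toReal_eq_zero_iff _).1 hy).resolve_right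
        (ne_top_of_le_ne_top (by simp [I01]) (measure_mono inter_subset_right))
    have : fib i E y =ᵐ[volume] (∅ : Set ℝ) := by
      refine Rigid.per1_ae_eq_of_window (per1_fib i D.per y) (fun a z => by simp) 0 ?_
      filter_upwards [measure_eq_zero_iff_ae_notMem.1 h0] with t ht hw
      simp only [mem_empty_iff_false, iff_false]
      exact fun hmem => ht ⟨hmem, hw.1.le, by linarith [hw.2]⟩
    filter_upwards [this] with t ht hmem
    exact (iff_of_eq ht).1 hmem.1

theorem integral_div_calA {M : ℝ} (hM : 1 < M) :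
    ∫ x in E ∩ cube, div3 (calA S R M) x = S.card * tvol E / R := by
  rw [setIntegral_congr_ae (g := fun _ => (S.card : ℝ) / R) (D.meas.inter measurableSet_cube) ?_]
  · rw [setIntegral_const, smul_eq_mul, measureReal_def, ← tvol]
    ring
  · filter_upwards [D.ae_qS_lt] with x hx hmem
    exact div3_calA D.R_pos D.R_lt hM (hx hmem.1)

variable {G : V3 → V3} {r C : ℝ}

theorem aG_sq_le (P : Pert i S R G r C) {M ε θ : ℝ} (hM : 1 < M)
    (hε : |ε| * C ≤ 1 - √r / R) (x : V3) : ∑ k, aG i S R M ε θ G x k ^ 2 ≤ M ^ 2 ∧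
      (G x ≠ 0 → ∑ k, aG i S R M ε θ G x k ^ 2 ≤ 1) := by
  by_cases hG : G x = 0
  · refine ⟨le_trans (le_of_eq ?_) (calA_sq_le (S := S) D.R_pos hM x), fun h => absurd hG h⟩
    simp [aG, hG]
  have hq := (P.supp x hG).trans_lt P.r_lt
  set a := fun k => calA S R M x k
  set g := fun k => ε * cos (2 * π * x i + θ) * G x k
  have ha : ∑ k, a k ^ 2 = qS S x / R ^ 2 := by
    simp only [a, calA_eq D.R_pos D.R_lt hM hq, qS, Finset.sum_div, ← rep_sq, ← div_pow]
    rw [← Finset.sum_subset (Finset.subset_univ S) fun k _ hk => by simp [hk]]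
    exact Finset.sum_congr rfl fun k hk => by simp [hk]
  have hsa : √(∑ k, a k ^ 2) ≤ √r / R := by
    rw [ha, sqrt_div' _ (sq_nonneg R), sqrt_sq D.R_pos.le]
    exact div_le_div_of_nonneg_right (sqrt_le_sqrt (P.supp x hG)) D.R_pos.le
  have hsg : √(∑ k, g k ^ 2) ≤ |ε| * C := by
    simp only [g, mul_pow, ← Finset.mul_sum]
    rw [sqrt_mul (by positivity), ← mul_pow, sqrt_sq_eq_abs, abs_mul]
    refine mul_le_mul ?_ (P.le x) (sqrt_nonneg _) (abs_nonneg _)
    exact mul_le_of_le_one_right (abs_nonneg _) (abs_cos_le_one _)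
  have hle : ∑ k, aG i S R M ε θ G x k ^ 2 ≤ 1 := by
    have hcs := sum_mul_le_sqrt_mul_sqrt Finset.univ a g
    have hexp : ∑ k, aG i S R M ε θ G x k ^ 2
        = ∑ k, a k ^ 2 + 2 * ∑ k, a k * g k + ∑ k, g k ^ 2 := by
      simp only [aG, a, g, Finset.mul_sum, ← Finset.sum_add_distrib]
      exact Finset.sum_congr rfl fun k _ => by ring
    have e1 := sq_sqrt (Finset.sum_nonneg (s := Finset.univ) fun k _ => sq_nonneg (a k))
    have e2 := sq_sqrt (Finset.sum_nonneg (s := Finset.univ) fun k _ => sq_nonneg (g k))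
    rw [hexp]
    calc _ ≤ (√(∑ k, a k ^ 2) + √(∑ k, g k ^ 2)) ^ 2 := by rw [add_sq, e1, e2]; linarith
      _ ≤ 1 ^ 2 := pow_le_pow_left₀ (add_nonneg (sqrt_nonneg _) (sqrt_nonneg _)) (by linarith) 2
      _ = 1 := one_pow 2
  exact ⟨hle.trans (one_le_pow₀ hM.le), fun _ => hle⟩

omit D in
theorem contDiff_aG (hR0 : 0 < R) (hR : R < 1 / 2) (P : Pert i S R G r C) (M ε θ : ℝ) :
    ContDiff ℝ 1 (aG i S R M ε θ G) :=
  contDiff_pi.2 fun k => (contDiff_pi.1 (contDiff_calA hR0 hR) k).add
    ((contDiff_const.mul (Real.contDiff_cos.comp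
      ((contDiff_const.mul (contDiff_apply ℝ ℝ i)).add contDiff_const))).mul
      (contDiff_pi.1 P.smooth k))

omit D in
theorem periodic_aG (P : Pert i S R G r C) (M ε θ : ℝ) : IsPeriodicFun (aG i S R M ε θ G) :=
  fun x z => by
    funext k
    simp only [aG, periodic_calA x z, P.per x z, Pi.add_apply]
    rw [show 2 * π * (x i + (z i : ℝ)) + θ = 2 * π * x i + θ + (z i : ℝ) * (2 * π) by ring,
      cos_add_int_mul_two_pi]

theorem div3_aG (P : Pert i S R G r C) (M ε θ : ℝ) (x : V3) :
    div3 (aG i S R M ε θ G) x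
      = div3 (calA S R M) x + ε * (cos (2 * π * x i + θ) * div3 G x) := by
  have hc : ∀ k, ContDiff ℝ 1 fun x => calA S R M x k := contDiff_pi.1 (contDiff_calA D.R_pos D.R_lt)
  have hg : ∀ k, ContDiff ℝ 1 fun x => G x k := contDiff_pi.1 P.smooth
  have hφ : ContDiff ℝ 1 fun x : V3 => ε * cos (2 * π * x i + θ) := by fun_prop
  have hline : ∀ k, k ≠ i → fderiv ℝ (fun x : V3 => ε * cos (2 * π * x i + θ)) x (e k) = 0 := by
    intro k hk
    have h : HasFDerivAt (fun x : V3 => ε * cos (2 * π * x i + θ))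
        ((ε * -sin (2 * π * x i + θ) * (2 * π)) •
          (ContinuousLinearMap.proj (R := ℝ) (φ := fun _ : Fin 3 => ℝ) i)) x := by
      have := ((((hasFDerivAt_apply (𝕜 := ℝ) i x).const_mul (2 * π)).add_const θ).cos).const_mul ε
      refine this.congr_fderiv (ContinuousLinearMap.ext fun v => ?_)
      simp
      ring
    rw [h.fderiv]
    simp [e, Ne.symm hk]
  unfold div3
  rw [Finset.mul_sum, Finset.mul_sum, ← Finset.sum_add_distrib]
  refine Finset.sum_congr rfl fun k _ => ?_
  rw [← fderiv_component (contDiff_aG D.R_pos D.R_lt P M ε θ) x k,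
    ← fderiv_component (contDiff_calA D.R_pos D.R_lt) x k, ← fderiv_component P.smooth x k]
  show fderiv ℝ (fun z => calA S R M z k + ε * cos (2 * π * z i + θ) * G z k) x (e k) = _
  rw [fderiv_fun_add ((hc k).differentiable (by norm_num) x)
      (((hφ.differentiable (by norm_num) x)).fun_mul ((hg k).differentiable (by norm_num) x)),
    fderiv_fun_mul (hφ.differentiable (by norm_num) x) ((hg k).differentiable (by norm_num) x)]
  rcases eq_or_ne k i with rfl | hk
  · simp [P.axis]
  · simp [hline k hk]; ring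

/-- The test inequality for all perturbations. -/
theorem master (P : Pert i S R G r C) {ε θ : ℝ} (hε : |ε| * C ≤ 1 - √r / R) :
    ∫⁻ y in cube2, {y | qy i S y < R ^ 2}.indicator (vlim i (wA (aG i S R 2 ε θ G)) E) y
      ≤ ENNReal.ofReal (tvol E / R -
          ε * ∫ x in E ∩ cube, cos (2 * π * x i + θ) * div3 G x) := by
  set T := ∫ x in E ∩ cube, cos (2 * π * x i + θ) * div3 G x
  set B := (S.card + 1 : ℝ) * tvol E / R
  refine ge_of_tendsto (f := fun M : ℝ => ENNReal.ofReal (tvol E / R + (M - 1) * B - ε * T))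
    (x := 𝓝[>] (1 : ℝ)) ?_ ?_
  · refine ENNReal.tendsto_ofReal ?_
    have : Continuous fun M : ℝ => tvol E / R + (M - 1) * B - ε * T := by fun_prop
    simpa using (this.tendsto 1).mono_left nhdsWithin_le_nhds
  filter_upwards [self_mem_nhdsWithin] with M (hM : 1 < M)
  have hA := contDiff_aG D.R_pos D.R_lt P M ε θ
  have hle : ∀ x, ∑ k, aG i S R M ε θ G x k ^ 2 + wA (aG i S R M ε θ G) x ^ 2 ≤ M ^ 2 := fun x => by
    rw [wA, sq_sqrt (le_max_left _ _)]
    have := (D.aG_sq_le P (θ := θ) hM hε x).1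
    have : 1 ≤ M ^ 2 := one_le_pow₀ hM.le
    rcases max_cases 0 (1 - ∑ k, aG i S R M ε θ G x k ^ 2) with h | h <;> linarith
  have hw : Continuous (wA (aG i S R M ε θ G)) :=
    (continuous_const.max (continuous_const.sub (continuous_finsetSum _ fun k _ =>
      ((continuous_apply k).comp hA.continuous).pow 2))).sqrt
  have h := lintegral_vlim_le D.meas D.per D.bound hA (periodic_aG P M ε θ)
    (fun x => by
      show calA S R M x i + ε * cos (2 * π * x i + θ) * G x i = 0
      rw [calA_apply_of_notMem D.notMem, P.axis, mul_zero, add_zero]) hw (fun x => sqrt_nonneg _)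
    (by linarith : (0 : ℝ) ≤ M) hle
  refine le_trans (le_trans (lintegral_mono fun y => ?_) h) (le_of_eq (congrArg _ ?_))
  · by_cases hy : qy i S y < R ^ 2
    · rw [indicator_of_mem (show y ∈ {y | qy i S y < R ^ 2} from hy)]
      refine le_of_eq ?_
      have : wsec i (wA (aG i S R 2 ε θ G)) y = wsec i (wA (aG i S R M ε θ G)) y := by
        funext t
        have hq : qS S (i.insertNth t y) < R ^ 2 := by rwa [qS_insertNth D.notMem]
        simp only [wsec, wA, aG, calA_eq D.R_pos D.R_lt one_lt_two hq,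
          calA_eq D.R_pos D.R_lt hM hq]
      simp only [vlim, this]
    · rw [indicator_of_notMem (show y ∉ {y | qy i S y < R ^ 2} from hy)]
      exact zero_le
  · simp only [D.div3_aG P]
    have hc : ∀ {F : V3 → ℝ}, Continuous F → IntegrableOn F (E ∩ cube) := fun hF =>
      (Continuous.integrableOn_cube hF).mono_set inter_subset_right
    rw [integral_add (hc (continuous_divergence (contDiff_calA D.R_pos D.R_lt)))
      ((hc (by have := continuous_divergence P.smooth; fun_prop)).const_mul ε),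
      integral_const_mul, D.integral_div_calA hM]
    ring

end Data

end

end Vale.P232.Lift
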