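import Vale.Agent.P232.SteinerLiftBase
import Vale.Agent.P232.FibreTV

/-!
P232: the horizontal-vertical test inequality: a horizontal field `A` and a weight `β` with
`|A|² + β² ≤ M²` bound the weighted vertical variation of the mollified indicators by
`M · perimeter - ∫_E div A`.
-/

open MeasureTheory Set Filter Topology

namespace Vale.P232

noncomputable section

/-- The vertical section of a mollified indicator. -/
def gsec (i : Fin 3) (E : Set V3) (n : ℕ) (y : Steiner.V2) (t : ℝ) : ℝ :=
  mol n E (i.insertNth t y)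

/-- A weight restricted to a vertical line. -/
def wsec (i : Fin 3) (β : V3 → ℝ) (y : Steiner.V2) (t : ℝ) : ℝ := β (i.insertNth t y)

variable {i : Fin 3} {E : Set V3}

theorem contDiff_gsec (hE : MeasurableSet E) (n : ℕ) (y : Steiner.V2) :
    ContDiff ℝ 1 (gsec i E n y) :=
  ((contDiff_mol hE n (k := 1)).of_le le_rfl).comp (contDiff_insertNth i y)

theorem periodic_gsec (hp : IsPeriodic E) (n : ℕ) (y : Steiner.V2) :
    Function.Periodic (gsec i E n y) 1 := fun t => by
  simp only [gsec, insertNth_add_one, periodic_mol hp n _ _]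

theorem deriv_gsec (hE : MeasurableSet E) (n : ℕ) (y : Steiner.V2) (t : ℝ) :
    deriv (gsec i E n y) t = fderiv ℝ (mol n E) (i.insertNth t y) (e i) :=
  (((contDiff_mol hE n (k := 1)).differentiable (by norm_num) _).hasFDerivAt.comp_hasDerivAt t
    (hasDerivAt_insertNth i y t)).deriv

theorem ae_tendsto_gsec (hE : MeasurableSet E) :
    ∀ᵐ y : Steiner.V2, ∀ᵐ t : ℝ, Tendsto (fun n => gsec i E n y t) atTop
      (𝓝 ((Steiner.fib i E y).indicator 1 t)) := by
  filter_upwards [ae_ae_fib i (tendsto_mol hE)] with y hy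
  filter_upwards [hy] with t ht
  exact ht

/-- Pointwise Cauchy-Schwarz for a horizontal field and a vertical weight. -/
theorem dot_add_le {A d : V3} {b M : ℝ} (hA : A i = 0) (hM : 0 ≤ M)
    (h : ∑ k, A k ^ 2 + b ^ 2 ≤ M ^ 2) :
    -(∑ k, A k * d k) + b * |d i| ≤ M * √(∑ k, d k ^ 2) := by
  obtain ⟨σ, hσ, hd⟩ : ∃ σ : ℝ, σ ^ 2 = 1 ∧ |d i| = σ * d i := by
    rcases abs_choice (d i) with h | h
    · exact ⟨1, one_pow 2, by rw [h, one_mul]⟩
    · exact ⟨-1, by norm_num, by rw [h, neg_one_mul]⟩
  set u : V3 := fun k => -A k + if k = i then b * σ else 0 with hu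
  have hsum : ∑ k, u k * d k = -(∑ k, A k * d k) + b * |d i| := by
    rw [hd]
    simp only [hu, add_mul, neg_mul, ite_mul, zero_mul, Finset.sum_add_distrib,
      Finset.sum_neg_distrib, Finset.sum_ite_eq', Finset.mem_univ, if_true]
    ring
  have hu2 : ∑ k, u k ^ 2 = ∑ k, A k ^ 2 + b ^ 2 := by
    have : ∀ k, u k ^ 2 = A k ^ 2 + if k = i then b ^ 2 else 0 := fun k => by
      by_cases hk : k = i
      · subst hk; simp [hu, hA, mul_pow, hσ]
      · simp [hu, hk]
    simp only [this, Finset.sum_add_distrib, Finset.sum_ite_eq', Finset.mem_univ, if_true]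
  rw [← hsum]
  calc ∑ k, u k * d k ≤ √(∑ k, u k ^ 2) * √(∑ k, d k ^ 2) :=
        Real.sum_mul_le_sqrt_mul_sqrt _ _ _
    _ ≤ M * √(∑ k, d k ^ 2) := mul_le_mul_of_nonneg_right
        ((Real.sqrt_le_left hM).2 (hu2 ▸ h)) (Real.sqrt_nonneg _)

/-- The measurable weighted variation of the fibres, as a lower limit. -/
def vlim (i : Fin 3) (β : V3 → ℝ) (E : Set V3) (y : Steiner.V2) : ENNReal :=
  liminf (fun n => ENNReal.ofReal (Rigid.wvar (wsec i β y) (gsec i E n y))) atTop

theorem wvar_eq_setIntegral (β : V3 → ℝ) (hE : MeasurableSet E) (n : ℕ) (y : Steiner.V2) :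
    Rigid.wvar (wsec i β y) (gsec i E n y)
      = ∫ t in Rearr.I01, β (i.insertNth t y) * |fderiv ℝ (mol n E) (i.insertNth t y) (e i)| := by
  rw [Rigid.wvar, intervalIntegral.integral_of_le zero_le_one, Rearr.I01,
    integral_Ico_eq_integral_Ioo, integral_Ioc_eq_integral_Ioo]
  simp only [wsec, deriv_gsec hE]

theorem continuous_weightVar {β : V3 → ℝ} (hβ : Continuous β) (hE : MeasurableSet E) (n : ℕ) :
    Continuous fun x => β x * |fderiv ℝ (mol n E) x (e i)| :=
  hβ.mul (((contDiff_mol hE n (k := 1)).continuous_fderiv (by norm_num)).clm_apply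
    continuous_const).abs

theorem measurable_wvar {β : V3 → ℝ} (hβ : Continuous β) (hE : MeasurableSet E) (n : ℕ) :
    Measurable fun y => Rigid.wvar (wsec i β y) (gsec i E n y) := by
  simp only [wvar_eq_setIntegral β hE]
  exact ((continuous_weightVar hβ hE n).comp (continuous_insertNth i)).stronglyMeasurable.integral_prod_right'.measurable

theorem measurable_vlim {β : V3 → ℝ} (hβ : Continuous β) (hE : MeasurableSet E) :
    Measurable (vlim i β E) :=
  Measurable.liminf fun n => (measurable_wvar hβ hE n).ennreal_ofReal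

theorem fderiv_component {A : V3 → V3} (hA : ContDiff ℝ 1 A) (x : V3) (k : Fin 3) {v : V3} :
    fderiv ℝ (fun x => A x k) x v = fderiv ℝ A x v k := by
  rw [(hasFDerivAt_pi'.1 (hA.differentiable (by norm_num) x).hasFDerivAt k).fderiv]
  rfl

theorem cube_subset_Icc' : cube ⊆ Icc (0 : V3) 1 := fun _ hx =>
  ⟨fun c => (hx c (mem_univ c)).1, fun c => (hx c (mem_univ c)).2.le⟩

theorem exists_bound_weightVar (hE : MeasurableSet E) (n : ℕ) {β : V3 → ℝ}
    (hβ : Continuous β) :
    ∃ C, ∀ a : V3, a ∈ Icc (0 : V3) 1 → ‖β a * |fderiv ℝ (mol n E) a (e i)|‖ ≤ C :=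
  isCompact_Icc.exists_bound_of_continuousOn (continuous_weightVar hβ hE n).continuousOn

/-- The test inequality. -/
theorem lintegral_vlim_le (hE : MeasurableSet E) (hp : IsPeriodic E) {B : ℝ}
    (hB : PerBound E B) {A : V3 → V3} (hA : ContDiff ℝ 1 A) (hAp : IsPeriodicFun A)
    (hAi : ∀ x, A x i = 0) {β : V3 → ℝ} (hβ : Continuous β) (hβ0 : ∀ x, 0 ≤ β x)
    {M : ℝ} (hM : 0 ≤ M) (hAM : ∀ x, ∑ k, A x k ^ 2 + β x ^ 2 ≤ M ^ 2) :
    ∫⁻ y in Steiner.cube2, vlim i β E y
      ≤ ENNReal.ofReal (M * B - ∫ x in E ∩ cube, div3 A x) := by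
  have hAk : ∀ k, ContDiff ℝ 1 fun x => A x k := fun k => contDiff_pi.1 hA k
  have hd : ∀ n k, Continuous fun x => fderiv ℝ (mol n E) x (e k) := fun n k =>
    ((contDiff_mol hE n (k := 1)).continuous_fderiv (by norm_num)).clm_apply continuous_const
  have hbound : ∀ n, (∫ x in cube, β x * |fderiv ℝ (mol n E) x (e i)|)
      ≤ M * B - ∫ x in cube, mol n E x * div3 A x := by
    intro n
    have hf := contDiff_mol hE n (k := 1)
    have hdot : Continuous fun x => ∑ k, A x k * fderiv ℝ (mol n E) x (e k) :=
      continuous_finsetSum _ fun k _ => (hAk k).continuous.mul (hd n k)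
    have hzero : ∫ x in cube, (∑ k, A x k * fderiv ℝ (mol n E) x (e k) + mol n E x * div3 A x)
        = 0 := by
      have hk : ∀ k, ∫ x in cube,
          fderiv ℝ (fun x => A x k * mol n E x) x (e k) = 0 := fun k => by
        refine integral_fderiv_eq_zero ((hAk k).mul hf) (fun x z => ?_) (e k) fun x => ?_
        · simp only [hAp x z, periodic_mol hp n x z]
        · have he : e k = fun j => ((Pi.single k (1 : ℤ) : Fin 3 → ℤ) j : ℝ) := by
            funext j
            rcases eq_or_ne j k with rfl | h <;> simp [e, *]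
          rw [he]
          simp only [hAp x _, periodic_mol hp n x _]
      have hpt : ∀ x, ∑ k, A x k * fderiv ℝ (mol n E) x (e k) + mol n E x * div3 A x
          = ∑ k, fderiv ℝ (fun x => A x k * mol n E x) x (e k) := fun x => by
        simp only [div3, Finset.mul_sum, ← Finset.sum_add_distrib]
        refine Finset.sum_congr rfl fun k _ => ?_
        have hcoord : fderiv ℝ A x (e k) k = fderiv ℝ (fun x => A x k) x (e k) :=
          (fderiv_component hA x k).symm
        rw [fderiv_fun_mul ((hAk k).differentiable (by norm_num) x)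
          (hf.differentiable (by norm_num) x), hcoord]
        simp
      simp only [hpt]
      rw [integral_finsetSum _ fun k _ => Continuous.integrableOn_cube
        ((((hAk k).mul hf).continuous_fderiv (by norm_num)).clm_apply continuous_const)]
      exact Finset.sum_eq_zero fun k _ => hk k
    have hc2 : Continuous fun x => mol n E x * div3 A x :=
      hf.continuous.mul (continuous_divergence hA)
    rw [integral_add (Continuous.integrableOn_cube hdot) (Continuous.integrableOn_cube hc2)]
      at hzero
    have hgl : Continuous (gradLen (mol n E)) := continuous_gradLen hf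
    have hmono : ∫ x in cube, (-(∑ k, A x k * fderiv ℝ (mol n E) x (e k))
          + β x * |fderiv ℝ (mol n E) x (e i)|) ≤ ∫ x in cube, M * gradLen (mol n E) x :=
      setIntegral_mono (Continuous.integrableOn_cube (hdot.neg.add (continuous_weightVar hβ hE n)))
        (Continuous.integrableOn_cube (continuous_const.mul hgl))
        fun x => dot_add_le (hAi x) hM (hAM x)
    rw [integral_add (Continuous.integrableOn_cube hdot.fun_neg)
      (Continuous.integrableOn_cube (continuous_weightVar hβ hE n)), integral_neg,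
      integral_const_mul] at hmono
    have := mul_le_mul_of_nonneg_left (integral_gradLen_mol_le hE hp hB n) hM
    linarith
  have hlim : Tendsto (fun n => ∫ x in cube, mol n E x * div3 A x) atTop
      (𝓝 (∫ x in E ∩ cube, div3 A x)) := by
    rw [setIntegral_inter_cube hE]
    obtain ⟨C, hC0, hC⟩ := (periodic_div3 hAp).exists_bound (continuous_divergence hA)
    refine tendsto_integral_of_dominated_convergence (fun _ => C)
      (fun n => ((contDiff_mol hE n (k := 0)).continuous.mul
        (continuous_divergence hA)).aestronglyMeasurable) (integrable_const C)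
      (fun n => Eventually.of_forall fun x => ?_) ?_
    · rw [norm_mul, Real.norm_eq_abs, abs_of_nonneg (mol_nonneg n E x)]
      exact (mul_le_of_le_one_left (norm_nonneg _) (mol_le_one hE n x)).trans (hC x)
    · filter_upwards [ae_restrict_of_ae (tendsto_mol hE)] with x hx
      exact hx.mul_const _
  have heq : ∀ n, ∫⁻ y in Steiner.cube2,
      ENNReal.ofReal (Rigid.wvar (wsec i β y) (gsec i E n y))
      = ENNReal.ofReal (∫ x in cube, β x * |fderiv ℝ (mol n E) x (e i)|) := fun n => by
    have hc := continuous_weightVar (i := i) hβ hE n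
    rw [integral_cube_axis i (Continuous.integrableOn_cube hc)]
    simp only [wvar_eq_setIntegral β hE]
    obtain ⟨C, hC⟩ := exists_bound_weightVar (i := i) hE n hβ
    refine (ofReal_integral_eq_lintegral_ofReal ?_ ?_).symm
    · have : IsFiniteMeasure ((volume : Measure Steiner.V2).restrict Steiner.cube2) :=
        ⟨by simp [Steiner.cube2, volume_pi_pi]⟩
      have : IsFiniteMeasure ((volume : Measure ℝ).restrict Rearr.I01) :=
        ⟨by simp [Rearr.I01]⟩
      exact Integrable.of_bound ((hc.comp (continuous_insertNth i)).stronglyMeasurable.integral_prod_right').aestronglyMeasurable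
        (C * (volume.restrict Rearr.I01).real univ) ((ae_restrict_mem Steiner.measurableSet_cube2).mono fun y hy =>
          norm_integral_le_of_norm_le_const ((ae_restrict_mem measurableSet_Ico).mono
            fun t ht => hC _ (cube_subset_Icc' ((Steiner.insertNth_mem_cube i t y).2 ⟨ht, hy⟩))))
    · exact Eventually.of_forall fun y => integral_nonneg fun t =>
        mul_nonneg (hβ0 _) (abs_nonneg _)
  calc ∫⁻ y in Steiner.cube2, vlim i β E y
      ≤ liminf (fun n => ∫⁻ y in Steiner.cube2,
          ENNReal.ofReal (Rigid.wvar (wsec i β y) (gsec i E n y))) atTop :=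
        lintegral_liminf_le fun n => (measurable_wvar hβ hE n).ennreal_ofReal
    _ ≤ liminf (fun n => ENNReal.ofReal (M * B - ∫ x in cube, mol n E x * div3 A x)) atTop :=
        liminf_le_liminf (Eventually.of_forall fun n => by
          rw [heq n]; exact ENNReal.ofReal_le_ofReal (hbound n))
    _ = ENNReal.ofReal (M * B - ∫ x in E ∩ cube, div3 A x) :=
        (ENNReal.tendsto_ofReal (tendsto_const_nhds.sub hlim)).liminf_eq

end

end Vale.P232
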